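import Crest.Agent.R162.Koebe

/-!
Half-plane forms: Koebe (K1), Schwarz–Pick and Harnack for maps of a disc into the upper
half-plane (K2), the comparison of `Im g / |g'|` with the distance to the boundary, and weak
distortion.
-/

open Set Filter Metric Function Complex
open scoped Topology ComplexConjugate

namespace Crest.Agent.R162

theorem isOpen_Hs : IsOpen {z : ℂ | 0 < z.im} := isOpen_lt continuous_const continuous_im

theorem ball_im_subset {z : ℂ} : ball z z.im ⊆ {u : ℂ | 0 < u.im} := by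
  intro u hu
  have h1 : ‖u - z‖ < z.im := by simpa [dist_eq_norm] using hu
  have h2 : |(u - z).im| ≤ ‖u - z‖ := abs_im_le_norm _
  have h3 := (abs_le.1 h2).1
  simp only [sub_im] at h3
  show 0 < u.im
  linarith

/-- (K1) Koebe in the half-plane. -/
theorem koebe_H {f : ℂ → ℂ} (hf : DifferentiableOn ℂ f {z : ℂ | 0 < z.im})
    (hinj : InjOn f {z : ℂ | 0 < z.im}) {z : ℂ} (hz : 0 < z.im) :
    ball (f z) (z.im * ‖deriv f z‖ / 400) ⊆ f '' {z : ℂ | 0 < z.im} :=
  (koebe_ball hz (hf.mono ball_im_subset) (hinj.mono ball_im_subset)).trans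
    (image_mono ball_im_subset)

/-- (K1) with the sharper conclusion: the preimage lies in the disc `ball z z.im`. -/
theorem koebe_H' {f : ℂ → ℂ} (hf : DifferentiableOn ℂ f {z : ℂ | 0 < z.im})
    (hinj : InjOn f {z : ℂ | 0 < z.im}) {z : ℂ} (hz : 0 < z.im) {t : ℝ} (ht : 0 < t) (ht1 : t ≤ 1) :
    ball (f z) (t * z.im * ‖deriv f z‖ / 400) ⊆ f '' ball z (t * z.im) := by
  have hs : ball z (t * z.im) ⊆ {u : ℂ | 0 < u.im} :=
    (ball_subset_ball (by nlinarith)).trans ball_im_subset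
  exact koebe_ball (by positivity) (hf.mono hs) (hinj.mono hs)

theorem sub_conj_ne {u v : ℂ} (hu : 0 < u.im) (hv : 0 < v.im) : u - conj v ≠ 0 := by
  intro h
  have := congrArg Complex.im h
  simp at this
  linarith

theorem normSq_sub_conj (u v : ℂ) : ‖u - conj v‖ ^ 2 = ‖u - v‖ ^ 2 + 4 * u.im * v.im := by
  rw [← normSq_eq_norm_sq, ← normSq_eq_norm_sq, normSq_apply, normSq_apply]
  simp
  ring

theorem norm_sub_le_conj {u v : ℂ} (hu : 0 < u.im) (hv : 0 < v.im) : ‖u - v‖ ≤ ‖u - conj v‖ := by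
  have h := normSq_sub_conj u v
  have h2 : 0 < u.im * v.im := mul_pos hu hv
  nlinarith [norm_nonneg (u - v), norm_nonneg (u - conj v)]

section Pick

variable {g : ℂ → ℂ} {w : ℂ} {r : ℝ}

theorem cayley_diff (hr : 0 < r) (hg : DifferentiableOn ℂ g (ball w r))
    (hH : ∀ z ∈ ball w r, 0 < (g z).im) :
    DifferentiableOn ℂ (fun z => (g z - g w) / (g z - conj (g w))) (ball w r) :=
  (hg.sub_const _).div (hg.sub_const _) fun z hz =>
    sub_conj_ne (hH z hz) (hH w (mem_ball_self hr))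

theorem cayley_maps (hr : 0 < r) (hH : ∀ z ∈ ball w r, 0 < (g z).im) :
    MapsTo (fun z => (g z - g w) / (g z - conj (g w))) (ball w r)
      (closedBall ((fun z => (g z - g w) / (g z - conj (g w))) w) 1) := by
  intro z hz
  have hw := hH w (mem_ball_self hr)
  have hne := norm_pos_iff.2 (sub_conj_ne (hH z hz) hw)
  simp only [sub_self, zero_div, mem_closedBall, dist_zero_right, norm_div]
  rw [div_le_one hne]
  exact norm_sub_le_conj (hH z hz) hw

/-- Schwarz–Pick: pseudo-hyperbolic contraction. -/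
theorem pick_dist (hg : DifferentiableOn ℂ g (ball w r))
    (hH : ∀ z ∈ ball w r, 0 < (g z).im) {z : ℂ} (hz : z ∈ ball w r) :
    ‖g z - g w‖ ≤ ‖z - w‖ / r * ‖g z - conj (g w)‖ := by
  have hr : 0 < r := nonempty_ball.1 ⟨z, hz⟩
  have h := dist_le_div_mul_dist_of_mapsTo_ball (cayley_diff hr hg hH) (cayley_maps hr hH) hz
  have hne := norm_pos_iff.2 (sub_conj_ne (hH z hz) (hH w (mem_ball_self hr)))
  simp only [sub_self, zero_div, dist_zero_right, norm_div, dist_eq_norm, sub_zero] at h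
  rw [div_le_iff₀ hne] at h
  calc _ ≤ _ := h
    _ = _ := by ring

/-- (K2a) Schwarz–Pick: derivative bound. -/
theorem pick_deriv (hr : 0 < r) (hg : DifferentiableOn ℂ g (ball w r))
    (hH : ∀ z ∈ ball w r, 0 < (g z).im) : ‖deriv g w‖ * r ≤ 2 * (g w).im := by
  have h := norm_deriv_le_div_of_mapsTo_ball (cayley_diff hr hg hH) (cayley_maps hr hH) hr
  have hw := hH w (mem_ball_self hr)
  have h1 : HasDerivAt g (deriv g w) w :=
    (hg.differentiableAt (isOpen_ball.mem_nhds (mem_ball_self hr))).hasDerivAt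
  have hne := sub_conj_ne hw hw
  have h2 := (h1.sub_const (g w)).fun_div (h1.sub_const (conj (g w))) hne
  rw [h2.deriv] at h
  have h3 : (deriv g w * (g w - conj (g w)) - (g w - g w) * deriv g w) / (g w - conj (g w)) ^ 2 =
      deriv g w / (g w - conj (g w)) := by
    field_simp
    ring
  have h4 : ‖g w - conj (g w)‖ = 2 * (g w).im := by
    rw [sub_conj]
    simp [abs_of_pos hw]
  rw [h3, norm_div, h4, div_le_div_iff₀ (by positivity) hr] at h
  linarith

/-- (K2b) Harnack-type bounds with a general ratio `t < 1`. -/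
theorem pick_harnack (hg : DifferentiableOn ℂ g (ball w r))
    (hH : ∀ z ∈ ball w r, 0 < (g z).im) {t : ℝ} (ht : t < 1) {z : ℂ} (hr : 0 < r)
    (hz : ‖z - w‖ ≤ t * r) :
    (1 - t) * ‖g z - g w‖ ≤ 2 * t * (g w).im ∧ (1 - t) * (g w).im ≤ (1 + t) * (g z).im ∧
      (1 - t) * (g z).im ≤ (1 + t) * (g w).im := by
  have ht0 : 0 ≤ t := by
    have := (norm_nonneg _).trans hz
    by_contra h
    push Not at h
    nlinarith
  have hz' : z ∈ ball w r := by
    rw [mem_ball, dist_eq_norm]; nlinarith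
  have h := pick_dist hg hH hz'
  have hw := hH w (mem_ball_self hr)
  have hu := hH z hz'
  have h1 : ‖g z - g w‖ ≤ t * ‖g z - conj (g w)‖ := by
    refine h.trans (mul_le_mul_of_nonneg_right ?_ (norm_nonneg _))
    rwa [div_le_iff₀ hr]
  have h4 : ‖g w - conj (g w)‖ = 2 * (g w).im := by
    rw [sub_conj]
    simp [abs_of_pos hw]
  have h2 : ‖g z - conj (g w)‖ ≤ ‖g z - g w‖ + 2 * (g w).im := by
    rw [← h4]
    calc ‖g z - conj (g w)‖ = ‖(g z - g w) + (g w - conj (g w))‖ := by ring_nf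
      _ ≤ _ := norm_add_le _ _
  have h5 := normSq_sub_conj (g z) (g w)
  have h6 : |(g z - g w).im| ≤ ‖g z - g w‖ := abs_im_le_norm _
  rw [sub_im] at h6
  set a := (g z).im
  set b := (g w).im
  set D := ‖g z - g w‖
  set E := ‖g z - conj (g w)‖
  have hD : 0 ≤ D := norm_nonneg _
  have hE : 0 ≤ E := norm_nonneg _
  have h7 : D ^ 2 ≤ t ^ 2 * E ^ 2 := by
    rw [← mul_pow]; exact pow_le_pow_left₀ hD h1 2
  have h8 : (a - b) ^ 2 ≤ D ^ 2 := by
    rw [← sq_abs (a - b)]; exact pow_le_pow_left₀ (abs_nonneg _) h6 2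
  have ht2 : t ^ 2 ≤ 1 := by nlinarith
  have h9 : (a - b) ^ 2 ≤ (t * (a + b)) ^ 2 := by
    have : (1 - t ^ 2) * (a - b) ^ 2 ≤ (1 - t ^ 2) * D ^ 2 :=
      mul_le_mul_of_nonneg_left h8 (by linarith)
    nlinarith
  have h10 : |a - b| ≤ t * (a + b) := abs_le_of_sq_le_sq' h9 (by positivity) |> abs_le.2
  have h11 := abs_le.1 h10
  refine ⟨by nlinarith, by nlinarith [h11.1], by nlinarith [h11.2]⟩

/-- (K2b) Harnack bounds on the half-radius disc. -/
theorem pick_half (hr : 0 < r) (hg : DifferentiableOn ℂ g (ball w r))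
    (hH : ∀ z ∈ ball w r, 0 < (g z).im) {z : ℂ} (hz : ‖z - w‖ ≤ r / 2) :
    (g w).im / 3 ≤ (g z).im ∧ (g z).im ≤ 3 * (g w).im ∧ ‖g z - g w‖ ≤ 2 * (g w).im := by
  obtain ⟨h1, h2, h3⟩ := pick_harnack hg hH (t := 1 / 2) (by norm_num) hr (z := z) (by linarith)
  refine ⟨by linarith, by linarith, by linarith⟩

end Pick

section Conf

variable {g : ℂ → ℂ} {U : Set ℂ}

/-- Upper comparison: a disc inside `U` has radius at most `2 Im g / |g'|`. -/
theorem radius_le_ups (hg : DifferentiableOn ℂ g U) (him : g '' U ⊆ {z : ℂ | 0 < z.im})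
    {w : ℂ} {r : ℝ} (hr : 0 < r) (hsub : ball w r ⊆ U) : ‖deriv g w‖ * r ≤ 2 * (g w).im :=
  pick_deriv hr (hg.mono hsub) fun z hz => him ⟨z, hsub hz, rfl⟩

theorem invFunOn_diff (hU : IsOpen U) (hg : DifferentiableOn ℂ g U) (hinj : InjOn g U) :
    DifferentiableOn ℂ (invFunOn g U) (g '' U) := by
  rintro _ ⟨a, ha, rfl⟩
  exact (Lib.RMT.hasStrictDerivAt_invFunOn hU hg hinj ha).hasDerivAt.differentiableAt.differentiableWithinAt

theorem invFunOn_inj : InjOn (invFunOn g U) (g '' U) := invFunOn_injOn_image g U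

theorem deriv_invFunOn (hU : IsOpen U) (hg : DifferentiableOn ℂ g U) (hinj : InjOn g U) {w : ℂ}
    (hw : w ∈ U) : deriv (invFunOn g U) (g w) = (deriv g w)⁻¹ :=
  (Lib.RMT.hasStrictDerivAt_invFunOn hU hg hinj hw).hasDerivAt.deriv

/-- Lower comparison, local form: the disc of radius `t Υ / 400` about `w` lies in `U` and is
mapped into the disc of radius `t Im g(w)` about `g(w)`. -/
theorem ball_ups_subset' (hU : IsOpen U) (hg : DifferentiableOn ℂ g U) (hinj : InjOn g U)
    (him : g '' U = {z : ℂ | 0 < z.im}) {w : ℂ} (hw : w ∈ U) {t : ℝ} (ht : 0 < t) (ht1 : t ≤ 1) :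
    ball w (t * ((g w).im / ‖deriv g w‖) / 400) ⊆ U ∩ g ⁻¹' ball (g w) (t * (g w).im) := by
  have hz : 0 < (g w).im := by
    have : g w ∈ g '' U := ⟨w, hw, rfl⟩
    rw [him] at this; exact this
  have h1 := invFunOn_diff hU hg hinj
  have h2 : InjOn (invFunOn g U) (g '' U) := invFunOn_inj
  rw [him] at h1 h2
  have h3 := koebe_H' h1 h2 hz ht ht1
  rw [deriv_invFunOn hU hg hinj hw, hinj.leftInvOn_invFunOn hw, norm_inv] at h3
  intro u hu
  have hu' : u ∈ ball w (t * (g w).im * ‖deriv g w‖⁻¹ / 400) := by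
    rwa [div_eq_mul_inv (g w).im, ← mul_assoc] at hu
  obtain ⟨v, hv, rfl⟩ := h3 hu'
  have hv' : v ∈ g '' U := by
    rw [him]
    exact ((ball_subset_ball (by nlinarith)).trans ball_im_subset) hv
  obtain ⟨a, ha, rfl⟩ := hv'
  rw [hinj.leftInvOn_invFunOn ha]
  exact ⟨ha, hv⟩

/-- Lower comparison: the disc of radius `Υ / 400` about `w` lies in `U`, `Υ = Im g / |g'|`. -/
theorem ball_ups_subset (hU : IsOpen U) (hg : DifferentiableOn ℂ g U) (hinj : InjOn g U)
    (him : g '' U = {z : ℂ | 0 < z.im}) {w : ℂ} (hw : w ∈ U) :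
    ball w ((g w).im / ‖deriv g w‖ / 400) ⊆ U := by
  have := ball_ups_subset' hU hg hinj him hw one_pos le_rfl
  rw [one_mul] at this
  exact this.trans inter_subset_left

/-- A point outside `U` is at distance at least `Υ / 400`. -/
theorem ups_le_dist (hU : IsOpen U) (hg : DifferentiableOn ℂ g U) (hinj : InjOn g U)
    (him : g '' U = {z : ℂ | 0 < z.im}) {w : ℂ} (hw : w ∈ U) {p : ℂ} (hp : p ∉ U) :
    (g w).im / ‖deriv g w‖ ≤ 400 * ‖p - w‖ := by
  by_contra h
  push Not at h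
  exact hp (ball_ups_subset hU hg hinj him hw (by rw [mem_ball, dist_eq_norm]; linarith))

/-- Some point outside `U` is within `3 Υ` of `w`. -/
theorem exists_near_notMem (hU : IsOpen U) (hg : DifferentiableOn ℂ g U) (hinj : InjOn g U)
    (him : g '' U ⊆ {z : ℂ | 0 < z.im}) {w : ℂ} (hw : w ∈ U) :
    ∃ p, p ∉ U ∧ ‖p - w‖ < 3 * ((g w).im / ‖deriv g w‖) := by
  have hz : 0 < (g w).im := him ⟨w, hw, rfl⟩
  have hd : 0 < ‖deriv g w‖ := norm_pos_iff.2 (Lib.RMT.deriv_ne_zero_of_injOn hU hg hinj hw)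
  by_contra h
  push Not at h
  have hsub : ball w (3 * ((g w).im / ‖deriv g w‖)) ⊆ U := by
    intro p hp
    by_contra hp'
    have := h p hp'
    rw [mem_ball, dist_eq_norm] at hp
    linarith
  have := radius_le_ups hg him (by positivity) hsub
  have h2 : ‖deriv g w‖ * (3 * ((g w).im / ‖deriv g w‖)) = 3 * (g w).im := by field_simp
  linarith

end Conf

end Crest.Agent.R162
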