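import Mathlib
import Crest.Agent.Lib.RMT.Basic

/-!
Landau's theorem, a weak Koebe one-quarter theorem (constant `1/400`), the comparison of the
conformal radius with the distance to the boundary, and a weak distortion theorem.
-/

open Set Filter Metric Function Complex
open scoped Topology

namespace Crest.Agent.R162

/-- Landau's theorem: the image of a disc contains a disc of radius `r ‖F'(c)‖ / 96`. -/
theorem landau {F : ℂ → ℂ} {c : ℂ} {r : ℝ} (hr : 0 < r) (hF : DifferentiableOn ℂ F (ball c r))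
    (h0 : deriv F c ≠ 0) :
    ∃ z ∈ ball c r, ball (F z) (r * ‖deriv F c‖ / 96) ⊆ F '' ball c r := by
  set s := r / 2 with hs
  have hs0 : 0 < s := by positivity
  have hsub : closedBall c s ⊆ ball c r := closedBall_subset_ball (by linarith)
  have hF' : DifferentiableOn ℂ (deriv F) (ball c r) := hF.deriv isOpen_ball
  have hcont : ContinuousOn (fun z => (s - dist z c) * ‖deriv F z‖) (closedBall c s) := by
    refine ContinuousOn.mul (by fun_prop) ?_
    exact (hF'.continuousOn.mono hsub).norm
  obtain ⟨z₀, hz₀, hmax⟩ := (isCompact_closedBall c s).exists_isMaxOn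
    ⟨c, mem_closedBall_self hs0.le⟩ hcont
  have hc : s * ‖deriv F c‖ ≤ (s - dist z₀ c) * ‖deriv F z₀‖ := by
    have := hmax (mem_closedBall_self hs0.le)
    simpa using this
  have hpos : 0 < s * ‖deriv F c‖ := mul_pos hs0 (norm_pos_iff.2 h0)
  set m := ‖deriv F z₀‖ with hm
  set ρ := (s - dist z₀ c) / 2 with hρ
  have hd0 : 0 ≤ s - dist z₀ c := by
    have := mem_closedBall.1 hz₀
    linarith
  have hm0 : 0 < m := by
    rcases (norm_nonneg (deriv F z₀)).lt_or_eq with h | h
    · exact h
    · rw [hm, ← h] at hc; simp at hc; linarith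
  have hρ0 : 0 < ρ := by
    rcases hd0.lt_or_eq with h | h
    · positivity
    · rw [← h] at hc; simp at hc; linarith
  have hsub2 : ball z₀ ρ ⊆ closedBall c s := by
    intro z hz
    have h1 := mem_ball.1 hz
    have h2 := dist_triangle z z₀ c
    rw [mem_closedBall]
    linarith
  have hbd : ∀ z ∈ ball z₀ ρ, ‖deriv F z‖ ≤ 2 * m := by
    intro z hz
    have h1 := mem_ball.1 hz
    have h2 := dist_triangle z z₀ c
    have h3 : (s - dist z c) * ‖deriv F z‖ ≤ (s - dist z₀ c) * m := hmax (hsub2 hz)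
    have h4 : ρ ≤ s - dist z c := by linarith
    have h5 : ρ * ‖deriv F z‖ ≤ (s - dist z c) * ‖deriv F z‖ :=
      mul_le_mul_of_nonneg_right h4 (norm_nonneg _)
    have h6 : ρ * ‖deriv F z‖ ≤ ρ * (2 * m) := by
      have : (s - dist z₀ c) * m = ρ * (2 * m) := by rw [hρ]; ring
      linarith
    exact le_of_mul_le_mul_left h6 hρ0
  have hmaps : MapsTo (deriv F) (ball z₀ ρ) (closedBall (deriv F z₀) (3 * m)) := by
    intro z hz
    rw [mem_closedBall, dist_eq_norm]
    have := norm_sub_le (deriv F z) (deriv F z₀)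
    have := hbd z hz
    linarith
  have hsch : ∀ z ∈ closedBall z₀ (ρ / 6), ‖deriv F z - deriv F z₀‖ ≤ m / 2 := by
    intro z hz
    have hz' : z ∈ ball z₀ ρ := closedBall_subset_ball (by linarith) hz
    have := Complex.dist_le_div_mul_dist_of_mapsTo_ball
      (hF'.mono (hsub2.trans hsub)) hmaps hz'
    rw [dist_eq_norm] at this
    have h2 : 3 * m / ρ * dist z z₀ ≤ 3 * m / ρ * (ρ / 6) :=
      mul_le_mul_of_nonneg_left (mem_closedBall.1 hz) (by positivity)
    have h3 : 3 * m / ρ * (ρ / 6) = m / 2 := by field_simp; ring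
    linarith
  have hsub3 : closedBall z₀ (ρ / 6) ⊆ ball c r :=
    (closedBall_subset_ball (by linarith)).trans (hsub2.trans hsub)
  have hlow : ∀ z ∈ closedBall z₀ (ρ / 6), m / 2 * ‖z - z₀‖ ≤ ‖F z - F z₀‖ := by
    intro z hz
    have hG : ∀ x ∈ closedBall z₀ (ρ / 6),
        HasDerivWithinAt (fun x => F x - deriv F z₀ * x) (deriv F x - deriv F z₀)
          (closedBall z₀ (ρ / 6)) x := by
      intro x hx
      have h1 : HasDerivAt F (deriv F x) x :=
        (hF.differentiableAt (isOpen_ball.mem_nhds (hsub3 hx))).hasDerivAt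
      have h2 : HasDerivAt (fun x => deriv F z₀ * x) (deriv F z₀) x := by
        simpa using (hasDerivAt_id x).const_mul (deriv F z₀)
      exact (h1.sub h2).hasDerivWithinAt
    have := (convex_closedBall z₀ (ρ / 6)).norm_image_sub_le_of_norm_hasDerivWithin_le hG hsch
      (mem_closedBall_self (by positivity)) hz
    have e : F z - deriv F z₀ * z - (F z₀ - deriv F z₀ * z₀)
        = (F z - F z₀) - deriv F z₀ * (z - z₀) := by ring
    rw [e] at this
    have h3 : ‖deriv F z₀ * (z - z₀)‖ = m * ‖z - z₀‖ := by rw [norm_mul]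
    have h4 := norm_sub_norm_le (deriv F z₀ * (z - z₀)) (F z - F z₀)
    rw [norm_sub_rev] at this
    linarith
  have hdc : DiffContOnCl ℂ F (ball z₀ (ρ / 6)) := by
    refine DifferentiableOn.diffContOnCl ?_
    rw [closure_ball z₀ (by positivity)]
    exact hF.mono hsub3
  have hfreq : ∃ᶠ z in 𝓝 z₀, F z ≠ F z₀ := by
    have h1 : ∀ᶠ z in 𝓝[≠] z₀, F z ≠ F z₀ := by
      have h2 : ∀ᶠ z in 𝓝[≠] z₀, z ∈ closedBall z₀ (ρ / 6) :=
        mem_nhdsWithin_of_mem_nhds (closedBall_mem_nhds z₀ (by positivity))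
      filter_upwards [h2, self_mem_nhdsWithin] with z hz hne
      have h3 := hlow z hz
      have h4 : 0 < ‖z - z₀‖ := norm_pos_iff.2 (sub_ne_zero.2 hne)
      have : 0 < ‖F z - F z₀‖ := lt_of_lt_of_le (by positivity) h3
      exact sub_ne_zero.1 (norm_pos_iff.1 this)
    exact (h1.frequently).filter_mono nhdsWithin_le_nhds
  have hball := hdc.ball_subset_image_closedBall (ε := m * ρ / 12) (by positivity)
    (fun z hz => by
      have h1 := hlow z (sphere_subset_closedBall hz)
      have h2 : ‖z - z₀‖ = ρ / 6 := by simpa [dist_eq_norm] using hz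
      rw [h2] at h1
      linarith) hfreq
  refine ⟨z₀, hsub hz₀, ?_⟩
  refine (ball_subset_ball ?_).trans (hball.trans (image_mono hsub3))
  have : (s - dist z₀ c) * m = 2 * (m * ρ) := by rw [hρ]; ring
  rw [hs] at hc
  nlinarith

/-- Weak Koebe theorem, omitted value form. -/
theorem koebe_omit {f : ℂ → ℂ} {c w : ℂ} {r : ℝ} (hr : 0 < r)
    (hf : DifferentiableOn ℂ f (ball c r)) (hinj : InjOn f (ball c r)) (hw : w ∉ f '' ball c r) :
    r * ‖deriv f c‖ ≤ 400 * ‖f c - w‖ := by
  have hne : ∀ z ∈ ball c r, f z - w ≠ 0 := fun z hz h =>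
    hw ⟨z, hz, sub_eq_zero.1 h⟩
  have hf' : DifferentiableOn ℂ (deriv f) (ball c r) := hf.deriv isOpen_ball
  have hg : DifferentiableOn ℂ (fun z => deriv f z / (f z - w)) (ball c r) :=
    hf'.div (hf.sub_const w) hne
  obtain ⟨F, hF⟩ := hg.isExactOn_ball
  have hFd : DifferentiableOn ℂ F (ball c r) := fun z hz =>
    (hF z hz).differentiableAt.differentiableWithinAt
  have hc : c ∈ ball c r := mem_ball_self hr
  have hconst : ∀ z ∈ ball c r, (f z - w) * exp (-F z) = (f c - w) * exp (-F c) := by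
    intro z hz
    have hder : ∀ x ∈ ball c r, HasDerivWithinAt (fun x => (f x - w) * exp (-F x)) 0 (ball c r) x := by
      intro x hx
      have h1 : HasDerivAt f (deriv f x) x :=
        (hf.differentiableAt (isOpen_ball.mem_nhds hx)).hasDerivAt
      have h2 := ((h1.sub_const w).mul (hF x hx).neg.cexp)
      have h3 := hne x hx
      have h4 : deriv f x * exp (-F x) + (f x - w) * (exp (-F x) * -(deriv f x / (f x - w))) = 0 := by
        field_simp
        ring
      have h5 := h2.hasDerivWithinAt (s := ball c r)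
      simp only [Pi.neg_apply] at h5
      rw [h4] at h5
      exact h5
    have := (convex_ball c r).norm_image_sub_le_of_norm_hasDerivWithin_le (C := 0) hder
      (fun x _ => by simp) hc hz
    simpa [sub_eq_zero] using this
  have hdF : deriv F c = deriv f c / (f c - w) := (hF c hc).deriv
  have hn : 0 < ‖f c - w‖ := norm_pos_iff.2 (hne c hc)
  by_cases h0 : deriv f c = 0
  · rw [h0]; simp
  have h0' : deriv F c ≠ 0 := by
    rw [hdF]; exact div_ne_zero h0 (hne c hc)
  obtain ⟨z, -, hz⟩ := landau hr hFd h0'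
  by_contra hlt
  push Not at hlt
  have hR : Real.pi < r * ‖deriv F c‖ / 96 := by
    rw [hdF, norm_div, lt_div_iff₀ (by norm_num), ← mul_div_assoc, lt_div_iff₀ hn]
    have := Real.pi_lt_four
    nlinarith
  have hπ : ‖(Real.pi : ℂ) * I‖ = Real.pi := by simp [abs_of_pos Real.pi_pos]
  obtain ⟨a, ha, hFa⟩ := hz (show F z + Real.pi * I ∈ ball (F z) _ by
    rw [mem_ball, dist_eq_norm, add_sub_cancel_left, hπ]; exact hR)
  obtain ⟨b, hb, hFb⟩ := hz (show F z - Real.pi * I ∈ ball (F z) _ by
    rw [mem_ball, dist_eq_norm, sub_sub_cancel_left, norm_neg, hπ]; exact hR)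
  have hexp : exp (-F a) = exp (-F b) := by
    rw [hFa, hFb]
    have : -(F z - Real.pi * I) = -(F z + Real.pi * I) + 2 * Real.pi * I := by ring
    rw [this, exp_add, exp_two_pi_mul_I, mul_one]
  have h1 := hconst a ha
  have h2 := hconst b hb
  rw [hexp, ← h2] at h1
  have h3 : f a - w = f b - w := mul_right_cancel₀ (exp_ne_zero _) h1
  have h4 : a = b := hinj ha hb (by linear_combination h3)
  rw [h4, hFb] at hFa
  have h5 : (2 * Real.pi : ℂ) * I = 0 := by linear_combination -hFa
  have h6 : (Real.pi : ℂ) ≠ 0 := by exact_mod_cast Real.pi_ne_zero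
  simp [h6] at h5

/-- Weak Koebe theorem: a univalent image of a disc contains a concentric disc. -/
theorem koebe_ball {f : ℂ → ℂ} {c : ℂ} {r : ℝ} (hr : 0 < r)
    (hf : DifferentiableOn ℂ f (ball c r)) (hinj : InjOn f (ball c r)) :
    ball (f c) (r * ‖deriv f c‖ / 400) ⊆ f '' ball c r := by
  intro w hw
  by_contra h
  have := koebe_omit hr hf hinj h
  rw [mem_ball, dist_comm, dist_eq_norm] at hw
  linarith

end Crest.Agent.R162
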