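import Mathlib
import Crest.Prelude.Def_Loewner

/-! Row 162 (exact gauge of the chordal Loewner trace): common definitions.
Plan: `tools/r162/plan.md` in the graded repository. -/

set_option autoImplicit false
open MeasureTheory ProbabilityTheory Set Filter Topology
open scoped ENNReal NNReal ComplexConjugate

namespace Crest.Agent.R162

/-! ### Path space and the law of the driving function -/

/-- Continuous real paths (only times `t ≥ 0` matter). -/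
abbrev Path := C(ℝ, ℝ)

instance : MeasurableSpace Path := borel _
instance : BorelSpace Path := ⟨rfl⟩

def shift (s : ℝ) (w : Path) : Path := ⟨fun t => w (s + t), by fun_prop⟩

/-- `w` up to time `s`, then the increments of `w'`. -/
def concat (s : ℝ) (w w' : Path) : Path :=
  ⟨fun t => w (min t s) + (w' (max (t - s) 0) - w' 0), by fun_prop⟩

/-- Brownian scaling (space by `r`, time by `r^2`). -/
noncomputable def scale (r : ℝ) (w : Path) : Path := ⟨fun t => r * w (t / r ^ 2), by fun_prop⟩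

/-- Oscillation of the path on `[0,h]`. -/
noncomputable def osc (w : Path) (h : ℝ) : ℝ := sSup ((fun s => |w s - w 0|) '' Icc 0 h)

/-- All that is used about the law of `√κ B`. -/
structure IsDrv (κ : ℝ) (P : Measure Path) : Prop where
  prob : IsProbabilityMeasure P
  zero : ∀ᵐ w ∂P, w 0 = 0
  gauss : ∀ t : ℝ, 0 ≤ t → P.map (fun w : Path => w t - w 0) = gaussianReal 0 (κ * t).toNNReal
  markov : ∀ s : ℝ, 0 ≤ s → (P.prod P).map (fun p : Path × Path => concat s p.1 p.2) = P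
  scale : ∀ r : ℝ, 0 < r → P.map (scale r) = P

/-- Optional times. -/
structure IsOpt (τ : Path → ℝ≥0∞) : Prop where
  meas : Measurable τ
  loc : ∀ (w w' : Path) (t : ℝ), 0 ≤ t → τ w < ENNReal.ofReal t → (∀ s, s ≤ t → w s = w' s) →
    τ w' = τ w

/-- First time `t ≥ 0` at which `C w t` holds. -/
noncomputable def ft (C : Path → ℝ → Prop) (w : Path) : ℝ≥0∞ :=
  ⨅ (t : ℝ) (_ : 0 ≤ t ∧ C w t), ENNReal.ofReal t

/-! ### Univalent maps of the half-plane -/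

def H : Set ℂ := {z | 0 < z.im}

structure Univ (f : ℂ → ℂ) : Prop where
  diff : DifferentiableOn ℂ f H
  inj : InjOn f H
  meas : Measurable f

/-- `f` maps bounded parts of the half-plane to bounded sets. -/
def BddOn (f : ℂ → ℂ) : Prop := ∀ R : ℝ, ∃ R' : ℝ, ∀ ζ ∈ H, ‖ζ‖ ≤ R → ‖f ζ‖ ≤ R'

/-- Half the conformal radius of `f '' H` at `f ζ`. -/
noncomputable def ups (f : ℂ → ℂ) (ζ : ℂ) : ℝ := ζ.im * ‖deriv f ζ‖

/-- `4 cosh² (d/2)` of the hyperbolic distance `d`; always `≥ 4` on `H`. -/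
noncomputable def Qh (ζ ξ : ℂ) : ℝ := ‖ζ - conj ξ‖ ^ 2 / (ζ.im * ξ.im)

/-- Sine of the argument. -/
noncomputable def Sn (ζ : ℂ) : ℝ := ζ.im / ‖ζ‖

/-- Compact parts of the half-plane. -/
def Kc (y R : ℝ) : Set ℂ := {ζ | y ≤ ζ.im ∧ ‖ζ‖ ≤ R}

/-- Conformal annulus. -/
def Ann (r : ℝ) : Set ℂ := {ζ | 0 < ζ.im ∧ r ≤ ‖ζ‖ ∧ ‖ζ‖ < 2 * r}

/-! ### Loewner flow -/

/-- `g` solves Loewner's equation on `[0,t]` in the half-plane and ends at `ζ + w t`. -/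
structure IsSol (w : Path) (t : ℝ) (ζ : ℂ) (g : ℝ → ℂ) : Prop where
  pos : ∀ s ∈ Icc 0 t, 0 < (g s).im
  last : g t = ζ + (w t : ℂ)
  deriv : ∀ s ∈ Icc 0 t, HasDerivWithinAt g (2 / (g s - (w s : ℂ))) (Icc 0 t) s

noncomputable def bsol (w : Path) (t : ℝ) (ζ : ℂ) : ℝ → ℂ := Classical.epsilon (IsSol w t ζ)

open Classical in
/-- The inverse Loewner map `ζ ↦ g_t⁻¹ (ζ + w t) - w 0`. -/
noncomputable def phi (w : Path) (t : ℝ) (ζ : ℂ) : ℂ :=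
  if 0 ≤ t ∧ ζ ∈ H then bsol w t ζ 0 - (w 0 : ℂ) else ζ

/-- The surviving domain. -/
def dom (w : Path) (t : ℝ) : Set ℂ := phi w t '' H

open Classical in
/-- The centred forward map `g_t (z + w 0) - w t`; `0` for points that are dead. -/
noncomputable def Zf (w : Path) (t : ℝ) (z : ℂ) : ℂ :=
  if z ∈ dom w t then Function.invFunOn (phi w t) H z else 0

/-- Relative decrease `Υ_t (z) / Υ_0 (z)` of the conformal radius; `0` for dead points. -/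
noncomputable def mm (w : Path) (t : ℝ) (z : ℂ) : ℝ := ups (phi w t) (Zf w t z) / z.im

/-- The configuration at time `t` started from the configuration `f`. -/
noncomputable def cfg (f : ℂ → ℂ) (w : Path) (t : ℝ) : ℂ → ℂ := fun ζ => f (phi w t ζ)

/-! ### Exponents and the approximate natural measure -/

noncomputable def aa (κ : ℝ) : ℝ := 8 / κ - 1
noncomputable def dd (κ : ℝ) : ℝ := 1 + κ / 8
noncomputable def cO (κ : ℝ) : ℝ := min (aa κ / 2) 1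

/-- Green's function in the variables `(ζ, Υ)`. -/
noncomputable def Gf (κ : ℝ) (ζ : ℂ) (u : ℝ) : ℝ := u ^ (dd κ - 2) * Sn ζ ^ aa κ

open Classical in
/-- Creation density of the approximate measure. -/
noncomputable def cr (κ s1 ε : ℝ) (ζ : ℂ) (u : ℝ) : ℝ≥0∞ :=
  if ζ ∈ H ∧ ε ≤ u ∧ u ≤ 2 * ε ∧ s1 ≤ Sn ζ then ENNReal.ofReal (ε ^ (dd κ - 2) / ‖ζ‖ ^ 2) else 0

noncomputable def rate (κ s1 ε : ℝ) (f : ℂ → ℂ) (B : Set ℂ) : ℝ≥0∞ :=
  ∫⁻ ζ in H, B.indicator (fun _ => (1 : ℝ≥0∞)) (f ζ) * cr κ s1 ε ζ (ups f ζ) *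
    ENNReal.ofReal (‖deriv f ζ‖ ^ 2)

/-- Mass created in `B` during the times `I`. -/
noncomputable def mass (κ s1 ε : ℝ) (f : ℂ → ℂ) (w : Path) (I : Set ℝ) (B : Set ℂ) : ℝ≥0∞ :=
  ∫⁻ s in I, rate κ s1 ε (cfg f w s) B

/-! ### Second order expansions in the driving increment -/

/-- Value, coefficient of `v`, of `v²/2`, of `h` (`v` the driving increment, `h` the time). -/
structure Jet where
  v : ℝ
  a : ℝ
  b : ℝ
  c : ℝ

namespace Jet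

noncomputable def gen (κ : ℝ) (J : Jet) : ℝ := J.c + κ / 2 * J.b
def const (r : ℝ) : Jet := ⟨r, 0, 0, 0⟩
def add (J K : Jet) : Jet := ⟨J.v + K.v, J.a + K.a, J.b + K.b, J.c + K.c⟩
def smul (r : ℝ) (J : Jet) : Jet := ⟨r * J.v, r * J.a, r * J.b, r * J.c⟩
def mul (J K : Jet) : Jet :=
  ⟨J.v * K.v, J.a * K.v + J.v * K.a, J.b * K.v + 2 * J.a * K.a + J.v * K.b, J.c * K.v + J.v * K.c⟩
noncomputable def comp (φ : ℝ → ℝ) (J : Jet) : Jet :=
  ⟨φ J.v, deriv φ J.v * J.a, deriv φ J.v * J.b + deriv (deriv φ) J.v * J.a ^ 2, deriv φ J.v * J.c⟩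
noncomputable def integral {X : Type*} [MeasurableSpace X] (ν : Measure X) (J : X → Jet) : Jet :=
  ⟨∫ x, (J x).v ∂ν, ∫ x, (J x).a ∂ν, ∫ x, (J x).b ∂ν, ∫ x, (J x).c ∂ν⟩

end Jet

/-- `w` stays within `e` of `w 0` on `[0,h]` and `h ≤ e²`. -/
def Small (w : Path) (h e : ℝ) : Prop := 0 ≤ h ∧ h ≤ e ^ 2 ∧ 0 < e ∧ ∀ s ∈ Icc 0 h, |w s - w 0| ≤ e

/-- Uniform expansion `Ψ = v₀ + a v + b v²/2 + c h + O(e³)` of a family indexed by `I`. -/
def TE {ι : Type*} (I : Set ι) (Ψ : ι → Path → ℝ → ℝ) (J : ι → Jet) : Prop :=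
  ∃ C e0 : ℝ, 0 < e0 ∧ ∀ i ∈ I, |(J i).a| ≤ C ∧ |(J i).b| ≤ C ∧ |(J i).c| ≤ C ∧
    ∀ (w : Path) (h e : ℝ), e ≤ e0 → Small w h e →
      |Ψ i w h - (J i).v - (J i).a * (w h - w 0) - (J i).b / 2 * (w h - w 0) ^ 2 - (J i).c * h|
        ≤ C * e ^ 3

/-- Jet of `log ‖Z‖`. -/
noncomputable def jA (ζ : ℂ) : Jet :=
  ⟨Real.log ‖ζ‖, -ζ.re / ‖ζ‖ ^ 2, (ζ.im ^ 2 - ζ.re ^ 2) / ‖ζ‖ ^ 4, 2 * (ζ.re ^ 2 - ζ.im ^ 2) / ‖ζ‖ ^ 4⟩
/-- Jet of `log (im Z)`. -/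
noncomputable def jL (ζ : ℂ) : Jet := ⟨Real.log ζ.im, 0, 0, -2 / ‖ζ‖ ^ 2⟩
/-- Jet of `log (u * mm)`. -/
noncomputable def jU (ζ : ℂ) (u : ℝ) : Jet := ⟨Real.log u, 0, 0, -4 * ζ.im ^ 2 / ‖ζ‖ ^ 4⟩
/-- Jet of `log ‖Z ζ - conj (Z ξ)‖`. -/
noncomputable def jD (ζ ξ : ℂ) : Jet :=
  ⟨Real.log ‖ζ - conj ξ‖, 0, 0, -2 * (1 / (ζ * conj ξ)).re⟩

/-- `C³` with bounded derivatives of orders `0..3`. -/
def BC3 (k : ℝ → ℝ) : Prop :=
  ContDiff ℝ 3 k ∧ ∃ C : ℝ, ∀ x, |k x| ≤ C ∧ |deriv k x| ≤ C ∧ |deriv (deriv k) x| ≤ C ∧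
    |deriv (deriv (deriv k)) x| ≤ C

/-- The smooth step: `0` on `(-∞,0]`, `1` on `[1,∞)`. -/
noncomputable abbrev st : ℝ → ℝ := Real.smoothTransition

/-! ### One-point functions -/

/-- `k (log u) S^e ‖ζ‖^β`. -/
noncomputable def atom (k : ℝ → ℝ) (e β : ℝ) (ζ : ℂ) (u : ℝ) : ℝ :=
  k (Real.log u) * Sn ζ ^ e * ‖ζ‖ ^ β

/-- The generator applied to `atom k e β`. -/
noncomputable def latom (κ : ℝ) (k : ℝ → ℝ) (e β : ℝ) (ζ : ℂ) (u : ℝ) : ℝ :=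
  ‖ζ‖ ^ (β - 2) * Sn ζ ^ e *
    (k (Real.log u) * ((β - e) * (2 - κ / 2) * (1 - 2 * Sn ζ ^ 2) +
        κ / 2 * (β - e) ^ 2 * (1 - Sn ζ ^ 2) - 2 * e) - 4 * Sn ζ ^ 2 * deriv k (Real.log u))

end Crest.Agent.R162
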