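import Crest.Agent.R162.Wolff

/-!
Global power-law distortion and growth for univalent maps of the half-plane in terms of
`Q(ζ, ξ) = ‖ζ - conj ξ‖² / (Im ζ Im ξ)`.
-/

open Set Filter Metric Function Complex
open scoped Topology ComplexConjugate

namespace Crest.Agent.R162

variable {f : ℂ → ℂ}

theorem im_add_im_le (ζ ξ : ℂ) : ζ.im + ξ.im ≤ ‖ζ - conj ξ‖ := by
  have h := (abs_le.1 (abs_im_le_norm (ζ - conj ξ))).2
  simpa using h

theorem four_le_Q {ζ ξ : ℂ} (hζ : 0 < ζ.im) (hξ : 0 < ξ.im) :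
    4 ≤ ‖ζ - conj ξ‖ ^ 2 / (ζ.im * ξ.im) := by
  rw [le_div_iff₀ (by positivity), normSq_sub_conj]
  nlinarith [sq_nonneg ‖ζ - ξ‖]

/-- (K4) Power-law distortion and growth. -/
theorem distort_Q (hf : DifferentiableOn ℂ f {z : ℂ | 0 < z.im})
    (hinj : InjOn f {z : ℂ | 0 < z.im}) {ζ ξ : ℂ} (hζ : 0 < ζ.im) (hξ : 0 < ξ.im) :
    ξ.im * ‖deriv f ξ‖ ≤ (1200 ^ 3 * Real.exp 400) * (‖ζ - conj ξ‖ ^ 2 / (ζ.im * ξ.im)) ^ 400 *
        (ζ.im * ‖deriv f ζ‖) ∧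
      ‖f ξ - f ζ‖ ≤ (1200 ^ 3 * Real.exp 400) * (‖ζ - conj ξ‖ ^ 2 / (ζ.im * ξ.im)) ^ 400 *
        (ζ.im * ‖deriv f ζ‖) := by
  set Y := ‖ζ - conj ξ‖ with hY
  have hsum : ζ.im + ξ.im ≤ Y := im_add_im_le ζ ξ
  have hY0 : 0 < Y := by linarith
  have h1 := distort_vert hf hinj ζ.re hζ hY0
  have h3 := distort_vert hf hinj ξ.re hY0 hξ
  have h2 := distort_seg hf hinj (z := ζ.re + Y * I) (z' := ξ.re + Y * I) (y := Y) (L := 1) hY0
    (by simp) (by simp) (by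
      have : (ξ.re + Y * I : ℂ) - (ζ.re + Y * I) = -(((ζ - conj ξ).re : ℝ) : ℂ) := by
        simp
      rw [this, norm_neg, norm_real, Real.norm_eq_abs, one_mul]
      exact abs_re_le_norm _)
  rw [re_add_im] at h1 h3
  have e1 : max (ζ.im / Y) (Y / ζ.im) = Y / ζ.im := by
    refine max_eq_right (((div_le_one hY0).2 (by linarith)).trans ((one_le_div hζ).2 (by linarith)))
  have e3 : max (Y / ξ.im) (ξ.im / Y) = Y / ξ.im := by
    refine max_eq_left (((div_le_one hY0).2 (by linarith)).trans ((one_le_div hξ).2 (by linarith)))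
  rw [e1] at h1
  rw [e3] at h3
  simp only [add_im, ofReal_im, mul_im, ofReal_re, I_im, mul_one, I_re, mul_zero, add_zero,
    zero_add] at h2
  have eQ : (Y ^ 2 / (ζ.im * ξ.im)) ^ 400 = (Y / ζ.im) ^ 400 * (Y / ξ.im) ^ 400 := by
    rw [← mul_pow]; congr 1; field_simp
  rw [eQ]
  have ha : 1 ≤ (Y / ζ.im) ^ 400 := one_le_pow₀ ((one_le_div hζ).2 (by linarith))
  have hb : 1 ≤ (Y / ξ.im) ^ 400 := one_le_pow₀ ((one_le_div hξ).2 (by linarith))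
  have hE : 1 ≤ Real.exp 400 := Real.one_le_exp (by norm_num)
  generalize (Y / ζ.im) ^ 400 = a at *
  generalize (Y / ξ.im) ^ 400 = b at *
  generalize Real.exp 400 = E at *
  set u := ζ.im * ‖deriv f ζ‖ with hu
  have hu0 : 0 ≤ u := by positivity
  set u1 := Y * ‖deriv f (ζ.re + Y * I)‖
  set u2 := Y * ‖deriv f (ξ.re + Y * I)‖
  have k1 : u1 ≤ 1200 * a * u := h1.1
  have k2 : u2 ≤ 1200 * E * (1200 * a * u) :=
    h2.1.trans (mul_le_mul_of_nonneg_left k1 (by positivity))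
  have k3 : 1200 * b * u2 ≤ 1200 * b * (1200 * E * (1200 * a * u)) :=
    mul_le_mul_of_nonneg_left k2 (by positivity)
  refine ⟨h3.1.trans (k3.trans (le_of_eq (by ring))), ?_⟩
  have k4 : ‖f ξ - f ζ‖ ≤ ‖f ξ - f (ξ.re + Y * I)‖ + ‖f (ξ.re + Y * I) - f (ζ.re + Y * I)‖ +
      ‖f (ζ.re + Y * I) - f ζ‖ := by
    calc ‖f ξ - f ζ‖ = ‖(f ξ - f (ξ.re + Y * I)) + (f (ξ.re + Y * I) - f (ζ.re + Y * I)) +
          (f (ζ.re + Y * I) - f ζ)‖ := by ring_nf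
      _ ≤ _ := norm_add₃_le
  have k5 : 6 * b * u2 ≤ 6 * b * (1200 * E * (1200 * a * u)) :=
    mul_le_mul_of_nonneg_left k2 (by positivity)
  have k6 : 6 * E * u1 ≤ 6 * E * (1200 * a * u) := mul_le_mul_of_nonneg_left k1 (by positivity)
  have k7 : a * u ≤ E * (a * u) := le_mul_of_one_le_left (by positivity) hE
  have k8 : E * (a * u) ≤ b * (E * (a * u)) := le_mul_of_one_le_left (by positivity) hb
  have k9 : 0 ≤ b * (E * (a * u)) := by positivity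
  have := h1.2
  have := h2.2
  have := h3.2
  nlinarith

/-- (K4), existential form. -/
theorem exists_distort_Q : ∃ C : ℝ, 1 ≤ C ∧ ∃ p : ℕ, ∀ f : ℂ → ℂ,
    DifferentiableOn ℂ f {z : ℂ | 0 < z.im} → InjOn f {z : ℂ | 0 < z.im} →
    ∀ ζ ξ : ℂ, 0 < ζ.im → 0 < ξ.im →
    ξ.im * ‖deriv f ξ‖ ≤ C * (‖ζ - conj ξ‖ ^ 2 / (ζ.im * ξ.im)) ^ p * (ζ.im * ‖deriv f ζ‖) ∧
      ‖f ξ - f ζ‖ ≤ C * (‖ζ - conj ξ‖ ^ 2 / (ζ.im * ξ.im)) ^ p * (ζ.im * ‖deriv f ζ‖) :=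
  ⟨1200 ^ 3 * Real.exp 400,
    one_le_mul_of_one_le_of_one_le (by norm_num) (Real.one_le_exp (by norm_num)), 400,
    fun _ hf hinj _ _ hζ hξ => distort_Q hf hinj hζ hξ⟩

/-- (K5) -/
theorem ups_pos' (hf : DifferentiableOn ℂ f {z : ℂ | 0 < z.im})
    (hinj : InjOn f {z : ℂ | 0 < z.im}) {ζ : ℂ} (hζ : 0 < ζ.im) : 0 < ζ.im * ‖deriv f ζ‖ :=
  mul_pos hζ (norm_pos_iff.2 (Lib.RMT.deriv_ne_zero_of_injOn isOpen_Hs hf hinj hζ))

/-- Lower growth bound: points at hyperbolic distance bounded below have images at distance at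
least a constant times `Im ζ |f'(ζ)|`. -/
theorem ups_le_norm_sub (hf : DifferentiableOn ℂ f {z : ℂ | 0 < z.im})
    (hinj : InjOn f {z : ℂ | 0 < z.im}) {ζ ξ : ℂ} (hζ : 0 < ζ.im) (hξ : 0 < ξ.im) {t : ℝ}
    (ht : 0 < t) (ht1 : t ≤ 1) (h : t * ζ.im ≤ ‖ξ - ζ‖) :
    t * (ζ.im * ‖deriv f ζ‖) ≤ 400 * ‖f ξ - f ζ‖ := by
  by_contra hlt
  push Not at hlt
  obtain ⟨v, hv, hfv⟩ := koebe_H' hf hinj hζ ht ht1 (show f ξ ∈ ball (f ζ) _ by
    rw [mem_ball, dist_eq_norm]; linarith)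
  have hvH : 0 < v.im := ((ball_subset_ball (by nlinarith)).trans ball_im_subset) hv
  have := hinj hvH hξ hfv
  rw [this, mem_ball, dist_eq_norm] at hv
  linarith

end Crest.Agent.R162
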