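import Crest.Agent.R162.Pick

/-!
Weak distortion and growth theorems for univalent functions on the upper half-plane.
-/

open Set Filter Metric Function Complex
open scoped Topology ComplexConjugate

namespace Crest.Agent.R162

variable {f : ℂ → ℂ}

/-- Koebe for an omitted value in the half-plane. -/
theorem koebe_omit_H (hf : DifferentiableOn ℂ f {z : ℂ | 0 < z.im})
    (hinj : InjOn f {z : ℂ | 0 < z.im}) {p : ℂ} (hp : p ∉ f '' {z : ℂ | 0 < z.im}) {z : ℂ}
    (hz : 0 < z.im) : z.im * ‖deriv f z‖ ≤ 400 * ‖f z - p‖ :=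
  koebe_omit hz (hf.mono ball_im_subset) (hinj.mono ball_im_subset)
    fun h => hp (image_mono ball_im_subset h)

/-- A disc about `f z` inside the image has radius at most `2 Im z |f'(z)|`. -/
theorem radius_le_H (hf : DifferentiableOn ℂ f {z : ℂ | 0 < z.im})
    (hinj : InjOn f {z : ℂ | 0 < z.im}) {z : ℂ} (hz : 0 < z.im) {r : ℝ}
    (hsub : ball (f z) r ⊆ f '' {z : ℂ | 0 < z.im}) : r ≤ 2 * (z.im * ‖deriv f z‖) := by
  have hd : 0 < ‖deriv f z‖ :=
    norm_pos_iff.2 (Lib.RMT.deriv_ne_zero_of_injOn isOpen_Hs hf hinj hz)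
  rcases le_or_gt r 0 with hr | hr
  · exact hr.trans (by positivity)
  have h1 := invFunOn_diff isOpen_Hs hf hinj
  have h2 : invFunOn f {z : ℂ | 0 < z.im} '' (f '' {z : ℂ | 0 < z.im}) ⊆ {z : ℂ | 0 < z.im} := by
    rintro _ ⟨_, ⟨a, ha, rfl⟩, rfl⟩
    rw [hinj.leftInvOn_invFunOn ha]; exact ha
  have h3 := radius_le_ups h1 h2 hr hsub
  rw [deriv_invFunOn isOpen_Hs hf hinj hz, hinj.leftInvOn_invFunOn hz, norm_inv,
    inv_mul_le_iff₀ hd] at h3
  linarith

/-- Some omitted value is within `3 Im z |f'(z)|` of `f z`. -/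
theorem exists_omit_H (hf : DifferentiableOn ℂ f {z : ℂ | 0 < z.im})
    (hinj : InjOn f {z : ℂ | 0 < z.im}) {z : ℂ} (hz : 0 < z.im) :
    ∃ p, p ∉ f '' {z : ℂ | 0 < z.im} ∧ ‖f z - p‖ < 3 * (z.im * ‖deriv f z‖) := by
  have hd : 0 < ‖deriv f z‖ :=
    norm_pos_iff.2 (Lib.RMT.deriv_ne_zero_of_injOn isOpen_Hs hf hinj hz)
  by_contra h
  push Not at h
  have := radius_le_H hf hinj hz (r := 3 * (z.im * ‖deriv f z‖)) fun p hp => by
    by_contra hp'
    have := h p hp'
    rw [mem_ball, dist_comm, dist_eq_norm] at hp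
    linarith
  have : 0 < z.im * ‖deriv f z‖ := by positivity
  linarith

/-- Along a path of hyperbolic speed at most `L`, the distance to an omitted value grows by a
factor at most `exp (400 L)`. -/
theorem omit_path (hf : DifferentiableOn ℂ f {z : ℂ | 0 < z.im})
    (hinj : InjOn f {z : ℂ | 0 < z.im}) {p : ℂ} (hp : p ∉ f '' {z : ℂ | 0 < z.im})
    {c c' : ℝ → ℂ} {a b L : ℝ} (hab : a ≤ b) (hc : ∀ s ∈ Icc a b, HasDerivAt c (c' s) s)
    (hH : ∀ s ∈ Icc a b, 0 < (c s).im) (hL : ∀ s ∈ Icc a b, ‖c' s‖ ≤ L * (c s).im) :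
    ‖f (c b) - p‖ ≤ Real.exp (400 * L * (b - a)) * ‖f (c a) - p‖ := by
  have hder : ∀ s ∈ Icc a b, HasDerivAt (fun s => f (c s) - p) (deriv f (c s) * c' s) s := by
    intro s hs
    have h1 : HasDerivAt f (deriv f (c s)) (c s) :=
      (hf.differentiableAt (isOpen_Hs.mem_nhds (hH s hs))).hasDerivAt
    have h2 := h1.comp s (hc s hs)
    exact h2.sub_const p
  have h := norm_le_gronwallBound_of_norm_deriv_right_le (f := fun s => f (c s) - p)
    (f' := fun s => deriv f (c s) * c' s) (δ := ‖f (c a) - p‖) (K := 400 * L) (ε := 0) (a := a) (b := b)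
    (fun s hs => (hder s hs).continuousAt.continuousWithinAt)
    (fun s hs => (hder s (Ico_subset_Icc_self hs)).hasDerivWithinAt) le_rfl
    (fun s hs => by
      have hs' := Ico_subset_Icc_self hs
      have h1 := koebe_omit_H hf hinj hp (hH s hs')
      have h2 := hL s hs'
      have h3 := hH s hs'
      have hL0 : 0 ≤ L := by
        by_contra h
        push Not at h
        nlinarith [norm_nonneg (c' s)]
      rw [norm_mul, add_zero]
      calc ‖deriv f (c s)‖ * ‖c' s‖ ≤ ‖deriv f (c s)‖ * (L * (c s).im) :=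
            mul_le_mul_of_nonneg_left h2 (norm_nonneg _)
        _ = L * ((c s).im * ‖deriv f (c s)‖) := by ring
        _ ≤ L * (400 * ‖f (c s) - p‖) := mul_le_mul_of_nonneg_left h1 hL0
        _ = _ := by ring) b ⟨hab, le_rfl⟩
  rw [gronwallBound_ε0] at h
  linarith

/-- Distortion along a path of hyperbolic speed at most `L`. -/
theorem distort_path (hf : DifferentiableOn ℂ f {z : ℂ | 0 < z.im})
    (hinj : InjOn f {z : ℂ | 0 < z.im})
    {c c' : ℝ → ℂ} {a b L : ℝ} (hab : a ≤ b) (hc : ∀ s ∈ Icc a b, HasDerivAt c (c' s) s)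
    (hH : ∀ s ∈ Icc a b, 0 < (c s).im) (hL : ∀ s ∈ Icc a b, ‖c' s‖ ≤ L * (c s).im) :
    (c b).im * ‖deriv f (c b)‖ ≤
        1200 * Real.exp (400 * L * (b - a)) * ((c a).im * ‖deriv f (c a)‖) ∧
      ‖f (c b) - f (c a)‖ ≤
        6 * Real.exp (400 * L * (b - a)) * ((c a).im * ‖deriv f (c a)‖) := by
  have ha : a ∈ Icc a b := ⟨le_rfl, hab⟩
  have hb : b ∈ Icc a b := ⟨hab, le_rfl⟩
  obtain ⟨p, hp, hp'⟩ := exists_omit_H hf hinj (hH a ha)
  have h1 := omit_path hf hinj hp hab hc hH hL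
  have h2 := koebe_omit_H hf hinj hp (hH b hb)
  have hL0 : 0 ≤ L := by
    have h2 := hL a ha
    have h3 := hH a ha
    by_contra h
    push Not at h
    nlinarith [norm_nonneg (c' a)]
  have hE : 1 ≤ Real.exp (400 * L * (b - a)) :=
    Real.one_le_exp (mul_nonneg (by positivity) (by linarith))
  set E := Real.exp (400 * L * (b - a))
  have h3 : E * ‖f (c a) - p‖ ≤ E * (3 * ((c a).im * ‖deriv f (c a)‖)) :=
    mul_le_mul_of_nonneg_left hp'.le (by linarith)
  refine ⟨by nlinarith, ?_⟩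
  have h4 : ‖f (c b) - f (c a)‖ ≤ ‖f (c b) - p‖ + ‖f (c a) - p‖ := by
    calc ‖f (c b) - f (c a)‖ = ‖(f (c b) - p) - (f (c a) - p)‖ := by ring_nf
      _ ≤ _ := norm_sub_le _ _
  have h5 : ‖f (c a) - p‖ ≤ E * ‖f (c a) - p‖ := by nlinarith [norm_nonneg (f (c a) - p)]
  nlinarith

/-- Distortion along a segment: `z, z'` with imaginary parts at least `y` and `‖z' - z‖ ≤ L y`. -/
theorem distort_seg (hf : DifferentiableOn ℂ f {z : ℂ | 0 < z.im})
    (hinj : InjOn f {z : ℂ | 0 < z.im}) {z z' : ℂ} {y L : ℝ} (hy : 0 < y) (hz : y ≤ z.im)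
    (hz' : y ≤ z'.im) (hL : ‖z' - z‖ ≤ L * y) :
    z'.im * ‖deriv f z'‖ ≤ 1200 * Real.exp (400 * L) * (z.im * ‖deriv f z‖) ∧
      ‖f z' - f z‖ ≤ 6 * Real.exp (400 * L) * (z.im * ‖deriv f z‖) := by
  have hL0 : 0 ≤ L := by
    by_contra h
    push Not at h
    nlinarith [norm_nonneg (z' - z)]
  have him : ∀ s ∈ Icc (0 : ℝ) 1, y ≤ (z + s * (z' - z)).im := by
    intro s hs
    simp only [add_im, mul_im, ofReal_re, sub_im, ofReal_im, zero_mul, add_zero]
    nlinarith [hs.1, hs.2]
  have h := distort_path hf hinj (c := fun s : ℝ => z + s * (z' - z)) (c' := fun _ => z' - z)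
    (a := 0) (b := 1) (L := L) zero_le_one
    (fun s _ => by
      simpa using ((hasDerivAt_id s).ofReal_comp.mul_const (z' - z)).const_add z)
    (fun s hs => hy.trans_le (him s hs))
    (fun s hs => hL.trans (mul_le_mul_of_nonneg_left (him s hs) hL0))
  simpa using h

/-- Distortion along a vertical line: power law with exponent `400`. -/
theorem distort_vert (hf : DifferentiableOn ℂ f {z : ℂ | 0 < z.im})
    (hinj : InjOn f {z : ℂ | 0 < z.im}) (x : ℝ) {y y' : ℝ} (hy : 0 < y) (hy' : 0 < y') :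
    y' * ‖deriv f (x + y' * I)‖ ≤
        1200 * max (y / y') (y' / y) ^ 400 * (y * ‖deriv f (x + y * I)‖) ∧
      ‖f (x + y' * I) - f (x + y * I)‖ ≤
        6 * max (y / y') (y' / y) ^ 400 * (y * ‖deriv f (x + y * I)‖) := by
  set l := Real.log (y' / y) with hl
  have h := distort_path hf hinj (c := fun s : ℝ => (x : ℂ) + ((y * Real.exp (l * s) : ℝ) : ℂ) * I)
    (c' := fun s => ((y * (Real.exp (l * s) * l) : ℝ) : ℂ) * I)
    (a := 0) (b := 1) (L := |l|) zero_le_one
    (fun s _ => by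
      have h1 : HasDerivAt (fun s => y * Real.exp (l * s)) (y * (Real.exp (l * s) * l)) s := by
        simpa using ((hasDerivAt_id s).const_mul l).exp.const_mul y
      exact (h1.ofReal_comp.mul_const I).const_add (x : ℂ))
    (fun s _ => by
      simp only [add_im, ofReal_im, mul_im, ofReal_re, I_im, mul_one, I_re, mul_zero, add_zero,
        zero_add]
      positivity)
    (fun s _ => by
      simp only [add_im, ofReal_im, mul_im, ofReal_re, I_im, mul_one, I_re, mul_zero, add_zero,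
        zero_add, norm_mul, norm_I, norm_real, Real.norm_eq_abs, abs_mul, abs_of_pos hy,
        abs_of_pos (Real.exp_pos _)]
      exact le_of_eq (by ring))
  have e1 : y * Real.exp (l * 1) = y' := by
    rw [mul_one, hl, Real.exp_log (by positivity)]; field_simp
  have e0 : y * Real.exp (l * 0) = y := by simp
  have e2 : Real.exp (400 * |l| * (1 - 0)) = max (y / y') (y' / y) ^ 400 := by
    have : Real.exp |l| = max (y / y') (y' / y) := by
      have h1 : Real.exp l = y' / y := by rw [hl, Real.exp_log (by positivity)]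
      have h2 : Real.exp (-l) = y / y' := by rw [Real.exp_neg, h1, inv_div]
      rw [← h1, ← h2, abs_eq_max_neg, Real.exp_monotone.map_max, max_comm]
    rw [← this, ← Real.exp_nat_mul]; norm_num
  rw [e2] at h
  simp only [e1, e0] at h
  simpa using h

end Crest.Agent.R162
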