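import Crest.Agent.R162.EDefs

/-! Row 162, block E: expansions on `Hy y`. -/

set_option autoImplicit false
open MeasureTheory ProbabilityTheory Set Filter Topology Metric
open scoped ENNReal NNReal ComplexConjugate

namespace Crest.Agent.R162.E

private theorem h50_im_le_norm {z : ℂ} {y : ℝ} (hz : z ∈ Hy y) : y ≤ ‖z‖ :=
  le_trans hz ((le_abs_self _).trans (Complex.abs_im_le_norm z))

/-- As `alive_small`, uniformly on the unbounded set `Hy y` (use `alive_low` at each time `s ≤ h`). -/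
theorem alive_small' {y : ℝ} (hy : 0 < y) : ∃ e0 > 0, e0 ≤ y / 10 ∧ ∀ ζ ∈ Hy y, ∀ (w : Path) (h e : ℝ),
    e ≤ e0 → Small w h e → ∀ s ∈ Icc 0 h,
      ζ ∈ dom w s ∧ Zf w s ζ ∈ Hy (y / 2) ∧ ‖Zf w s ζ - ζ‖ ≤ 2 * e ∧ 9 / 10 ≤ mm w s ζ := by
  refine ⟨y / 10, by positivity, le_rfl, fun ζ hζ w h e he hs s hsI => ?_⟩
  obtain ⟨_, hh, he0, hw⟩ := hs
  have hζ' : y ≤ ζ.im := hζ
  have him : 0 < ζ.im := hy.trans_le hζ'
  have hse : s ≤ e ^ 2 := hsI.2.trans hh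
  have he' : e ≤ ζ.im / 10 := by linarith
  have hs1 : 100 * s ≤ ζ.im ^ 2 := by nlinarith
  obtain ⟨h1, h2, h3, h4⟩ := alive_low w (z := ζ) him hsI.1 (by linarith [hsI.1])
  have hZ : 0 < (Zf w s ζ).im := Zf_mem h1
  refine ⟨h1, ?_, ?_, ?_⟩
  · change y / 2 ≤ (Zf w s ζ).im
    refine le_trans (by linarith : y / 2 ≤ ζ.im / 2) (abs_le_of_sq_le_sq' ?_ hZ.le).2
    nlinarith [sq_nonneg ζ.im]
  · have e1 : Zf w s ζ - ζ = (Zf w s ζ - (ζ - ((w s - w 0 : ℝ) : ℂ))) - ((w s - w 0 : ℝ) : ℂ) := by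
      ring
    have e2 : 3 * s / ζ.im ≤ e := by
      rw [div_le_iff₀ him]
      nlinarith
    rw [e1]
    refine (norm_sub_le _ _).trans ?_
    rw [Complex.norm_real, Real.norm_eq_abs]
    linarith [hw s hsI]
  · refine le_trans ?_ h4
    have e1 : 8 * s / ζ.im ^ 2 ≤ 1 / 10 := by
      rw [div_le_iff₀ (by positivity)]
      linarith [hsI.1]
    linarith [Real.add_one_le_exp (-(8 * s / ζ.im ^ 2))]

/-- `Zf_eq`: `Z = ζ - v + 2h/ζ + O(e³)` uniformly on `Hy y` (`‖ζ‖ ≥ y`, `‖Z‖ ≥ y/2`). -/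
theorem Zf_exp {y : ℝ} (hy : 0 < y) : ∃ C e0 : ℝ, 0 ≤ C ∧ 0 < e0 ∧ ∀ ζ ∈ Hy y, ∀ (w : Path) (h e : ℝ),
    e ≤ e0 → Small w h e →
      ‖Zf w h ζ - (ζ - ((w h - w 0 : ℝ) : ℂ) + 2 * (h : ℂ) / ζ)‖ ≤ C * e ^ 3 := by
  obtain ⟨e0, he0, _, hal⟩ := alive_small' hy
  refine ⟨16 / y ^ 2, e0, by positivity, he0, fun ζ hζ w h e he hs => ?_⟩
  have hal' := hal ζ hζ w h e he hs
  obtain ⟨h0, hh, hepos, _⟩ := hs
  have hd : ζ ∈ dom w h := (hal' h ⟨h0, le_rfl⟩).1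
  have hy2 : 0 < y / 2 := by positivity
  have hint : IntervalIntegrable (fun s => 2 / Zf w s ζ) volume 0 h := by
    refine ContinuousOn.intervalIntegrable ?_
    rw [uIcc_of_le h0]
    exact continuousOn_const.div (continuousOn_Zf h0 hd) fun s hs =>
      norm_pos_iff.1 (hy2.trans_le (h50_im_le_norm (hal' s hs).2.1))
  have e1 : Zf w h ζ - (ζ - ((w h - w 0 : ℝ) : ℂ) + 2 * (h : ℂ) / ζ) =
      ∫ s in (0 : ℝ)..h, (2 / Zf w s ζ - 2 / ζ) := by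
    rw [intervalIntegral.integral_sub hint intervalIntegrable_const, intervalIntegral.integral_const,
      Zf_eq h0 hd, sub_zero, Complex.real_smul]
    ring
  rw [e1]
  have e2 := intervalIntegral.norm_integral_le_of_norm_le_const (a := 0) (b := h)
    (f := fun s => 2 / Zf w s ζ - 2 / ζ) (C := 2 / (y / 2) ^ 2 * (2 * e)) (by
      intro s hs
      rw [uIoc_of_le h0] at hs
      have hs' := hal' s (Ioc_subset_Icc_self hs)
      refine (h50_lip hy2 (h50_im_le_norm hs'.2.1)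
        (le_trans (by linarith) (h50_im_le_norm hζ))).trans ?_
      exact mul_le_mul_of_nonneg_left hs'.2.2.1 (by positivity))
  refine e2.trans ?_
  rw [sub_zero, abs_of_nonneg h0]
  calc 2 / (y / 2) ^ 2 * (2 * e) * h ≤ 2 / (y / 2) ^ 2 * (2 * e) * e ^ 2 :=
        mul_le_mul_of_nonneg_left hh (by positivity)
    _ = 16 / y ^ 2 * e ^ 3 := by field_simp; ring

/-- The inverse expansion: apply `Zf_exp` to `z = phi w h ξ` (`Zf_phi`, `im_le_phi`), and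
`‖1/z - 1/ξ‖ ≤ 2 e / y²` by `alive_small'`. -/
theorem phi_exp {y : ℝ} (hy : 0 < y) : ∃ C e0 : ℝ, 0 ≤ C ∧ 0 < e0 ∧ ∀ ξ ∈ Hy y, ∀ (w : Path) (h e : ℝ),
    e ≤ e0 → Small w h e →
      ‖phi w h ξ - (ξ + ((w h - w 0 : ℝ) : ℂ) - 2 * (h : ℂ) / ξ)‖ ≤ C * e ^ 3 := by
  obtain ⟨e0, he0, _, hal⟩ := alive_small' hy
  obtain ⟨C, e1, hC, he1, hZ⟩ := Zf_exp hy
  refine ⟨C + 4 / y ^ 2, min e0 e1, by positivity, lt_min he0 he1, fun ξ hξ w h e he hs => ?_⟩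
  have hξH : ξ ∈ H := hy.trans_le hξ
  have hz : phi w h ξ ∈ Hy y := le_trans hξ (im_le_phi w h ξ)
  have h1 := hZ _ hz w h e (he.trans (min_le_right _ _)) hs
  have h2 := (hal _ hz w h e (he.trans (min_le_left _ _)) hs h ⟨hs.1, le_rfl⟩).2.2.1
  obtain ⟨h0, hh, hepos, _⟩ := hs
  rw [Zf_phi w h hξH] at h1 h2
  have h3 := h50_lip hy (h50_im_le_norm hξ) (h50_im_le_norm hz)
  have ee : phi w h ξ - (ξ + ((w h - w 0 : ℝ) : ℂ) - 2 * (h : ℂ) / ξ) =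
      (h : ℂ) * (2 / ξ - 2 / phi w h ξ) -
        (ξ - (phi w h ξ - ((w h - w 0 : ℝ) : ℂ) + 2 * (h : ℂ) / phi w h ξ)) := by ring
  rw [ee]
  refine (norm_sub_le _ _).trans ?_
  rw [norm_mul, Complex.norm_real, Real.norm_eq_abs, abs_of_nonneg h0]
  have h4 : ‖2 / ξ - 2 / phi w h ξ‖ ≤ 2 / y ^ 2 * (2 * e) :=
    h3.trans (mul_le_mul_of_nonneg_left h2 (by positivity))
  have h5 : h * ‖2 / ξ - 2 / phi w h ξ‖ ≤ e ^ 2 * (2 / y ^ 2 * (2 * e)) :=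
    mul_le_mul hh h4 (norm_nonneg _) (by positivity)
  have h6 : e ^ 2 * (2 / y ^ 2 * (2 * e)) = 4 / y ^ 2 * e ^ 3 := by ring
  linarith

private theorem h62_norm {y : ℝ} {ζ : ℂ} (h : ζ ∈ Hy y) : y ≤ ‖ζ‖ :=
  le_trans h ((le_abs_self _).trans (Complex.abs_im_le_norm ζ))

/-- Time integrals of a smooth function of the inverse of a flowing point. -/
private theorem h62_int {F : Type*} [NormedAddCommGroup F] [NormedSpace ℝ F] [CompleteSpace F]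
    {y : ℝ} (hy : 0 < y) (φ : ℂ → F) (hφ : ContDiff ℝ 1 φ) :
    ∃ C e0 : ℝ, 0 ≤ C ∧ 0 < e0 ∧ ∀ ζ ∈ Hy y, ‖φ ζ⁻¹‖ ≤ C ∧
      ∀ (w : Path) (h e : ℝ), e ≤ e0 → Small w h e → ζ ∈ dom w h ∧
        ‖(∫ s in (0 : ℝ)..h, φ (Zf w s ζ)⁻¹) - h • φ ζ⁻¹‖ ≤ C * e ^ 3 := by
  have hK := isCompact_closedBall (0 : ℂ) (y / 2)⁻¹
  obtain ⟨L, hL⟩ := hφ.contDiffOn.exists_lipschitzOnWith one_ne_zero (convex_closedBall _ _) hK
  obtain ⟨M, hM⟩ := hK.exists_bound_of_continuousOn hφ.continuous.continuousOn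
  obtain ⟨e0, he0, -, ha⟩ := alive_small' hy
  have hy2 : 0 < y / 2 := half_pos hy
  have hsub : Hy y ⊆ Hy (y / 2) := fun ζ hζ => le_trans (by linarith : y / 2 ≤ y) hζ
  have hin : ∀ ζ ∈ Hy (y / 2), ζ⁻¹ ∈ closedBall (0 : ℂ) (y / 2)⁻¹ := fun ζ hζ => by
    rw [mem_closedBall_zero_iff, norm_inv]; exact inv_anti₀ hy2 (h62_norm hζ)
  have hL0 : (0 : ℝ) ≤ L := L.2
  refine ⟨max M (2 * L / (y / 2) ^ 2), e0, le_max_of_le_right (by positivity), he0, fun ζ hζ =>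
    ⟨(hM _ (hin ζ (hsub hζ))).trans (le_max_left _ _), fun w h e he hs => ?_⟩⟩
  have h1 := ha ζ hζ w h e he hs
  obtain ⟨hh0, hh1, he1, -⟩ := hs
  have hd1 := (h1 h ⟨hh0, le_rfl⟩).1
  refine ⟨hd1, ?_⟩
  have hc : ContinuousOn (fun s => φ (Zf w s ζ)⁻¹) (uIcc 0 h) := by
    rw [uIcc_of_le hh0]
    exact hφ.continuous.comp_continuousOn ((continuousOn_Zf hh0 hd1).inv₀ fun s hs =>
      norm_pos_iff.1 (hy2.trans_le (h62_norm (h1 s hs).2.1)))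
  have e1 : (∫ s in (0 : ℝ)..h, φ (Zf w s ζ)⁻¹) - h • φ ζ⁻¹ =
      ∫ s in (0 : ℝ)..h, (φ (Zf w s ζ)⁻¹ - φ ζ⁻¹) := by
    rw [intervalIntegral.integral_sub hc.intervalIntegrable intervalIntegrable_const,
      intervalIntegral.integral_const, sub_zero]
  rw [e1]
  have h3 : ∀ s ∈ uIoc 0 h, ‖φ (Zf w s ζ)⁻¹ - φ ζ⁻¹‖ ≤ L * (1 / (y / 2) ^ 2 * (2 * e)) := by
    intro s hs
    rw [uIoc_of_le hh0] at hs
    have hs' : s ∈ Icc 0 h := ⟨hs.1.le, hs.2⟩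
    have h4 := hL.dist_le_mul _ (hin _ (h1 s hs').2.1) _ (hin _ (hsub hζ))
    rw [dist_eq_norm, dist_eq_norm] at h4
    refine h4.trans (mul_le_mul_of_nonneg_left ?_ hL0)
    have h5 := h50_lip hy2 (h62_norm (h1 s hs').2.1) (h62_norm (hsub hζ))
    rw [div_eq_mul_inv, div_eq_mul_inv (2 : ℂ), ← mul_sub, norm_mul, Complex.norm_two] at h5
    have h6 := mul_le_mul_of_nonneg_left (h1 s hs').2.2.1
      (by positivity : (0 : ℝ) ≤ 1 / (y / 2) ^ 2)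
    have h7 : 2 / (y / 2) ^ 2 = 2 * (1 / (y / 2) ^ 2) := by ring
    rw [h7] at h5
    linarith
  refine (intervalIntegral.norm_integral_le_of_norm_le_const h3).trans ?_
  rw [sub_zero, abs_of_nonneg hh0]
  calc L * (1 / (y / 2) ^ 2 * (2 * e)) * h ≤ L * (1 / (y / 2) ^ 2 * (2 * e)) * e ^ 2 :=
        mul_le_mul_of_nonneg_left hh1 (by positivity)
    _ = 2 * L / (y / 2) ^ 2 * e ^ 3 := by ring
    _ ≤ _ := mul_le_mul_of_nonneg_right (le_max_right _ _) (by positivity)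

/-- As `TE_A` in `T2.lean`, on the unbounded set (the same proof; all bounds use `‖ζ‖ ≥ y` only). -/
theorem TE_A' {y : ℝ} (hy : 0 < y) : TE (Hy y) (fun ζ w t => Real.log ‖Zf w t ζ‖) jA := by
  obtain ⟨C, e0, hC, he0, H1⟩ := h62_int hy (fun p : ℂ => 2 * p) (contDiff_const.mul contDiff_id)
  simp only [← div_eq_mul_inv] at H1
  obtain ⟨q, hq⟩ : ∃ q : ℝ, q = y⁻¹ := ⟨_, rfl⟩
  have hq0 : 0 < q := hq ▸ inv_pos.2 hy
  obtain ⟨D, hD⟩ : ∃ D : ℝ, D = 2 * q ^ 2 + C * q := ⟨_, rfl⟩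
  have hD0 : 0 ≤ D := by rw [hD]; positivity
  obtain ⟨A, hA⟩ : ∃ A : ℝ, A = (q + D) ^ 3 + (C * q + D * (2 * q + D)) := ⟨_, rfl⟩
  have hA0 : 0 ≤ A := by rw [hA]; positivity
  refine ⟨q + 2 * q ^ 2 + A, min (min e0 1) (1 / (2 * (q + D))), by positivity, fun ζ hζ => ?_⟩
  have hn : 0 < ‖ζ‖ := hy.trans_le (h62_norm hζ)
  have hne : ζ ≠ 0 := norm_pos_iff.1 hn
  have hpq : ‖ζ⁻¹‖ ≤ q := by
    rw [hq, norm_inv]; exact inv_anti₀ hy (h62_norm hζ)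
  have hp2 : ‖ζ⁻¹ ^ 2‖ ≤ q ^ 2 := by
    rw [norm_pow]; exact pow_le_pow_left₀ (norm_nonneg _) hpq 2
  have ea : (jA ζ).a = -ζ⁻¹.re := by
    simp only [jA, Complex.inv_re, Complex.normSq_eq_norm_sq]; ring
  have e2 : (ζ⁻¹ ^ 2).re = (ζ.re ^ 2 - ζ.im ^ 2) / ‖ζ‖ ^ 4 := by
    rw [sq, Complex.mul_re, Complex.inv_re, Complex.inv_im, Complex.normSq_eq_norm_sq]
    field_simp
  have eb : (jA ζ).b = -(ζ⁻¹ ^ 2).re := by rw [e2]; simp only [jA]; ring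
  have ec : (jA ζ).c = 2 * (ζ⁻¹ ^ 2).re := by rw [e2]; simp only [jA]; ring
  have b1 : |ζ⁻¹.re| ≤ q := (Complex.abs_re_le_norm _).trans hpq
  have b2 : |(ζ⁻¹ ^ 2).re| ≤ q ^ 2 := (Complex.abs_re_le_norm _).trans hp2
  have hq2 : 0 ≤ q ^ 2 := by positivity
  refine ⟨by rw [ea, abs_neg]; linarith, by rw [eb, abs_neg]; linarith,
    by rw [ec, abs_mul, abs_two]; linarith, fun w h e he hs => ?_⟩
  obtain ⟨hd, hE⟩ := (H1 ζ hζ).2 w h e (he.trans ((min_le_left _ _).trans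
    (min_le_left _ _))) hs
  obtain ⟨hh0, hh1, he1, hv⟩ := hs
  obtain ⟨hx1, hb⟩ := T2_alg hq0 hC hD hpq hE he1
    (he.trans ((min_le_left _ _).trans (min_le_right _ _))) (he.trans (min_le_right _ _))
    (hv h ⟨hh0, le_rfl⟩) hh0 hh1
  have hZ := Zf_eq hh0 hd
  beta_reduce at hx1 hb ⊢
  generalize (∫ s in (0 : ℝ)..h, 2 / Zf w s ζ) = I at hx1 hb hZ
  generalize w h - w 0 = v at hx1 hb hZ ⊢
  have hZ' : Zf w h ζ = ζ * (1 + (-v * ζ⁻¹ + (2 * h * ζ⁻¹ ^ 2 + (I - h • (2 / ζ)) * ζ⁻¹))) := by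
    rw [hZ, Complex.real_smul]
    field_simp
    ring
  have ev : (jA ζ).v = Real.log ‖ζ‖ := rfl
  rw [hZ', norm_mul, Real.log_mul hn.ne' (norm_ne_zero_iff.2 hx1), ea, eb, ec, ev]
  rw [← hA] at hb
  have h5 : 0 ≤ (q + 2 * q ^ 2) * e ^ 3 := by positivity
  refine le_trans (le_of_eq ?_) (hb.trans (by linarith))
  congr 1
  ring

/-- `im_Zf_eq`. -/
theorem TE_L' {y : ℝ} (hy : 0 < y) : TE (Hy y) (fun ζ w t => Real.log (Zf w t ζ).im) jL := by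
  obtain ⟨C, e0, hC, he0, H1⟩ := h62_int hy (fun p : ℂ => 2 * ‖p‖ ^ 2)
    (contDiff_const.mul (contDiff_norm_sq ℝ))
  simp only [norm_inv, inv_pow, ← div_eq_mul_inv] at H1
  refine ⟨C, e0, he0, fun ζ hζ => ⟨by simpa [jL] using hC, by simpa [jL] using hC, ?_,
    fun w h e he hs => ?_⟩⟩
  · have := (H1 ζ hζ).1
    rwa [Real.norm_eq_abs, ← abs_neg, ← neg_div] at this
  · obtain ⟨hd, hE⟩ := (H1 ζ hζ).2 w h e he hs
    beta_reduce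
    rw [im_Zf_eq hs.1 hd, Real.log_mul (hy.trans_le hζ).ne' (Real.exp_pos _).ne', Real.log_exp]
    rw [Real.norm_eq_abs, ← abs_neg] at hE
    convert hE using 2
    simp only [jL, smul_eq_mul]
    ring

/-- `mm_eq`. -/
theorem TE_U' {y : ℝ} (hy : 0 < y) : TE (Hy y ×ˢ Ioi (0 : ℝ))
    (fun p w t => Real.log (p.2 * mm w t p.1)) (fun p => jU p.1 p.2) := by
  obtain ⟨C, e0, hC, he0, H1⟩ := h62_int hy (fun p : ℂ => 4 * p.im ^ 2)
    (contDiff_const.mul (Complex.imCLM.contDiff.pow 2))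
  have e4 : ∀ z : ℂ, 4 * z⁻¹.im ^ 2 = 4 * z.im ^ 2 / ‖z‖ ^ 4 := fun z => by
    rw [Complex.inv_im, Complex.normSq_eq_norm_sq]; ring
  simp only [e4] at H1
  refine ⟨C, e0, he0, fun p hp => ⟨by simpa [jU] using hC, by simpa [jU] using hC, ?_,
    fun w h e he hs => ?_⟩⟩
  · have := (H1 p.1 hp.1).1
    rwa [Real.norm_eq_abs, ← abs_neg, ← neg_div, ← neg_mul] at this
  · obtain ⟨hd, hE⟩ := (H1 p.1 hp.1).2 w h e he hs
    have hu : 0 < p.2 := hp.2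
    beta_reduce
    rw [mm_eq hs.1 hd, Real.log_mul hu.ne' (Real.exp_pos _).ne', Real.log_exp]
    rw [Real.norm_eq_abs, ← abs_neg] at hE
    convert hE using 2
    simp only [jU, smul_eq_mul]
    ring

end Crest.Agent.R162.E
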