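import Crest.Agent.R162.E1

/-! Row 162, block E: atoms. -/

set_option autoImplicit false
open MeasureTheory ProbabilityTheory Set Filter Topology Metric
open scoped ENNReal NNReal ComplexConjugate

namespace Crest.Agent.R162.E

private theorem h58_BC3_const (c : ℝ) : BC3 (fun _ => c) :=
  ⟨contDiff_const, |c|, fun x => by simp⟩

private theorem h58_BC3_k2 : BC3 k2 := by
  have h := (h58_BC3_const 1).add (BC3_st.const_mul (-1))
  convert h using 2 with x
  unfold k2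
  ring

private theorem h58_BC3_sigmoid : BC3 Real.sigmoid := by
  have d1 : deriv Real.sigmoid = fun x => Real.sigmoid x * (1 - Real.sigmoid x) :=
    funext fun x => (Real.hasDerivAt_sigmoid x).deriv
  have d2 : deriv (deriv Real.sigmoid) =
      fun x => Real.sigmoid x * (1 - Real.sigmoid x) * (1 - 2 * Real.sigmoid x) := by
    funext x
    rw [d1]
    have h := (Real.hasDerivAt_sigmoid x).mul ((Real.hasDerivAt_sigmoid x).const_sub 1)
    refine h.deriv.trans ?_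
    ring
  have d3 : deriv (deriv (deriv Real.sigmoid)) = fun x => Real.sigmoid x * (1 - Real.sigmoid x) *
      ((1 - 2 * Real.sigmoid x) ^ 2 - 2 * (Real.sigmoid x * (1 - Real.sigmoid x))) := by
    funext x
    rw [d2]
    have h := ((Real.hasDerivAt_sigmoid x).mul ((Real.hasDerivAt_sigmoid x).const_sub 1)).mul
      (((Real.hasDerivAt_sigmoid x).const_mul 2).const_sub 1)
    refine h.deriv.trans ?_
    simp only [Pi.mul_apply]
    ring
  refine ⟨contDiff_sigmoid.of_le (by exact_mod_cast le_top), 3, fun x => ?_⟩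
  rw [d3, d2, d1]
  dsimp only
  have h0 := Real.sigmoid_nonneg x
  have h1 := Real.sigmoid_le_one x
  generalize Real.sigmoid x = s at h0 h1 ⊢
  have a0 : 0 ≤ s * (1 - s) := mul_nonneg h0 (by linarith)
  have a1 : s * (1 - s) ≤ 1 := by nlinarith
  have a2 : |s * (1 - s)| ≤ 1 := by rwa [abs_of_nonneg a0]
  have a3 : |1 - 2 * s| ≤ 1 := abs_le.2 ⟨by linarith, by linarith⟩
  have a4 : |(1 - 2 * s) ^ 2 - 2 * (s * (1 - s))| ≤ 3 :=
    abs_le.2 ⟨by nlinarith [sq_nonneg (1 - 2 * s)], by nlinarith⟩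
  refine ⟨by rw [abs_of_nonneg h0]; linarith, by linarith, ?_, ?_⟩
  · rw [abs_mul]
    nlinarith [abs_nonneg (s * (1 - s)), abs_nonneg (1 - 2 * s)]
  · rw [abs_mul]
    nlinarith [abs_nonneg (s * (1 - s)), abs_nonneg ((1 - 2 * s) ^ 2 - 2 * (s * (1 - s)))]

private theorem h58_psi {u : ℝ} (hu : 0 < u) : Real.sigmoid (Real.log u) = psi u := by
  rw [Real.sigmoid_def, Real.exp_neg, Real.exp_log hu, psi]
  field_simp
  ring

private theorem h58_Sn {ζ : ℂ} (hζ : ζ ∈ H) (e : ℝ) :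
    Real.exp (e * (Real.log ζ.im + -1 * Real.log ‖ζ‖)) = Sn ζ ^ e := by
  have h1 : 0 < ζ.im := hζ
  have h2 : 0 < ‖ζ‖ := h1.trans_le ((le_abs_self _).trans (Complex.abs_im_le_norm ζ))
  rw [Real.rpow_def_of_pos (Sn_pos hζ), Sn, Real.log_div h1.ne' h2.ne']
  congr 1
  ring

/-- `S ^ e = exp (e (log im - log ‖·‖))`; `TE.comp` with `exp` (base values `≤ 0`, so all derivatives are
bounded by `exp 1` on the unit neighbourhood), `TE.comp_BC3`, `TE.mul`, `TE.congr`. -/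
theorem TE_atom {y : ℝ} (hy : 0 < y) {k : ℝ → ℝ} (hk : BC3 k) {e : ℝ} (he : 0 ≤ e) :
    TE (Hy y ×ˢ Ioi (0 : ℝ)) (fun p w t => atom k e 0 (Zf w t p.1) (p.2 * mm w t p.1))
      (fun p => jat k e p.1 p.2) := by
  have hH : ∀ p ∈ Hy y ×ˢ Ioi (0 : ℝ), p.1 ∈ H := fun p hp => lt_of_lt_of_le hy hp.1
  have A := (TE_A' hy).reindex (I' := Hy y ×ˢ Ioi (0 : ℝ)) Prod.fst fun p hp => hp.1
  have L := (TE_L' hy).reindex (I' := Hy y ×ˢ Ioi (0 : ℝ)) Prod.fst fun p hp => hp.1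
  have E := (L.add (A.smul (fun _ => -1) (M := 1) fun _ _ => by simp)).smul (fun _ => e)
    (M := |e|) fun _ _ => le_rfl
  have hS : ∀ p ∈ Hy y ×ˢ Ioi (0 : ℝ), Sn p.1 ^ e ≤ 1 := fun p hp =>
    Real.rpow_le_one (Sn_pos (hH p hp)).le (Sn_le_one _) he
  have X := E.comp (fun _ => Real.exp) (M := Real.exp 1) one_pos fun p hp =>
    ⟨Real.contDiff_exp.contDiffOn, fun x hx => by
      have h1 : e * (Real.log p.1.im + -1 * Real.log ‖p.1‖) ≤ 0 := by
        rw [← Real.exp_le_one_iff, h58_Sn (hH p hp)]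
        exact hS p hp
      have h2 : x < e * (Real.log p.1.im + -1 * Real.log ‖p.1‖) + 1 := hx.2
      have h3 : |Real.exp x| ≤ Real.exp 1 := by
        rw [abs_of_pos (Real.exp_pos x)]
        exact Real.exp_le_exp.2 (by linarith)
      simp only [Real.deriv_exp]
      exact ⟨h3, h3, h3⟩⟩
  obtain ⟨C, hC⟩ := hk.2
  have P := ((TE_U' hy).comp_BC3 hk).mul X (M := max C 1) fun p hp =>
    ⟨(hC _).1.trans (le_max_left _ _), by
      refine le_trans ?_ (le_max_right _ _)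
      change |Real.exp (e * (Real.log p.1.im + -1 * Real.log ‖p.1‖))| ≤ 1
      rw [abs_of_pos (Real.exp_pos _), h58_Sn (hH p hp)]
      exact hS p hp⟩
  obtain ⟨e0, he0, -, hal⟩ := alive_small' hy
  refine P.congr (fun p hp => ?_) he0 fun p hp w t ε hε hs => ?_
  · have h1 : 0 < p.1.im := hH p hp
    have h2 : 0 < ‖p.1‖ := h1.trans_le ((le_abs_self _).trans (Complex.abs_im_le_norm p.1))
    have h3 : ‖p.1‖ ^ 2 = p.1.re ^ 2 + p.1.im ^ 2 := by
      rw [Complex.sq_norm, Complex.normSq_apply]; ring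
    simp only [jat, Jet.mul, Jet.comp, Jet.add, Jet.smul, jU, jL, jA, Real.deriv_exp,
      h58_Sn (hH p hp), atom, Real.rpow_zero, mul_one, Jet.mk.injEq, true_and]
    refine ⟨by ring, by ring, ?_⟩
    have h4 : -2 / ‖p.1‖ ^ 2 = -2 * (p.1.re ^ 2 + p.1.im ^ 2) / ‖p.1‖ ^ 4 := by
      rw [← h3]; field_simp
    rw [h4]
    ring
  · have h1 := (hal p.1 hp.1 w t ε hε hs t ⟨hs.1, le_rfl⟩).2.1
    have h2 : Zf w t p.1 ∈ H := lt_of_lt_of_le (half_pos hy) h1
    simp only [atom, Real.rpow_zero, mul_one, h58_Sn h2]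

theorem TE_rho {y : ℝ} (hy : 0 < y) (m : ℝ) :
    TE (Hy y) (fun ζ w t => rho m (Zf w t ζ)) (jrho m) := by
  have P := ((TE_L' hy).add (TE.const _ fun _ => -Real.log m)).comp_BC3 BC3_st
  refine P.congr (fun ζ _ => ?_) one_pos fun _ _ _ _ _ _ _ => rfl
  simp [jrho, Jet.comp, Jet.add, Jet.const, jL, rho]

/-- `psi u = σ (log u)`, `σ x = exp x / (1 + exp x)` is `BC3` (`σ' = σ (1 - σ)`). -/
theorem TE_psi {y : ℝ} (hy : 0 < y) :
    TE (Hy y ×ˢ Ioi (0 : ℝ)) (fun p w t => psi (p.2 * mm w t p.1)) (fun p => jpsi p.1 p.2) := by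
  obtain ⟨e0, he0, -, hal⟩ := alive_small' hy
  refine ((TE_U' hy).comp_BC3 h58_BC3_sigmoid).congr (fun p hp => ?_) he0
    fun p hp w t ε hε hs => ?_
  · have h1 : 0 < p.2 := hp.2
    have h2 : psi p.2 * (1 - psi p.2) = p.2 / (1 + p.2) ^ 2 := by
      unfold psi
      field_simp
      ring
    simp only [jpsi, Jet.comp, jU, (Real.hasDerivAt_sigmoid _).deriv, h58_psi h1, h2,
      Jet.mk.injEq, true_and]
    refine ⟨by ring, by ring, by ring⟩
  · have h1 := (hal p.1 hp.1 w t ε hε hs t ⟨hs.1, le_rfl⟩).2.2.2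
    exact (h58_psi (mul_pos hp.2 (by linarith))).symm

theorem BC3_k1 {κ : ℝ} (hκ8 : κ < 8) (δ : ℝ) : BC3 (k1 κ δ) := by
  have h := ((BC3_st.affine (1 / 3) ((1 - Real.log δ) / 3)).mul (h58_BC3_k2.affine 1 1)).exp_mul
    (x0 := Real.log δ - 1) (b := ae κ) (by unfold ae dd; linarith) fun x hx => by
      rw [st, Real.smoothTransition.zero_of_nonpos (by linarith), zero_mul]
  convert h using 2 with x
  unfold k1 k2
  rw [one_mul, show 1 / 3 * x + (1 - Real.log δ) / 3 = (x - Real.log δ + 1) / 3 by ring]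

theorem BC3_k2 : BC3 k2 :=
  h58_BC3_k2

private lemma h17_norm_ne {ζ : ℂ} (hζ : ζ ∈ H) : ‖ζ‖ ≠ 0 := by
  intro h
  have h0 : ζ = 0 := norm_eq_zero.1 h
  have h1 : 0 < ζ.im := hζ
  rw [h0] at h1
  simp at h1

private lemma h17_log3 : 1 ≤ Real.log 3 := by
  rw [Real.le_log_iff_exp_le (by norm_num)]
  exact Real.exp_one_lt_three.le

theorem gen_jat (κ : ℝ) (k : ℝ → ℝ) (e : ℝ) {ζ : ℂ} (hζ : ζ ∈ H) (u : ℝ) :
    (jat k e ζ u).gen κ * ‖ζ‖ ^ 2 =
      atom k e 0 ζ u * Lam κ e (Sn ζ) - 4 * Sn ζ ^ 2 * (deriv k (Real.log u) * Sn ζ ^ e) := by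
  have hn : ‖ζ‖ ≠ 0 := h17_norm_ne hζ
  have hre : ζ.re ^ 2 = ‖ζ‖ ^ 2 - ζ.im ^ 2 := by
    rw [Complex.sq_norm, Complex.normSq_apply]; ring
  have hs : Sn ζ ^ 2 = ζ.im ^ 2 / ‖ζ‖ ^ 2 := by rw [Sn, div_pow]
  simp only [Jet.gen, jat, Lam]
  rw [hs, hre]
  generalize atom k e 0 ζ u = A
  generalize deriv k (Real.log u) * Sn ζ ^ e = D
  field_simp
  ring

theorem abs_jat_a (k : ℝ → ℝ) {e : ℝ} (he : 0 ≤ e) {ζ : ℂ} (hζ : ζ ∈ H) (u : ℝ) :
    |(jat k e ζ u).a| * ‖ζ‖ ≤ e * |atom k e 0 ζ u| := by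
  have hn : 0 < ‖ζ‖ := lt_of_le_of_ne (norm_nonneg _) (h17_norm_ne hζ).symm
  show |e * atom k e 0 ζ u * ζ.re / ‖ζ‖ ^ 2| * ‖ζ‖ ≤ _
  rw [abs_div, abs_mul, abs_mul, abs_of_nonneg he, abs_of_pos (pow_pos hn 2)]
  have h1 : |ζ.re| ≤ ‖ζ‖ := Complex.abs_re_le_norm ζ
  have h2 : e * |atom k e 0 ζ u| * |ζ.re| / ‖ζ‖ ^ 2 * ‖ζ‖ =
      e * |atom k e 0 ζ u| * (|ζ.re| / ‖ζ‖) := by
    field_simp
  rw [h2]
  exact mul_le_of_le_one_right (by positivity) ((div_le_one hn).2 h1)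

theorem atom_eq (k : ℝ → ℝ) (e : ℝ) (ζ : ℂ) (u : ℝ) :
    atom k e 0 ζ u = k (Real.log u) * Sn ζ ^ e := by
  simp [atom]

theorem ae_eq (κ : ℝ) : ae κ = 1 - κ / 8 := by
  simp only [ae, dd]; ring

theorem ae_pos {κ : ℝ} (hκ8 : κ < 8) : 0 < ae κ := by
  rw [ae_eq]; linarith

theorem ae_lt_one {κ : ℝ} (hκ : 0 < κ) : ae κ < 1 := by
  rw [ae_eq]; linarith

theorem ae_lt_aa {κ : ℝ} (hκ : 0 < κ) (hκ8 : κ < 8) : ae κ < aa κ := by
  rw [ae_eq, aa, lt_sub_iff_add_lt, lt_div_iff₀ hκ]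
  nlinarith [mul_pos (sub_pos.2 hκ8) (sub_pos.2 hκ8)]

/-- The martingale identity. -/
theorem Lam_aa {κ : ℝ} (hκ : 0 < κ) (s : ℝ) : Lam κ (aa κ) s + 4 * ae κ * s ^ 2 = 0 := by
  rw [ae_eq]
  simp only [Lam, aa]
  field_simp
  ring

theorem Lam_eq {κ : ℝ} (hκ : 0 < κ) (e s : ℝ) :
    Lam κ e s = -(κ / 2 * e * (aa κ - e)) * (1 - s ^ 2) - κ / 2 * e * s ^ 2 := by
  simp only [Lam, aa]
  field_simp
  ring

theorem rho_nonneg (m : ℝ) (ζ : ℂ) : 0 ≤ rho m ζ := by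
  exact Real.smoothTransition.nonneg _

theorem rho_le_one (m : ℝ) (ζ : ℂ) : rho m ζ ≤ 1 := by
  exact Real.smoothTransition.le_one _

theorem rho_eq_zero {m : ℝ} {ζ : ℂ} (hζ : ζ ∈ H) (h : ζ.im ≤ m) :
    rho m ζ = 0 ∧ (jrho m ζ).c = 0 := by
  have h1 : 0 < ζ.im := hζ
  have h2 : Real.log ζ.im + -Real.log m ≤ 0 := by
    have := Real.log_le_log h1 h
    linarith
  have h3 : st (Real.log ζ.im + -Real.log m) = 0 := Real.smoothTransition.zero_of_nonpos h2
  refine ⟨h3, ?_⟩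
  have h4 : IsLocalMin st (Real.log ζ.im + -Real.log m) :=
    Filter.Eventually.of_forall fun x => by
      rw [h3]; exact Real.smoothTransition.nonneg x
  show deriv st (Real.log ζ.im + -Real.log m) * (-2 / ‖ζ‖ ^ 2) = 0
  rw [h4.deriv_eq_zero, zero_mul]

theorem rho_eq_one {m : ℝ} (hm : 0 < m) {ζ : ℂ} (h : 3 * m ≤ ζ.im) : rho m ζ = 1 := by
  refine Real.smoothTransition.one_of_one_le ?_
  have h1 := Real.log_le_log (by positivity) h
  rw [Real.log_mul (by norm_num) hm.ne'] at h1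
  linarith [h17_log3]

theorem jrho_c_nonpos (m : ℝ) (ζ : ℂ) : (jrho m ζ).c ≤ 0 := by
  show deriv st (Real.log ζ.im + -Real.log m) * (-2 / ‖ζ‖ ^ 2) ≤ 0
  refine mul_nonpos_of_nonneg_of_nonpos Real.smoothTransition.monotone.deriv_nonneg ?_
  exact div_nonpos_of_nonpos_of_nonneg (by norm_num) (by positivity)

theorem Wv_pos (f : ℂ → ℂ) (ζ : ℂ) : 0 < Wv f ζ := by
  unfold Wv; positivity

theorem Wv_le_one (f : ℂ → ℂ) (ζ : ℂ) : Wv f ζ ≤ 1 := by
  unfold Wv
  exact inv_le_one_of_one_le₀ (le_add_of_nonneg_right (by positivity))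

theorem one_sub_Wv (f : ℂ → ℂ) (ζ : ℂ) : 1 - Wv f ζ = ‖Gv f ζ‖ ^ 2 * Wv f ζ := by
  unfold Wv
  have : (1 + ‖Gv f ζ‖ ^ 2) ≠ 0 := by positivity
  field_simp
  ring

theorem k2_nonneg (x : ℝ) : 0 ≤ k2 x := by
  exact sub_nonneg.2 (Real.smoothTransition.le_one _)

theorem k2_le_one (x : ℝ) : k2 x ≤ 1 := by
  exact sub_le_self _ (Real.smoothTransition.nonneg _)

theorem k2_eq_zero {u : ℝ} (hu : 3 ≤ u) : k2 (Real.log u) = 0 := by
  have h1 : 1 ≤ Real.log u := h17_log3.trans (Real.log_le_log (by norm_num) hu)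
  show 1 - st (Real.log u) = 0
  rw [show st (Real.log u) = 1 from Real.smoothTransition.one_of_one_le h1, sub_self]

theorem k1_nonneg (κ δ x : ℝ) : 0 ≤ k1 κ δ x := by
  exact mul_nonneg (Real.exp_pos _).le (mul_nonneg (Real.smoothTransition.nonneg _)
    (sub_nonneg.2 (Real.smoothTransition.le_one _)))

/-- `k1` vanishes for `u ≥ 1`, where `k2 = 1` for `u ≤ 1`. -/
theorem k1_le (κ δ : ℝ) {u : ℝ} (hu : 0 < u) :
    k1 κ δ (Real.log u) ≤ k2 (Real.log u) * u ^ (-ae κ) := by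
  have h1 : u ^ (-ae κ) = Real.exp (-ae κ * Real.log u) := by
    rw [Real.rpow_def_of_pos hu, mul_comm]
  rw [h1, mul_comm (k2 _)]
  refine mul_le_mul_of_nonneg_left ?_ (Real.exp_pos _).le
  have h2 : st (Real.log u) ≤ st (Real.log u + 1) :=
    Real.smoothTransition.monotone (by linarith)
  calc st ((Real.log u - Real.log δ + 1) / 3) * (1 - st (Real.log u + 1))
      ≤ 1 - st (Real.log u + 1) :=
        mul_le_of_le_one_left (sub_nonneg.2 (Real.smoothTransition.le_one _))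
          (Real.smoothTransition.le_one _)
    _ ≤ k2 (Real.log u) := by unfold k2; linarith

/-- `k1` vanishes for `u ≤ δ / 3`. -/
theorem k1_le_const {κ : ℝ} (hκ8 : κ < 8) {δ : ℝ} (hδ : 0 < δ) (x : ℝ) :
    k1 κ δ x ≤ (δ / 3) ^ (-ae κ) := by
  have ha := ae_pos hκ8
  rcases le_or_gt ((x - Real.log δ + 1) / 3) 0 with h | h
  · have h1 : st ((x - Real.log δ + 1) / 3) = 0 := Real.smoothTransition.zero_of_nonpos h
    unfold k1
    rw [h1, zero_mul, mul_zero]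
    positivity
  · have h1 : Real.log (δ / 3) ≤ x := by
      rw [Real.log_div hδ.ne' (by norm_num)]
      linarith [h17_log3]
    have h2 : (δ / 3) ^ (-ae κ) = Real.exp (-ae κ * Real.log (δ / 3)) := by
      rw [Real.rpow_def_of_pos (by positivity), mul_comm]
    rw [h2]
    calc k1 κ δ x ≤ Real.exp (-ae κ * x) := by
          refine mul_le_of_le_one_right (Real.exp_pos _).le ?_
          exact mul_le_one₀ (Real.smoothTransition.le_one _)
            (sub_nonneg.2 (Real.smoothTransition.le_one _))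
            (sub_le_self _ (Real.smoothTransition.nonneg _))
      _ ≤ _ := Real.exp_le_exp.2 (by nlinarith)

theorem h85_frac_ge {u : ℝ} (hu : 0 < u) (h1 : -1 ≤ Real.log u) (h2 : Real.log u ≤ 1) :
    1 / 48 ≤ u / (1 + u) ^ 2 := by
  have he : Real.exp 1 ≤ 3 := (Real.exp_one_lt_d9.trans (by norm_num)).le
  have a1 : u ≤ 3 := by
    rw [← Real.exp_log hu]
    exact (Real.exp_le_exp.mpr h2).trans he
  have a2 : 1 ≤ 3 * u := by
    have b1 : Real.exp (-1) ≤ u := by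
      rw [← Real.exp_log hu]
      exact Real.exp_le_exp.mpr h1
    have b2 : Real.exp (-1) * Real.exp 1 = 1 := by rw [← Real.exp_add]; simp
    have b3 := Real.exp_pos (-1)
    nlinarith
  rw [div_le_div_iff₀ (by norm_num) (by positivity)]
  nlinarith

theorem h85_st_hasDerivAt (x : ℝ) : HasDerivAt st (deriv st x) x :=
  ((Real.smoothTransition.contDiff (n := 1)).differentiable (by norm_num) x).hasDerivAt

theorem h85_st_drop : ∃ C : ℝ, 0 ≤ C ∧ ∀ u s : ℝ, 0 < u → (s = 0 ∨ s = 1) →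
    deriv st (Real.log u + s) ≤ C * (u / (1 + u) ^ 2) ∧
      (deriv st (Real.log u + s) = 0 ∨ -1 ≤ Real.log u) := by
  obtain ⟨M, hM⟩ := BC3_st.2
  have hM0 : 0 ≤ M := (abs_nonneg _).trans (hM 0).1
  refine ⟨48 * M, by positivity, fun u s hu hs => ?_⟩
  by_cases h : Real.log u + s ≤ 0 ∨ 1 ≤ Real.log u + s
  · rw [(st_deriv_eq_zero h).1]
    exact ⟨by positivity, Or.inl rfl⟩
  · rw [not_or, not_le, not_le] at h
    have h1 : -1 ≤ Real.log u := by rcases hs with rfl | rfl <;> linarith [h.1]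
    have h2 : Real.log u ≤ 1 := by rcases hs with rfl | rfl <;> linarith [h.2]
    have h3 := mul_le_mul_of_nonneg_left (h85_frac_ge hu h1 h2) hM0
    have h4 := (le_abs_self _).trans (hM (Real.log u + s)).2.1
    exact ⟨by linarith, Or.inr h1⟩

open Classical in
/-- `k1' = -a k1 + e^{-a x} (J' j₂ + J j₂')`, `J' ≥ c` on `[log δ, log 3δ]` (`st_deriv_pos`, compactness of
`[1/3, 7/10]`), `j₂ = 1` there, `j₂' ≠ 0` only for `u ∈ [1/e, 1]`, where `u/(1+u)² ≥ 1/6`. -/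
theorem deriv_k1_ge {κ : ℝ} (hκ : 0 < κ) (hκ8 : κ < 8) : ∃ c C : ℝ, 0 < c ∧ 0 ≤ C ∧
    ∀ δ u : ℝ, 0 < δ → δ ≤ 1 / 10 → 0 < u →
      -ae κ * k1 κ δ (Real.log u) + c * (if δ ≤ u ∧ u ≤ 3 * δ then δ ^ (dd κ - 2) else 0) -
        C * (u / (1 + u) ^ 2) ≤ deriv (k1 κ δ) (Real.log u) := by
  have ha : 0 < ae κ := ae_pos hκ8
  obtain ⟨C, hC0, hC⟩ := h85_st_drop
  have hcont : Continuous (deriv st) := BC3_deriv_st.1.continuous
  obtain ⟨x0, hx0, hmin⟩ := (isCompact_Icc (a := (1 / 3 : ℝ)) (b := 5 / 6)).exists_isMinOn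
    ⟨1 / 3, le_rfl, by norm_num⟩ hcont.continuousOn
  have hc0 : 0 < deriv st x0 := st_deriv_pos (by linarith [hx0.1]) (by linarith [hx0.2])
  refine ⟨Real.exp (-ae κ * (3 / 2)) * (deriv st x0 / 3), Real.exp (ae κ) * C, by positivity,
    by positivity, fun δ u hδ hδ1 hu => ?_⟩
  obtain ⟨x, hx⟩ : ∃ x, x = Real.log u := ⟨_, rfl⟩
  have d1 : HasDerivAt (fun x : ℝ => Real.exp (-ae κ * x)) (Real.exp (-ae κ * x) * (-ae κ * 1)) x :=
    ((hasDerivAt_id x).const_mul (-ae κ)).exp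
  have d2 : HasDerivAt (fun x : ℝ => st ((x - Real.log δ + 1) / 3))
      (deriv st ((x - Real.log δ + 1) / 3) * (1 / 3)) x :=
    (h85_st_hasDerivAt _).comp x
      ((((hasDerivAt_id x).sub_const (Real.log δ)).add_const 1).div_const 3)
  have d3 : HasDerivAt (fun x : ℝ => 1 - st (x + 1)) (-(deriv st (x + 1) * 1)) x :=
    ((h85_st_hasDerivAt _).comp x ((hasDerivAt_id x).add_const 1)).const_sub 1
  have d4 : deriv (k1 κ δ) x = -ae κ * k1 κ δ x +
      Real.exp (-ae κ * x) * (deriv st ((x - Real.log δ + 1) / 3) / 3) * (1 - st (x + 1)) -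
      Real.exp (-ae κ * x) * st ((x - Real.log δ + 1) / 3) * deriv st (x + 1) := by
    have d5 : HasDerivAt (k1 κ δ) _ x := d1.mul (d2.mul d3)
    rw [d5.deriv]
    simp only [k1]
    ring
  have t1 : Real.exp (-ae κ * x) * st ((x - Real.log δ + 1) / 3) * deriv st (x + 1) ≤
      Real.exp (ae κ) * C * (u / (1 + u) ^ 2) := by
    obtain ⟨h1, h2⟩ := hC u 1 hu (Or.inr rfl)
    rw [← hx] at h1 h2
    rcases h2 with h2 | h2
    · rw [h2, mul_zero]; positivity
    · have b1 : Real.exp (-ae κ * x) ≤ Real.exp (ae κ) := Real.exp_le_exp.mpr (by nlinarith)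
      have b2 : Real.exp (-ae κ * x) * st ((x - Real.log δ + 1) / 3) ≤ Real.exp (ae κ) :=
        (mul_le_of_le_one_right (Real.exp_pos _).le (Real.smoothTransition.le_one _)).trans b1
      rw [mul_assoc (Real.exp (ae κ))]
      exact mul_le_mul b2 h1 (st_deriv_nonneg _) (Real.exp_pos _).le
  have t2 : Real.exp (-ae κ * (3 / 2)) * (deriv st x0 / 3) *
      (if δ ≤ u ∧ u ≤ 3 * δ then δ ^ (dd κ - 2) else 0) ≤
      Real.exp (-ae κ * x) * (deriv st ((x - Real.log δ + 1) / 3) / 3) * (1 - st (x + 1)) := by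
    split_ifs with h
    · have l1 : Real.log δ ≤ x := by rw [hx]; exact Real.log_le_log hδ h.1
      have l3 : Real.log 3 ≤ 3 / 2 := by
        rw [Real.log_le_iff_le_exp (by norm_num)]
        have := Real.quadratic_le_exp_of_nonneg (show (0 : ℝ) ≤ 3 / 2 by norm_num)
        linarith
      have l2 : x ≤ Real.log δ + 3 / 2 := by
        have b1 := Real.log_le_log hu h.2
        rw [Real.log_mul (by norm_num) hδ.ne', ← hx] at b1
        linarith
      have l4 : x + 1 ≤ 0 := by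
        have b1 : Real.log (u * Real.exp 1) ≤ 0 := by
          refine Real.log_nonpos (by positivity) ?_
          have he : Real.exp 1 ≤ 3 := (Real.exp_one_lt_d9.trans (by norm_num)).le
          have := mul_le_mul_of_nonneg_left he hu.le
          linarith [h.2]
        rwa [Real.log_mul hu.ne' (Real.exp_pos 1).ne', Real.log_exp, ← hx] at b1
      have b1 : deriv st x0 ≤ deriv st ((x - Real.log δ + 1) / 3) :=
        hmin (show (x - Real.log δ + 1) / 3 ∈ Icc (1 / 3 : ℝ) (5 / 6) from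
          ⟨by linarith, by linarith⟩)
      have b2 : Real.exp (-ae κ * (3 / 2)) * δ ^ (dd κ - 2) ≤ Real.exp (-ae κ * x) := by
        rw [Real.rpow_def_of_pos hδ, ← Real.exp_add]
        refine Real.exp_le_exp.mpr ?_
        have e : dd κ - 2 = -ae κ := by rw [ae]; ring
        rw [e]
        nlinarith
      have b3 : st (x + 1) = 0 := Real.smoothTransition.zero_of_nonpos l4
      rw [b3, sub_zero, mul_one, mul_right_comm]
      exact mul_le_mul b2 (by linarith) (by positivity) (Real.exp_pos _).le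
    · rw [mul_zero]
      exact mul_nonneg (mul_nonneg (Real.exp_pos _).le
        (div_nonneg (st_deriv_nonneg _) (by norm_num)))
        (sub_nonneg.mpr (Real.smoothTransition.le_one _))
  rw [← hx, d4]
  linarith

theorem deriv_k2_ge : ∃ C : ℝ, 0 ≤ C ∧ ∀ u : ℝ, 0 < u →
    -(C * (u / (1 + u) ^ 2)) ≤ deriv k2 (Real.log u) := by
  obtain ⟨C, hC0, hC⟩ := h85_st_drop
  refine ⟨C, hC0, fun u hu => ?_⟩
  have d1 : HasDerivAt k2 (-deriv st (Real.log u)) (Real.log u) :=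
    (h85_st_hasDerivAt _).const_sub 1
  have h1 := (hC u 0 hu (Or.inl rfl)).1
  rw [add_zero] at h1
  rw [d1.deriv]
  linarith

end Crest.Agent.R162.E
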