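import Crest.Agent.R162.EDefs

/-! Row 162, block E: geometry of the discount. -/

set_option autoImplicit false
open MeasureTheory ProbabilityTheory Set Filter Topology Metric
open scoped ENNReal NNReal ComplexConjugate

namespace Crest.Agent.R162.E

theorem top_mem {ζ : ℂ} (hζ : ζ ∈ H) : top ζ ∈ H := by
  have h : 0 < ζ.im := hζ
  have h2 : ζ.im ≤ ‖ζ‖ := (le_abs_self _).trans (Complex.abs_im_le_norm ζ)
  show 0 < (top ζ).im
  simp only [top, Complex.mul_im, Complex.ofReal_re, Complex.I_im, Complex.ofReal_im,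
    Complex.I_re]
  linarith

theorem top_im (ζ : ℂ) : (top ζ).im = ‖ζ‖ := by
  simp [top]

theorem top_re (ζ : ℂ) : (top ζ).re = 0 := by
  simp [top]

theorem norm_top (ζ : ℂ) : ‖top ζ‖ = ‖ζ‖ := by
  simp [top]

theorem Lv_pos {f : ℂ → ℂ} (hf : Univ f) {ζ : ℂ} (hζ : ζ ∈ H) : 0 < Lv f ζ := by
  exact hf.ups_pos (top_mem hζ)

theorem ctr_mem {r : ℝ} (hr : 0 < r) : ctr r ∈ H := by
  show 0 < (ctr r).im
  simp only [ctr, Complex.mul_im, Complex.ofReal_re, Complex.I_im, Complex.ofReal_im,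
    Complex.I_re]
  linarith

theorem h73_dist (Q : ℝ) : ∃ C : ℝ, 1 ≤ C ∧ ∀ f : ℂ → ℂ, Univ f → ∀ ζ ∈ H, ∀ ξ ∈ H,
    Qh ζ ξ ≤ Q → ups f ξ ≤ C * ups f ζ ∧ ups f ζ ≤ C * ups f ξ ∧
      ‖f ξ - f ζ‖ ≤ C * ups f ζ ∧ ‖f ξ - f ζ‖ ≤ C * ups f ξ := by
  obtain ⟨C, p, hC, -, h⟩ := distortion
  refine ⟨C * max Q 1 ^ p, one_le_mul_of_one_le_of_one_le hC (one_le_pow₀ (le_max_right _ _)),
    fun f hf ζ hζ ξ hξ hQ => ?_⟩
  have h4 := four_le_Qh hζ hξ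
  have hp : C * Qh ζ ξ ^ p ≤ C * max Q 1 ^ p :=
    mul_le_mul_of_nonneg_left (pow_le_pow_left₀ (by linarith) (hQ.trans (le_max_left _ _)) p)
      (by linarith)
  obtain ⟨a1, a2⟩ := h f hf ζ hζ ξ hξ
  obtain ⟨b1, b2⟩ := h f hf ξ hξ ζ hζ
  rw [Qh_comm ξ ζ] at b1 b2
  rw [norm_sub_rev] at b2
  have u1 := (hf.ups_pos hζ).le
  have u2 := (hf.ups_pos hξ).le
  exact ⟨a1.trans (mul_le_mul_of_nonneg_right hp u1), b1.trans (mul_le_mul_of_nonneg_right hp u2),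
    a2.trans (mul_le_mul_of_nonneg_right hp u1), b2.trans (mul_le_mul_of_nonneg_right hp u2)⟩

theorem h73_Qh_le {ζ ξ : ℂ} (hζ : ζ ∈ H) (hξ : ξ ∈ H) {Q : ℝ}
    (h : (‖ζ‖ + ‖ξ‖) ^ 2 ≤ Q * (ζ.im * ξ.im)) : Qh ζ ξ ≤ Q := by
  have h1 : 0 < ζ.im := hζ
  have h2 : 0 < ξ.im := hξ
  have h3 : ‖ζ - conj ξ‖ ≤ ‖ζ‖ + ‖ξ‖ := by
    simpa using norm_sub_le ζ (conj ξ)
  rw [Qh, div_le_iff₀ (mul_pos h1 h2)]
  exact (pow_le_pow_left₀ (norm_nonneg _) h3 2).trans h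

theorem h73_ctr_im (r : ℝ) : (ctr r).im = 3 / 2 * r := by
  simp only [ctr, Complex.mul_im, Complex.ofReal_re, Complex.I_im, Complex.ofReal_im,
    Complex.I_re]
  ring

theorem h73_norm_ctr {r : ℝ} (hr : 0 < r) : ‖ctr r‖ = 3 / 2 * r := by
  rw [ctr, norm_mul, Complex.norm_I, mul_one, Complex.norm_real, Real.norm_eq_abs,
    abs_of_pos (by positivity)]

/-- If `‖ζ - top ζ‖ ≥ ‖ζ‖/2` use `lower_growth` at `top ζ`; otherwise `Qh ζ (top ζ) ≤ 8` and `distortion`. -/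
theorem Lv_le : ∃ C : ℝ, 1 ≤ C ∧ ∀ f : ℂ → ℂ, Univ f → ∀ ζ ∈ H, ups f ζ ≤ 4 →
    1 + Lv f ζ ≤ C * (1 + ‖Gv f ζ‖) := by
  obtain ⟨C, hC, h⟩ := h73_dist 8
  obtain ⟨c, hc, hl⟩ := lower_growth
  have hc' : 0 < c⁻¹ := inv_pos.2 hc
  refine ⟨1 + 4 * C + c⁻¹, by linarith, fun f hf ζ hζ hu => ?_⟩
  have hG := norm_nonneg (Gv f ζ)
  by_cases hcase : (top ζ).im / 2 ≤ ‖ζ - top ζ‖
  · have h1 : c * Lv f ζ ≤ ‖Gv f ζ‖ := hl f hf _ (top_mem hζ) ζ hζ hcase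
    have h2 : Lv f ζ ≤ c⁻¹ * ‖Gv f ζ‖ := by
      rw [inv_mul_eq_div, le_div_iff₀ hc]; linarith
    nlinarith
  · push Not at hcase
    have h1 : |(ζ - top ζ).im| ≤ ‖ζ - top ζ‖ := Complex.abs_im_le_norm _
    rw [Complex.sub_im] at h1
    have h2 := (abs_le.1 h1).1
    rw [top_im] at hcase h2
    have hn := norm_nonneg ζ
    have hQ : Qh ζ (top ζ) ≤ 8 := by
      refine h73_Qh_le hζ (top_mem hζ) ?_
      rw [norm_top, top_im]
      nlinarith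
    have h3 : Lv f ζ ≤ C * ups f ζ := (h f hf ζ hζ _ (top_mem hζ) hQ).1
    have h4 : C * ups f ζ ≤ C * 4 := mul_le_mul_of_nonneg_left hu (by linarith)
    nlinarith

/-- `Qh ζ (top ζ) ≤ 4 / s`, `distortion` in both directions. -/
theorem Gv_le {s : ℝ} (hs : 0 < s) : ∃ C : ℝ, 1 ≤ C ∧ ∀ f : ℂ → ℂ, Univ f → ∀ ζ ∈ H, s ≤ Sn ζ →
    ‖Gv f ζ‖ ≤ C * Lv f ζ ∧ ‖Gv f ζ‖ ≤ C * ups f ζ := by
  obtain ⟨C, hC, h⟩ := h73_dist (4 / s)
  refine ⟨C, hC, fun f hf ζ hζ hS => ?_⟩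
  have h0 : 0 < ζ.im := hζ
  have h2 : ζ.im ≤ ‖ζ‖ := (le_abs_self _).trans (Complex.abs_im_le_norm ζ)
  have hn : 0 < ‖ζ‖ := h0.trans_le h2
  rw [Sn, le_div_iff₀ hn] at hS
  have hQ : Qh (top ζ) ζ ≤ 4 / s := by
    refine h73_Qh_le (top_mem hζ) hζ ?_
    rw [norm_top, top_im, div_mul_eq_mul_div, le_div_iff₀ hs]
    nlinarith
  obtain ⟨-, -, a, b⟩ := h f hf _ (top_mem hζ) ζ hζ hQ
  exact ⟨a, b⟩

/-- `Qh (top ζ) (ctr r) ≤ 9` for `ζ ∈ Ann r`. -/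
theorem window_top : ∃ C : ℝ, 1 ≤ C ∧ ∀ f : ℂ → ℂ, Univ f → ∀ r : ℝ, 0 < r → ∀ ζ ∈ Ann r,
    Lv f ζ ≤ C * ups f (ctr r) ∧ ups f (ctr r) ≤ C * Lv f ζ ∧
      ‖f (top ζ) - f (ctr r)‖ ≤ C * ups f (ctr r) := by
  obtain ⟨C, hC, h⟩ := h73_dist 9
  refine ⟨C, hC, fun f hf r hr ζ hζ => ?_⟩
  obtain ⟨h0, h1, h2⟩ := hζ
  have hQ : Qh (ctr r) (top ζ) ≤ 9 := by
    refine h73_Qh_le (ctr_mem hr) (top_mem h0) ?_
    rw [norm_top, top_im, h73_ctr_im, h73_norm_ctr hr]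
    nlinarith
  obtain ⟨a, b, c, -⟩ := h f hf _ (ctr_mem hr) _ (top_mem h0) hQ
  exact ⟨a, b, c⟩

theorem window_bulk : ∃ C : ℝ, 1 ≤ C ∧ ∀ f : ℂ → ℂ, Univ f → ∀ r : ℝ, 0 < r →
    ∀ ζ ∈ ball (ctr r) (r / 4), ζ ∈ Ann r ∧ r ≤ ζ.im ∧ 1 / 2 ≤ Sn ζ ∧
      ups f ζ ≤ C * ups f (ctr r) ∧ ups f (ctr r) ≤ C * ups f ζ ∧
      ‖f ζ - f (ctr r)‖ ≤ C * ups f (ctr r) := by
  obtain ⟨C, hC, h⟩ := h73_dist 9
  refine ⟨C, hC, fun f hf r hr ζ hζ => ?_⟩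
  rw [mem_ball, dist_eq_norm] at hζ
  have h1 : |(ζ - ctr r).im| ≤ ‖ζ - ctr r‖ := Complex.abs_im_le_norm _
  rw [Complex.sub_im, h73_ctr_im] at h1
  have h2 := (abs_le.1 h1).1
  have h3 : ‖ζ‖ ≤ ‖ζ - ctr r‖ + ‖ctr r‖ := by
    simpa using norm_add_le (ζ - ctr r) (ctr r)
  rw [h73_norm_ctr hr] at h3
  have h4 : ζ.im ≤ ‖ζ‖ := (le_abs_self _).trans (Complex.abs_im_le_norm ζ)
  have h0 : 0 < ζ.im := by linarith
  have hn : 0 < ‖ζ‖ := h0.trans_le h4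
  have hQ : Qh (ctr r) ζ ≤ 9 := by
    refine h73_Qh_le (ctr_mem hr) h0 ?_
    rw [h73_ctr_im, h73_norm_ctr hr]
    nlinarith
  obtain ⟨a, b, c, -⟩ := h f hf _ (ctr_mem hr) ζ h0 hQ
  refine ⟨⟨h0, by linarith, by linarith⟩, by linarith, ?_, a, b, c⟩
  rw [Sn, le_div_iff₀ hn]
  linarith

private theorem h14_step {h h' : ℂ → ℂ} {r B : ℝ} {n : ℕ}
    (hd : ∀ z : ℂ, ‖z‖ ≤ r → HasDerivAt h (h' z) z) (h0 : h 0 = 0) (hB : 0 ≤ B)
    (hb : ∀ z : ℂ, ‖z‖ ≤ r → ‖h' z‖ ≤ B * ‖z‖ ^ n) :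
    ∀ z : ℂ, ‖z‖ ≤ r → ‖h z‖ ≤ B * ‖z‖ ^ (n + 1) := by
  intro z hz
  have hs : ∀ w ∈ closedBall (0 : ℂ) ‖z‖, ‖w‖ ≤ ‖z‖ := fun w hw => by simpa using hw
  have := Convex.norm_image_sub_le_of_norm_hasDerivWithin_le (f := h) (f' := h')
    (C := B * ‖z‖ ^ n) (s := closedBall (0 : ℂ) ‖z‖) (x := 0) (y := z)
    (fun w hw => (hd w ((hs w hw).trans hz)).hasDerivWithinAt)
    (fun w hw => (hb w ((hs w hw).trans hz)).trans (by have := hs w hw; gcongr))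
    (convex_closedBall _ _) (by simp) (by simp)
  rw [h0, sub_zero, sub_zero] at this
  rw [pow_succ, ← mul_assoc]
  exact this

/-- `‖f - f ξ‖ ≤ C ups` on `ball ξ (im ξ / 2)` (`distortion`), then Cauchy estimates (e.g.
`Complex.norm_deriv_le_of_forall_mem_sphere_norm_le` three times on shrinking discs, and the mean value
inequality three times; or the power series of `f` at `ξ`). -/
theorem taylor_top : ∃ C : ℝ, 1 ≤ C ∧ ∀ f : ℂ → ℂ, Univ f → ∀ ξ ∈ H,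
    ‖deriv (deriv f) ξ‖ * ξ.im ^ 2 ≤ C * ups f ξ ∧ ∀ z : ℂ, ‖z‖ ≤ ξ.im / 8 →
      ‖f (ξ + z) - f ξ - deriv f ξ * z - deriv (deriv f) ξ * z ^ 2 / 2‖ * ξ.im ^ 3 ≤
        C * ups f ξ * ‖z‖ ^ 3 := by
  obtain ⟨C, p0, hC, -, hdist⟩ := distortion
  have h13 : (1 : ℝ) ≤ 13 ^ p0 := one_le_pow₀ (by norm_num)
  refine ⟨384 * (C * 13 ^ p0), by nlinarith, fun f hf ξ hξ => ?_⟩
  have hy : 0 < ξ.im := hξ
  have hups : 0 ≤ ups f ξ := mul_nonneg hy.le (norm_nonneg _)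
  obtain ⟨M, hM⟩ : ∃ M : ℝ, M = C * 13 ^ p0 * ups f ξ := ⟨_, rfl⟩
  have hM0 : 0 ≤ M := by rw [hM]; positivity
  have hHo : IsOpen H := isOpen_lt continuous_const Complex.continuous_im
  have him : ∀ w : ℂ, ‖w - ξ‖ ≤ ξ.im / 2 → ξ.im / 2 ≤ w.im := fun w hw => by
    have h1 := (Complex.abs_im_le_norm (w - ξ)).trans hw
    rw [Complex.sub_im] at h1
    linarith [(abs_le.1 h1).1]
  have hmem : ∀ w : ℂ, ‖w - ξ‖ ≤ ξ.im / 2 → w ∈ H := fun w hw =>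
    show 0 < w.im by linarith [him w hw]
  have hbd : ∀ w : ℂ, ‖w - ξ‖ ≤ ξ.im / 2 → ‖f w - f ξ‖ ≤ M := fun w hw => by
    have h1 := (hdist f hf ξ hξ w (hmem w hw)).2
    have hwi := him w hw
    have h2 : ‖ξ - conj w‖ ≤ 5 / 2 * ξ.im := by
      have e : ξ - conj w = (ξ - conj ξ) - conj (w - ξ) := by rw [map_sub]; ring
      have e2 : ‖ξ - conj ξ‖ = 2 * ξ.im := by
        rw [Complex.sub_conj]
        simp [abs_of_pos hy]
      rw [e]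
      refine (norm_sub_le _ _).trans ?_
      rw [e2, Complex.norm_conj]
      linarith
    have hQ0 : 0 ≤ Qh ξ w := div_nonneg (sq_nonneg _) (mul_nonneg hy.le (by linarith))
    have hQ : Qh ξ w ≤ 13 := by
      unfold Qh
      rw [div_le_iff₀ (mul_pos hy (by linarith))]
      have h3 : ‖ξ - conj w‖ ^ 2 ≤ (5 / 2 * ξ.im) ^ 2 := pow_le_pow_left₀ (norm_nonneg _) h2 2
      nlinarith
    rw [hM]
    refine h1.trans ?_
    gcongr
  have hcau : ∀ (n : ℕ) (c : ℂ), ‖c - ξ‖ ≤ ξ.im / 4 →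
      ‖iteratedDeriv n (fun w => f w - f ξ) c‖ ≤ n.factorial * M / (ξ.im / 4) ^ n := by
    intro n c hc
    have hsub : ∀ w ∈ closedBall c (ξ.im / 4), ‖w - ξ‖ ≤ ξ.im / 2 := fun w hw => by
      have := norm_sub_le_norm_sub_add_norm_sub w c ξ
      rw [mem_closedBall, dist_eq_norm] at hw
      linarith
    refine Complex.norm_iteratedDeriv_le_of_forall_mem_sphere_norm_le n (by positivity) ?_
      fun w hw => hbd w (hsub w (sphere_subset_closedBall hw))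
    refine DifferentiableOn.diffContOnCl ?_
    rw [closure_ball _ (by positivity)]
    exact (hf.diff.mono fun w hw => hmem w (hsub w hw)).sub_const _
  have hd1 : deriv (fun w => f w - f ξ) = deriv f := by
    funext w; exact deriv_sub_const _
  have hi2 : iteratedDeriv 2 (fun w => f w - f ξ) = deriv (deriv f) := by
    rw [iteratedDeriv_succ', hd1, iteratedDeriv_one]
  have hi3 : iteratedDeriv 3 (fun w => f w - f ξ) = deriv (deriv (deriv f)) := by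
    rw [iteratedDeriv_succ, hi2]
  have ha0 : AnalyticOnNhd ℂ f H := hf.diff.analyticOnNhd hHo
  have ha1 : AnalyticOnNhd ℂ (deriv f) H := ha0.deriv
  have ha2 : AnalyticOnNhd ℂ (deriv (deriv f)) H := ha1.deriv
  have hsh : ∀ g : ℂ → ℂ, AnalyticOnNhd ℂ g H → ∀ z : ℂ, ‖z‖ ≤ ξ.im / 8 →
      HasDerivAt (fun z => g (ξ + z)) (deriv g (ξ + z)) z := fun g hg z hz =>
    (hg _ (hmem (ξ + z) (by rw [add_sub_cancel_left]; linarith))).differentiableAt.hasDerivAt.comp_const_add ξ z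
  constructor
  · have h := hcau 2 ξ (by rw [sub_self, norm_zero]; positivity)
    rw [hi2, le_div_iff₀ (by positivity)] at h
    have e : (384 : ℝ) * (C * 13 ^ p0) * ups f ξ = 384 * M := by rw [hM]; ring
    rw [e]
    norm_num [Nat.factorial] at h
    nlinarith
  · obtain ⟨B, hB⟩ : ∃ B : ℝ, B = 384 * M / ξ.im ^ 3 := ⟨_, rfl⟩
    have hB0 : 0 ≤ B := by rw [hB]; positivity
    have h3 : ∀ z : ℂ, ‖z‖ ≤ ξ.im / 8 → ‖deriv (deriv (deriv f)) (ξ + z)‖ ≤ B * ‖z‖ ^ 0 := by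
      intro z hz
      have h := hcau 3 (ξ + z) (by rw [add_sub_cancel_left]; linarith)
      rw [hi3] at h
      refine h.trans (le_of_eq ?_)
      rw [hB]
      norm_num [Nat.factorial]
      field_simp
      ring
    have h2 := h14_step (h := fun z => deriv (deriv f) (ξ + z) - deriv (deriv f) ξ)
      (fun z hz => (hsh _ ha2 z hz).sub_const _) (by simp) hB0 h3
    have h1 := h14_step
      (h := fun z => deriv f (ξ + z) - deriv f ξ - deriv (deriv f) ξ * z)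
      (h' := fun z => deriv (deriv f) (ξ + z) - deriv (deriv f) ξ)
      (fun z hz => by
        simpa using ((hsh _ ha1 z hz).sub_const (deriv f ξ)).fun_sub
          ((hasDerivAt_id z).const_mul (deriv (deriv f) ξ))) (by simp) hB0 h2
    have h0 := h14_step
      (h := fun z => f (ξ + z) - f ξ - deriv f ξ * z - deriv (deriv f) ξ * z ^ 2 / 2)
      (h' := fun z => deriv f (ξ + z) - deriv f ξ - deriv (deriv f) ξ * z)
      (fun z hz => by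
        have := (((hsh _ ha0 z hz).sub_const (f ξ)).fun_sub
          ((hasDerivAt_id z).const_mul (deriv f ξ))).fun_sub
          (((hasDerivAt_pow 2 z).const_mul (deriv (deriv f) ξ)).div_const 2)
        refine this.congr_deriv ?_
        norm_num
        ring) (by simp) hB0 h1
    intro z hz
    have h := h0 z hz
    have e : (384 : ℝ) * (C * 13 ^ p0) * ups f ξ * ‖z‖ ^ 3 = B * ‖z‖ ^ 3 * ξ.im ^ 3 := by
      rw [hB, hM]; field_simp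
    rw [e]
    exact mul_le_mul_of_nonneg_right h (by positivity)

end Crest.Agent.R162.E
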