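import Crest.Agent.R162.E1
import Crest.Agent.R162.E2a

/-! Row 162, block E: motion of the comparison point. -/

set_option autoImplicit false
open MeasureTheory ProbabilityTheory Set Filter Topology Metric
open scoped ENNReal NNReal ComplexConjugate

namespace Crest.Agent.R162.E

private theorem h15_norm_exp {r η : ℝ} (hr : 0 < r) (hη : η ≤ r / 2) {D : ℂ} (hD : ‖D‖ ≤ η) :
    |‖(r : ℂ) + D‖ - r - D.re - D.im ^ 2 / (2 * r)| ≤ η ^ 3 / r ^ 2 := by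
  set ρ := ‖(r : ℂ) + D‖ with hρ
  have hη0 : 0 ≤ η := (norm_nonneg _).trans hD
  have h1 : |D.re| ≤ η := (Complex.abs_re_le_norm D).trans hD
  have h2 : |D.im| ≤ η := (Complex.abs_im_le_norm D).trans hD
  have h3 : |ρ - r| ≤ η := by
    have := abs_norm_sub_norm_le ((r : ℂ) + D) (r : ℂ)
    rw [add_sub_cancel_left, Complex.norm_real, Real.norm_eq_abs, abs_of_pos hr] at this
    exact this.trans hD
  have h4 : ρ ^ 2 = (r + D.re) ^ 2 + D.im ^ 2 := by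
    rw [hρ, Complex.sq_norm, Complex.normSq_apply]
    simp only [Complex.add_re, Complex.ofReal_re, Complex.add_im, Complex.ofReal_im, zero_add]
    ring
  obtain ⟨h1a, h1b⟩ := abs_le.1 h1
  obtain ⟨h3a, h3b⟩ := abs_le.1 h3
  have h5 : r ≤ ρ + r + D.re := by linarith
  have h5' : 0 < ρ + r + D.re := hr.trans_le h5
  have e : ρ - r - D.re - D.im ^ 2 / (2 * r) =
      D.im ^ 2 * (r - ρ - D.re) / (2 * r * (ρ + r + D.re)) := by
    have h6 : D.im ^ 2 = (ρ - r - D.re) * (ρ + r + D.re) := by linarith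
    field_simp
    rw [h6]
    ring
  have h7 : D.im ^ 2 ≤ η ^ 2 := sq_le_sq' (abs_le.1 h2).1 (abs_le.1 h2).2
  have h8 : |r - ρ - D.re| ≤ 2 * η := abs_le.2 ⟨by linarith, by linarith⟩
  rw [e, abs_div, abs_mul, abs_of_nonneg (sq_nonneg D.im),
    abs_of_pos (by positivity : 0 < 2 * r * (ρ + r + D.re))]
  calc D.im ^ 2 * |r - ρ - D.re| / (2 * r * (ρ + r + D.re))
      ≤ η ^ 2 * (2 * η) / (2 * r * r) := by gcongr
    _ = η ^ 3 / r ^ 2 := by field_simp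

private theorem h15_real {y r ρ X Y v h e C p q a b : ℝ} (hy : 0 < y) (hr : y ≤ r) (hρ : y / 2 ≤ ρ)
    (hXY : r ^ 2 = X ^ 2 + Y ^ 2) (he : 0 < e) (he1 : e ≤ 1) (hv : |v| ≤ e) (hh0 : 0 ≤ h)
    (hh : h ≤ e ^ 2) (hC : 0 ≤ C) (ha : |a| ≤ C * e ^ 3) (hb : |b| ≤ C * e ^ 3)
    (hp : p = -v * X / r + 2 * h * (X ^ 2 - Y ^ 2) / r ^ 3 + a)
    (hq : q = v * Y / r - 4 * h * (X * Y) / r ^ 3 + b) (hq2 : |q| ≤ 2 * e) (hρr : |ρ - r| ≤ 2 * e)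
    (hexp : |ρ - r - p - q ^ 2 / (2 * r)| ≤ (2 * e) ^ 3 / r ^ 2) :
    |ρ - r + 2 * h / ρ - (-v * X / r + Y ^ 2 / r ^ 3 / 2 * v ^ 2 + 4 * X ^ 2 / r ^ 3 * h)| ≤
      (16 / y ^ 2 + C + 3 / (2 * y) * (2 / y + C)) * e ^ 3 := by
  have hr0 : 0 < r := hy.trans_le hr
  have hρ0 : 0 < ρ := lt_of_lt_of_le (by positivity) hρ
  have t1 : |ρ - r - p - q ^ 2 / (2 * r)| ≤ 8 / y ^ 2 * e ^ 3 := by
    refine hexp.trans ?_
    calc (2 * e) ^ 3 / r ^ 2 ≤ (2 * e) ^ 3 / y ^ 2 := by gcongr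
      _ = 8 / y ^ 2 * e ^ 3 := by ring
  have t2 : |2 * h / ρ - 2 * h / r| ≤ 8 / y ^ 2 * e ^ 3 := by
    have e1 : 2 * h / ρ - 2 * h / r = 2 * h * (r - ρ) / (ρ * r) := by field_simp
    rw [e1, abs_div, abs_mul, abs_of_nonneg (by positivity : 0 ≤ 2 * h),
      abs_of_pos (by positivity : 0 < ρ * r), abs_sub_comm]
    calc 2 * h * |ρ - r| / (ρ * r) ≤ 2 * e ^ 2 * (2 * e) / (y / 2 * y) := by gcongr
      _ = 8 / y ^ 2 * e ^ 3 := by field_simp; ring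
  have hY : |Y| ≤ r := abs_le_of_sq_le_sq' (by nlinarith [sq_nonneg X]) hr0.le |> abs_le.2
  have t3 : |v * Y / r| ≤ e := by
    rw [abs_div, abs_mul, abs_of_pos hr0, div_le_iff₀ hr0]
    exact mul_le_mul hv hY (abs_nonneg _) he.le
  have t4 : |4 * h * (X * Y) / r ^ 3| ≤ 2 / y * e ^ 2 := by
    have h1 : |X * Y| ≤ r ^ 2 / 2 :=
      abs_le.2 ⟨by nlinarith [sq_nonneg (X + Y)], by nlinarith [sq_nonneg (X - Y)]⟩
    rw [abs_div, abs_mul, abs_of_nonneg (by positivity : 0 ≤ 4 * h),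
      abs_of_pos (by positivity : 0 < r ^ 3)]
    calc 4 * h * |X * Y| / r ^ 3 ≤ 4 * e ^ 2 * (r ^ 2 / 2) / r ^ 3 := by gcongr
      _ = 2 / r * e ^ 2 := by field_simp; ring
      _ ≤ 2 / y * e ^ 2 := by gcongr
  have t5 : |q - v * Y / r| ≤ (2 / y + C) * e ^ 2 := by
    have e1 : q - v * Y / r = b - 4 * h * (X * Y) / r ^ 3 := by rw [hq]; ring
    have h1 : C * e ^ 3 ≤ C * e ^ 2 := by
      refine mul_le_mul_of_nonneg_left ?_ hC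
      nlinarith [sq_nonneg e]
    rw [e1]
    refine (abs_sub _ _).trans ?_
    linarith
  have t6 : |q ^ 2 / (2 * r) - Y ^ 2 / r ^ 3 / 2 * v ^ 2| ≤ 3 / (2 * y) * (2 / y + C) * e ^ 3 := by
    have e1 : q ^ 2 / (2 * r) - Y ^ 2 / r ^ 3 / 2 * v ^ 2 =
        (q - v * Y / r) * (q + v * Y / r) / (2 * r) := by field_simp; ring
    have h1 : |q + v * Y / r| ≤ 3 * e := (abs_add_le _ _).trans (by linarith)
    rw [e1, abs_div, abs_mul, abs_of_pos (by positivity : 0 < 2 * r)]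
    calc |q - v * Y / r| * |q + v * Y / r| / (2 * r)
        ≤ (2 / y + C) * e ^ 2 * (3 * e) / (2 * y) := by gcongr
      _ = 3 / (2 * y) * (2 / y + C) * e ^ 3 := by field_simp
  have e2 : 2 * h / r = 2 * h * (X ^ 2 + Y ^ 2) / r ^ 3 := by rw [← hXY]; field_simp
  have e3 : ρ - r + 2 * h / ρ - (-v * X / r + Y ^ 2 / r ^ 3 / 2 * v ^ 2 + 4 * X ^ 2 / r ^ 3 * h) =
      (ρ - r - p - q ^ 2 / (2 * r)) + (2 * h / ρ - 2 * h / r) +
        (q ^ 2 / (2 * r) - Y ^ 2 / r ^ 3 / 2 * v ^ 2) + a := by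
    rw [e2, hp]; ring
  obtain ⟨a1, a2⟩ := abs_le.1 t1
  obtain ⟨a3, a4⟩ := abs_le.1 t2
  obtain ⟨a5, a6⟩ := abs_le.1 t6
  obtain ⟨a7, a8⟩ := abs_le.1 ha
  have e4 : (16 / y ^ 2 + C + 3 / (2 * y) * (2 / y + C)) * e ^ 3 = 8 / y ^ 2 * e ^ 3 +
      8 / y ^ 2 * e ^ 3 + 3 / (2 * y) * (2 / y + C) * e ^ 3 + C * e ^ 3 := by ring
  rw [e3, e4]
  exact abs_le.2 ⟨by linarith, by linarith⟩

/-- `‖Z‖ = ‖ζ‖ exp (log ‖Z‖ - log ‖ζ‖)` has the jet `(r, -X/r, Y²/r³, 2(X²-Y²)/r³)` (from `Zf_exp` directly,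
or from `TE_A'`; note that `r` is unbounded, so expand `‖Z‖ - r = (‖Z‖² - r²)/(‖Z‖ + r)` or use the
scale invariant form), then `phi_exp` at `ξ = top Z ∈ Hy (y/2)`, `-2h/(iρ) = 2ih/ρ`. -/
theorem delta_exp {y : ℝ} (hy : 0 < y) : ∃ C e0 : ℝ, 0 ≤ C ∧ 0 < e0 ∧ ∀ ζ ∈ Hy y,
    ∀ (w : Path) (h e : ℝ), e ≤ e0 → Small w h e →
      ‖phi w h (top (Zf w h ζ)) - top ζ -
        (aX ζ * ((w h - w 0 : ℝ) : ℂ) + bX ζ / 2 * ((w h - w 0 : ℝ) : ℂ) ^ 2 + cX ζ * (h : ℂ))‖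
          ≤ C * e ^ 3 := by
  obtain ⟨e1, he1, he1y, hal⟩ := alive_small' hy
  obtain ⟨C1, e2, hC1, he2, hZ⟩ := Zf_exp hy
  obtain ⟨C2, e3, hC2, he3, hφ⟩ := phi_exp (half_pos hy)
  refine ⟨C2 + (16 / y ^ 2 + C1 + 3 / (2 * y) * (2 / y + C1)), min (min e1 e2) (min e3 1),
    by positivity, by positivity, fun ζ hζ w h e he hs => ?_⟩
  have he_1 : e ≤ e1 := he.trans ((min_le_left _ _).trans (min_le_left _ _))
  have he_2 : e ≤ e2 := he.trans ((min_le_left _ _).trans (min_le_right _ _))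
  have he_3 : e ≤ e3 := he.trans ((min_le_right _ _).trans (min_le_left _ _))
  have he_4 : e ≤ 1 := he.trans ((min_le_right _ _).trans (min_le_right _ _))
  obtain ⟨-, hZy, hZd, -⟩ := hal ζ hζ w h e he_1 hs h ⟨hs.1, le_rfl⟩
  have hE := hZ ζ hζ w h e he_2 hs
  set Z := Zf w h ζ with hZdef
  set v : ℝ := w h - w 0 with hv
  have hρ : y / 2 ≤ ‖Z‖ := le_trans hZy ((le_abs_self _).trans (Complex.abs_im_le_norm Z))
  have hr : y ≤ ‖ζ‖ := le_trans hζ ((le_abs_self _).trans (Complex.abs_im_le_norm ζ))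
  have hP := hφ (top Z) (by change y / 2 ≤ (top Z).im; rw [top_im]; exact hρ) w h e he_3 hs
  set r := ‖ζ‖ with hrdef
  set ρ := ‖Z‖ with hρdef
  have hr0 : 0 < r := hy.trans_le hr
  have hρ0 : 0 < ρ := lt_of_lt_of_le (by positivity) hρ
  have hrc : (r : ℂ) ≠ 0 := by exact_mod_cast hr0.ne'
  have hρc : (ρ : ℂ) ≠ 0 := by exact_mod_cast hρ0.ne'
  have hζ0 : ζ ≠ 0 := norm_pos_iff.1 hr0
  have hmul : ζ * conj ζ = (r : ℂ) ^ 2 := by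
    rw [Complex.mul_conj, Complex.normSq_eq_norm_sq]; push_cast; rfl
  have hXY : r ^ 2 = ζ.re ^ 2 + ζ.im ^ 2 := by
    rw [hrdef, Complex.sq_norm, Complex.normSq_apply]; ring
  set u : ℂ := conj ζ / r with hu
  have hun : ‖u‖ = 1 := by
    rw [hu, norm_div, Complex.norm_conj, Complex.norm_real, Real.norm_eq_abs, abs_of_pos hr0]
    exact div_self hr0.ne'
  set ε : ℂ := Z - (ζ - (v : ℂ) + 2 * (h : ℂ) / ζ) with hε
  set D : ℂ := (Z - ζ) * u with hD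
  have hDn : ‖D‖ ≤ 2 * e := by rw [hD, norm_mul, hun, mul_one]; exact hZd
  have hEn : ‖ε * u‖ ≤ C1 * e ^ 3 := by rw [norm_mul, hun, mul_one]; exact hE
  have hW : ‖(r : ℂ) + D‖ = ρ := by
    have : (r : ℂ) + D = Z * u := by
      rw [hD, hu]
      field_simp
      rw [← hmul]
      ring
    rw [this, norm_mul, hun, mul_one]
  have hconj : conj ζ = (r : ℂ) ^ 2 / ζ := by rw [← hmul]; field_simp
  have hDe : D = ((-v / r : ℝ) : ℂ) * conj ζ + ((2 * h / r ^ 3 : ℝ) : ℂ) * (conj ζ * conj ζ) +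
      ε * u := by
    rw [hD, hε, hu, hconj]
    push_cast
    field_simp
    ring
  have hp : D.re = -v * ζ.re / r + 2 * h * (ζ.re ^ 2 - ζ.im ^ 2) / r ^ 3 + (ε * u).re := by
    rw [hDe, Complex.add_re, Complex.add_re, Complex.re_ofReal_mul, Complex.re_ofReal_mul,
      Complex.mul_re (conj ζ), Complex.conj_re, Complex.conj_im]
    ring
  have hq : D.im = v * ζ.im / r - 4 * h * (ζ.re * ζ.im) / r ^ 3 + (ε * u).im := by
    rw [hDe, Complex.add_im, Complex.add_im, Complex.im_ofReal_mul, Complex.im_ofReal_mul,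
      Complex.mul_im (conj ζ), Complex.conj_re, Complex.conj_im]
    ring
  have hexp := h15_norm_exp hr0 (η := 2 * e) (by linarith) hDn
  rw [hW] at hexp
  have hA := h15_real hy hr hρ hXY hs.2.2.1 he_4 (hs.2.2.2 h ⟨hs.1, le_rfl⟩) hs.1 hs.2.1 hC1
    ((Complex.abs_re_le_norm _).trans hEn) ((Complex.abs_im_le_norm _).trans hEn) hp hq
    ((Complex.abs_im_le_norm _).trans hDn) ((abs_norm_sub_norm_le Z ζ).trans hZd) hexp
  have e : phi w h (top Z) - top ζ -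
      (aX ζ * (v : ℂ) + bX ζ / 2 * (v : ℂ) ^ 2 + cX ζ * (h : ℂ)) =
      (phi w h (top Z) - (top Z + (v : ℂ) - 2 * (h : ℂ) / top Z)) +
        ((ρ - r + 2 * h / ρ - (-v * ζ.re / r + ζ.im ^ 2 / r ^ 3 / 2 * v ^ 2 +
          4 * ζ.re ^ 2 / r ^ 3 * h) : ℝ) : ℂ) * Complex.I := by
    have h1 : 2 * (h : ℂ) / ((ρ : ℂ) * Complex.I) = -(2 * (h : ℂ) / ρ * Complex.I) := by
      field_simp
      rw [Complex.I_sq]
      ring
    unfold aX bX cX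
    rw [show top Z = (ρ : ℂ) * Complex.I from rfl, show top ζ = (r : ℂ) * Complex.I from rfl, h1,
      ← hrdef]
    push_cast
    ring
  rw [e, add_mul]
  refine (norm_add_le _ _).trans (add_le_add hP ?_)
  rw [norm_mul, Complex.norm_I, mul_one, Complex.norm_real, Real.norm_eq_abs]
  exact hA

theorem norm_aX_le (ζ : ℂ) : ‖aX ζ‖ ≤ 2 := by
  refine (norm_sub_le _ _).trans ?_
  rw [norm_one, norm_mul, Complex.norm_I, mul_one, Complex.norm_real, Real.norm_eq_abs, abs_div,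
    abs_norm]
  linarith [div_le_one_of_le₀ (Complex.abs_re_le_norm ζ) (norm_nonneg ζ)]

theorem norm_bX_le (ζ : ℂ) : ‖bX ζ‖ * ‖ζ‖ ≤ 1 := by
  rw [bX, norm_mul, Complex.norm_I, mul_one, Complex.norm_real, Real.norm_of_nonneg (by positivity)]
  rcases (norm_nonneg ζ).eq_or_lt with h | h
  · rw [← h]
    simp
  · have h1 : ζ.im ^ 2 ≤ ‖ζ‖ ^ 2 := sq_le_sq' (abs_le.1 (Complex.abs_im_le_norm ζ)).1
      (abs_le.1 (Complex.abs_im_le_norm ζ)).2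
    rw [div_mul_eq_mul_div, div_le_iff₀ (by positivity)]
    nlinarith

theorem norm_cX_le (ζ : ℂ) : ‖cX ζ‖ * ‖ζ‖ ≤ 4 := by
  rw [cX, norm_mul, Complex.norm_I, mul_one, Complex.norm_real, Real.norm_of_nonneg (by positivity)]
  rcases (norm_nonneg ζ).eq_or_lt with h | h
  · rw [← h]
    simp
  · have h1 : ζ.re ^ 2 ≤ ‖ζ‖ ^ 2 := sq_le_sq' (abs_le.1 (Complex.abs_re_le_norm ζ)).1
      (abs_le.1 (Complex.abs_re_le_norm ζ)).2
    rw [div_mul_eq_mul_div, div_le_iff₀ (by positivity)]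
    nlinarith

theorem norm_D_le : ∃ C : ℝ, 1 ≤ C ∧ ∀ f : ℂ → ℂ, Univ f → ∀ ζ ∈ H,
    ‖aD f ζ‖ * ‖ζ‖ ≤ C * Lv f ζ ∧ ‖bD f ζ‖ * ‖ζ‖ ^ 2 ≤ C * Lv f ζ ∧
      ‖cD f ζ‖ * ‖ζ‖ ^ 2 ≤ C * Lv f ζ := by
  obtain ⟨C, hC, h⟩ := taylor_top
  refine ⟨4 * C + 4, by linarith, fun f hf ζ hζ => ?_⟩
  have h2 := (h f hf (top ζ) (top_mem hζ)).1
  have hL : Lv f ζ = ‖ζ‖ * ‖deriv f (top ζ)‖ := by rw [Lv, ups, top_im]
  rw [top_im] at h2
  change _ ≤ C * Lv f ζ at h2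
  have hL0 := (Lv_pos hf hζ).le
  have hCL : 0 ≤ C * Lv f ζ := by positivity
  have ha := norm_aX_le ζ
  have hb := norm_bX_le ζ
  have hc := norm_cX_le ζ
  refine ⟨?_, ?_, ?_⟩
  · have h3 : ‖aD f ζ‖ * ‖ζ‖ = Lv f ζ * ‖aX ζ‖ := by rw [aD, norm_mul, hL]; ring
    rw [h3]
    nlinarith [mul_le_mul_of_nonneg_left ha hL0]
  · have h3 : ‖bD f ζ‖ ≤ ‖deriv f (top ζ)‖ * ‖bX ζ‖ + ‖deriv (deriv f) (top ζ)‖ * ‖aX ζ‖ ^ 2 := by
      refine (norm_add_le _ _).trans ?_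
      rw [norm_mul, norm_mul, norm_pow]
    have h4 : ‖aX ζ‖ ^ 2 ≤ 4 := by nlinarith [norm_nonneg (aX ζ)]
    calc ‖bD f ζ‖ * ‖ζ‖ ^ 2 ≤ (‖deriv f (top ζ)‖ * ‖bX ζ‖ +
          ‖deriv (deriv f) (top ζ)‖ * ‖aX ζ‖ ^ 2) * ‖ζ‖ ^ 2 :=
          mul_le_mul_of_nonneg_right h3 (by positivity)
      _ = Lv f ζ * (‖bX ζ‖ * ‖ζ‖) + ‖deriv (deriv f) (top ζ)‖ * ‖ζ‖ ^ 2 * ‖aX ζ‖ ^ 2 := by
          rw [hL]; ring
      _ ≤ Lv f ζ * 1 + C * Lv f ζ * 4 :=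
          add_le_add (mul_le_mul_of_nonneg_left hb hL0) (mul_le_mul h2 h4 (by positivity) hCL)
      _ ≤ _ := by linarith
  · have h3 : ‖cD f ζ‖ * ‖ζ‖ ^ 2 = Lv f ζ * (‖cX ζ‖ * ‖ζ‖) := by rw [cD, norm_mul, hL]; ring
    rw [h3]
    nlinarith [mul_le_mul_of_nonneg_left hc hL0]

/-- `delta_exp` and `taylor_top`. -/
theorem Delta_exp {y : ℝ} (hy : 0 < y) : ∃ C e0 : ℝ, 0 ≤ C ∧ 0 < e0 ∧ ∀ f : ℂ → ℂ, Univ f →
    ∀ ζ ∈ Hy y, ∀ (w : Path) (h e : ℝ), e ≤ e0 → Small w h e →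
      ‖f (phi w h (top (Zf w h ζ))) - f (top ζ) -
        (aD f ζ * ((w h - w 0 : ℝ) : ℂ) + bD f ζ / 2 * ((w h - w 0 : ℝ) : ℂ) ^ 2 + cD f ζ * (h : ℂ))‖
          ≤ C * Lv f ζ * e ^ 3 := by
  obtain ⟨C1, e1, hC1, he1, h1⟩ := delta_exp hy
  obtain ⟨C2, hC2, h2⟩ := taylor_top
  obtain ⟨K, hK⟩ : ∃ K : ℝ, K = 1 / y / 2 + 4 / y + C1 := ⟨_, rfl⟩
  have hK0 : 0 ≤ K := by rw [hK]; positivity
  refine ⟨C2 * (2 + K) ^ 3 / y ^ 3 + C1 / y + C2 / y ^ 2 * (K * (4 + K)) / 2,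
    min e1 (min 1 (y / 8 / (2 + K))), by positivity, by positivity, ?_⟩
  intro f hf ζ hζ w h e he hs
  have hζy : y ≤ ζ.im := hζ
  have hζH : ζ ∈ H := lt_of_lt_of_le hy hζy
  have hr : y ≤ ‖ζ‖ := hζy.trans (Complex.im_le_norm ζ)
  have hd := h1 ζ hζ w h e (he.trans (min_le_left _ _)) hs
  have he1' : e ≤ 1 := he.trans ((min_le_right _ _).trans (min_le_left _ _))
  have he2 : e ≤ y / 8 / (2 + K) := he.trans ((min_le_right _ _).trans (min_le_right _ _))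
  obtain ⟨hh0, hh1, he0, hw⟩ := hs
  have hv : ‖((w h - w 0 : ℝ) : ℂ)‖ ≤ e := by
    rw [Complex.norm_real]
    exact hw h ⟨hh0, le_rfl⟩
  have hhn : ‖(h : ℂ)‖ ≤ e ^ 2 := by rwa [Complex.norm_real, Real.norm_of_nonneg hh0]
  generalize ((w h - w 0 : ℝ) : ℂ) = v at hd hv ⊢
  obtain ⟨z, hz⟩ : ∃ z, z = phi w h (top (Zf w h ζ)) - top ζ := ⟨_, rfl⟩
  have hz' : phi w h (top (Zf w h ζ)) = top ζ + z := by rw [hz]; ring
  rw [← hz] at hd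
  rw [hz']
  obtain ⟨h3, h4⟩ := h2 f hf (top ζ) (top_mem hζH)
  rw [top_im] at h3 h4
  change _ ≤ C2 * Lv f ζ at h3
  have hL : Lv f ζ = ‖ζ‖ * ‖deriv f (top ζ)‖ := by rw [Lv, ups, top_im]
  have hL0 := (Lv_pos hf hζH).le
  have hb : ‖bX ζ‖ ≤ 1 / y := by
    rw [le_div_iff₀ hy]
    exact (mul_le_mul_of_nonneg_left hr (norm_nonneg _)).trans (norm_bX_le ζ)
  have hc : ‖cX ζ‖ ≤ 4 / y := by
    rw [le_div_iff₀ hy]
    exact (mul_le_mul_of_nonneg_left hr (norm_nonneg _)).trans (norm_cX_le ζ)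
  have hav : ‖aX ζ * v‖ ≤ 2 * e := by
    rw [norm_mul]
    exact mul_le_mul (norm_aX_le ζ) hv (norm_nonneg _) (by norm_num)
  have hq : ‖z - aX ζ * v‖ ≤ K * e ^ 2 := by
    have e1 : z - aX ζ * v = bX ζ / 2 * v ^ 2 + cX ζ * h +
        (z - (aX ζ * v + bX ζ / 2 * v ^ 2 + cX ζ * h)) := by ring
    have k1 : ‖bX ζ / 2 * v ^ 2‖ ≤ 1 / y / 2 * e ^ 2 := by
      rw [norm_mul, norm_div, norm_pow, Complex.norm_two]
      gcongr
    have k2 : ‖cX ζ * h‖ ≤ 4 / y * e ^ 2 := by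
      rw [norm_mul]
      gcongr
    have k3 : C1 * e ^ 3 ≤ C1 * e ^ 2 :=
      mul_le_mul_of_nonneg_left (pow_le_pow_of_le_one he0.le he1' (by norm_num)) hC1
    rw [e1, hK]
    refine (norm_add₃_le).trans ?_
    linarith
  have hKe : K * e ^ 2 ≤ K * e := mul_le_mul_of_nonneg_left (by nlinarith) hK0
  have hzn : ‖z‖ ≤ (2 + K) * e := by
    have e1 : z = aX ζ * v + (z - aX ζ * v) := by ring
    rw [e1]
    refine (norm_add_le _ _).trans ?_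
    linarith
  have hz8 : ‖z‖ ≤ ‖ζ‖ / 8 := by
    rw [le_div_iff₀ (by positivity : 0 < 2 + K)] at he2
    linarith
  have h5 := h4 z hz8
  change _ ≤ C2 * Lv f ζ * _ at h5
  have k1 : ‖f (top ζ + z) - f (top ζ) - deriv f (top ζ) * z -
      deriv (deriv f) (top ζ) * z ^ 2 / 2‖ ≤ C2 * (2 + K) ^ 3 / y ^ 3 * Lv f ζ * e ^ 3 := by
    have e1 : C2 * (2 + K) ^ 3 / y ^ 3 * Lv f ζ * e ^ 3 =
        C2 * Lv f ζ * ((2 + K) * e) ^ 3 / y ^ 3 := by ring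
    rw [e1, le_div_iff₀ (by positivity)]
    refine le_trans ?_ (h5.trans ?_) <;> gcongr
  have hf1 : ‖deriv f (top ζ)‖ ≤ Lv f ζ / y := by
    rw [le_div_iff₀ hy, hL, mul_comm]
    gcongr
  have hf2 : ‖deriv (deriv f) (top ζ)‖ ≤ C2 * Lv f ζ / y ^ 2 := by
    rw [le_div_iff₀ (by positivity)]
    refine le_trans ?_ h3
    gcongr
  have k2 : ‖deriv f (top ζ) * (z - (aX ζ * v + bX ζ / 2 * v ^ 2 + cX ζ * h))‖ ≤
      C1 / y * Lv f ζ * e ^ 3 := by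
    rw [norm_mul]
    refine (mul_le_mul hf1 hd (norm_nonneg _) (by positivity)).trans (le_of_eq ?_)
    ring
  have k3 : ‖deriv (deriv f) (top ζ) * ((z - aX ζ * v) * (z + aX ζ * v)) / 2‖ ≤
      C2 / y ^ 2 * (K * (4 + K)) / 2 * Lv f ζ * e ^ 3 := by
    have k4 : ‖z + aX ζ * v‖ ≤ (4 + K) * e := (norm_add_le _ _).trans (by linarith)
    rw [norm_div, norm_mul, norm_mul, Complex.norm_two]
    calc _ ≤ C2 * Lv f ζ / y ^ 2 * (K * e ^ 2 * ((4 + K) * e)) / 2 := by gcongr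
      _ = _ := by ring
  have e1 : f (top ζ + z) - f (top ζ) - (aD f ζ * v + bD f ζ / 2 * v ^ 2 + cD f ζ * h) =
      (f (top ζ + z) - f (top ζ) - deriv f (top ζ) * z - deriv (deriv f) (top ζ) * z ^ 2 / 2) +
        deriv f (top ζ) * (z - (aX ζ * v + bX ζ / 2 * v ^ 2 + cX ζ * h)) +
        deriv (deriv f) (top ζ) * ((z - aX ζ * v) * (z + aX ζ * v)) / 2 := by
    simp only [aD, bD, cD]
    ring
  rw [e1]
  refine (norm_add₃_le).trans ?_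
  linarith

end Crest.Agent.R162.E
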