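import Crest.Agent.R162.E1b
import Crest.Agent.R162.E2b

/-! Row 162, block E: expansion of the density. -/

set_option autoImplicit false
open MeasureTheory ProbabilityTheory Set Filter Topology Metric
open scoped ENNReal NNReal ComplexConjugate

namespace Crest.Agent.R162.E

theorem tv_nonneg {f : ℂ → ℂ} (hf : Univ f) {ζ : ℂ} (hζ : ζ ∈ H) : 0 ≤ tv f ζ := by
  have h1 := Lv_pos hf hζ
  have h2 := Wv_pos f ζ
  unfold tv
  positivity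

private theorem h12_re (G A : ℂ) : |(conj G * A).re| ≤ ‖G‖ * ‖A‖ := by
  refine (Complex.abs_re_le_norm _).trans (le_of_eq ?_)
  rw [norm_mul, Complex.norm_conj]

private theorem h12_W (f : ℂ → ℂ) (ζ : ℂ) : (1 + ‖Gv f ζ‖ ^ 2) * Wv f ζ = 1 :=
  mul_inv_cancel₀ (by positivity)

theorem jq_le : ∃ C : ℝ, 1 ≤ C ∧ ∀ f : ℂ → ℂ, Univ f → ∀ ζ ∈ H, ups f ζ ≤ 4 →
    tv f ζ ≤ C ∧ |(jq f ζ).a| * ‖ζ‖ ≤ C * tv f ζ ∧ |(jq f ζ).b| * ‖ζ‖ ^ 2 ≤ C * tv f ζ ∧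
      |(jq f ζ).c| * ‖ζ‖ ^ 2 ≤ C * tv f ζ := by
  obtain ⟨C0, hC0, h0⟩ := Lv_le
  obtain ⟨C1, hC1, h1⟩ := norm_D_le
  refine ⟨4 * C0 ^ 2 + 2 * C1 ^ 2, by nlinarith, fun f hf ζ hζ hu => ?_⟩
  have hL := Lv_pos hf hζ
  have hW := Wv_pos f ζ
  have hW1 := h12_W f ζ
  have h0' := h0 f hf ζ hζ hu
  obtain ⟨ha, hb, hc⟩ := h1 f hf ζ hζ
  have ra := h12_re (Gv f ζ) (aD f ζ)
  have rb := h12_re (Gv f ζ) (bD f ζ)
  have rc := h12_re (Gv f ζ) (cD f ζ)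
  simp only [jq, tv]
  set g := ‖Gv f ζ‖ with hg
  set L := Lv f ζ
  set W := Wv f ζ
  set r := ‖ζ‖ with hr
  have hg0 : 0 ≤ g := norm_nonneg _
  have hr0 : 0 ≤ r := norm_nonneg _
  have hC11 : C1 ≤ C1 ^ 2 := by nlinarith
  have hLg : 0 ≤ L * g := by positivity
  have hL2 : 0 ≤ L ^ 2 := by positivity
  have hfin : ∀ x : ℝ, x ≤ 2 * C1 * (L * g) + 2 * C1 ^ 2 * L ^ 2 →
      x * W ≤ (4 * C0 ^ 2 + 2 * C1 ^ 2) * ((L * g + L ^ 2) * W) := by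
    intro x hx
    rw [← mul_assoc]
    refine mul_le_mul_of_nonneg_right (hx.trans ?_) hW.le
    nlinarith [mul_le_mul_of_nonneg_right hC11 hLg, mul_nonneg (sq_nonneg C0) (add_nonneg hLg hL2)]
  refine ⟨?_, ?_, ?_, ?_⟩
  · have hL' : L ≤ C0 * (1 + g) := by linarith
    have e1 : L * g ≤ C0 ^ 2 * (1 + g) * g := by
      refine mul_le_mul_of_nonneg_right (hL'.trans ?_) hg0
      exact mul_le_mul_of_nonneg_right (by nlinarith) (by positivity)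
    have e2 : L ^ 2 ≤ (C0 * (1 + g)) ^ 2 := pow_le_pow_left₀ hL.le hL' 2
    have e3 : L * g + L ^ 2 ≤ 4 * C0 ^ 2 * (1 + g ^ 2) := by
      have : (1 + g) * g + (1 + g) ^ 2 ≤ 4 * (1 + g ^ 2) := by nlinarith [sq_nonneg (g - 1)]
      nlinarith [mul_le_mul_of_nonneg_left this (sq_nonneg C0)]
    have e4 := mul_le_mul_of_nonneg_right e3 hW.le
    rw [mul_assoc, hW1] at e4
    nlinarith [sq_nonneg C1]
  · rw [abs_mul, abs_of_pos hW, mul_right_comm]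
    refine hfin _ ?_
    rw [abs_mul, show |(-2 : ℝ)| = 2 by norm_num]
    have e1 := mul_le_mul_of_nonneg_right ra hr0
    have e2 := mul_le_mul_of_nonneg_left ha hg0
    nlinarith [mul_nonneg (sq_nonneg C1) hL2]
  · rw [abs_mul, abs_of_pos hW, mul_right_comm]
    refine hfin _ ?_
    have e0 : |-2 * (conj (Gv f ζ) * bD f ζ).re + 2 * ‖aD f ζ‖ ^ 2| ≤
        2 * (g * ‖bD f ζ‖) + 2 * ‖aD f ζ‖ ^ 2 := by
      have := abs_le.1 rb
      rw [abs_le]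
      constructor <;> nlinarith [sq_nonneg ‖aD f ζ‖]
    have e1 := mul_le_mul_of_nonneg_right e0 (sq_nonneg r)
    have e2 := mul_le_mul_of_nonneg_left hb hg0
    have e3 : (‖aD f ζ‖ * r) ^ 2 ≤ (C1 * L) ^ 2 := pow_le_pow_left₀ (by positivity) ha 2
    nlinarith
  · rw [abs_mul, abs_of_pos hW, mul_right_comm]
    refine hfin _ ?_
    rw [abs_mul, show |(-2 : ℝ)| = 2 by norm_num]
    have e1 := mul_le_mul_of_nonneg_right rc (sq_nonneg r)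
    have e2 := mul_le_mul_of_nonneg_left hc hg0
    nlinarith [mul_nonneg (sq_nonneg C1) hL2]

private theorem h12_sq (A R : ℂ) : |‖A + R‖ ^ 2 - ‖A‖ ^ 2| ≤ 2 * ‖A‖ * ‖R‖ + ‖R‖ ^ 2 := by
  have h1 := norm_add_le A R
  have h2 : ‖A‖ ≤ ‖A + R‖ + ‖R‖ := by simpa using norm_sub_le (A + R) R
  have h3 := norm_nonneg A
  have h4 := norm_nonneg R
  have h5 := norm_nonneg (A + R)
  rw [abs_le]
  constructor
  · rcases le_total ‖A‖ ‖A + R‖ with h | h <;> nlinarith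
  · nlinarith

private theorem h12_id (G Δ A B C : ℂ) (v h W : ℝ) (hW : (1 + ‖G‖ ^ 2) * W = 1) :
    (1 + ‖G - Δ‖ ^ 2) * W - 1 - 0 - -2 * (conj G * A).re * W * v -
      (-2 * (conj G * B).re + 2 * ‖A‖ ^ 2) * W / 2 * v ^ 2 - -2 * (conj G * C).re * W * h =
    W * (-2 * (conj G * (Δ - (A * (v : ℂ) + B / 2 * (v : ℂ) ^ 2 + C * (h : ℂ)))).re +
      (‖Δ‖ ^ 2 - ‖A * (v : ℂ)‖ ^ 2)) := by
  have e1 : ‖G - Δ‖ ^ 2 = ‖G‖ ^ 2 - 2 * (conj G * Δ).re + ‖Δ‖ ^ 2 := by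
    simp only [Complex.sq_norm, Complex.normSq_apply, Complex.sub_re, Complex.sub_im,
      Complex.mul_re, Complex.conj_re, Complex.conj_im]
    ring
  have e2 : ‖A * (v : ℂ)‖ ^ 2 = ‖A‖ ^ 2 * v ^ 2 := by
    rw [norm_mul, mul_pow, Complex.norm_real, Real.norm_eq_abs, sq_abs]
  have e3 : conj G * (Δ - (A * (v : ℂ) + B / 2 * (v : ℂ) ^ 2 + C * (h : ℂ))) =
      conj G * Δ - (conj G * A) * (v : ℂ) - (conj G * B) * ((v ^ 2 / 2 : ℝ) : ℂ) -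
        (conj G * C) * (h : ℂ) := by
    push_cast; ring
  rw [e1, e2, e3]
  simp only [Complex.sub_re, Complex.re_mul_ofReal]
  linear_combination hW

/-- `q = (-2 re (conj G Δ) + ‖Δ‖²) W`, `Δ = f (phi ..) - f (top ζ)`; `Delta_exp`, `norm_D_le`, and
`L ‖G‖ W, L² W ≤ tv ≤ C` (`jq_le`). -/
theorem TE_q {y : ℝ} (hy : 0 < y) :
    TE (Iset y) (fun p w t => qv p.1 p.2 w t) (fun p => jq p.1 p.2) := by
  obtain ⟨C0, hC0, h0⟩ := jq_le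
  obtain ⟨C1, hC1, h1⟩ := norm_D_le
  obtain ⟨C2, e0, hC2, he0, h2⟩ := Delta_exp hy
  set D : ℝ := C1 / y + 2 * (C1 / y ^ 2) + C2 with hD
  have hD0 : 0 ≤ D := by positivity
  refine ⟨C0 * C0 / y + C0 * C0 / y ^ 2 + (2 * C2 + 3 * D ^ 2) * C0, min e0 1, by positivity, ?_⟩
  rintro ⟨f, ζ⟩ ⟨hf, hyζ, hu⟩
  dsimp only at hf hyζ hu ⊢
  have hζ : ζ ∈ H := lt_of_lt_of_le hy hyζ
  have hr : y ≤ ‖ζ‖ := hyζ.trans ((le_abs_self _).trans (Complex.abs_im_le_norm ζ))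
  have hr2 : y ^ 2 ≤ ‖ζ‖ ^ 2 := pow_le_pow_left₀ hy.le hr 2
  obtain ⟨ht, qa, qb, qc⟩ := h0 f hf ζ hζ hu
  obtain ⟨ha, hb, hc⟩ := h1 f hf ζ hζ
  have ht0 := tv_nonneg hf hζ
  have hCC : C0 * tv f ζ ≤ C0 * C0 := mul_le_mul_of_nonneg_left ht (by linarith)
  have p1 : 0 ≤ C0 * C0 / y := by positivity
  have p2 : 0 ≤ C0 * C0 / y ^ 2 := by positivity
  have p3 : 0 ≤ (2 * C2 + 3 * D ^ 2) * C0 := by positivity
  have key1 : ∀ x M : ℝ, 0 ≤ x → x * ‖ζ‖ ≤ M → x ≤ M / y := fun x M hx hM => by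
    rw [le_div_iff₀ hy]
    exact (mul_le_mul_of_nonneg_left hr hx).trans hM
  have key2 : ∀ x M : ℝ, 0 ≤ x → x * ‖ζ‖ ^ 2 ≤ M → x ≤ M / y ^ 2 := fun x M hx hM => by
    rw [le_div_iff₀ (by positivity)]
    exact (mul_le_mul_of_nonneg_left hr2 hx).trans hM
  refine ⟨?_, ?_, ?_, fun w h e he hs => ?_⟩
  · linarith [key1 _ _ (abs_nonneg _) (qa.trans hCC)]
  · linarith [key2 _ _ (abs_nonneg _) (qb.trans hCC)]
  · linarith [key2 _ _ (abs_nonneg _) (qc.trans hCC)]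
  have hE := h2 f hf ζ hyζ w h e (he.trans (min_le_left _ _)) hs
  have he1 : e ≤ 1 := he.trans (min_le_right _ _)
  obtain ⟨hh0, hh1, hep, hs'⟩ := hs
  have hv : |w h - w 0| ≤ e := hs' h ⟨hh0, le_rfl⟩
  have hL := Lv_pos hf hζ
  have hW := Wv_pos f ζ
  have ha' := key1 _ _ (norm_nonneg _) ha
  have hb' := key2 _ _ (norm_nonneg _) hb
  have hc' := key2 _ _ (norm_nonneg _) hc
  set v : ℝ := w h - w 0 with hvdef
  set Δ : ℂ := f (phi w h (top (Zf w h ζ))) - f (top ζ) with hΔ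
  have eq : f ζ - f (phi w h (top (Zf w h ζ))) = Gv f ζ - Δ := by
    simp only [hΔ, Gv]; ring
  simp only [qv, jq]
  rw [eq, h12_id _ _ _ _ _ _ _ _ (h12_W f ζ)]
  set L := Lv f ζ
  set E : ℂ := Δ - (aD f ζ * (v : ℂ) + bD f ζ / 2 * (v : ℂ) ^ 2 + cD f ζ * (h : ℂ)) with hEdef
  have nv : ‖(v : ℂ)‖ ≤ e := by rwa [Complex.norm_real, Real.norm_eq_abs]
  have nh : ‖(h : ℂ)‖ ≤ e ^ 2 := by rwa [Complex.norm_real, Real.norm_eq_abs, abs_of_nonneg hh0]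
  have q1 : 0 ≤ C1 / y := by positivity
  have q2 : 0 ≤ C1 / y ^ 2 := by positivity
  have nA : ‖aD f ζ * (v : ℂ)‖ ≤ D * L * e := by
    rw [norm_mul]
    refine mul_le_mul (ha'.trans ?_) nv (norm_nonneg _) (by positivity)
    rw [mul_div_right_comm]
    exact mul_le_mul_of_nonneg_right (by linarith) hL.le
  have nR : ‖Δ - aD f ζ * (v : ℂ)‖ ≤ D * L * e ^ 2 := by
    have e1 : Δ - aD f ζ * (v : ℂ) = bD f ζ / 2 * (v : ℂ) ^ 2 + cD f ζ * (h : ℂ) + E := by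
      rw [hEdef]; ring
    have n1 : ‖bD f ζ / 2 * (v : ℂ) ^ 2‖ ≤ C1 / y ^ 2 * L * e ^ 2 := by
      rw [norm_mul, norm_pow, norm_div, Complex.norm_two]
      refine mul_le_mul ?_ (pow_le_pow_left₀ (norm_nonneg _) nv 2) (by positivity) (by positivity)
      rw [mul_div_right_comm] at hb'
      linarith [norm_nonneg (bD f ζ)]
    have n2 : ‖cD f ζ * (h : ℂ)‖ ≤ C1 / y ^ 2 * L * e ^ 2 := by
      rw [norm_mul]
      refine mul_le_mul ?_ nh (by positivity) (by positivity)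
      rwa [mul_div_right_comm] at hc'
    have n3 : ‖E‖ ≤ C2 * L * e ^ 2 := by
      refine hE.trans (mul_le_mul_of_nonneg_left ?_ (by positivity))
      exact pow_le_pow_of_le_one hep.le he1 (by norm_num)
    rw [e1]
    refine (norm_add₃_le).trans ?_
    have : 0 ≤ C1 / y * L * e ^ 2 := by positivity
    rw [hD]
    linarith
  have s1 := h12_sq (aD f ζ * (v : ℂ)) (Δ - aD f ζ * (v : ℂ))
  rw [add_sub_cancel] at s1
  have s2 : |‖Δ‖ ^ 2 - ‖aD f ζ * (v : ℂ)‖ ^ 2| ≤ 3 * D ^ 2 * L ^ 2 * e ^ 3 := by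
    refine s1.trans ?_
    have t1 : ‖aD f ζ * (v : ℂ)‖ * ‖Δ - aD f ζ * (v : ℂ)‖ ≤ (D * L * e) * (D * L * e ^ 2) :=
      mul_le_mul nA nR (norm_nonneg _) (by positivity)
    have t2 : ‖Δ - aD f ζ * (v : ℂ)‖ ^ 2 ≤ (D * L * e ^ 2) ^ 2 :=
      pow_le_pow_left₀ (norm_nonneg _) nR 2
    have t3 : (D * L) ^ 2 * e ^ 4 ≤ (D * L) ^ 2 * e ^ 3 :=
      mul_le_mul_of_nonneg_left (pow_le_pow_of_le_one hep.le he1 (by norm_num)) (by positivity)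
    linarith
  have s3 : |(conj (Gv f ζ) * E).re| ≤ ‖Gv f ζ‖ * (C2 * L * e ^ 3) :=
    (h12_re _ _).trans (mul_le_mul_of_nonneg_left hE (norm_nonneg _))
  have he3 : 0 ≤ e ^ 3 := by positivity
  have s4 : |-2 * (conj (Gv f ζ) * E).re + (‖Δ‖ ^ 2 - ‖aD f ζ * (v : ℂ)‖ ^ 2)| ≤
      (2 * C2 + 3 * D ^ 2) * (L * ‖Gv f ζ‖ + L ^ 2) * e ^ 3 := by
    refine (abs_add_le _ _).trans ?_
    rw [abs_mul, show |(-2 : ℝ)| = 2 by norm_num]
    have u1 : 0 ≤ C2 * L ^ 2 * e ^ 3 := by positivity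
    have u2 : 0 ≤ D ^ 2 * (L * ‖Gv f ζ‖) * e ^ 3 := by positivity
    linarith
  rw [abs_mul, abs_of_pos hW]
  calc Wv f ζ * |-2 * (conj (Gv f ζ) * E).re + (‖Δ‖ ^ 2 - ‖aD f ζ * (v : ℂ)‖ ^ 2)|
      ≤ Wv f ζ * ((2 * C2 + 3 * D ^ 2) * (L * ‖Gv f ζ‖ + L ^ 2) * e ^ 3) :=
        mul_le_mul_of_nonneg_left s4 hW.le
    _ = (2 * C2 + 3 * D ^ 2) * tv f ζ * e ^ 3 := by simp only [tv]; ring
    _ ≤ (2 * C2 + 3 * D ^ 2) * C0 * e ^ 3 := by gcongr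
    _ ≤ _ := mul_le_mul_of_nonneg_right (by linarith) he3

theorem h43_deriv (c : ℝ) (m : ℤ) :
    deriv (fun x : ℝ => c * (1 + x) ^ m) = fun x => (c * m) * (1 + x) ^ (m - 1) := by
  funext x
  rw [deriv_const_mul_field']
  have := deriv_comp_const_add (fun y : ℝ => y ^ m) 1 x
  simp only [this, deriv_zpow]
  ring

theorem h43_bd {x : ℝ} (hx : x ∈ Ioo (0 - 1 / 2 : ℝ) (0 + 1 / 2)) {c : ℝ} (hc : |c| ≤ 60) {m : ℤ}
    (h0 : m ≤ 0) (h6 : -6 ≤ m) : |c * (1 + x) ^ m| ≤ 60 * 64 := by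
  have h1 : (1 / 2 : ℝ) ≤ 1 + x := by linarith [hx.1]
  have h2 : (1 + x) ^ m ≤ (1 / 2 : ℝ) ^ m := by
    obtain ⟨n, rfl⟩ := Int.exists_eq_neg_ofNat h0
    rw [zpow_neg, zpow_neg, zpow_natCast, zpow_natCast]
    exact inv_anti₀ (by positivity) (pow_le_pow_left₀ (by norm_num) h1 n)
  have h3 : (1 / 2 : ℝ) ^ m ≤ (1 / 2 : ℝ) ^ (-6 : ℤ) :=
    zpow_le_zpow_right_of_le_one₀ (by norm_num) (by norm_num) h6
  have h4 : (1 / 2 : ℝ) ^ (-6 : ℤ) = 64 := by norm_num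
  have h5 : (0 : ℝ) < (1 + x) ^ m := zpow_pos (by linarith) m
  rw [abs_mul, abs_of_pos h5]
  exact mul_le_mul hc ((h2.trans h3).trans h4.le) h5.le (by norm_num)

/-- `Wv (cfg f w t) (Zf w t ζ) = W (1 + q)⁻¹` for living `ζ` (`cfg_Zf`, `alive_small'`);
`TE.comp` with `x ↦ (1 + x)⁻¹ ^ K` on `(-1/2, 1/2)`, `TE.smul`, `TE.congr`. Only `K = 2, 3` are used. -/
theorem TE_Om {y : ℝ} (hy : 0 < y) {K : ℕ} (hK : K = 2 ∨ K = 3) :
    TE (Iset y) (fun p w t => Wv (cfg p.1 w t) (Zf w t p.2) ^ K) (fun p => jOm K p.1 p.2) := by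
  have hW : ∀ (f : ℂ → ℂ) (ζ : ℂ), 0 < Wv f ζ ∧ Wv f ζ ≤ 1 := fun f ζ =>
    ⟨by unfold Wv; positivity, inv_le_one_of_one_le₀ (by nlinarith [sq_nonneg ‖Gv f ζ‖])⟩
  have hv : ∀ (f : ℂ → ℂ) (ζ : ℂ), (jq f ζ).v = 0 := fun _ _ => rfl
  have H1 := (TE_q hy).comp (fun _ x => 1 * (1 + x) ^ (-(K : ℤ))) (M := 60 * 64) (r := 1 / 2)
    (by norm_num) (fun p _ => by
      rw [hv]
      refine ⟨contDiffOn_const.mul fun x hx => ?_, fun x hx => ?_⟩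
      · have h1 : (1 + x : ℝ) ≠ 0 := by linarith [hx.1]
        simp only [zpow_neg, zpow_natCast]
        exact (((contDiffAt_const.add contDiffAt_id).pow K).inv (pow_ne_zero K h1)).contDiffWithinAt
      · simp only [h43_deriv]
        rcases hK with rfl | rfl
        · refine ⟨h43_bd hx ?_ ?_ ?_, h43_bd hx ?_ ?_ ?_, h43_bd hx ?_ ?_ ?_⟩ <;> norm_num
        · refine ⟨h43_bd hx ?_ ?_ ?_, h43_bd hx ?_ ?_ ?_, h43_bd hx ?_ ?_ ?_⟩ <;> norm_num)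
  have H2 := H1.smul (fun p => Wv p.1 p.2 ^ K) (M := 1) fun p _ => by
    rw [abs_of_pos (pow_pos (hW _ _).1 K)]
    exact pow_le_one₀ (hW _ _).1.le (hW _ _).2
  obtain ⟨e0, he0, -, hal⟩ := alive_small' hy
  refine H2.congr (fun p _ => ?_) he0 fun p hp w t e he hs => ?_
  · simp only [jOm, Jet.smul, Jet.comp, h43_deriv]
    simp only [hv, add_zero, one_zpow, mul_one, one_mul, Jet.mk.injEq]
    push_cast
    refine ⟨trivial, by ring, by ring, by ring⟩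
  · have hd := (hal p.2 hp.2.1 w t e he hs t ⟨hs.1, le_rfl⟩).1
    have e1 : Gv (cfg p.1 w t) (Zf w t p.2) = p.1 p.2 - p.1 (phi w t (top (Zf w t p.2))) := by
      unfold Gv
      rw [cfg_Zf _ hd]
      rfl
    have e2 : 1 + qv p.1 p.2 w t =
        (1 + ‖p.1 p.2 - p.1 (phi w t (top (Zf w t p.2)))‖ ^ 2) * Wv p.1 p.2 := by
      unfold qv
      ring
    have h3 := (hW p.1 p.2).1.ne'
    rw [e2, one_mul, zpow_neg, zpow_natCast, ← inv_pow, ← mul_pow, mul_inv, mul_left_comm,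
      mul_inv_cancel₀ h3, mul_one]
    unfold Wv
    rw [e1]

theorem jOm_le {κ : ℝ} (hκ : 0 < κ) : ∃ C : ℝ, 1 ≤ C ∧ ∀ K : ℕ, K ≤ 3 → ∀ f : ℂ → ℂ, Univ f →
    ∀ ζ ∈ H, ups f ζ ≤ 4 → |(jOm K f ζ).a| * ‖ζ‖ ≤ C * (Wv f ζ ^ K * tv f ζ) ∧
      |(jOm K f ζ).gen κ| * ‖ζ‖ ^ 2 ≤ C * (Wv f ζ ^ K * tv f ζ) := by
  obtain ⟨C, hC, H1⟩ := jq_le
  refine ⟨3 * C + κ / 2 * (3 * C + 12 * C ^ 3), by
    have : 0 ≤ κ / 2 * (3 * C + 12 * C ^ 3) := by positivity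
    linarith, fun K hK f hf ζ hζ hu => ?_⟩
  obtain ⟨h1, h2, h3, h4⟩ := H1 f hf ζ hζ hu
  have ht := tv_nonneg hf hζ
  have hW : 0 < Wv f ζ ^ K := pow_pos (by unfold Wv; positivity) K
  have hK0 : (0 : ℝ) ≤ K := Nat.cast_nonneg K
  have hK3 : (K : ℝ) ≤ 3 := by exact_mod_cast hK
  set W := Wv f ζ ^ K
  set τ := tv f ζ
  set a := (jq f ζ).a
  set b := (jq f ζ).b
  set c := (jq f ζ).c
  set r := ‖ζ‖
  have hr : 0 ≤ r := norm_nonneg _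
  have hC0 : 0 ≤ C := by linarith
  have hκ' : 0 ≤ κ / 2 * (3 * C + 12 * C ^ 3) * (W * τ) := by positivity
  have hCτ : 0 ≤ C * τ := by positivity
  constructor
  · change |-K * W * a| * r ≤ _
    rw [abs_mul, abs_mul, abs_neg, abs_of_nonneg hK0, abs_of_pos hW]
    have h5 : K * W * |a| * r = K * (W * (|a| * r)) := by ring
    have h6 : W * (|a| * r) ≤ W * (C * τ) := mul_le_mul_of_nonneg_left h2 hW.le
    have h7 : K * (W * (|a| * r)) ≤ 3 * (W * (C * τ)) :=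
      mul_le_mul hK3 h6 (by positivity) (by norm_num)
    nlinarith
  · change |-K * W * c + κ / 2 * (W * (-K * b + K * (K + 1) * a ^ 2))| * r ^ 2 ≤ _
    have ha2 : a ^ 2 * r ^ 2 ≤ C ^ 3 * τ := by
      have h5 : (|a| * r) ^ 2 ≤ (C * τ) ^ 2 := pow_le_pow_left₀ (by positivity) h2 2
      rw [mul_pow, sq_abs] at h5
      have h6 : (C * τ) ^ 2 = C ^ 2 * τ * τ := by ring
      have h7 : C ^ 2 * τ * τ ≤ C ^ 2 * τ * C := mul_le_mul_of_nonneg_left h1 (by positivity)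
      nlinarith
    have e1 : |-K * W * c| = K * W * |c| := by
      rw [abs_mul, abs_mul, abs_neg, abs_of_nonneg hK0, abs_of_pos hW]
    have e2 : |-K * b + K * (K + 1) * a ^ 2| ≤ 3 * |b| + 12 * a ^ 2 := by
      refine (abs_add_le _ _).trans (add_le_add ?_ ?_)
      · rw [abs_mul, abs_neg, abs_of_nonneg hK0]
        exact mul_le_mul_of_nonneg_right hK3 (abs_nonneg _)
      · rw [abs_of_nonneg (by positivity)]
        exact mul_le_mul_of_nonneg_right (by nlinarith) (sq_nonneg _)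
    have e3 : |κ / 2 * (W * (-K * b + K * (K + 1) * a ^ 2))| ≤
        κ / 2 * (W * (3 * |b| + 12 * a ^ 2)) := by
      rw [abs_mul, abs_mul, abs_of_pos (half_pos hκ), abs_of_pos hW]
      gcongr
    have e4 : |-K * W * c + κ / 2 * (W * (-K * b + K * (K + 1) * a ^ 2))| ≤
        3 * W * |c| + κ / 2 * (W * (3 * |b| + 12 * a ^ 2)) := by
      refine (abs_add_le _ _).trans (add_le_add ?_ e3)
      rw [e1]
      gcongr
    refine (mul_le_mul_of_nonneg_right e4 (sq_nonneg r)).trans ?_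
    have e5 : (3 * W * |c| + κ / 2 * (W * (3 * |b| + 12 * a ^ 2))) * r ^ 2 =
        3 * W * (|c| * r ^ 2) + κ / 2 * W * (3 * (|b| * r ^ 2) + 12 * (a ^ 2 * r ^ 2)) := by ring
    have e6 : (3 * C + κ / 2 * (3 * C + 12 * C ^ 3)) * (W * τ) =
        3 * W * (C * τ) + κ / 2 * W * (3 * (C * τ) + 12 * (C ^ 3 * τ)) := by ring
    rw [e5, e6]
    gcongr

/-- expansion with bounded base values -/
private def h28_TB {ι : Type*} (I : Set ι) (Ψ : ι → Path → ℝ → ℝ) (J : ι → Jet) : Prop :=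
  TE I Ψ J ∧ ∃ M : ℝ, ∀ i ∈ I, |(J i).v| ≤ M

private theorem h28_mul {ι : Type*} {I : Set ι} {Ψ Φ : ι → Path → ℝ → ℝ} {J K : ι → Jet}
    (h : h28_TB I Ψ J) (h' : h28_TB I Φ K) :
    h28_TB I (fun i w t => Ψ i w t * Φ i w t) (fun i => (J i).mul (K i)) := by
  obtain ⟨h1, M, hM⟩ := h
  obtain ⟨h2, M', hM'⟩ := h'
  refine ⟨h1.mul h2 (M := max M M') fun i hi =>
    ⟨(hM i hi).trans (le_max_left _ _), (hM' i hi).trans (le_max_right _ _)⟩, M * M',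
    fun i hi => ?_⟩
  change |(J i).v * (K i).v| ≤ _
  rw [abs_mul]
  exact mul_le_mul (hM i hi) (hM' i hi) (abs_nonneg _) ((abs_nonneg _).trans (hM i hi))

private theorem h28_add {ι : Type*} {I : Set ι} {Ψ Φ : ι → Path → ℝ → ℝ} {J K : ι → Jet}
    (h : h28_TB I Ψ J) (h' : h28_TB I Φ K) :
    h28_TB I (fun i w t => Ψ i w t + Φ i w t) (fun i => (J i).add (K i)) := by
  obtain ⟨h1, M, hM⟩ := h
  obtain ⟨h2, M', hM'⟩ := h'
  exact ⟨h1.add h2, M + M', fun i hi => (abs_add_le _ _).trans (add_le_add (hM i hi) (hM' i hi))⟩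

private theorem h28_neg {ι : Type*} {I : Set ι} {Ψ : ι → Path → ℝ → ℝ} {J : ι → Jet}
    (h : h28_TB I Ψ J) : h28_TB I (fun i w t => -1 * Ψ i w t) (fun i => (J i).smul (-1)) := by
  obtain ⟨h1, M, hM⟩ := h
  refine ⟨h1.smul (fun _ => -1) (M := 1) fun _ _ => by simp, M, fun i hi => ?_⟩
  change |-1 * (J i).v| ≤ _
  rw [neg_one_mul, abs_neg]
  exact hM i hi

private theorem h28_at {y : ℝ} (hy : 0 < y) {k : ℝ → ℝ} (hk : BC3 k) {e : ℝ} (he : 0 ≤ e) :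
    h28_TB (Iset y)
      (fun p w t => atom k e 0 (Zf w t p.2) (ups (cfg p.1 w t) (Zf w t p.2)))
      (fun p => jat k e p.2 (ups p.1 p.2)) := by
  obtain ⟨e0, he0, -, hal⟩ := alive_small' hy
  obtain ⟨C, hC⟩ := hk.2
  refine ⟨((TE_atom hy hk he).reindex (I' := Iset y) (fun p => (p.2, ups p.1 p.2))
    fun p hp => ⟨hp.2.1, hp.1.ups_pos (hy.trans_le hp.2.1)⟩).congr (fun _ _ => rfl) he0
      fun p hp w t e' he' hs => ?_, C, fun p hp => ?_⟩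
  · rw [ups_cfg hp.1 (hal p.2 hp.2.1 w t e' he' hs t ⟨hs.1, le_rfl⟩).1]
  · change |atom k e 0 p.2 (ups p.1 p.2)| ≤ C
    have h0 := (Sn_pos (ζ := p.2) (hy.trans_le hp.2.1)).le
    rw [atom_eq, abs_mul, abs_of_nonneg (Real.rpow_nonneg h0 e)]
    exact (mul_le_of_le_one_right (abs_nonneg _) (Real.rpow_le_one h0 (Sn_le_one _) he)).trans
      (hC _).1

private theorem h28_Om {y : ℝ} (hy : 0 < y) {K : ℕ} (hK : K = 2 ∨ K = 3) :
    h28_TB (Iset y) (fun p w t => Wv (cfg p.1 w t) (Zf w t p.2) ^ K) (fun p => jOm K p.1 p.2) := by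
  refine ⟨TE_Om hy hK, 1, fun p _ => ?_⟩
  change |Wv p.1 p.2 ^ K| ≤ 1
  rw [abs_of_pos (pow_pos (Wv_pos _ _) K)]
  exact pow_le_one₀ (Wv_pos _ _).le (Wv_le_one _ _)

/-- `TE_atom` (reindexed by `p ↦ (p.2, ups p.1 p.2)`, `ups_cfg`), `TE_Om`, `TE_rho`, `TE.mul`, `TE.add`. -/
theorem TE_dens {κ : ℝ} (hκ : 0 < κ) (hκ8 : κ < 8) {δ : ℝ} (hδ : 0 < δ) (m : ℝ) {y : ℝ} (hy : 0 < y) :
    TE (Iset y) (fun p w t => dens κ δ m (cfg p.1 w t) (Zf w t p.2))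
      (fun p => jdens κ δ m p.1 p.2) := by
  have ha := ae_pos hκ8
  have hr : h28_TB (Iset y) (fun p w t => rho m (Zf w t p.2)) (fun p => jrho m p.2) :=
    ⟨(TE_rho hy m).reindex (I' := Iset y) (fun p => p.2) fun p hp => hp.2.1, 1, fun p _ => by
      change |rho m p.2| ≤ 1
      rw [abs_of_nonneg (rho_nonneg _ _)]
      exact rho_le_one _ _⟩
  have h2 := h28_Om hy (Or.inl rfl)
  have h3 := h28_Om hy (Or.inr rfl)
  exact (h28_mul hr (h28_add (h28_add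
    (h28_mul (h28_at hy (BC3_k1 hκ8 δ) (ha.trans (ae_lt_aa hκ hκ8)).le) h2)
    (h28_mul (h28_at hy (BC3_k1 hκ8 δ) ha.le) (h28_add h2 (h28_neg h3))))
    (h28_mul (h28_at hy BC3_k2 (half_pos ha).le) h2))).1

theorem jdens_v (κ δ m : ℝ) (f : ℂ → ℂ) (ζ : ℂ) : (jdens κ δ m f ζ).v = dens κ δ m f ζ := by
  rfl

end Crest.Agent.R162.E
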