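import Crest.Agent.R162.E2c

/-! Row 162, block E: pointwise estimates. -/

set_option autoImplicit false
open MeasureTheory ProbabilityTheory Set Filter Topology Metric
open scoped ENNReal NNReal ComplexConjugate

namespace Crest.Agent.R162.E

theorem dens_nonneg (κ δ m : ℝ) (f : ℂ → ℂ) {ζ : ℂ} (hζ : ζ ∈ H) : 0 ≤ dens κ δ m f ζ := by
  have hS := (Sn_pos hζ).le
  have hW := Wv_pos f ζ
  have hW1 := Wv_le_one f ζ
  have h23 : 0 ≤ Wv f ζ ^ 2 + -1 * Wv f ζ ^ 3 := by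
    have : Wv f ζ ^ 3 ≤ Wv f ζ ^ 2 := pow_le_pow_of_le_one hW.le hW1 (by norm_num)
    linarith
  have a1 := k1_nonneg κ δ (Real.log (ups f ζ))
  have a2 := k2_nonneg (Real.log (ups f ζ))
  have a3 := rho_nonneg m ζ
  simp only [dens, atom_eq]
  positivity

theorem dens_le_const {κ : ℝ} (hκ : 0 < κ) (hκ8 : κ < 8) {δ : ℝ} (hδ : 0 < δ) (m : ℝ) (f : ℂ → ℂ)
    {ζ : ℂ} (hζ : ζ ∈ H) : dens κ δ m f ζ ≤ 2 * (δ / 3) ^ (-ae κ) + 1 := by
  have hS := (Sn_pos hζ).le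
  have hS1 := Sn_le_one ζ
  have hW := Wv_pos f ζ
  have hW1 := Wv_le_one f ζ
  have hae := ae_pos hκ8
  have haa := hae.trans (ae_lt_aa hκ hκ8)
  have h2 : Wv f ζ ^ 2 ≤ 1 := pow_le_one₀ hW.le hW1
  have h23 : 0 ≤ Wv f ζ ^ 2 + -1 * Wv f ζ ^ 3 := by
    have : Wv f ζ ^ 3 ≤ Wv f ζ ^ 2 := pow_le_pow_of_le_one hW.le hW1 (by norm_num)
    linarith
  have h23' : Wv f ζ ^ 2 + -1 * Wv f ζ ^ 3 ≤ 1 := by
    have : 0 ≤ Wv f ζ ^ 3 := by positivity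
    linarith
  have a1 := k1_nonneg κ δ (Real.log (ups f ζ))
  have a2 := k2_nonneg (Real.log (ups f ζ))
  have a3 := rho_nonneg m ζ
  have b1 := k1_le_const hκ8 hδ (Real.log (ups f ζ))
  have b2 := k2_le_one (Real.log (ups f ζ))
  have b3 := rho_le_one m ζ
  have s1 : Sn ζ ^ aa κ ≤ 1 := Real.rpow_le_one hS hS1 haa.le
  have s2 : Sn ζ ^ ae κ ≤ 1 := Real.rpow_le_one hS hS1 hae.le
  have s3 : Sn ζ ^ (ae κ / 2) ≤ 1 := Real.rpow_le_one hS hS1 (by linarith)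
  have hK : 0 ≤ (δ / 3) ^ (-ae κ) := by positivity
  simp only [dens, atom_eq]
  calc _ ≤ 1 * ((δ / 3) ^ (-ae κ) * 1 * 1 + (δ / 3) ^ (-ae κ) * 1 * 1 + 1 * 1 * 1) := by gcongr
    _ = _ := by ring

theorem dens_eq_zero (κ δ : ℝ) {m : ℝ} (f : ℂ → ℂ) {ζ : ℂ} (hζ : ζ ∈ H)
    (h : ζ.im ≤ m ∨ 3 ≤ ups f ζ) : dens κ δ m f ζ = 0 := by
  rcases h with h | h
  · simp only [dens, (rho_eq_zero hζ h).1, zero_mul]
  · have h2 := k2_eq_zero h
    have h1 : k1 κ δ (Real.log (ups f ζ)) = 0 := by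
      refine le_antisymm ?_ (k1_nonneg _ _ _)
      have := k1_le κ δ (u := ups f ζ) (by linarith)
      rwa [h2, zero_mul] at this
    simp only [dens, atom_eq, h1, h2, zero_mul, add_zero, mul_zero]

theorem dens_le_init {κ : ℝ} (hκ : 0 < κ) (hκ8 : κ < 8) (δ m : ℝ) {f : ℂ → ℂ} (hf : Univ f) {ζ : ℂ}
    (hζ : ζ ∈ H) : dens κ δ m f ζ ≤ 2 * (ups f ζ ^ (-ae κ) * Sn ζ ^ ae κ + 1) := by
  have hS0 := Sn_pos hζ
  have hS := hS0.le
  have hS1 := Sn_le_one ζ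
  have hW := Wv_pos f ζ
  have hW1 := Wv_le_one f ζ
  have hae := ae_pos hκ8
  have hu := hf.ups_pos hζ
  have h2 : Wv f ζ ^ 2 ≤ 1 := pow_le_one₀ hW.le hW1
  have h23 : 0 ≤ Wv f ζ ^ 2 + -1 * Wv f ζ ^ 3 := by
    have : Wv f ζ ^ 3 ≤ Wv f ζ ^ 2 := pow_le_pow_of_le_one hW.le hW1 (by norm_num)
    linarith
  have h23' : Wv f ζ ^ 2 + -1 * Wv f ζ ^ 3 ≤ 1 := by
    have : 0 ≤ Wv f ζ ^ 3 := by positivity
    linarith
  have a1 := k1_nonneg κ δ (Real.log (ups f ζ))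
  have a2 := k2_nonneg (Real.log (ups f ζ))
  have a3 := rho_nonneg m ζ
  have b2 := k2_le_one (Real.log (ups f ζ))
  have b3 := rho_le_one m ζ
  have hU : 0 ≤ ups f ζ ^ (-ae κ) := by positivity
  have b1 : k1 κ δ (Real.log (ups f ζ)) ≤ ups f ζ ^ (-ae κ) :=
    (k1_le κ δ hu).trans (mul_le_of_le_one_left hU b2)
  have s1 : Sn ζ ^ aa κ ≤ Sn ζ ^ ae κ :=
    Real.rpow_le_rpow_of_exponent_ge hS0 hS1 (ae_lt_aa hκ hκ8).le
  have s3 : Sn ζ ^ (ae κ / 2) ≤ 1 := Real.rpow_le_one hS hS1 (by linarith)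
  simp only [dens, atom_eq]
  calc _ ≤ 1 * (ups f ζ ^ (-ae κ) * Sn ζ ^ ae κ * 1 + ups f ζ ^ (-ae κ) * Sn ζ ^ ae κ * 1 +
        1 * 1 * 1) := by gcongr
    _ ≤ _ := by linarith

/-- First order coefficient: `abs_jat_a`, `jOm_le`, `jq_le` (`tv ≤ C`), `k1_le`, `S^α ≤ S^a`. -/
theorem jdens_a_le {κ : ℝ} (hκ : 0 < κ) (hκ8 : κ < 8) : ∃ C : ℝ, 0 ≤ C ∧ ∀ (δ m : ℝ) (f : ℂ → ℂ),
    Univ f → ∀ ζ ∈ H, ups f ζ ≤ 4 →
      |(jdens κ δ m f ζ).a| * ‖ζ‖ ≤ C * (Vv κ m f ζ + chi κ m f ζ) := by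
  obtain ⟨C, hC, hq⟩ := jq_le
  obtain ⟨D, hD, hO⟩ := jOm_le hκ
  have hae := ae_pos hκ8
  have haa := hae.trans (ae_lt_aa hκ hκ8)
  have hCD : 0 ≤ D * C := by positivity
  refine ⟨aa κ + ae κ + 3 * (D * C), by positivity, fun δ m f hf ζ hζ hu4 => ?_⟩
  have hS0 := Sn_pos hζ
  have hS := hS0.le
  have hS1 := Sn_le_one ζ
  have hW := Wv_pos f ζ
  have hW1 := Wv_le_one f ζ
  have hu := hf.ups_pos hζ
  have h32 : Wv f ζ ^ 3 ≤ Wv f ζ ^ 2 := pow_le_pow_of_le_one hW.le hW1 (by norm_num)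
  have h3 : 0 ≤ Wv f ζ ^ 3 := by positivity
  have a1 := k1_nonneg κ δ (Real.log (ups f ζ))
  have a2 := k2_nonneg (Real.log (ups f ζ))
  have a3 := rho_nonneg m ζ
  have htv := (hq f hf ζ hζ hu4).1
  have hO2 : |(jOm 2 f ζ).a| * ‖ζ‖ ≤ D * C * Wv f ζ ^ 2 := by
    calc _ ≤ D * (Wv f ζ ^ 2 * tv f ζ) := (hO 2 (by norm_num) f hf ζ hζ hu4).1
      _ ≤ D * (Wv f ζ ^ 2 * C) := by gcongr
      _ = _ := by ring
  have hO3 : |(jOm 3 f ζ).a| * ‖ζ‖ ≤ D * C * Wv f ζ ^ 2 := by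
    calc _ ≤ D * (Wv f ζ ^ 3 * tv f ζ) := (hO 3 (by norm_num) f hf ζ hζ hu4).1
      _ ≤ D * (Wv f ζ ^ 2 * C) := by gcongr; exact tv_nonneg hf hζ
      _ = _ := by ring
  set P : ℝ := k2 (Real.log (ups f ζ)) * (ups f ζ ^ (-ae κ) * Sn ζ ^ ae κ) with hP
  set Q : ℝ := k2 (Real.log (ups f ζ)) * Sn ζ ^ (ae κ / 2) with hQ
  have hP0 : 0 ≤ P := by positivity
  have hQ0 : 0 ≤ Q := by positivity
  have s1 : Sn ζ ^ aa κ ≤ Sn ζ ^ ae κ :=
    Real.rpow_le_rpow_of_exponent_ge hS0 hS1 (ae_lt_aa hκ hκ8).le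
  have b1 := k1_le κ δ hu
  have v2 : |atom (k1 κ δ) (ae κ) 0 ζ (ups f ζ)| ≤ P := by
    rw [atom_eq, abs_of_nonneg (by positivity), hP, ← mul_assoc]
    gcongr
  have v1 : |atom (k1 κ δ) (aa κ) 0 ζ (ups f ζ)| ≤ P := by
    rw [atom_eq, abs_of_nonneg (by positivity), hP, ← mul_assoc]
    gcongr
  have v3 : |atom k2 (ae κ / 2) 0 ζ (ups f ζ)| ≤ Q := by
    rw [atom_eq, abs_of_nonneg (by positivity)]
  have d1 := (abs_jat_a (k1 κ δ) haa.le hζ (ups f ζ)).trans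
    (mul_le_mul_of_nonneg_left v1 haa.le)
  have d2 := (abs_jat_a (k1 κ δ) hae.le hζ (ups f ζ)).trans
    (mul_le_mul_of_nonneg_left v2 hae.le)
  have d3 := (abs_jat_a k2 (half_pos hae).le hζ (ups f ζ)).trans
    (mul_le_mul_of_nonneg_left v3 (half_pos hae).le)
  have key : ∀ {x y p q X Y P' Q' : ℝ}, |x| * ‖ζ‖ ≤ X → |y| ≤ Y → |p| ≤ P' → |q| * ‖ζ‖ ≤ Q' →
      |x * y + p * q| * ‖ζ‖ ≤ X * Y + P' * Q' := by
    intro x y p q X Y P' Q' h1 h2 h3 h4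
    have hn := norm_nonneg ζ
    calc |x * y + p * q| * ‖ζ‖ ≤ (|x| * |y| + |p| * |q|) * ‖ζ‖ := by
          gcongr; rw [← abs_mul, ← abs_mul]; exact abs_add_le _ _
      _ = |x| * ‖ζ‖ * |y| + |p| * (|q| * ‖ζ‖) := by ring
      _ ≤ X * Y + P' * Q' := by
          have hX : 0 ≤ X := le_trans (by positivity) h1
          have hP' : 0 ≤ P' := le_trans (abs_nonneg _) h3
          gcongr
  have w2 : |Wv f ζ ^ 2| ≤ Wv f ζ ^ 2 := (abs_of_nonneg (by positivity)).le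
  have w23 : |Wv f ζ ^ 2 + -1 * Wv f ζ ^ 3| ≤ Wv f ζ ^ 2 := by
    rw [abs_le]; constructor <;> linarith
  have o23 : |(jOm 2 f ζ).a + -1 * (jOm 3 f ζ).a| * ‖ζ‖ ≤ 2 * (D * C * Wv f ζ ^ 2) := by
    calc _ ≤ (|(jOm 2 f ζ).a| + |(jOm 3 f ζ).a|) * ‖ζ‖ := by
          gcongr
          refine (abs_add_le _ _).trans ?_
          rw [neg_one_mul, abs_neg]
      _ ≤ _ := by rw [add_mul]; linarith
  have t1 := key d1 w2 v1 hO2
  have t2 := key d2 w23 v2 o23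
  have t3 := key d3 w2 v3 hO2
  have e : (jdens κ δ m f ζ).a = rho m ζ *
      (((jat (k1 κ δ) (aa κ) ζ (ups f ζ)).a * Wv f ζ ^ 2 +
          atom (k1 κ δ) (aa κ) 0 ζ (ups f ζ) * (jOm 2 f ζ).a) +
        ((jat (k1 κ δ) (ae κ) ζ (ups f ζ)).a * (Wv f ζ ^ 2 + -1 * Wv f ζ ^ 3) +
          atom (k1 κ δ) (ae κ) 0 ζ (ups f ζ) * ((jOm 2 f ζ).a + -1 * (jOm 3 f ζ).a)) +
        ((jat k2 (ae κ / 2) ζ (ups f ζ)).a * Wv f ζ ^ 2 +
          atom k2 (ae κ / 2) 0 ζ (ups f ζ) * (jOm 2 f ζ).a)) := by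
    show 0 * (jbr κ δ f ζ).v + rho m ζ * (jbr κ δ f ζ).a = _
    rw [zero_mul, zero_add]
    rfl
  have eV : Vv κ m f ζ + chi κ m f ζ = rho m ζ * (Wv f ζ ^ 2 * (P + Q)) := by
    simp only [Vv, chi, hP, hQ]; ring
  rw [e, eV, abs_mul, abs_of_nonneg a3, mul_assoc, mul_left_comm (aa κ + ae κ + 3 * (D * C))]
  refine mul_le_mul_of_nonneg_left ?_ a3
  refine le_trans (mul_le_mul_of_nonneg_right ((abs_add_le _ _).trans
    (add_le_add (abs_add_le _ _) le_rfl)) (norm_nonneg ζ)) ?_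
  rw [add_mul, add_mul]
  refine (add_le_add (add_le_add t1 t2) t3).trans ?_
  have hW2 : 0 ≤ Wv f ζ ^ 2 := by positivity
  have x1 : 0 ≤ aa κ * (Wv f ζ ^ 2 * Q) := by positivity
  have x2 : 0 ≤ ae κ * (Wv f ζ ^ 2 * Q) := by positivity
  have x3 : 0 ≤ D * C * (Wv f ζ ^ 2 * Q) := by positivity
  nlinarith

/-- Generator of a product, times `r²`. -/
private theorem h21_mul (κ : ℝ) (hκ : 0 < κ) (J K : Jet) {r e T : ℝ} (hr : 0 ≤ r) (he : 0 ≤ e)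
    (hv : 0 ≤ J.v) (hJa : |J.a| * r ≤ e * J.v) (hKa : |K.a| * r ≤ T) (hKg : |K.gen κ| * r ^ 2 ≤ T) :
    (J.mul K).gen κ * r ^ 2 ≤ J.gen κ * r ^ 2 * K.v + J.v * T * (1 + κ * e) := by
  rw [Jet.gen_mul]
  have h1 : K.gen κ * r ^ 2 ≤ T :=
    le_trans (mul_le_mul_of_nonneg_right (le_abs_self _) (by positivity)) hKg
  have h2 : J.a * K.a * r ^ 2 ≤ e * J.v * T := by
    calc J.a * K.a * r ^ 2 ≤ |J.a * K.a| * r ^ 2 :=
          mul_le_mul_of_nonneg_right (le_abs_self _) (by positivity)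
      _ = (|J.a| * r) * (|K.a| * r) := by rw [abs_mul]; ring
      _ ≤ (e * J.v) * T := mul_le_mul hJa hKa (by positivity) (by positivity)
  have h3 : J.v * (K.gen κ * r ^ 2) ≤ J.v * T := mul_le_mul_of_nonneg_left h1 hv
  have h4 : κ * (J.a * K.a * r ^ 2) ≤ κ * (e * J.v * T) := mul_le_mul_of_nonneg_left h2 hκ.le
  linarith only [h3, h4]

/-- The bracket. -/
private theorem h21_br {κ : ℝ} (hκ : 0 < κ) (hκ8 : κ < 8) : ∃ c C D : ℝ, 0 < c ∧ 0 ≤ C ∧ 0 < D ∧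
    ∀ (δ : ℝ) (f : ℂ → ℂ), 0 < δ → δ ≤ 1 / 10 → Univ f → ∀ ζ ∈ H, ups f ζ ≤ 4 →
      (jbr κ δ f ζ).gen κ * ‖ζ‖ ^ 2 ≤
        -(4 * c * (Sn ζ ^ 2 * Sn ζ ^ aa κ) *
            (if δ ≤ ups f ζ ∧ ups f ζ ≤ 3 * δ then δ ^ (dd κ - 2) else 0) * Wv f ζ ^ 2) +
          atom (k1 κ δ) (ae κ) 0 ζ (ups f ζ) * (Lam κ (ae κ) (Sn ζ) + 4 * ae κ * Sn ζ ^ 2) *
            (Wv f ζ ^ 3 * ‖Gv f ζ‖ ^ 2) +
          atom k2 (ae κ / 2) 0 ζ (ups f ζ) * Lam κ (ae κ / 2) (Sn ζ) * Wv f ζ ^ 2 + C * dr f ζ +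
          D * (Wv f ζ ^ 2 * tv f ζ) *
            (2 * atom (k1 κ δ) (ae κ) 0 ζ (ups f ζ) + atom k2 (ae κ / 2) 0 ζ (ups f ζ)) := by
  classical
  obtain ⟨CO, hCO, hO⟩ := jOm_le hκ
  obtain ⟨c, Ck, hc, hCk, hk1⟩ := deriv_k1_ge hκ hκ8
  obtain ⟨Ck2, hCk2, hk2⟩ := deriv_k2_ge
  have hae := ae_pos hκ8
  have haa' := ae_lt_aa hκ hκ8
  have haa := hae.trans haa'
  refine ⟨c, 8 * Ck + 4 * Ck2, 2 * CO * (1 + κ * aa κ), hc, by positivity, by positivity,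
    fun δ f hδ hδ1 hf ζ hζ hu4 => ?_⟩
  have hS0 := Sn_pos hζ
  have hS1 := Sn_le_one ζ
  have hW := Wv_pos f ζ
  have hW1 := Wv_le_one f ζ
  have hu := hf.ups_pos hζ
  have ht := tv_nonneg hf hζ
  have hn := norm_nonneg ζ
  set u := ups f ζ with hudef
  set S := Sn ζ with hSdef
  set W := Wv f ζ with hWdef
  set t := tv f ζ with htdef
  set M : ℝ := if δ ≤ u ∧ u ≤ 3 * δ then δ ^ (dd κ - 2) else 0 with hM
  have hM0 : 0 ≤ M := by
    rw [hM]; split_ifs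
    · positivity
    · exact le_rfl
  have h32 : W ^ 3 ≤ W ^ 2 := pow_le_pow_of_le_one hW.le hW1 (by norm_num)
  have hW2 : W ^ 2 ≤ 1 := pow_le_one₀ hW.le hW1
  have a1 := k1_nonneg κ δ (Real.log u)
  have a2 := k2_nonneg (Real.log u)
  set A1 := atom (k1 κ δ) (aa κ) 0 ζ u with hA1
  set A2 := atom (k1 κ δ) (ae κ) 0 ζ u with hA2
  set A3 := atom k2 (ae κ / 2) 0 ζ u with hA3
  have eA1 : A1 = k1 κ δ (Real.log u) * S ^ aa κ := atom_eq _ _ _ _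
  have eA2 : A2 = k1 κ δ (Real.log u) * S ^ ae κ := atom_eq _ _ _ _
  have eA3 : A3 = k2 (Real.log u) * S ^ (ae κ / 2) := atom_eq _ _ _ _
  have sα : 0 < S ^ aa κ := by positivity
  have sa : 0 < S ^ ae κ := by positivity
  have sa2 : 0 < S ^ (ae κ / 2) := by positivity
  have sα1 : S ^ aa κ ≤ 1 := Real.rpow_le_one hS0.le hS1 haa.le
  have sa1 : S ^ ae κ ≤ 1 := Real.rpow_le_one hS0.le hS1 hae.le
  have sa21 : S ^ (ae κ / 2) ≤ 1 := Real.rpow_le_one hS0.le hS1 (by linarith)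
  have s12 : S ^ aa κ ≤ S ^ ae κ := Real.rpow_le_rpow_of_exponent_ge hS0 hS1 haa'.le
  have pA1 : 0 ≤ A1 := by rw [eA1]; positivity
  have pA2 : 0 ≤ A2 := by rw [eA2]; positivity
  have pA3 : 0 ≤ A3 := by rw [eA3]; positivity
  have A12 : A1 ≤ A2 := by rw [eA1, eA2]; gcongr
  have hψ : 0 ≤ u / (1 + u) ^ 2 := by positivity
  have edr : dr f ζ = S ^ 2 * (u / (1 + u) ^ 2) := rfl
  have pdr : 0 ≤ dr f ζ := by rw [edr]; positivity
  -- the three generators of atoms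
  have hd1 := hk1 δ u hδ hδ1 hu
  have hd2 := hk2 u hu
  have g1 : (jat (k1 κ δ) (aa κ) ζ u).gen κ * ‖ζ‖ ^ 2 ≤
      -(4 * c * (S ^ 2 * S ^ aa κ) * M) + 4 * Ck * dr f ζ := by
    rw [gen_jat κ _ _ hζ, ← hA1, ← hSdef, eA1, edr]
    have hL := Lam_aa hκ S
    have e1 : Lam κ (aa κ) S = -(4 * ae κ * S ^ 2) := by linarith only [hL]
    rw [e1]
    have h1 : 4 * S ^ 2 * ((-ae κ * k1 κ δ (Real.log u) + c * M - Ck * (u / (1 + u) ^ 2)) *
        S ^ aa κ) ≤ 4 * S ^ 2 * (deriv (k1 κ δ) (Real.log u) * S ^ aa κ) := by gcongr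
    have h2 : 4 * Ck * (S ^ 2 * (u / (1 + u) ^ 2)) * S ^ aa κ ≤
        4 * Ck * (S ^ 2 * (u / (1 + u) ^ 2)) := mul_le_of_le_one_right (by positivity) sα1
    linarith only [h1, h2]
  have g2 : (jat (k1 κ δ) (ae κ) ζ u).gen κ * ‖ζ‖ ^ 2 ≤
      A2 * (Lam κ (ae κ) S + 4 * ae κ * S ^ 2) + 4 * Ck * dr f ζ := by
    rw [gen_jat κ _ _ hζ, ← hA2, ← hSdef, eA2, edr]
    have h0 : -ae κ * k1 κ δ (Real.log u) - Ck * (u / (1 + u) ^ 2) ≤
        deriv (k1 κ δ) (Real.log u) := by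
      have : 0 ≤ c * M := by positivity
      linarith only [this, hd1]
    have h1 : 4 * S ^ 2 * ((-ae κ * k1 κ δ (Real.log u) - Ck * (u / (1 + u) ^ 2)) *
        S ^ ae κ) ≤ 4 * S ^ 2 * (deriv (k1 κ δ) (Real.log u) * S ^ ae κ) := by gcongr
    have h2 : 4 * Ck * (S ^ 2 * (u / (1 + u) ^ 2)) * S ^ ae κ ≤
        4 * Ck * (S ^ 2 * (u / (1 + u) ^ 2)) := mul_le_of_le_one_right (by positivity) sa1
    linarith only [h1, h2]
  have g3 : (jat k2 (ae κ / 2) ζ u).gen κ * ‖ζ‖ ^ 2 ≤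
      A3 * Lam κ (ae κ / 2) S + 4 * Ck2 * dr f ζ := by
    rw [gen_jat κ _ _ hζ, ← hA3, ← hSdef, edr]
    have h1 : 4 * S ^ 2 * (-(Ck2 * (u / (1 + u) ^ 2)) * S ^ (ae κ / 2)) ≤
        4 * S ^ 2 * (deriv k2 (Real.log u) * S ^ (ae κ / 2)) := by gcongr
    have h2 : 4 * Ck2 * (S ^ 2 * (u / (1 + u) ^ 2)) * S ^ (ae κ / 2) ≤
        4 * Ck2 * (S ^ 2 * (u / (1 + u) ^ 2)) := mul_le_of_le_one_right (by positivity) sa21
    linarith only [h1, h2]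
  -- the discount
  obtain ⟨o2a, o2g⟩ := hO 2 (by norm_num) f hf ζ hζ hu4
  obtain ⟨o3a, o3g⟩ := hO 3 (by norm_num) f hf ζ hζ hu4
  rw [← hWdef, ← htdef] at o2a o2g o3a o3g
  set T := CO * (W ^ 2 * t) with hT
  have hT0 : 0 ≤ T := by positivity
  have h3T : CO * (W ^ 3 * t) ≤ T := by rw [hT]; gcongr
  have o23a : |((jOm 2 f ζ).add ((jOm 3 f ζ).smul (-1))).a| * ‖ζ‖ ≤ 2 * T := by
    have e : ((jOm 2 f ζ).add ((jOm 3 f ζ).smul (-1))).a = (jOm 2 f ζ).a - (jOm 3 f ζ).a := by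
      simp only [Jet.add, Jet.smul]; ring
    rw [e]
    calc _ ≤ (|(jOm 2 f ζ).a| + |(jOm 3 f ζ).a|) * ‖ζ‖ := by gcongr; exact abs_sub _ _
      _ ≤ 2 * T := by linarith only [o2a, o3a, h3T]
  have o23g : |((jOm 2 f ζ).add ((jOm 3 f ζ).smul (-1))).gen κ| * ‖ζ‖ ^ 2 ≤ 2 * T := by
    have e : ((jOm 2 f ζ).add ((jOm 3 f ζ).smul (-1))).gen κ =
        (jOm 2 f ζ).gen κ - (jOm 3 f ζ).gen κ := by
      rw [Jet.gen_add, Jet.gen_smul]; ring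
    rw [e]
    calc _ ≤ (|(jOm 2 f ζ).gen κ| + |(jOm 3 f ζ).gen κ|) * ‖ζ‖ ^ 2 := by
          gcongr; exact abs_sub _ _
      _ ≤ 2 * T := by linarith only [o2g, o3g, h3T]
  have v1 : (jat (k1 κ δ) (aa κ) ζ u).v = A1 := rfl
  have v2 : (jat (k1 κ δ) (ae κ) ζ u).v = A2 := rfl
  have v3 : (jat k2 (ae κ / 2) ζ u).v = A3 := rfl
  have w2 : (jOm 2 f ζ).v = W ^ 2 := rfl
  have w23 : ((jOm 2 f ζ).add ((jOm 3 f ζ).smul (-1))).v = W ^ 3 * ‖Gv f ζ‖ ^ 2 := by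
    have e : ((jOm 2 f ζ).add ((jOm 3 f ζ).smul (-1))).v = W ^ 2 * (1 - W) := by
      simp only [Jet.add, Jet.smul, jOm]; rw [← hWdef]; ring
    rw [e, hWdef, one_sub_Wv]; ring
  have w23' : W ^ 3 * ‖Gv f ζ‖ ^ 2 ≤ 1 := by
    have e : W ^ 3 * ‖Gv f ζ‖ ^ 2 = W ^ 2 * (1 - W) := by rw [hWdef, one_sub_Wv]; ring
    rw [e]; exact mul_le_one₀ hW2 (by linarith only [hW1]) (by linarith only [hW])
  have m1 := h21_mul κ hκ (jat (k1 κ δ) (aa κ) ζ u) (jOm 2 f ζ) hn haa.le (by rw [v1]; exact pA1)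
    (by have := abs_jat_a (k1 κ δ) haa.le hζ u; rwa [← hA1, abs_of_nonneg pA1] at this) o2a o2g
  have m2 := h21_mul κ hκ (jat (k1 κ δ) (ae κ) ζ u) ((jOm 2 f ζ).add ((jOm 3 f ζ).smul (-1))) hn
    hae.le (by rw [v2]; exact pA2)
    (by have := abs_jat_a (k1 κ δ) hae.le hζ u; rwa [← hA2, abs_of_nonneg pA2] at this) o23a o23g
  have m3 := h21_mul κ hκ (jat k2 (ae κ / 2) ζ u) (jOm 2 f ζ) hn (half_pos hae).le
    (by rw [v3]; exact pA3)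
    (by have := abs_jat_a k2 (half_pos hae).le hζ u; rwa [← hA3, abs_of_nonneg pA3] at this) o2a o2g
  rw [v1, w2] at m1
  rw [v2, w23] at m2
  rw [v3, w2] at m3
  have e : (jbr κ δ f ζ).gen κ * ‖ζ‖ ^ 2 =
      ((jat (k1 κ δ) (aa κ) ζ u).mul (jOm 2 f ζ)).gen κ * ‖ζ‖ ^ 2 +
      ((jat (k1 κ δ) (ae κ) ζ u).mul ((jOm 2 f ζ).add ((jOm 3 f ζ).smul (-1)))).gen κ * ‖ζ‖ ^ 2 +
      ((jat k2 (ae κ / 2) ζ u).mul (jOm 2 f ζ)).gen κ * ‖ζ‖ ^ 2 := by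
    simp only [jbr, Jet.gen_add]; ring
  rw [e]
  have n1 : (jat (k1 κ δ) (aa κ) ζ u).gen κ * ‖ζ‖ ^ 2 * W ^ 2 ≤
      -(4 * c * (S ^ 2 * S ^ aa κ) * M * W ^ 2) + 4 * Ck * dr f ζ := by
    have h1 := mul_le_mul_of_nonneg_right g1 (sq_nonneg W)
    have h2 : 4 * Ck * dr f ζ * W ^ 2 ≤ 4 * Ck * dr f ζ :=
      mul_le_of_le_one_right (by positivity) hW2
    linarith only [h1, h2]
  have n2 : (jat (k1 κ δ) (ae κ) ζ u).gen κ * ‖ζ‖ ^ 2 * (W ^ 3 * ‖Gv f ζ‖ ^ 2) ≤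
      A2 * (Lam κ (ae κ) S + 4 * ae κ * S ^ 2) * (W ^ 3 * ‖Gv f ζ‖ ^ 2) + 4 * Ck * dr f ζ := by
    have h1 := mul_le_mul_of_nonneg_right g2 (show 0 ≤ W ^ 3 * ‖Gv f ζ‖ ^ 2 by positivity)
    have h2 : 4 * Ck * dr f ζ * (W ^ 3 * ‖Gv f ζ‖ ^ 2) ≤ 4 * Ck * dr f ζ :=
      mul_le_of_le_one_right (by positivity) w23'
    linarith only [h1, h2]
  have n3 : (jat k2 (ae κ / 2) ζ u).gen κ * ‖ζ‖ ^ 2 * W ^ 2 ≤
      A3 * Lam κ (ae κ / 2) S * W ^ 2 + 4 * Ck2 * dr f ζ := by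
    have h1 := mul_le_mul_of_nonneg_right g3 (sq_nonneg W)
    have h2 : 4 * Ck2 * dr f ζ * W ^ 2 ≤ 4 * Ck2 * dr f ζ :=
      mul_le_of_le_one_right (by positivity) hW2
    linarith only [h1, h2]
  have hE : 0 ≤ 1 + κ * aa κ := by positivity
  have c1 : A1 * T * (1 + κ * aa κ) ≤ A2 * (2 * T) * (1 + κ * aa κ) := by
    have : A1 * T ≤ A2 * (2 * T) := mul_le_mul A12 (by linarith only [hT0]) hT0 pA2
    exact mul_le_mul_of_nonneg_right this hE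
  have c2 : A2 * (2 * T) * (1 + κ * ae κ) ≤ A2 * (2 * T) * (1 + κ * aa κ) := by gcongr
  have c3 : A3 * T * (1 + κ * (ae κ / 2)) ≤ A3 * (2 * T) * (1 + κ * aa κ) := by
    have h1 : κ * (ae κ / 2) ≤ κ * aa κ :=
      mul_le_mul_of_nonneg_left (by linarith only [hae, haa']) hκ.le
    have h2 : A3 * T ≤ A3 * (2 * T) := mul_le_mul_of_nonneg_left (by linarith only [hT0]) pA3
    exact mul_le_mul h2 (by linarith only [h1]) (by positivity) (by positivity)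
  have e2 : 2 * CO * (1 + κ * aa κ) * (W ^ 2 * t) * (2 * A2 + A3) =
      2 * (A2 * (2 * T) * (1 + κ * aa κ)) + A3 * (2 * T) * (1 + κ * aa κ) := by rw [hT]; ring
  rw [e2]
  linarith only [m1, m2, m3, n1, n2, n3, c1, c2, c3]

/-- The pointwise drift inequality. -/
theorem jdens_gen_le {κ : ℝ} (hκ : 0 < κ) (hκ8 : κ < 8) {s1 : ℝ} (hs1 : 0 < s1) :
    ∃ c0 c1 C1 C' : ℝ, 0 < c0 ∧ 0 < c1 ∧ 0 ≤ C1 ∧ 1 ≤ C' ∧ ∀ (δ m : ℝ) (f : ℂ → ℂ), 0 < δ → δ ≤ 1 / 10 →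
      0 < m → Univ f → ∀ ζ ∈ H, ups f ζ ≤ 4 →
        (jdens κ δ m f ζ).gen κ * ‖ζ‖ ^ 2 ≤
          -(c0 * chi κ m f ζ) - c1 * msk κ s1 δ m f ζ + C1 * pt m f ζ + C1 * bad κ C' m f ζ := by
  classical
  obtain ⟨c, C, D, hc, hC, hD, hbr⟩ := h21_br hκ hκ8
  have hae := ae_pos hκ8
  have haa' := ae_lt_aa hκ hκ8
  have haa := hae.trans haa'
  set p : ℝ := κ / 2 * ae κ * (aa κ - ae κ) with hp
  have hp0 : 0 < p := by have : 0 < aa κ - ae κ := by linarith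
                         positivity
  set q : ℝ := min (κ / 2 * (ae κ / 2) * (aa κ - ae κ / 2)) (κ / 2 * (ae κ / 2)) with hq
  have hq0 : 0 < q := by
    have : 0 < aa κ - ae κ / 2 := by linarith
    exact lt_min (by positivity) (by positivity)
  set s0 : ℝ := Real.sqrt (p / (2 * (p + 4 * ae κ))) with hs0
  have hs00 : 0 < s0 := Real.sqrt_pos.2 (by positivity)
  have hs0sq : s0 ^ 2 = p / (2 * (p + 4 * ae κ)) := Real.sq_sqrt (by positivity)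
  obtain ⟨Cs, hCs, hGs⟩ := Gv_le hs00
  obtain ⟨Cm, hCm, hGm⟩ := Gv_le (half_pos hs1)
  set C' : ℝ := max Cs (max (8 * D / p) (4 * D / q)) with hC'
  have hC's : Cs ≤ C' := le_max_left _ _
  have hC'1 : 1 ≤ C' := hCs.trans hC's
  have hC'p : 8 * D ≤ C' * p := by
    have : 8 * D / p ≤ C' := (le_max_left _ _).trans (le_max_right _ _)
    rwa [div_le_iff₀ hp0] at this
  have hC'q : 4 * D ≤ C' * q := by
    have : 4 * D / q ≤ C' := (le_max_right _ _).trans (le_max_right _ _)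
    rwa [div_le_iff₀ hq0] at this
  set c1 : ℝ := 4 * c * ((s1 / 2) ^ 2 * (s1 / 2) ^ aa κ) * (1 + Cm ^ 2)⁻¹ ^ 2 with hc1
  set C2 : ℝ := 4 * ae κ * C' ^ 2 + 2 * D * (C' + 1) with hC2
  have hC20 : 0 ≤ C2 := by positivity
  refine ⟨q / 2, c1, C + C2, C', half_pos hq0, by positivity, by positivity, hC'1,
    fun δ m f hδ hδ1 hm hf ζ hζ hu4 => ?_⟩
  have hS0 := Sn_pos hζ
  have hS1 := Sn_le_one ζ
  have hW := Wv_pos f ζ
  have hW1 := Wv_le_one f ζ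
  have hu := hf.ups_pos hζ
  have hL := Lv_pos hf hζ
  have hG := norm_nonneg (Gv f ζ)
  have pdr : 0 ≤ dr f ζ := by unfold dr; positivity
  have ppt : 0 ≤ pt m f ζ := by
    unfold pt; split_ifs
    · exact pdr
    · exact le_rfl
  have pbad : 0 ≤ bad κ C' m f ζ := by
    unfold bad; split_ifs
    · positivity
    · exact le_rfl
  have egen : (jdens κ δ m f ζ).gen κ * ‖ζ‖ ^ 2 =
      (jrho m ζ).c * ((jbr κ δ f ζ).v * ‖ζ‖ ^ 2) + rho m ζ * ((jbr κ δ f ζ).gen κ * ‖ζ‖ ^ 2) := by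
    rw [jdens, Jet.gen_mul]
    simp only [Jet.gen, jrho]; ring
  by_cases him : ζ.im ≤ m
  · obtain ⟨r0, r1⟩ := rho_eq_zero hζ him
    have hmsk : msk κ s1 δ m f ζ = 0 := by
      unfold msk; rw [if_neg]; rintro ⟨-, -, -, h⟩; linarith
    have hchi : chi κ m f ζ = 0 := by unfold chi; rw [r0]; ring
    rw [egen, r0, r1, hmsk, hchi]
    have : 0 ≤ (C + C2) * pt m f ζ + (C + C2) * bad κ C' m f ζ := by positivity
    linarith
  push Not at him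
  have hb := hbr δ f hδ hδ1 hf ζ hζ hu4
  set u := ups f ζ with hudef
  set S := Sn ζ with hSdef
  set W := Wv f ζ with hWdef
  set L := Lv f ζ with hLdef
  set G := ‖Gv f ζ‖ with hGdef
  set A2 := atom (k1 κ δ) (ae κ) 0 ζ u with hA2
  set A3 := atom k2 (ae κ / 2) 0 ζ u with hA3
  set M : ℝ := if δ ≤ u ∧ u ≤ 3 * δ then δ ^ (dd κ - 2) else 0 with hM
  have hM0 : 0 ≤ M := by
    rw [hM]; split_ifs
    · positivity
    · exact le_rfl
  have et : tv f ζ = (L * G + L ^ 2) * W := rfl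
  have a1 := k1_nonneg κ δ (Real.log u)
  have a2 := k2_nonneg (Real.log u)
  have b2 := k2_le_one (Real.log u)
  have eA2 : A2 = k1 κ δ (Real.log u) * S ^ ae κ := atom_eq _ _ _ _
  have eA3 : A3 = k2 (Real.log u) * S ^ (ae κ / 2) := atom_eq _ _ _ _
  have pA2 : 0 ≤ A2 := by rw [eA2]; positivity
  have pA3 : 0 ≤ A3 := by rw [eA3]; positivity
  have hU : 0 ≤ u ^ (-ae κ) := by positivity
  have uA2 : A2 ≤ u ^ (-ae κ) * S ^ ae κ := by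
    rw [eA2]
    have : k1 κ δ (Real.log u) ≤ u ^ (-ae κ) :=
      (k1_le κ δ hu).trans (mul_le_of_le_one_left hU b2)
    gcongr
  have uA3 : A3 ≤ 1 := by
    rw [eA3]
    exact mul_le_one₀ b2 (by positivity) (Real.rpow_le_one hS0.le hS1 (by linarith))
  have hS2 : S ^ 2 ≤ 1 := pow_le_one₀ hS0.le hS1
  have hLam3 : Lam κ (ae κ / 2) S ≤ -q := by
    rw [Lam_eq hκ]
    have h1 : q ≤ κ / 2 * (ae κ / 2) * (aa κ - ae κ / 2) := min_le_left _ _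
    have h2 : q ≤ κ / 2 * (ae κ / 2) := min_le_right _ _
    have h3 := mul_le_mul_of_nonneg_right h1 (show 0 ≤ 1 - S ^ 2 by linarith only [hS2])
    have h4 := mul_le_mul_of_nonneg_right h2 (sq_nonneg S)
    linarith only [h3, h4]
  have hLam2 : Lam κ (ae κ) S + 4 * ae κ * S ^ 2 ≤ -p + (p + 4 * ae κ) * S ^ 2 := by
    rw [Lam_eq hκ, ← hp]
    have : 0 ≤ κ / 2 * ae κ * S ^ 2 := by positivity
    linarith only [this]
  have hGW : G ^ 2 * W ≤ 1 := by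
    have := one_sub_Wv f ζ
    rw [← hWdef, ← hGdef] at this
    linarith only [this, hW]
  have t3 : A3 * Lam κ (ae κ / 2) S * W ^ 2 ≤ -(q * (A3 * W ^ 2)) := by
    have := mul_le_mul_of_nonneg_left hLam3 (show 0 ≤ A3 * W ^ 2 by positivity)
    linarith only [this]
  -- the bracket without the mass term
  have key : A2 * (Lam κ (ae κ) S + 4 * ae κ * S ^ 2) * (W ^ 3 * G ^ 2) +
      A3 * Lam κ (ae κ / 2) S * W ^ 2 + D * (W ^ 2 * tv f ζ) * (2 * A2 + A3) ≤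
      -(q / 2 * (A3 * W ^ 2)) + C2 * bad κ C' m f ζ := by
    by_cases hcase : G ≤ C' * L
    · have ebad : bad κ C' m f ζ = L ^ 2 * W ^ 3 * (u ^ (-ae κ) * S ^ ae κ + 1) := by
        unfold bad; rw [if_pos ⟨him.le, hcase⟩]
      set V := u ^ (-ae κ) * S ^ ae κ with hV
      have hV0 : 0 ≤ V := by positivity
      have h1 : Lam κ (ae κ) S + 4 * ae κ * S ^ 2 ≤ 4 * ae κ := by
        have := mul_le_mul_of_nonneg_left hS2 (show 0 ≤ p + 4 * ae κ by positivity)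
        linarith only [this, hLam2]
      have h2 : A2 * (Lam κ (ae κ) S + 4 * ae κ * S ^ 2) * (W ^ 3 * G ^ 2) ≤
          4 * ae κ * C' ^ 2 * (L ^ 2 * W ^ 3 * (V + 1)) := by
        calc _ ≤ A2 * (4 * ae κ) * (W ^ 3 * G ^ 2) := by gcongr
          _ ≤ (V + 1) * (4 * ae κ) * (W ^ 3 * (C' * L) ^ 2) := by
              have : A2 ≤ V + 1 := by linarith only [uA2]
              gcongr
          _ = _ := by ring
      have h3 : D * (W ^ 2 * tv f ζ) * (2 * A2 + A3) ≤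
          2 * D * (C' + 1) * (L ^ 2 * W ^ 3 * (V + 1)) := by
        rw [et]
        calc _ ≤ D * (W ^ 2 * ((L * (C' * L) + L ^ 2) * W)) * (2 * (V + 1)) := by
              have : 2 * A2 + A3 ≤ 2 * (V + 1) := by linarith only [uA2, uA3]
              gcongr
          _ = _ := by ring
      have h4 : 0 ≤ q / 2 * (A3 * W ^ 2) := by positivity
      rw [ebad, hC2]
      linarith only [h2, h3, t3, h4]
    · push Not at hcase
      have hSs : S < s0 := by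
        by_contra hh
        push Not at hh
        have := (hGs f hf ζ hζ hh).1
        rw [← hGdef, ← hLdef] at this
        have h9 := mul_le_mul_of_nonneg_right hC's hL.le
        linarith only [this, h9, hcase]
      have h1 : Lam κ (ae κ) S + 4 * ae κ * S ^ 2 ≤ -(p / 2) := by
        have h5 : S ^ 2 ≤ s0 ^ 2 := by gcongr
        have h6 : (p + 4 * ae κ) * s0 ^ 2 = p / 2 := by rw [hs0sq]; field_simp
        have h7 : (p + 4 * ae κ) * S ^ 2 ≤ (p + 4 * ae κ) * s0 ^ 2 := by gcongr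
        linarith only [h6, h7, hLam2]
      have hLG : L ≤ G := by
        have := mul_le_mul_of_nonneg_right hC'1 hL.le
        linarith only [this, hcase]
      have ht : C' * tv f ζ ≤ 2 * G ^ 2 * W := by
        rw [et]
        have h5 : C' * (L * G + L ^ 2) ≤ 2 * G ^ 2 := by
          have h8 := mul_le_mul_of_nonneg_right hcase.le hG
          have h9 := mul_le_mul hcase.le hLG hL.le hG
          linarith only [h8, h9]
        have h6 := mul_le_mul_of_nonneg_right h5 hW.le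
        linarith only [h6]
      have h2 : A2 * (Lam κ (ae κ) S + 4 * ae κ * S ^ 2) * (W ^ 3 * G ^ 2) ≤
          -(p / 2 * (A2 * (W ^ 3 * G ^ 2))) := by
        have := mul_le_mul_of_nonneg_left h1 (show 0 ≤ A2 * (W ^ 3 * G ^ 2) by positivity)
        linarith only [this]
      have hC'0 : 0 < C' := by linarith
      have htv := tv_nonneg hf hζ
      have h3 : D * (W ^ 2 * tv f ζ) * (2 * A2) ≤ p / 2 * (A2 * (W ^ 3 * G ^ 2)) := by
        have h5 : D * tv f ζ * 4 ≤ p * (G ^ 2 * W) := by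
          have h8 : 8 * D * tv f ζ ≤ C' * p * tv f ζ := mul_le_mul_of_nonneg_right hC'p htv
          have h9 := mul_le_mul_of_nonneg_left ht hp0.le
          linarith only [h8, h9]
        have h6 := mul_le_mul_of_nonneg_right h5 (show 0 ≤ A2 * W ^ 2 by positivity)
        linarith only [h6]
      have h4 : D * (W ^ 2 * tv f ζ) * A3 ≤ q / 2 * (A3 * W ^ 2) := by
        have h5 : D * tv f ζ * 2 ≤ q := by
          have h6 : 4 * D * tv f ζ ≤ C' * q * tv f ζ := mul_le_mul_of_nonneg_right hC'q htv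
          have h7 : q * (C' * tv f ζ) ≤ q * 2 :=
            mul_le_mul_of_nonneg_left (by linarith only [ht, hGW]) hq0.le
          linarith only [h6, h7]
        have h6 := mul_le_mul_of_nonneg_right h5 (show 0 ≤ A3 * W ^ 2 by positivity)
        linarith only [h6]
      have h5 : 0 ≤ C2 * bad κ C' m f ζ := by positivity
      linarith only [h2, h3, h4, t3, h5]
  have ρ0 := rho_nonneg m ζ
  have ρ1 := rho_le_one m ζ
  have ept : pt m f ζ = dr f ζ := by unfold pt; rw [if_pos him.le]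
  have echi : chi κ m f ζ = rho m ζ * (A3 * W ^ 2) := by rw [eA3]; unfold chi; ring
  have vbr : 0 ≤ (jbr κ δ f ζ).v := by
    have h32 : W ^ 3 ≤ W ^ 2 := pow_le_pow_of_le_one hW.le hW1 (by norm_num)
    have e : (jbr κ δ f ζ).v = atom (k1 κ δ) (aa κ) 0 ζ u * W ^ 2 + A2 * (W ^ 2 - W ^ 3) +
        A3 * W ^ 2 := by
      simp only [jbr, Jet.add, Jet.mul, Jet.smul, jat, jOm]
      rw [← hudef, ← hWdef, ← hA2, ← hA3]; ring
    have h0 : 0 ≤ atom (k1 κ δ) (aa κ) 0 ζ u := by rw [atom_eq]; positivity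
    have h1 : 0 ≤ W ^ 2 - W ^ 3 := by linarith only [h32]
    rw [e]; positivity
  have f1 : (jrho m ζ).c * ((jbr κ δ f ζ).v * ‖ζ‖ ^ 2) ≤ 0 :=
    mul_nonpos_of_nonpos_of_nonneg (jrho_c_nonpos m ζ) (by positivity)
  have f2 : c1 * msk κ s1 δ m f ζ ≤
      rho m ζ * (4 * c * (S ^ 2 * S ^ aa κ) * M * W ^ 2) := by
    unfold msk
    split_ifs with hh
    · obtain ⟨h1, h2, h3, h4⟩ := hh
      rw [rho_eq_one hm h4, hM, if_pos ⟨h1, h2⟩, one_mul, hc1]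
      have hGm' := (hGm f hf ζ hζ h3).2
      rw [← hGdef, ← hudef] at hGm'
      have hG1 : G ≤ Cm := by
        have h7 : u ≤ 1 := by linarith only [h2, hδ1]
        have h8 := mul_le_mul_of_nonneg_left h7 (show 0 ≤ Cm by linarith only [hCm])
        linarith only [h8, hGm']
      have hWl : (1 + Cm ^ 2)⁻¹ ≤ W := by
        have e : W = (1 + G ^ 2)⁻¹ := rfl
        rw [e]; gcongr
      have hd : 0 ≤ δ ^ (dd κ - 2) := by positivity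
      rw [← hSdef] at h3
      calc _ = 4 * c * ((s1 / 2) ^ 2 * (s1 / 2) ^ aa κ) * δ ^ (dd κ - 2) * (1 + Cm ^ 2)⁻¹ ^ 2 := by
            ring
        _ ≤ _ := by gcongr
    · rw [mul_zero]; positivity
  have f3 : (jbr κ δ f ζ).gen κ * ‖ζ‖ ^ 2 ≤ -(4 * c * (S ^ 2 * S ^ aa κ) * M * W ^ 2) -
      q / 2 * (A3 * W ^ 2) + (C * dr f ζ + C2 * bad κ C' m f ζ) := by linarith only [hb, key]
  have f4 := mul_le_mul_of_nonneg_left f3 ρ0
  have f5 : rho m ζ * (C * dr f ζ + C2 * bad κ C' m f ζ) ≤ C * dr f ζ + C2 * bad κ C' m f ζ :=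
    mul_le_of_le_one_left (by positivity) ρ1
  have f6 : 0 ≤ C2 * dr f ζ + C * bad κ C' m f ζ := by positivity
  rw [egen, echi, ept]
  linarith only [f1, f2, f4, f5, f6]

end Crest.Agent.R162.E
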