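import Crest.Agent.R162.E1b

/-! Row 162, block E: integrals over windows, analytic lemmas. -/

set_option autoImplicit false
open MeasureTheory ProbabilityTheory Set Filter Topology Metric
open scoped ENNReal NNReal ComplexConjugate

namespace Crest.Agent.R162.E

theorem measurableSet_Ann (r : ℝ) : MeasurableSet (Ann r) :=
  (measurableSet_lt measurable_const Complex.measurable_im).inter
    ((measurableSet_le measurable_const measurable_norm).inter
      (measurableSet_lt measurable_norm measurable_const))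

theorem Ann_subset (r : ℝ) : Ann r ⊆ H := fun _ h => h.1

theorem lintegral_le_windows (μ : Measure ℂ) {m : ℝ} (hm : 0 < m) (g : ℂ → ℝ≥0∞)
    (hg : ∀ ζ, g ζ ≠ 0 → m ≤ ζ.im) : ∫⁻ ζ, g ζ ∂μ ≤ ∑' k : ℕ, ∫⁻ ζ in Ann (2 ^ k * m), g ζ ∂μ := by
  have hs : Function.support g ⊆ ⋃ k : ℕ, Ann (2 ^ k * m) := fun ζ hζ => by
    have h1 := hg ζ hζ
    have h2 : ζ.im ≤ ‖ζ‖ := Complex.im_le_norm ζ
    obtain ⟨k, hk1, hk2⟩ := exists_nat_pow_near (x := ‖ζ‖ / m) (y := 2)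
      ((one_le_div hm).2 (h1.trans h2)) one_lt_two
    rw [le_div_iff₀ hm] at hk1
    rw [div_lt_iff₀ hm, pow_succ] at hk2
    exact mem_iUnion.2 ⟨k, hm.trans_le h1, hk1, by linarith⟩
  rw [← setLIntegral_eq_of_support_subset hs]
  exact lintegral_iUnion_le _ _

theorem windows_le_lintegral (μ : Measure ℂ) {m : ℝ} (hm : 0 < m) (g : ℂ → ℝ≥0∞) :
    ∑' k : ℕ, ∫⁻ ζ in Ann (2 ^ k * m), g ζ ∂μ ≤ ∫⁻ ζ, g ζ ∂μ := by
  have key : ∀ i j : ℕ, i < j → Disjoint (Ann (2 ^ i * m)) (Ann (2 ^ j * m)) := fun i j hij => by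
    refine Set.disjoint_left.2 fun ζ h1 h2 => ?_
    have h3 : (2 : ℝ) ^ (i + 1) ≤ 2 ^ j := pow_le_pow_right₀ one_le_two hij
    have h4 := mul_le_mul_of_nonneg_right h3 hm.le
    have h5 := h1.2.2
    have h6 := h2.2.1
    rw [pow_succ] at h4
    linarith
  rw [← lintegral_iUnion (fun k => measurableSet_Ann _)
    (fun i j hij => (lt_or_gt_of_ne hij).elim (key i j) fun h => (key j i h).symm)]
  exact setLIntegral_le_lintegral _ _

theorem h31_tele {x q t M : ℝ} (hx : 0 < x) (hq : 1 < q) (hM : 0 ≤ M)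
    (h : (x ≤ 1 ∧ t ≤ M * x) ∨ (1 ≤ x ∧ t ≤ M / x)) :
    t ≤ M * (2 * (1 + q) / (q - 1)) * (q * x / (1 + q * x) - x / (1 + x)) := by
  have hq1 : 0 < q - 1 := by linarith
  have hqx : 0 < 1 + q * x := by positivity
  have hx1 : 0 < 1 + x := by positivity
  have e : M * (2 * (1 + q) / (q - 1)) * (q * x / (1 + q * x) - x / (1 + x)) =
      M * (2 * (1 + q) * x / ((1 + q * x) * (1 + x))) := by
    field_simp
    ring
  rw [e]
  rcases h with ⟨h1, h2⟩ | ⟨h1, h2⟩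
  · refine h2.trans (mul_le_mul_of_nonneg_left ?_ hM)
    rw [le_div_iff₀ (mul_pos hqx hx1)]
    have h3 : (1 + q * x) * (1 + x) ≤ (1 + q) * 2 :=
      mul_le_mul (by nlinarith) (by linarith) hx1.le (by linarith)
    nlinarith
  · refine h2.trans ?_
    rw [div_eq_mul_one_div]
    refine mul_le_mul_of_nonneg_left ?_ hM
    rw [div_le_div_iff₀ hx (mul_pos hqx hx1)]
    have h3 : (1 + q * x) * (1 + x) ≤ ((1 + q) * x) * (2 * x) :=
      mul_le_mul (by nlinarith) (by linarith) hx1.le (by positivity)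
    nlinarith

theorem h31_term {γ C0 s : ℝ} (hγ : 1 / 2 < γ) (hγ1 : γ ≤ 1) (hC0 : 0 < C0) (hs : 0 < s) :
    (s ^ (2 * γ - 1) ≤ 1 ∧
        (min C0 (4 * s ^ 2)) ^ γ / s ≤ (C0 ^ γ + 4 ^ γ) * s ^ (2 * γ - 1)) ∨
      (1 ≤ s ^ (2 * γ - 1) ∧
        (min C0 (4 * s ^ 2)) ^ γ / s ≤ (C0 ^ γ + 4 ^ γ) / s ^ (2 * γ - 1)) := by
  have hη : 0 ≤ 2 * γ - 1 := by linarith
  have hγ0 : 0 ≤ γ := by linarith
  have hmin : 0 ≤ min C0 (4 * s ^ 2) := le_min hC0.le (by positivity)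
  have hx : 0 < s ^ (2 * γ - 1) := Real.rpow_pos_of_pos hs _
  have h1 : 0 ≤ C0 ^ γ := by positivity
  have h2 : (0 : ℝ) ≤ 4 ^ γ := by positivity
  rcases le_total s 1 with h | h
  · refine Or.inl ⟨Real.rpow_le_one hs.le h hη, ?_⟩
    have h3 : (min C0 (4 * s ^ 2)) ^ γ ≤ 4 ^ γ * (s ^ (2 * γ - 1) * s) := by
      refine (Real.rpow_le_rpow hmin (min_le_right _ _) hγ0).trans_eq ?_
      rw [Real.mul_rpow (by norm_num) (by positivity), ← Real.rpow_add_one hs.ne',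
        ← Real.rpow_two, ← Real.rpow_mul hs.le, sub_add_cancel]
    rw [div_le_iff₀ hs]
    nlinarith [mul_pos hx hs]
  · refine Or.inr ⟨Real.one_le_rpow h hη, ?_⟩
    have h3 : (min C0 (4 * s ^ 2)) ^ γ ≤ C0 ^ γ := Real.rpow_le_rpow hmin (min_le_left _ _) hγ0
    have h4 : s ^ (2 * γ - 1) ≤ s := by
      have h5 := Real.rpow_le_rpow_of_exponent_le h (by linarith : 2 * γ - 1 ≤ 1)
      rwa [Real.rpow_one] at h5
    exact div_le_div₀ (by positivity) (by linarith) hx h4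

/-- With `s = √G 2^k m`: the term is `√G min(C0, 4 s²)^γ / s ≤ C √G min (s^η, s^(-η))`, `η = 2γ - 1`, and
`∑ₖ min (q^k x, 1/(q^k x)) ≤ 2/(1 - 1/q)`. -/
theorem geo_sum {γ C0 : ℝ} (hγ : 1 / 2 < γ) (hγ1 : γ ≤ 1) (hC0 : 0 < C0) : ∃ C : ℝ, 0 ≤ C ∧
    ∀ G m : ℝ, 0 ≤ G → 0 < m →
      ∑' k : ℕ, ENNReal.ofReal ((min C0 (4 * G * (2 ^ k * m) ^ 2)) ^ γ / (2 ^ k * m)) ≤
        ENNReal.ofReal (C * Real.sqrt G) := by
  obtain ⟨q, hqe⟩ : ∃ q : ℝ, q = 2 ^ (2 * γ - 1) := ⟨_, rfl⟩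
  have hq : 1 < q := hqe ▸ Real.one_lt_rpow one_lt_two (by linarith)
  have hM : 0 ≤ C0 ^ γ + 4 ^ γ := by positivity
  have hK : 0 ≤ (C0 ^ γ + 4 ^ γ) * (2 * (1 + q) / (q - 1)) :=
    mul_nonneg hM (div_nonneg (by linarith) (by linarith))
  refine ⟨_, hK, fun G m hG hm => ?_⟩
  rcases hG.eq_or_lt with rfl | hG'
  · have h0 : ∀ k : ℕ,
        ENNReal.ofReal ((min C0 (4 * 0 * (2 ^ k * m) ^ 2)) ^ γ / (2 ^ k * m)) = 0 := by
      intro k
      rw [mul_zero, zero_mul, min_eq_right hC0.le, Real.zero_rpow (by linarith), zero_div,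
        ENNReal.ofReal_zero]
    simp only [h0, tsum_zero, zero_le]
  have hg : 0 < Real.sqrt G := Real.sqrt_pos.2 hG'
  obtain ⟨x, hx⟩ : ∃ x : ℕ → ℝ, x = fun k => (Real.sqrt G * (2 ^ k * m)) ^ (2 * γ - 1) := ⟨_, rfl⟩
  have hx0 : ∀ k, 0 < x k := fun k => by rw [hx]; positivity
  have hxs : ∀ k, x (k + 1) = q * x k := by
    intro k
    rw [hx, hqe]
    simp only
    rw [← Real.mul_rpow (by norm_num) (by positivity)]
    congr 1
    ring
  have hterm : ∀ k : ℕ, (min C0 (4 * G * (2 ^ k * m) ^ 2)) ^ γ / (2 ^ k * m) ≤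
      (C0 ^ γ + 4 ^ γ) * (2 * (1 + q) / (q - 1)) * Real.sqrt G *
        (x (k + 1) / (1 + x (k + 1)) - x k / (1 + x k)) := by
    intro k
    have hr : (0 : ℝ) < 2 ^ k * m := by positivity
    have h1 := h31_term hγ hγ1 hC0 (mul_pos hg hr)
    have e : (Real.sqrt G * (2 ^ k * m)) ^ (2 * γ - 1) = x k := by rw [hx]
    rw [e, mul_pow, Real.sq_sqrt hG, ← mul_assoc 4] at h1
    have h2 := mul_le_mul_of_nonneg_left (h31_tele (hx0 k) hq hM h1) hg.le
    rw [hxs]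
    refine le_trans (le_of_eq ?_) (h2.trans_eq (by ring))
    field_simp
  refine ENNReal.tsum_le_of_sum_range_le fun n => ?_
  rw [← ENNReal.ofReal_sum_of_nonneg fun k _ =>
    div_nonneg (Real.rpow_nonneg (le_min hC0.le (by positivity)) _) (by positivity)]
  refine ENNReal.ofReal_le_ofReal ((Finset.sum_le_sum fun k _ => hterm k).trans ?_)
  rw [← Finset.mul_sum, Finset.sum_range_sub fun k => x k / (1 + x k)]
  refine mul_le_of_le_one_right (mul_nonneg hK hg.le) ?_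
  have h1 : x n / (1 + x n) ≤ 1 := (div_le_one (by linarith [hx0 n])).2 (by linarith)
  have h2 : 0 ≤ x 0 / (1 + x 0) := div_nonneg (hx0 0).le (by linarith [hx0 0])
  linarith

/-- `∫_{Ann r} S^q / y² dA = ∫ y^(q-2) ‖ζ‖^(-q) ≤ r^(-q) ∫_{[-2r,2r] × (0,2r)} y^(q-2)`
(`Complex.volume_preserving_equiv_real_prod`). -/
theorem hyp_int {q : ℝ} (hq : 1 < q) : ∃ C : ℝ, 0 ≤ C ∧ ∀ r : ℝ, 0 < r →
    ∫⁻ ζ in Ann r, ENNReal.ofReal (Sn ζ ^ q / ζ.im ^ 2) ≤ ENNReal.ofReal C := by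
  have hq1 : 0 < q - 1 := by linarith
  refine ⟨4 * (2 ^ (q - 1) / (q - 1)), by positivity, fun r hr => ?_⟩
  have hmp := Complex.volume_preserving_equiv_real_prod
  have hc : 0 ≤ r ^ (-q) := by positivity
  have h1 : ∫⁻ y in Ioo (0 : ℝ) (2 * r), ENNReal.ofReal (r ^ (-q) * y ^ (q - 2)) =
      ENNReal.ofReal (r ^ (-q) * ((2 * r) ^ (q - 1) / (q - 1))) := by
    have hi : IntervalIntegrable (fun y : ℝ => y ^ (q - 2)) volume 0 (2 * r) :=
      intervalIntegral.intervalIntegrable_rpow' (by linarith)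
    have hi2 : IntegrableOn (fun y : ℝ => r ^ (-q) * y ^ (q - 2)) (Ioo 0 (2 * r)) :=
      (((intervalIntegrable_iff_integrableOn_Ioo_of_le (by linarith)).1 hi).const_mul _)
    rw [← ofReal_integral_eq_lintegral_ofReal hi2]
    · congr 1
      rw [integral_const_mul, ← integral_Ioc_eq_integral_Ioo,
        ← intervalIntegral.integral_of_le (by linarith), integral_rpow (Or.inl (by linarith))]
      have e : q - 2 + 1 = q - 1 := by ring
      rw [e, Real.zero_rpow hq1.ne', sub_zero]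
    · filter_upwards [ae_restrict_mem measurableSet_Ioo] with y hy
      have := hy.1
      positivity
  calc ∫⁻ ζ in Ann r, ENNReal.ofReal (Sn ζ ^ q / ζ.im ^ 2)
      ≤ ∫⁻ ζ in Ann r, ENNReal.ofReal (r ^ (-q) * ζ.im ^ (q - 2)) := by
        refine setLIntegral_mono' (measurableSet_Ann r) fun ζ hζ => ENNReal.ofReal_le_ofReal ?_
        obtain ⟨hy, h2, -⟩ := hζ
        have hn : 0 < ‖ζ‖ := hr.trans_le h2
        have e : Sn ζ ^ q / ζ.im ^ 2 = ‖ζ‖ ^ (-q) * ζ.im ^ (q - 2) := by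
          rw [Sn, Real.div_rpow hy.le hn.le, Real.rpow_neg hn.le, Real.rpow_sub hy,
            Real.rpow_two]
          field_simp
        rw [e]
        exact mul_le_mul_of_nonneg_right
          (Real.rpow_le_rpow_of_nonpos hr h2 (by linarith)) (by positivity)
    _ ≤ ∫⁻ ζ in Complex.measurableEquivRealProd ⁻¹' (Icc (-(2 * r)) (2 * r) ×ˢ Ioo 0 (2 * r)),
          ENNReal.ofReal (r ^ (-q) * ζ.im ^ (q - 2)) := by
        refine lintegral_mono_set fun ζ hζ => ?_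
        obtain ⟨hy, -, h3⟩ := hζ
        have a1 := abs_le.1 (Complex.abs_re_le_norm ζ)
        have a2 := abs_le.1 (Complex.abs_im_le_norm ζ)
        simp only [mem_preimage, Complex.measurableEquivRealProd_apply, mem_prod, mem_Icc, mem_Ioo]
        exact ⟨⟨by linarith [a1.1], by linarith [a1.2]⟩, hy, by linarith [a2.2]⟩
    _ = ∫⁻ p in Icc (-(2 * r)) (2 * r) ×ˢ Ioo (0 : ℝ) (2 * r),
          ENNReal.ofReal (r ^ (-q) * p.2 ^ (q - 2)) :=
        hmp.setLIntegral_comp_preimage_emb Complex.measurableEquivRealProd.measurableEmbedding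
          (fun p : ℝ × ℝ => ENNReal.ofReal (r ^ (-q) * p.2 ^ (q - 2))) _
    _ = ∫⁻ _ in Icc (-(2 * r)) (2 * r), ∫⁻ y in Ioo (0 : ℝ) (2 * r),
          ENNReal.ofReal (r ^ (-q) * y ^ (q - 2)) := by
        rw [Measure.volume_eq_prod, ← Measure.prod_restrict, lintegral_prod]
        refine Measurable.aemeasurable ?_
        exact ENNReal.measurable_ofReal.comp
          (measurable_const.mul (measurable_snd.pow_const _))
    _ = ENNReal.ofReal (4 * (2 ^ (q - 1) / (q - 1))) := by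
        rw [h1, setLIntegral_const, Real.volume_Icc, ← ENNReal.ofReal_mul (by positivity)]
        congr 1
        rw [Real.mul_rpow (by norm_num) hr.le, Real.rpow_neg hr.le, Real.rpow_sub hr,
          Real.rpow_one]
        have : 0 < r ^ q := by positivity
        field_simp
        ring
    _ ≤ _ := le_rfl

/-- Hölder with exponents `2/d`, `2/a`: `g u^(-a) S^a ‖f'‖² ≤ (g S^(a/2) ‖f'‖²)^(d/2) (S^q/y²)^(a/2)`,
`q = 2 - d/2 = 1 + a/2`, `u = y ‖f'‖` (`ENNReal.lintegral_mul_norm_pow_le` or `lintegral_mul_le_Lp_mul_Lq`). -/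
theorem holder_window {κ : ℝ} (hκ : 0 < κ) (hκ8 : κ < 8) : ∃ C : ℝ, 0 ≤ C ∧ ∀ f : ℂ → ℂ, Univ f →
    ∀ r : ℝ, 0 < r → ∀ A : Set ℂ, MeasurableSet A → A ⊆ Ann r → ∀ g : ℂ → ℝ, Measurable g →
      (∀ ζ, 0 ≤ g ζ ∧ g ζ ≤ 1) →
      ∫⁻ ζ in A, ENNReal.ofReal (g ζ * (ups f ζ ^ (-ae κ) * Sn ζ ^ ae κ) * ‖deriv f ζ‖ ^ 2) ≤
        ENNReal.ofReal C *
          (∫⁻ ζ in A, ENNReal.ofReal (g ζ * Sn ζ ^ (ae κ / 2) * ‖deriv f ζ‖ ^ 2)) ^ (dd κ / 2) := by
  have hd : dd κ / 2 = 1 - ae κ / 2 := by rw [ae]; ring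
  have ha0 : 0 < ae κ := by rw [ae, dd]; linarith
  have ha1 : ae κ < 1 := by rw [ae, dd]; linarith
  rw [hd]
  generalize ae κ = a at ha0 ha1
  obtain ⟨C, hC, hint⟩ := hyp_int (q := 1 + a / 2) (by linarith)
  refine ⟨C ^ (a / 2), by positivity, fun f hf r hr A hA hAr g hg hg01 => ?_⟩
  have hSm : Measurable Sn := Complex.measurable_im.div measurable_norm
  have hm1 : Measurable fun ζ => ENNReal.ofReal (g ζ * Sn ζ ^ (a / 2) * ‖deriv f ζ‖ ^ 2) :=
    ENNReal.measurable_ofReal.comp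
      ((hg.mul (hSm.pow_const _)).mul ((measurable_deriv f).norm.pow_const _))
  have hm2 : Measurable fun ζ : ℂ => ENNReal.ofReal (Sn ζ ^ (1 + a / 2) / ζ.im ^ 2) :=
    ENNReal.measurable_ofReal.comp ((hSm.pow_const _).div (Complex.measurable_im.pow_const _))
  have hH := ENNReal.lintegral_mul_norm_pow_le (μ := volume.restrict A) hm1.aemeasurable
    hm2.aemeasurable (p := 1 - a / 2) (q := a / 2) (by linarith) (by linarith) (by ring)
  calc ∫⁻ ζ in A, ENNReal.ofReal (g ζ * (ups f ζ ^ (-a) * Sn ζ ^ a) * ‖deriv f ζ‖ ^ 2)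
      ≤ ∫⁻ ζ in A, ENNReal.ofReal (g ζ * Sn ζ ^ (a / 2) * ‖deriv f ζ‖ ^ 2) ^ (1 - a / 2) *
          ENNReal.ofReal (Sn ζ ^ (1 + a / 2) / ζ.im ^ 2) ^ (a / 2) := by
        refine setLIntegral_mono' hA fun ζ hζ => ?_
        obtain ⟨hy, h2, -⟩ := hAr hζ
        have hn : 0 < ‖ζ‖ := hr.trans_le h2
        have hS : 0 < Sn ζ := div_pos hy hn
        have hD : 0 < ‖deriv f ζ‖ := norm_pos_iff.2 (hf.deriv_ne_zero hy)
        obtain ⟨g0, g1⟩ := hg01 ζ
        rw [ENNReal.ofReal_rpow_of_nonneg (by positivity) (by linarith),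
          ENNReal.ofReal_rpow_of_nonneg (by positivity) (by linarith),
          ← ENNReal.ofReal_mul (by positivity)]
        refine ENNReal.ofReal_le_ofReal ?_
        rw [ups]
        generalize Sn ζ = S at hS
        generalize ‖deriv f ζ‖ = D at hD
        generalize ζ.im = y at hy
        generalize g ζ = t at g0 g1
        have ht : t ≤ t ^ (1 - a / 2) := by
          have := Real.rpow_le_rpow_of_exponent_ge' g0 g1 (by linarith : (0 : ℝ) ≤ 1 - a / 2)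
            (by linarith : 1 - a / 2 ≤ 1)
          rwa [Real.rpow_one] at this
        have e : (t * S ^ (a / 2) * D ^ 2) ^ (1 - a / 2) * (S ^ (1 + a / 2) / y ^ 2) ^ (a / 2) =
            t ^ (1 - a / 2) * (((y * D) ^ (-a) * S ^ a) * D ^ 2) := by
          rw [mul_assoc t, Real.mul_rpow g0 (by positivity), mul_assoc]
          congr 1
          obtain ⟨s, rfl⟩ : ∃ s, S = Real.exp s := ⟨Real.log S, (Real.exp_log hS).symm⟩
          obtain ⟨u, rfl⟩ : ∃ u, D = Real.exp u := ⟨Real.log D, (Real.exp_log hD).symm⟩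
          obtain ⟨v, rfl⟩ : ∃ v, y = Real.exp v := ⟨Real.log y, (Real.exp_log hy).symm⟩
          simp only [← Real.exp_mul, ← Real.exp_add, ← Real.exp_nat_mul, ← Real.exp_sub]
          congr 1
          push_cast
          ring
        rw [e, mul_assoc t]
        exact mul_le_mul_of_nonneg_right ht (by positivity)
    _ ≤ _ := hH
    _ ≤ (∫⁻ ζ in A, ENNReal.ofReal (g ζ * Sn ζ ^ (a / 2) * ‖deriv f ζ‖ ^ 2)) ^ (1 - a / 2) *
          ENNReal.ofReal (C ^ (a / 2)) := by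
        rw [← ENNReal.ofReal_rpow_of_nonneg hC (by linarith)]
        gcongr
        exact (lintegral_mono_set hAr).trans (hint r hr)
    _ = _ := mul_comm _ _

/-- `vt z0 R z ≤ 8 (1 + ‖z - z0‖/(1+R))^(-3)`, scaling (`Measure.integral_comp_smul` / `lintegral` version, or
`Measure.addHaar_smul`), `finite_integral_one_add_norm` / `integrable_one_add_norm` (`finrank ℝ ℂ = 2 < 3`). -/
theorem lintegral_vt : ∃ C : ℝ, 0 ≤ C ∧ ∀ (z0 : ℂ) (R : ℝ), 0 ≤ R →
    ∫⁻ z, ENNReal.ofReal (vt z0 R z) ≤ ENNReal.ofReal (C * (1 + R) ^ 2) := by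
  set F : ℂ → ℝ := fun z => (1 + ‖z‖) ^ (-3 : ℝ) with hF
  have hF0 : ∀ z, 0 ≤ F z := fun z => Real.rpow_nonneg (by positivity) _
  have hFi : Integrable F volume :=
    integrable_one_add_norm (E := ℂ) (μ := volume) (r := 3) (by norm_num)
  refine ⟨8 * ∫ z, F z, mul_nonneg (by norm_num) (integral_nonneg hF0), fun z0 R hR => ?_⟩
  have hs : 0 < 1 + R := by linarith
  have hi : Integrable (fun z => 8 * F ((1 + R)⁻¹ • (z - z0))) volume :=
    ((hFi.comp_smul (inv_ne_zero hs.ne')).comp_sub_right z0).const_mul 8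
  have hint : ∫ z, 8 * F ((1 + R)⁻¹ • (z - z0)) = 8 * (∫ z, F z) * (1 + R) ^ 2 := by
    rw [integral_const_mul, integral_sub_right_eq_self (fun z => F ((1 + R)⁻¹ • z)) z0,
      Measure.integral_comp_inv_smul_of_nonneg volume F hs.le, Complex.finrank_real_complex,
      smul_eq_mul]
    ring
  rw [← hint, ofReal_integral_eq_lintegral_ofReal hi
    (Eventually.of_forall fun z => mul_nonneg (by norm_num) (hF0 _))]
  refine lintegral_mono fun z => ENNReal.ofReal_le_ofReal ?_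
  have ht := norm_nonneg (z - z0)
  have hn : ‖(1 + R)⁻¹ • (z - z0)‖ = ‖z - z0‖ / (1 + R) := by
    rw [norm_smul, Real.norm_eq_abs, abs_of_pos (inv_pos.2 hs), div_eq_inv_mul]
  have h1 : ‖z - z0‖ / (1 + R) ≤ 1 + max (‖z - z0‖ - R) 0 := by
    rw [div_le_iff₀ hs]
    have a1 := le_max_left (‖z - z0‖ - R) 0
    have a2 := le_max_right (‖z - z0‖ - R) 0
    nlinarith
  have h2 : 0 ≤ ‖z - z0‖ / (1 + R) := by positivity
  have h3 : 0 ≤ max (‖z - z0‖ - R) 0 := le_max_right _ _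
  have h4 : (1 + max (‖z - z0‖ - R) 0)⁻¹ ≤ 2 * (1 + ‖z - z0‖ / (1 + R))⁻¹ := by
    rw [← div_eq_mul_inv, inv_eq_one_div, div_le_div_iff₀ (by positivity) (by positivity)]
    linarith
  have h5 : F ((1 + R)⁻¹ • (z - z0)) = (1 + ‖z - z0‖ / (1 + R))⁻¹ ^ 3 := by
    simp only [hF, hn]
    rw [Real.rpow_neg (by positivity), inv_pow]
    norm_cast
  rw [h5, vt]
  calc (1 + max (‖z - z0‖ - R) 0)⁻¹ ^ 3 ≤ (2 * (1 + ‖z - z0‖ / (1 + R))⁻¹) ^ 3 :=
        pow_le_pow_left₀ (by positivity) h4 3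
    _ = _ := by ring

end Crest.Agent.R162.E
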