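import Crest.Agent.R162.EDefs

/-! Row 162, block E: measurability and the reference measures. -/

set_option autoImplicit false
open MeasureTheory ProbabilityTheory Set Filter Topology Metric
open scoped ENNReal NNReal ComplexConjugate

namespace Crest.Agent.R162.E

variable {f : ℂ → ℂ}

theorem measurable_top : Measurable top := by
  unfold top; fun_prop

theorem measurable_Sn : Measurable Sn := by
  unfold Sn; fun_prop

theorem measurable_ups (f : ℂ → ℂ) : Measurable (ups f) := by
  have h := measurable_deriv f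
  unfold ups; fun_prop

theorem measurable_Gv (hf : Univ f) : Measurable (Gv f) := by
  unfold Gv
  exact hf.meas.sub (hf.meas.comp measurable_top)

theorem measurable_Lv (f : ℂ → ℂ) : Measurable (Lv f) := by
  unfold Lv
  exact (measurable_ups f).comp measurable_top

theorem measurable_Wv (hf : Univ f) : Measurable (Wv f) := by
  have h := measurable_Gv hf
  unfold Wv; fun_prop

theorem measurable_rho (m : ℝ) : Measurable (rho m) := by
  have h : Measurable st := Real.smoothTransition.continuous.measurable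
  unfold rho; fun_prop

theorem measurable_vt (z0 : ℂ) (R : ℝ) : Measurable (vt z0 R) := by
  unfold vt; fun_prop

theorem measurable_k1 (κ δ : ℝ) : Measurable (k1 κ δ) := by
  have h : Measurable st := Real.smoothTransition.continuous.measurable
  unfold k1; fun_prop

theorem measurable_k2 : Measurable k2 := by
  have h : Measurable st := Real.smoothTransition.continuous.measurable
  unfold k2; fun_prop

theorem measurable_dens (κ δ m : ℝ) (hf : Univ f) : Measurable (dens κ δ m f) := by
  have h1 := measurable_rho m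
  have h2 := measurable_k1 κ δ
  have h3 := measurable_k2
  have h4 := measurable_ups f
  have h5 := measurable_Wv hf
  have h6 := measurable_Sn
  unfold dens atom; fun_prop

theorem measurable_jdens (κ δ m : ℝ) (hf : Univ f) :
    Measurable (fun ζ => (jdens κ δ m f ζ).a) ∧ Measurable (fun ζ => (jdens κ δ m f ζ).b) ∧
      Measurable (fun ζ => (jdens κ δ m f ζ).c) := by
  have h1 := measurable_rho m
  have h2 := measurable_k1 κ δ
  have h3 := measurable_k2
  have h4 := measurable_ups f
  have h5 := measurable_Wv hf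
  have h6 := measurable_Sn
  have h7 := measurable_Gv hf
  have h8 := measurable_top
  have h9 := measurable_deriv f
  have h10 := measurable_deriv (deriv f)
  have h11 := measurable_deriv (k1 κ δ)
  have h12 := measurable_deriv k2
  have h13 := measurable_deriv st
  have haX : Measurable aX := by unfold aX; fun_prop
  have hbX : Measurable bX := by unfold bX; fun_prop
  have hcX : Measurable cX := by unfold cX; fun_prop
  have haD : Measurable (aD f) := by unfold aD; fun_prop
  have hbD : Measurable (bD f) := by unfold bD; fun_prop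
  have hcD : Measurable (cD f) := by unfold cD; fun_prop
  have hc : Measurable (fun ζ => conj (Gv f ζ)) := Complex.continuous_conj.measurable.comp h7
  have hW := measurable_Wv hf
  have hqa : Measurable (fun ζ => (jq f ζ).a) :=
    ((Complex.measurable_re.comp (hc.mul haD)).const_mul (-2)).mul hW
  have hqb : Measurable (fun ζ => (jq f ζ).b) :=
    (((Complex.measurable_re.comp (hc.mul hbD)).const_mul (-2)).add
      ((haD.norm.pow_const 2).const_mul 2)).mul hW
  have hqc : Measurable (fun ζ => (jq f ζ).c) :=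
    ((Complex.measurable_re.comp (hc.mul hcD)).const_mul (-2)).mul hW
  have hOv : ∀ K, Measurable (fun ζ => (jOm K f ζ).v) := by intro K; unfold jOm; fun_prop
  have hOa : ∀ K, Measurable (fun ζ => (jOm K f ζ).a) := by intro K; unfold jOm; fun_prop
  have hOb : ∀ K, Measurable (fun ζ => (jOm K f ζ).b) := by intro K; unfold jOm; fun_prop
  have hOc : ∀ K, Measurable (fun ζ => (jOm K f ζ).c) := by intro K; unfold jOm; fun_prop
  have hA : ∀ (k : ℝ → ℝ) (e : ℝ), Measurable k → Measurable (fun ζ => atom k e 0 ζ (ups f ζ)) := by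
    intro k e hk; unfold atom; fun_prop
  have hJ : ∀ (k : ℝ → ℝ) (e : ℝ), Measurable k →
      Measurable (fun ζ => (jat k e ζ (ups f ζ)).v) ∧ Measurable (fun ζ => (jat k e ζ (ups f ζ)).a) ∧
      Measurable (fun ζ => (jat k e ζ (ups f ζ)).b) ∧
      Measurable (fun ζ => (jat k e ζ (ups f ζ)).c) := by
    intro k e hk
    have ha := hA k e hk
    have hd := measurable_deriv k
    unfold jat
    refine ⟨?_, ?_, ?_, ?_⟩ <;> fun_prop
  obtain ⟨a1, a2, a3, a4⟩ := hJ (k1 κ δ) (aa κ) h2
  obtain ⟨b1, b2, b3, b4⟩ := hJ (k1 κ δ) (ae κ) h2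
  obtain ⟨c1, c2, c3, c4⟩ := hJ k2 (ae κ / 2) h3
  have o1 := hOv 2
  have o2 := hOa 2
  have o3 := hOb 2
  have o4 := hOc 2
  have p1 := hOv 3
  have p2 := hOa 3
  have p3 := hOb 3
  have p4 := hOc 3
  have hbr : Measurable (fun ζ => (jbr κ δ f ζ).v) ∧ Measurable (fun ζ => (jbr κ δ f ζ).a) ∧
      Measurable (fun ζ => (jbr κ δ f ζ).b) ∧ Measurable (fun ζ => (jbr κ δ f ζ).c) := by
    simp only [jbr, Jet.add, Jet.mul, Jet.smul]
    refine ⟨?_, ?_, ?_, ?_⟩ <;> fun_prop
  obtain ⟨d1, d2, d3, d4⟩ := hbr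
  simp only [jdens, jrho, Jet.mul]
  refine ⟨?_, ?_, ?_⟩ <;> fun_prop

theorem measurable_chi (κ m : ℝ) (hf : Univ f) : Measurable (chi κ m f) := by
  have h1 := measurable_rho m
  have h3 := measurable_k2
  have h4 := measurable_ups f
  have h5 := measurable_Wv hf
  have h6 := measurable_Sn
  unfold chi; fun_prop

theorem measurable_Vv (κ m : ℝ) (hf : Univ f) : Measurable (Vv κ m f) := by
  have h1 := measurable_rho m
  have h3 := measurable_k2
  have h4 := measurable_ups f
  have h5 := measurable_Wv hf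
  have h6 := measurable_Sn
  unfold Vv; fun_prop

theorem measurable_dr (f : ℂ → ℂ) : Measurable (dr f) := by
  have h4 := measurable_ups f
  have h6 := measurable_Sn
  unfold dr; fun_prop

theorem measurable_pt (m : ℝ) (f : ℂ → ℂ) : Measurable (pt m f) := by
  unfold pt
  exact Measurable.ite (measurableSet_le measurable_const Complex.measurable_im) (measurable_dr f)
    measurable_const

theorem measurable_bad (κ C' m : ℝ) (hf : Univ f) : Measurable (bad κ C' m f) := by
  have h4 := measurable_ups f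
  have h5 := measurable_Wv hf
  have h6 := measurable_Sn
  have h7 := measurable_Gv hf
  have h8 := measurable_Lv f
  unfold bad
  refine Measurable.ite ?_ (by fun_prop) measurable_const
  exact (measurableSet_le measurable_const Complex.measurable_im).inter
    (measurableSet_le h7.norm (h8.const_mul C'))

theorem measurable_msk (κ s1 δ m : ℝ) (f : ℂ → ℂ) : Measurable (msk κ s1 δ m f) := by
  have h4 := measurable_ups f
  have h6 := measurable_Sn
  unfold msk
  refine Measurable.ite ?_ measurable_const measurable_const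
  exact (measurableSet_le measurable_const h4).inter ((measurableSet_le h4 measurable_const).inter
    ((measurableSet_le measurable_const h6).inter
      (measurableSet_le measurable_const Complex.measurable_im)))

private theorem helper40_vt0 (z0 : ℂ) (R : ℝ) (z : ℂ) : 0 ≤ vt z0 R z := by
  unfold vt
  positivity

private theorem helper40_meas (z0 : ℂ) (R : ℝ) (hf : Univ f) :
    Measurable fun ζ => ENNReal.ofReal (vt z0 R (f ζ) * ‖deriv f ζ‖ ^ 2) :=
  (((measurable_vt z0 R).comp hf.meas).mul ((measurable_deriv f).norm.pow_const 2)).ennreal_ofReal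

theorem measurableSet_Hy (y : ℝ) : MeasurableSet (Hy y) := by
  exact measurableSet_le measurable_const Complex.measurable_im

theorem measurableSet_Aset (m : ℝ) (z0 : ℂ) (R : ℝ) (hf : Univ f) : MeasurableSet (Aset m z0 R f) := by
  exact (measurableSet_Hy (m / 2)).inter
    ((measurableSet_le (measurable_ups f) measurable_const).inter (hf.meas measurableSet_ball))

theorem Aset_subset {m : ℝ} (hm : 0 < m) (z0 : ℂ) (R : ℝ) (f : ℂ → ℂ) : Aset m z0 R f ⊆ H := by
  exact fun ζ hζ => (half_pos hm).trans_le hζ.1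

theorem Hy_subset {y : ℝ} (hy : 0 < y) : Hy y ⊆ H := by
  exact fun ζ hζ => hy.trans_le hζ

theorem lintegral_nuB (m : ℝ) (z0 : ℂ) (R : ℝ) (f : ℂ → ℂ) {g : ℂ → ℝ≥0∞} (hg : Measurable g) :
    ∫⁻ ζ, g ζ ∂(nuB m z0 R f) =
      ∫⁻ ζ in Aset m z0 R f, g ζ * ENNReal.ofReal (‖deriv f ζ‖ ^ 2) := by
  rw [nuB, lintegral_withDensity_eq_lintegral_mul _
    (((measurable_deriv f).norm.pow_const 2).ennreal_ofReal) hg]
  exact lintegral_congr fun ζ => mul_comm _ _

theorem lintegral_nuA (m : ℝ) (z0 : ℂ) (R : ℝ) (hf : Univ f) {g : ℂ → ℝ≥0∞} (hg : Measurable g) :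
    ∫⁻ ζ, g ζ ∂(nuA m z0 R f) =
      ∫⁻ ζ in Hy m, g ζ * ENNReal.ofReal (vt z0 R (f ζ) * ‖deriv f ζ‖ ^ 2) := by
  rw [nuA, lintegral_withDensity_eq_lintegral_mul _ (helper40_meas z0 R hf) hg]
  exact lintegral_congr fun ζ => mul_comm _ _

/-- `integral_withDensity_eq_integral_toReal_smul` or similar. -/
theorem integral_nuB (m : ℝ) (z0 : ℂ) (R : ℝ) (f : ℂ → ℂ) (g : ℂ → ℝ) :
    ∫ ζ, g ζ ∂(nuB m z0 R f) = ∫ ζ in Aset m z0 R f, g ζ * ‖deriv f ζ‖ ^ 2 := by
  rw [nuB, integral_withDensity_eq_integral_toReal_smul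
    (((measurable_deriv f).norm.pow_const 2).ennreal_ofReal)
    (Eventually.of_forall fun _ => ENNReal.ofReal_lt_top)]
  refine integral_congr_ae (Eventually.of_forall fun ζ => ?_)
  simp only [smul_eq_mul]
  rw [ENNReal.toReal_ofReal (sq_nonneg _), mul_comm]

theorem integral_nuA (m : ℝ) (z0 : ℂ) (R : ℝ) (hf : Univ f) (g : ℂ → ℝ) :
    ∫ ζ, g ζ ∂(nuA m z0 R f) = ∫ ζ in Hy m, g ζ * (vt z0 R (f ζ) * ‖deriv f ζ‖ ^ 2) := by
  rw [nuA, integral_withDensity_eq_integral_toReal_smul (helper40_meas z0 R hf)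
    (Eventually.of_forall fun _ => ENNReal.ofReal_lt_top)]
  refine integral_congr_ae (Eventually.of_forall fun ζ => ?_)
  simp only [smul_eq_mul]
  rw [ENNReal.toReal_ofReal (mul_nonneg (helper40_vt0 z0 R _) (sq_nonneg _)), mul_comm]

theorem ae_nuB (m : ℝ) (z0 : ℂ) (R : ℝ) (hf : Univ f) :
    ∀ᵐ ζ ∂(nuB m z0 R f), ζ ∈ Aset m z0 R f := by
  exact (withDensity_absolutelyContinuous _ _).ae_le
    (ae_restrict_mem (measurableSet_Aset m z0 R hf))

theorem ae_nuA (m : ℝ) (z0 : ℂ) (R : ℝ) (f : ℂ → ℂ) : ∀ᵐ ζ ∂(nuA m z0 R f), ζ ∈ Hy m := by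
  exact (withDensity_absolutelyContinuous _ _).ae_le (ae_restrict_mem (measurableSet_Hy m))

/-- `lintegral_area`, `Complex.volume_ball`. -/
theorem nuB_univ {m : ℝ} (hm : 0 < m) (z0 : ℂ) (R : ℝ) (hf : Univ f) :
    nuB m z0 R f univ ≤ ENNReal.ofReal (Real.pi * R ^ 2) := by
  have h1 := lintegral_nuB m z0 R f (g := fun _ => 1) measurable_const
  rw [lintegral_one, lintegral_area hf (measurableSet_Aset m z0 R hf) (Aset_subset hm z0 R f)
    (fun _ => 1), setLIntegral_one] at h1
  rw [h1]
  refine (measure_mono (t := ball z0 R) ?_).trans ?_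
  · rintro _ ⟨ζ, hζ, rfl⟩
    exact hζ.2.2
  · rw [Complex.volume_ball, mul_comm, ENNReal.ofReal_mul Real.pi_pos.le, ← NNReal.coe_real_pi,
      ENNReal.ofReal_coe_nnreal]
    refine mul_le_mul_right ?_ _
    rcases le_total 0 R with hR | hR
    · rw [ENNReal.ofReal_pow hR]
    · simp [ENNReal.ofReal_of_nonpos hR]

theorem nuA_univ {m : ℝ} (hm : 0 < m) (z0 : ℂ) (R : ℝ) (hf : Univ f) :
    nuA m z0 R f univ ≤ ∫⁻ z, ENNReal.ofReal (vt z0 R z) := by
  rw [nuA, withDensity_apply _ MeasurableSet.univ, Measure.restrict_univ]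
  simp only [ENNReal.ofReal_mul (helper40_vt0 z0 R _)]
  rw [lintegral_area hf (measurableSet_Hy m) (Hy_subset hm) fun z => ENNReal.ofReal (vt z0 R z)]
  exact setLIntegral_le_lintegral _ _

theorem vt_nonneg (z0 : ℂ) (R : ℝ) (z : ℂ) : 0 ≤ vt z0 R z := by
  exact helper40_vt0 z0 R z

theorem vt_eq_one {z0 : ℂ} {R : ℝ} {z : ℂ} (h : z ∈ ball z0 R) : vt z0 R z = 1 := by
  have h1 : ‖z - z0‖ - R ≤ 0 := sub_nonpos.2 (mem_ball_iff_norm.1 h).le
  simp [vt, max_eq_right h1]

end Crest.Agent.R162.E
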