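import Crest.Agent.R162.E4a
import Crest.Agent.R162.E4m
import Crest.Agent.R162.E2a

/-! Row 162, block E: geometric window estimates. -/

set_option autoImplicit false
open MeasureTheory ProbabilityTheory Set Filter Topology Metric
open scoped ENNReal NNReal ComplexConjugate

namespace Crest.Agent.R162.E

/-- On `ups ≤ 4`: `1 + ‖f ζ - f (ctr r)‖ ≤ C (1 + ‖G‖)` (`Lv_le`, `window_top`), so
`W² ≤ C (1 + ‖f ζ - f (ctr r)‖)^(-4)`; `lintegral_area`, `finite_integral_one_add_norm`. -/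
theorem window_area : ∃ C0 : ℝ, 0 < C0 ∧ ∀ f : ℂ → ℂ, Univ f → ∀ r : ℝ, 0 < r →
    ∫⁻ ζ in Ann r ∩ {ζ | ups f ζ ≤ 4}, ENNReal.ofReal (Wv f ζ ^ 2 * ‖deriv f ζ‖ ^ 2) ≤
      ENNReal.ofReal C0 := by
  obtain ⟨C0, hC0, h0⟩ := Lv_le
  obtain ⟨C1, hC1, h1⟩ := window_top
  obtain ⟨C2, hC2, h2⟩ := lintegral_vt
  obtain ⟨A, hA⟩ : ∃ A : ℝ, A = 1 + C1 * C1 * C0 := ⟨_, rfl⟩
  have hA0 : 0 < A := by rw [hA]; positivity
  refine ⟨4 * A ^ 3 * C2 + 1, by positivity, fun f hf r hr => ?_⟩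
  have hS : MeasurableSet (Ann r ∩ {ζ | ups f ζ ≤ 4}) :=
    (measurableSet_Ann r).inter (measurableSet_le (measurable_ups f) measurable_const)
  have key : ∀ ζ ∈ Ann r ∩ {ζ | ups f ζ ≤ 4},
      Wv f ζ ^ 2 ≤ 4 * A ^ 3 * vt (f (ctr r)) 0 (f ζ) := by
    intro ζ hζ
    obtain ⟨-, a2, a3⟩ := h1 f hf r hr ζ hζ.1
    have a4 := h0 f hf ζ hζ.1.1 hζ.2
    have hg := norm_nonneg (Gv f ζ)
    have ht := norm_nonneg (f ζ - f (ctr r))
    have a5 : ‖f ζ - f (ctr r)‖ ≤ ‖Gv f ζ‖ + ‖f (top ζ) - f (ctr r)‖ := by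
      have := norm_add_le (Gv f ζ) (f (top ζ) - f (ctr r))
      rwa [Gv, sub_add_sub_cancel] at this
    have a6 : C1 * ups f (ctr r) ≤ C1 * (C1 * (C0 * (1 + ‖Gv f ζ‖))) :=
      mul_le_mul_of_nonneg_left (a2.trans (mul_le_mul_of_nonneg_left (by linarith) (by linarith)))
        (by linarith)
    have a7 : 1 + ‖f ζ - f (ctr r)‖ ≤ A * (1 + ‖Gv f ζ‖) := by rw [hA]; linarith
    rw [vt, sub_zero, max_eq_left ht, Wv]
    generalize ‖Gv f ζ‖ = g at hg a7 ⊢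
    generalize ‖f ζ - f (ctr r)‖ = t at ht a7 ⊢
    have a8 : (1 + t) ^ 3 ≤ (A * (1 + g)) ^ 3 := pow_le_pow_left₀ (by positivity) a7 3
    have a9 : (1 + g) ^ 3 ≤ 4 * (1 + g ^ 2) ^ 2 := by
      have b1 : (1 + g) ^ 2 ≤ 2 * (1 + g ^ 2) := by nlinarith [sq_nonneg (1 - g)]
      have b2 : ((1 + g) ^ 2) ^ 2 ≤ (2 * (1 + g ^ 2)) ^ 2 := pow_le_pow_left₀ (by positivity) b1 2
      have b3 : (1 + g) ^ 3 ≤ (1 + g) ^ 4 := pow_le_pow_right₀ (by linarith) (by norm_num)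
      nlinarith
    rw [inv_pow, inv_pow, ← div_eq_mul_inv, inv_eq_one_div,
      div_le_div_iff₀ (by positivity) (by positivity)]
    have b4 := mul_le_mul_of_nonneg_left a9 (by positivity : 0 ≤ A ^ 3)
    rw [mul_pow] at a8
    linarith
  calc _ ≤ ∫⁻ ζ in Ann r ∩ {ζ | ups f ζ ≤ 4}, ENNReal.ofReal (4 * A ^ 3 * vt (f (ctr r)) 0 (f ζ)) *
        ENNReal.ofReal (‖deriv f ζ‖ ^ 2) := by
        refine setLIntegral_mono' hS fun ζ hζ => ?_
        rw [ENNReal.ofReal_mul (sq_nonneg _)]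
        exact mul_le_mul_left (ENNReal.ofReal_le_ofReal (key ζ hζ)) _
    _ = ∫⁻ z in f '' (Ann r ∩ {ζ | ups f ζ ≤ 4}),
          ENNReal.ofReal (4 * A ^ 3 * vt (f (ctr r)) 0 z) :=
        lintegral_area hf hS (fun ζ hζ => hζ.1.1)
          fun z => ENNReal.ofReal (4 * A ^ 3 * vt (f (ctr r)) 0 z)
    _ ≤ ∫⁻ z, ENNReal.ofReal (4 * A ^ 3 * vt (f (ctr r)) 0 z) := setLIntegral_le_lintegral _ _
    _ = ENNReal.ofReal (4 * A ^ 3) * ∫⁻ z, ENNReal.ofReal (vt (f (ctr r)) 0 z) := by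
        rw [← lintegral_const_mul' _ _ ENNReal.ofReal_ne_top]
        exact lintegral_congr fun z => ENNReal.ofReal_mul (by positivity)
    _ ≤ ENNReal.ofReal (4 * A ^ 3) * ENNReal.ofReal (C2 * (1 + 0) ^ 2) :=
        mul_le_mul_right (h2 _ 0 le_rfl) _
    _ ≤ _ := by
        rw [← ENNReal.ofReal_mul (by positivity)]
        exact ENNReal.ofReal_le_ofReal (by linarith)

theorem h73_area {f : ℂ → ℂ} (hf : Univ f) {A : Set ℂ} (hA : MeasurableSet A) (hAH : A ⊆ H)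
    {z : ℂ} {ρ : ℝ} (hρ : 0 ≤ ρ) (h : ∀ ζ ∈ A, ‖f ζ - z‖ ≤ ρ) :
    ∫⁻ ζ in A, ENNReal.ofReal (‖deriv f ζ‖ ^ 2) ≤ ENNReal.ofReal ((2 * ρ) ^ 2) := by
  have h1 := lintegral_area hf hA hAH (fun _ => 1)
  simp only [one_mul] at h1
  rw [h1, setLIntegral_one]
  refine (measure_mono (t := closedBall z ρ) ?_).trans ?_
  · rintro _ ⟨ζ, hζ, rfl⟩
    exact mem_closedBall_iff_norm.2 (h ζ hζ)
  · rw [Complex.volume_closedBall, ← ENNReal.ofReal_coe_nnreal, ← ENNReal.ofReal_pow hρ,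
      ← ENNReal.ofReal_mul (by positivity)]
    refine ENNReal.ofReal_le_ofReal ?_
    rw [NNReal.coe_real_pi]
    nlinarith [Real.pi_le_four, sq_nonneg ρ]

theorem h73_rpow {t d : ℝ} (ht : 0 < t) (h1 : 1 ≤ d) (h2 : d ≤ 2) :
    (t ^ 2) ^ (d / 2) ≤ t + t ^ 2 := by
  have e : (t ^ 2) ^ (d / 2) = t ^ d := by
    rw [← Real.rpow_natCast, ← Real.rpow_mul ht.le]
    congr 1
    push_cast
    ring
  rw [e]
  rcases le_total t 1 with h | h
  · have := Real.rpow_le_rpow_of_exponent_ge ht h h1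
    rw [Real.rpow_one] at this
    nlinarith [sq_nonneg t]
  · have := Real.rpow_le_rpow_of_exponent_le h h2
    rw [Real.rpow_two] at this
    linarith

/-- With `L = ups f (ctr r)`: on the set `Lv ≤ C L`, `W ≤ C (1+L)^(-2)` (`Lv_le`, `window_top`), the image lies
in `closedBall (f (ctr r)) (C L)` (area `≤ C L²`), `holder_window` with `g = 1`,
`L^d ≤ L (1+L)`, `L² ≤ L (1+L)`. -/
theorem window_bad_le {κ : ℝ} (hκ : 0 < κ) (hκ8 : κ < 8) {C' : ℝ} (hC' : 1 ≤ C') :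
    ∃ C : ℝ, 1 ≤ C ∧ ∀ f : ℂ → ℂ, Univ f → ∀ r : ℝ, 0 < r →
      (∀ ζ ∈ Ann r, ‖Gv f ζ‖ ≤ C' * Lv f ζ → ‖f ζ - f (ctr r)‖ ≤ C * ups f (ctr r)) ∧
      ∀ m : ℝ, ∫⁻ ζ in Ann r ∩ {ζ | ups f ζ ≤ 4},
        ENNReal.ofReal (bad κ C' m f ζ * ‖deriv f ζ‖ ^ 2) ≤
        ENNReal.ofReal (C * (ups f (ctr r) ^ 3 / (1 + ups f (ctr r)) ^ 5)) := by
  obtain ⟨Ct, hCt, ht⟩ := window_top
  obtain ⟨Cl, hCl, hl⟩ := Lv_le
  obtain ⟨Ch, hCh, hh⟩ := holder_window hκ hκ8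
  obtain ⟨K, hK⟩ : ∃ K : ℝ, K = C' * Ct + Ct := ⟨_, rfl⟩
  have hK1 : 1 ≤ K := by nlinarith
  obtain ⟨D, hD⟩ : ∃ D : ℝ, D = Ct ^ 2 * (2 * (Ct * Cl) ^ 2) ^ 3 := ⟨_, rfl⟩
  have hD0 : 0 ≤ D := by rw [hD]; positivity
  have hE0 : 0 ≤ D * (4 * K ^ 2 * (Ch + 1)) := by positivity
  refine ⟨K + D * (4 * K ^ 2 * (Ch + 1)), by linarith, fun f hf r hr => ?_⟩
  obtain ⟨L, hL⟩ : ∃ L : ℝ, L = ups f (ctr r) := ⟨_, rfl⟩
  have hL0 : 0 < L := hL ▸ hf.ups_pos (ctr_mem hr)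
  rw [← hL]
  have key : ∀ ζ ∈ Ann r, ‖Gv f ζ‖ ≤ C' * Lv f ζ → ‖f ζ - f (ctr r)‖ ≤ K * L := by
    intro ζ hζ hG
    obtain ⟨a, -, c⟩ := ht f hf r hr ζ hζ
    rw [← hL] at a c
    have e : f ζ - f (ctr r) = Gv f ζ + (f (top ζ) - f (ctr r)) := by unfold Gv; ring
    have h1 : C' * Lv f ζ ≤ C' * (Ct * L) := mul_le_mul_of_nonneg_left a (by linarith)
    rw [e, hK]
    refine (norm_add_le _ _).trans ?_
    linarith
  refine ⟨fun ζ hζ hG => (key ζ hζ hG).trans (by nlinarith), fun m => ?_⟩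
  obtain ⟨A, hA⟩ : ∃ A : Set ℂ,
      A = (Ann r ∩ {ζ | ups f ζ ≤ 4}) ∩ {ζ | ‖Gv f ζ‖ ≤ C' * Lv f ζ} := ⟨_, rfl⟩
  have hB : MeasurableSet (Ann r ∩ {ζ | ups f ζ ≤ 4}) :=
    (measurableSet_Ann r).inter (measurableSet_le (measurable_ups f) measurable_const)
  have hAm : MeasurableSet A := hA ▸ hB.inter
    (measurableSet_le (measurable_Gv hf).norm ((measurable_Lv f).const_mul C'))
  have hAA : A ⊆ Ann r := fun ζ hζ => (hA ▸ hζ).1.1
  obtain ⟨M, hM⟩ : ∃ M : ℝ, M = D * L ^ 2 / (1 + L) ^ 6 := ⟨_, rfl⟩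
  have hM0 : 0 ≤ M := by rw [hM]; positivity
  have hpt : ∀ ζ ∈ A, Lv f ζ ^ 2 * Wv f ζ ^ 3 ≤ M := by
    intro ζ hζ
    rw [hA] at hζ
    obtain ⟨⟨h1, h2⟩, -⟩ := hζ
    obtain ⟨a, b, -⟩ := ht f hf r hr ζ h1
    rw [← hL] at a b
    have c := hl f hf ζ (Ann_subset r h1) h2
    have hLv := Lv_pos hf (Ann_subset r h1)
    have hG := norm_nonneg (Gv f ζ)
    have d1 : 1 + L ≤ Ct * Cl * (1 + ‖Gv f ζ‖) := by
      have : Ct * (1 + Lv f ζ) ≤ Ct * (Cl * (1 + ‖Gv f ζ‖)) :=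
        mul_le_mul_of_nonneg_left c (by linarith)
      nlinarith
    have d2 : (1 + L) ^ 2 ≤ 2 * (Ct * Cl) ^ 2 * (1 + ‖Gv f ζ‖ ^ 2) := by
      refine (pow_le_pow_left₀ (by positivity) d1 2).trans ?_
      have : (1 + ‖Gv f ζ‖) ^ 2 ≤ 2 * (1 + ‖Gv f ζ‖ ^ 2) := by nlinarith [sq_nonneg (1 - ‖Gv f ζ‖)]
      rw [mul_pow]
      nlinarith [sq_nonneg (Ct * Cl)]
    have d3 : Wv f ζ ≤ 2 * (Ct * Cl) ^ 2 / (1 + L) ^ 2 := by
      rw [Wv, le_div_iff₀ (by positivity), inv_mul_eq_div, div_le_iff₀ (by positivity)]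
      exact d2
    have d4 := pow_le_pow_left₀ (Wv_pos f ζ).le d3 3
    have d5 := pow_le_pow_left₀ hLv.le a 2
    calc Lv f ζ ^ 2 * Wv f ζ ^ 3 ≤ (Ct * L) ^ 2 * (2 * (Ct * Cl) ^ 2 / (1 + L) ^ 2) ^ 3 :=
          mul_le_mul d5 d4 (pow_nonneg (Wv_pos f ζ).le 3) (by positivity)
      _ = M := by rw [hM, hD]; field_simp
  have harea := h73_area hf hAm (hAA.trans (Ann_subset r)) (ρ := K * L) (by positivity)
    fun ζ hζ => key ζ (hAA hζ) (hA ▸ hζ).2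
  have hhol := hh f hf r hr A hAm hAA (fun _ => 1) measurable_const fun _ => ⟨zero_le_one, le_rfl⟩
  have ha := ae_pos hκ8
  have hS : ∫⁻ ζ in A, ENNReal.ofReal (1 * Sn ζ ^ (ae κ / 2) * ‖deriv f ζ‖ ^ 2) ≤
      ENNReal.ofReal ((2 * (K * L)) ^ 2) := by
    refine le_trans (setLIntegral_mono' hAm fun ζ hζ => ENNReal.ofReal_le_ofReal ?_) harea
    have := Real.rpow_le_one (Sn_pos (Ann_subset r (hAA hζ))).le (Sn_le_one ζ) (half_pos ha).le
    nlinarith [sq_nonneg ‖deriv f ζ‖]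
  have hd1 : 1 ≤ dd κ := by unfold dd; linarith
  have hd2 : dd κ ≤ 2 := by unfold dd; linarith
  have ht0 : 0 < 2 * (K * L) := by positivity
  have hhol2 : ∫⁻ ζ in A, ENNReal.ofReal (1 * (ups f ζ ^ (-ae κ) * Sn ζ ^ ae κ) * ‖deriv f ζ‖ ^ 2) ≤
      ENNReal.ofReal (Ch * (2 * (K * L) + (2 * (K * L)) ^ 2)) := by
    refine hhol.trans ?_
    rw [ENNReal.ofReal_mul hCh]
    refine mul_le_mul_right ?_ _
    refine (ENNReal.rpow_le_rpow hS (by linarith)).trans ?_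
    rw [ENNReal.ofReal_rpow_of_nonneg (by positivity) (by linarith)]
    exact ENNReal.ofReal_le_ofReal (h73_rpow ht0 hd1 hd2)
  have hmeas : Measurable fun ζ => ENNReal.ofReal (‖deriv f ζ‖ ^ 2) :=
    ((measurable_deriv f).norm.pow_const 2).ennreal_ofReal
  calc ∫⁻ ζ in Ann r ∩ {ζ | ups f ζ ≤ 4}, ENNReal.ofReal (bad κ C' m f ζ * ‖deriv f ζ‖ ^ 2)
      ≤ ∫⁻ ζ in Ann r ∩ {ζ | ups f ζ ≤ 4}, A.indicator (fun ζ => ENNReal.ofReal M *
          (ENNReal.ofReal (1 * (ups f ζ ^ (-ae κ) * Sn ζ ^ ae κ) * ‖deriv f ζ‖ ^ 2) +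
            ENNReal.ofReal (‖deriv f ζ‖ ^ 2))) ζ := by
        refine setLIntegral_mono' hB fun ζ hζ => ?_
        unfold bad
        split_ifs with hc
        · have hζA : ζ ∈ A := hA ▸ ⟨hζ, hc.2⟩
          have hH := Ann_subset r hζ.1
          have hu : 0 ≤ ups f ζ ^ (-ae κ) * Sn ζ ^ ae κ :=
            mul_nonneg (Real.rpow_nonneg (hf.ups_pos hH).le _) (Real.rpow_nonneg (Sn_pos hH).le _)
          rw [indicator_of_mem hζA, ← ENNReal.ofReal_add (by positivity) (by positivity),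
            ← ENNReal.ofReal_mul hM0]
          refine ENNReal.ofReal_le_ofReal ?_
          have := mul_le_mul_of_nonneg_right (hpt ζ hζA)
            (show 0 ≤ (ups f ζ ^ (-ae κ) * Sn ζ ^ ae κ + 1) * ‖deriv f ζ‖ ^ 2 by positivity)
          linarith
        · simp
    _ ≤ ∫⁻ ζ in A, ENNReal.ofReal M *
          (ENNReal.ofReal (1 * (ups f ζ ^ (-ae κ) * Sn ζ ^ ae κ) * ‖deriv f ζ‖ ^ 2) +
            ENNReal.ofReal (‖deriv f ζ‖ ^ 2)) := by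
        rw [← lintegral_indicator hAm]
        exact setLIntegral_le_lintegral _ _
    _ ≤ ENNReal.ofReal M * (ENNReal.ofReal (Ch * (2 * (K * L) + (2 * (K * L)) ^ 2)) +
          ENNReal.ofReal ((2 * (K * L)) ^ 2)) := by
        rw [lintegral_const_mul' _ _ ENNReal.ofReal_ne_top, lintegral_add_right _ hmeas]
        exact mul_le_mul_right (add_le_add hhol2 harea) _
    _ ≤ _ := by
        rw [← ENNReal.ofReal_add (by positivity) (by positivity), ← ENNReal.ofReal_mul hM0]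
        refine ENNReal.ofReal_le_ofReal ?_
        have e1 : 2 * (K * L) + (2 * (K * L)) ^ 2 ≤ 4 * K ^ 2 * (L * (1 + L)) := by
          have : K * L ≤ K ^ 2 * L := mul_le_mul_of_nonneg_right (by nlinarith) hL0.le
          nlinarith [mul_pos (show 0 < K by linarith) hL0]
        have e2 : Ch * (2 * (K * L) + (2 * (K * L)) ^ 2) + (2 * (K * L)) ^ 2 ≤
            4 * K ^ 2 * (Ch + 1) * (L * (1 + L)) := by
          have := mul_le_mul_of_nonneg_left e1 hCh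
          nlinarith
        refine (mul_le_mul_of_nonneg_left e2 hM0).trans ?_
        have e3 : M * (4 * K ^ 2 * (Ch + 1) * (L * (1 + L))) =
            D * (4 * K ^ 2 * (Ch + 1)) * (L ^ 3 / (1 + L) ^ 5) := by
          rw [hM]; field_simp
        rw [e3]
        exact mul_le_mul_of_nonneg_right (by linarith) (by positivity)

/-- `window_bulk`: on `ball (ctr r) (r/4)` we have `S ≥ 1/2`, `u ≈ L`, `‖f'‖ = u / y ≥ c L / r`,
`vt ≥ (1 + C L)^(-3)`; the disc has area `π r²/16` (`Complex.volume_ball`). -/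
theorem window_bulk_ge {C2 : ℝ} (hC2 : 0 ≤ C2) : ∃ c : ℝ, 0 < c ∧ ∀ f : ℂ → ℂ, Univ f →
    ∀ r : ℝ, 0 < r → ∀ (z0 : ℂ) (R : ℝ), ‖f (ctr r) - z0‖ ≤ R + C2 * ups f (ctr r) →
      ENNReal.ofReal (c * (ups f (ctr r) ^ 3 / (1 + ups f (ctr r)) ^ 5)) ≤
        ∫⁻ ζ in ball (ctr r) (r / 4),
          ENNReal.ofReal (dr f ζ * (vt z0 R (f ζ) * ‖deriv f ζ‖ ^ 2)) := by
  obtain ⟨C, hC, h⟩ := window_bulk
  obtain ⟨B, hB⟩ : ∃ B : ℝ, B = C + C2 := ⟨_, rfl⟩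
  have hB1 : 1 ≤ B := by linarith
  have hC0 : 0 < C := by linarith
  have hB0 : 0 < B := by linarith
  refine ⟨1 / (256 * C ^ 5 * B ^ 3), by positivity, fun f hf r hr z0 R hz => ?_⟩
  have hL := hf.ups_pos (ctr_mem hr)
  generalize hLe : ups f (ctr r) = L at hL hz
  have key : ∀ ζ ∈ ball (ctr r) (r / 4),
      1 / (16 * C ^ 5 * B ^ 3 * r ^ 2) * (L ^ 3 / (1 + L) ^ 5) ≤
        dr f ζ * (vt z0 R (f ζ) * ‖deriv f ζ‖ ^ 2) := by
    intro ζ hζ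
    obtain ⟨a1, a2, a3, a4, a5, a6⟩ := h f hf r hr ζ hζ
    rw [hLe] at a4 a5 a6
    have hu := hf.ups_pos (Ann_subset r a1)
    have b1 : L / C ≤ ups f ζ := by rw [div_le_iff₀ hC0]; linarith
    have b2 : (1 / 2) ^ 2 * (L / C / (C * (1 + L)) ^ 2) ≤ dr f ζ := by
      refine mul_le_mul (pow_le_pow_left₀ (by norm_num) a3 2) ?_ (by positivity) (sq_nonneg _)
      exact div_le_div₀ hu.le b1 (by positivity)
        (pow_le_pow_left₀ (by positivity) (by linarith) 2)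
    have b3 : (B * (1 + L))⁻¹ ^ 3 ≤ vt z0 R (f ζ) := by
      refine pow_le_pow_left₀ (by positivity) (inv_anti₀ (by positivity) ?_) 3
      have c1 : ‖f ζ - z0‖ ≤ ‖f ζ - f (ctr r)‖ + ‖f (ctr r) - z0‖ := norm_sub_le_norm_sub_add_norm_sub _ _ _
      have c2 : max (‖f ζ - z0‖ - R) 0 ≤ B * L :=
        max_le (by rw [hB]; linarith) (by positivity)
      linarith
    have b4 : (L / C / (2 * r)) ^ 2 ≤ ‖deriv f ζ‖ ^ 2 := by
      refine pow_le_pow_left₀ (by positivity) ?_ 2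
      rw [div_le_iff₀ (by positivity)]
      have c1 : ζ.im ≤ 2 * r := (Complex.im_le_norm ζ).trans a1.2.2.le
      have c2 := mul_le_mul_of_nonneg_right c1 (norm_nonneg (deriv f ζ))
      have c3 : ups f ζ = ζ.im * ‖deriv f ζ‖ := rfl
      linarith
    have b5 := mul_le_mul b2 (mul_le_mul b3 b4 (by positivity) (vt_nonneg _ _ _)) (by positivity)
      (le_trans (by positivity) b2)
    refine le_trans (le_of_eq ?_) b5
    field_simp
    ring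
  calc _ ≤ ENNReal.ofReal (1 / (16 * C ^ 5 * B ^ 3 * r ^ 2) * (L ^ 3 / (1 + L) ^ 5)) *
        volume (ball (ctr r) (r / 4)) := by
        have e : ((NNReal.pi : ℝ≥0) : ℝ≥0∞) = ENNReal.ofReal Real.pi := by
          rw [← NNReal.coe_real_pi, ENNReal.ofReal_coe_nnreal]
        rw [Complex.volume_ball, e, ← ENNReal.ofReal_pow (by positivity),
          ← ENNReal.ofReal_mul (by positivity), ← ENNReal.ofReal_mul (by positivity)]
        refine ENNReal.ofReal_le_ofReal ?_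
        have c1 : (r / 4) ^ 2 * 1 ≤ (r / 4) ^ 2 * Real.pi :=
          mul_le_mul_of_nonneg_left (by linarith [Real.pi_gt_three]) (sq_nonneg _)
        refine le_trans (le_of_eq ?_) (mul_le_mul_of_nonneg_left c1 (by positivity))
        field_simp
        ring
    _ = ∫⁻ _ in ball (ctr r) (r / 4),
          ENNReal.ofReal (1 / (16 * C ^ 5 * B ^ 3 * r ^ 2) * (L ^ 3 / (1 + L) ^ 5)) :=
        (setLIntegral_const _ _).symm
    _ ≤ _ := setLIntegral_mono' measurableSet_ball fun ζ hζ => ENNReal.ofReal_le_ofReal (key ζ hζ)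

end Crest.Agent.R162.E
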