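import Crest.Agent.R162.E4b

/-! Row 162, block E: summation over the windows. -/

set_option autoImplicit false
open MeasureTheory ProbabilityTheory Set Filter Topology Metric
open scoped ENNReal NNReal ComplexConjugate

namespace Crest.Agent.R162.E

theorem chi_nonneg (κ m : ℝ) (f : ℂ → ℂ) {ζ : ℂ} (hζ : ζ ∈ H) : 0 ≤ chi κ m f ζ := by
  exact mul_nonneg (mul_nonneg (mul_nonneg (rho_nonneg _ _) (k2_nonneg _)) (sq_nonneg _))
    (Real.rpow_nonneg (Sn_pos hζ).le _)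

theorem chi_le_one {κ : ℝ} (hκ8 : κ < 8) (m : ℝ) (f : ℂ → ℂ) {ζ : ℂ} (hζ : ζ ∈ H) :
    chi κ m f ζ ≤ 1 := by
  have h1 : Sn ζ ^ (ae κ / 2) ≤ 1 :=
    Real.rpow_le_one (Sn_pos hζ).le (Sn_le_one ζ) (half_pos (ae_pos hκ8)).le
  have h2 : Wv f ζ ^ 2 ≤ 1 := pow_le_one₀ (Wv_pos f ζ).le (Wv_le_one f ζ)
  exact mul_le_one₀ (mul_le_one₀ (mul_le_one₀ (rho_le_one _ _) (k2_nonneg _) (k2_le_one _))
    (sq_nonneg _) h2) (Real.rpow_nonneg (Sn_pos hζ).le _) h1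

theorem Vv_nonneg (κ m : ℝ) {f : ℂ → ℂ} (hf : Univ f) {ζ : ℂ} (hζ : ζ ∈ H) : 0 ≤ Vv κ m f ζ := by
  exact mul_nonneg (mul_nonneg (mul_nonneg (rho_nonneg _ _) (k2_nonneg _)) (sq_nonneg _))
    (mul_nonneg (Real.rpow_nonneg (hf.ups_pos hζ).le _) (Real.rpow_nonneg (Sn_pos hζ).le _))

theorem dr_nonneg {f : ℂ → ℂ} (hf : Univ f) {ζ : ℂ} (hζ : ζ ∈ H) : 0 ≤ dr f ζ := by
  have := hf.ups_pos hζ
  unfold dr
  positivity

theorem dr_le_one {f : ℂ → ℂ} (hf : Univ f) {ζ : ℂ} (hζ : ζ ∈ H) : dr f ζ ≤ 1 := by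
  have hu := hf.ups_pos hζ
  refine mul_le_one₀ (pow_le_one₀ (Sn_pos hζ).le (Sn_le_one ζ)) (by positivity) ?_
  rw [div_le_one (by positivity)]
  nlinarith

theorem bad_nonneg (κ C' m : ℝ) {f : ℂ → ℂ} (hf : Univ f) {ζ : ℂ} (hζ : ζ ∈ H) :
    0 ≤ bad κ C' m f ζ := by
  have h1 := hf.ups_pos hζ
  have h2 := Sn_pos hζ
  have h3 := Wv_pos f ζ
  unfold bad
  split_ifs
  · positivity
  · exact le_rfl

/-- Quadratic variation. `lintegral_le_windows` (`V`, `chi` vanish for `im ≤ m`); in the window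
`r = 2^k m` put `d_k = ∫ chi ‖f'‖²` over `Ann r ∩ Aset`; `d_k ≤ C0` (`window_area`), `d_k ≤ 4 r² G`,
`∫ V ‖f'‖² ≤ C d_k^(d/2)` (`holder_window` with `g = rho k2 W²`), `d_k ≤ C0^(1-d/2) d_k^(d/2)`; `geo_sum`. -/
theorem qv_le {κ : ℝ} (hκ : 0 < κ) (hκ8 : κ < 8) : ∃ C : ℝ, 0 ≤ C ∧ ∀ (m : ℝ) (z0 : ℂ) (R : ℝ)
    (f : ℂ → ℂ) (G : ℝ), 0 < m → Univ f → 0 ≤ G →
    ∫⁻ ζ, ENNReal.ofReal (chi κ m f ζ / ‖ζ‖ ^ 2) ∂(nuB m z0 R f) ≤ ENNReal.ofReal G →
    ∫⁻ ζ, ENNReal.ofReal ((Vv κ m f ζ + chi κ m f ζ) / ‖ζ‖) ∂(nuB m z0 R f) ≤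
      ENNReal.ofReal (C * Real.sqrt G) := by
  obtain ⟨C0, hC0, hA⟩ := window_area
  obtain ⟨C1, hC1, hH⟩ := holder_window hκ hκ8
  have hγ : 1 / 2 < dd κ / 2 := by unfold dd; linarith
  have hγ1 : dd κ / 2 ≤ 1 := by unfold dd; linarith
  obtain ⟨C3, hC3, hS⟩ := geo_sum hγ hγ1 hC0
  have hC2 : 0 ≤ C1 + C0 ^ (1 - dd κ / 2) := by positivity
  refine ⟨(C1 + C0 ^ (1 - dd κ / 2)) * C3, mul_nonneg hC2 hC3, fun m z0 R f G hm hf hG h => ?_⟩
  have hAm := measurableSet_Aset m z0 R hf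
  have hAH := Aset_subset hm z0 R f
  have hD : Measurable fun ζ => ‖deriv f ζ‖ ^ 2 := (measurable_deriv f).norm.pow_const 2
  have m1 : Measurable fun ζ => ENNReal.ofReal (chi κ m f ζ / ‖ζ‖ ^ 2) :=
    ((measurable_chi κ m hf).div (measurable_norm.pow_const 2)).ennreal_ofReal
  have m2 : Measurable fun ζ => ENNReal.ofReal ((Vv κ m f ζ + chi κ m f ζ) / ‖ζ‖) :=
    (((measurable_Vv κ m hf).add (measurable_chi κ m hf)).div measurable_norm).ennreal_ofReal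
  rw [lintegral_nuB _ _ _ _ m1] at h
  rw [lintegral_nuB _ _ _ _ m2, ← lintegral_indicator hAm]
  refine (lintegral_le_windows volume hm _ fun ζ hζ => ?_).trans ?_
  · by_contra hlt
    apply hζ
    by_cases hζA : ζ ∈ Aset m z0 R f
    · have h0 := (rho_eq_zero (hAH hζA) (not_le.1 hlt).le).1
      rw [indicator_of_mem hζA]
      simp [Vv, chi, h0]
    · exact indicator_of_notMem hζA _
  set g : ℂ → ℝ := fun ζ => rho m ζ * k2 (Real.log (ups f ζ)) * Wv f ζ ^ 2 with hg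
  have hgm : Measurable g :=
    ((measurable_rho m).mul (measurable_k2.comp (measurable_ups f).log)).mul
      ((measurable_Wv hf).pow_const 2)
  have hg1 : ∀ ζ, 0 ≤ rho m ζ * k2 (Real.log (ups f ζ)) ∧ rho m ζ * k2 (Real.log (ups f ζ)) ≤ 1 :=
    fun ζ => ⟨mul_nonneg (rho_nonneg _ _) (k2_nonneg _),
      mul_le_one₀ (rho_le_one _ _) (k2_nonneg _) (k2_le_one _)⟩
  have hg01 : ∀ ζ, 0 ≤ g ζ ∧ g ζ ≤ 1 := fun ζ =>
    ⟨mul_nonneg (hg1 ζ).1 (sq_nonneg _), mul_le_one₀ (hg1 ζ).2 (sq_nonneg _)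
      (pow_le_one₀ (Wv_pos f ζ).le (Wv_le_one f ζ))⟩
  have key : ∀ r : ℝ, 0 < r → ∫⁻ ζ in Ann r, (Aset m z0 R f).indicator
      (fun ζ => ENNReal.ofReal ((Vv κ m f ζ + chi κ m f ζ) / ‖ζ‖) *
        ENNReal.ofReal (‖deriv f ζ‖ ^ 2)) ζ ≤
      ENNReal.ofReal (C1 + C0 ^ (1 - dd κ / 2)) *
        ENNReal.ofReal ((min C0 (4 * G * r ^ 2)) ^ (dd κ / 2) / r) := by
    intro r hr
    rw [setLIntegral_indicator hAm]
    have hBm : MeasurableSet (Aset m z0 R f ∩ Ann r) := hAm.inter (measurableSet_Ann r)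
    have h1 := hH f hf r hr _ hBm inter_subset_right g hgm hg01
    set d := ∫⁻ ζ in Aset m z0 R f ∩ Ann r,
      ENNReal.ofReal (g ζ * Sn ζ ^ (ae κ / 2) * ‖deriv f ζ‖ ^ 2) with hd
    have hd1 : d ≤ ENNReal.ofReal C0 := by
      refine le_trans ?_ (hA f hf r hr)
      refine (setLIntegral_mono' hBm fun ζ hζ => ENNReal.ofReal_le_ofReal ?_).trans
        (lintegral_mono_set fun ζ hζ => ⟨hζ.2, hζ.1.2.1⟩)
      refine mul_le_mul_of_nonneg_right ?_ (sq_nonneg _)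
      have a1 : Sn ζ ^ (ae κ / 2) ≤ 1 :=
        Real.rpow_le_one (Sn_pos (hAH hζ.1)).le (Sn_le_one ζ) (half_pos (ae_pos hκ8)).le
      have a2 : g ζ ≤ Wv f ζ ^ 2 := mul_le_of_le_one_left (sq_nonneg _) (hg1 ζ).2
      exact (mul_le_of_le_one_right (hg01 ζ).1 a1).trans a2
    have hd2 : d ≤ ENNReal.ofReal (4 * G * r ^ 2) := by
      have e : ENNReal.ofReal (4 * G * r ^ 2) = ENNReal.ofReal (4 * r ^ 2) * ENNReal.ofReal G := by
        rw [← ENNReal.ofReal_mul (by positivity)]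
        congr 1
        ring
      rw [e]
      refine le_trans ?_ (mul_le_mul_right h _)
      rw [← lintegral_const_mul' _ _ ENNReal.ofReal_ne_top]
      refine (setLIntegral_mono' hBm fun ζ hζ => ?_).trans (lintegral_mono_set inter_subset_left)
      have hc := chi_nonneg κ m f (hAH hζ.1)
      have hn : 0 < ‖ζ‖ := hr.trans_le hζ.2.2.1
      rw [← ENNReal.ofReal_mul (by positivity), ← ENNReal.ofReal_mul (by positivity)]
      refine ENNReal.ofReal_le_ofReal ?_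
      rw [← mul_assoc]
      refine mul_le_mul_of_nonneg_right ?_ (sq_nonneg _)
      change chi κ m f ζ ≤ _
      rw [mul_div_assoc', le_div_iff₀ (by positivity), mul_comm]
      refine mul_le_mul_of_nonneg_right ?_ hc
      nlinarith [hζ.2.2.2]
    have hμ0 : 0 ≤ min C0 (4 * G * r ^ 2) := le_min hC0.le (by positivity)
    have hd3 : d ≤ ENNReal.ofReal (min C0 (4 * G * r ^ 2)) := by
      rw [ENNReal.ofReal_min]
      exact le_min hd1 hd2
    generalize hμ : min C0 (4 * G * r ^ 2) = μ at hμ0 hd3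
    have hμ1 : μ ≤ C0 := hμ ▸ min_le_left _ _
    have hμ2 : μ ≤ C0 ^ (1 - dd κ / 2) * μ ^ (dd κ / 2) := by
      calc μ = μ ^ (1 - dd κ / 2) * μ ^ (dd κ / 2) := by
            rw [← Real.rpow_add' hμ0 (by norm_num), sub_add_cancel, Real.rpow_one]
        _ ≤ _ := mul_le_mul_of_nonneg_right (Real.rpow_le_rpow hμ0 hμ1 (by linarith))
            (Real.rpow_nonneg hμ0 _)
    have h2 : d ^ (dd κ / 2) ≤ ENNReal.ofReal (μ ^ (dd κ / 2)) := by
      rw [← ENNReal.ofReal_rpow_of_nonneg hμ0 (by linarith)]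
      exact ENNReal.rpow_le_rpow hd3 (by linarith)
    have hVm : Measurable fun ζ => ENNReal.ofReal
        (g ζ * (ups f ζ ^ (-ae κ) * Sn ζ ^ ae κ) * ‖deriv f ζ‖ ^ 2) :=
      ((measurable_Vv κ m hf).mul hD).ennreal_ofReal
    calc ∫⁻ ζ in Aset m z0 R f ∩ Ann r, ENNReal.ofReal ((Vv κ m f ζ + chi κ m f ζ) / ‖ζ‖) *
          ENNReal.ofReal (‖deriv f ζ‖ ^ 2)
        ≤ ∫⁻ ζ in Aset m z0 R f ∩ Ann r, ENNReal.ofReal r⁻¹ *
          (ENNReal.ofReal (g ζ * (ups f ζ ^ (-ae κ) * Sn ζ ^ ae κ) * ‖deriv f ζ‖ ^ 2) +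
            ENNReal.ofReal (g ζ * Sn ζ ^ (ae κ / 2) * ‖deriv f ζ‖ ^ 2)) := by
          refine setLIntegral_mono' hBm fun ζ hζ => ?_
          have hc := chi_nonneg κ m f (hAH hζ.1)
          have hV := Vv_nonneg κ m hf (hAH hζ.1)
          change _ ≤ _ * (ENNReal.ofReal (Vv κ m f ζ * _) + ENNReal.ofReal (chi κ m f ζ * _))
          rw [← ENNReal.ofReal_add (by positivity) (by positivity),
            ← ENNReal.ofReal_mul (by positivity), ← ENNReal.ofReal_mul (by positivity)]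
          refine ENNReal.ofReal_le_ofReal ?_
          rw [← add_mul, ← mul_assoc, div_eq_inv_mul]
          have := inv_anti₀ hr hζ.2.2.1
          gcongr
      _ = ENNReal.ofReal r⁻¹ * ((∫⁻ ζ in Aset m z0 R f ∩ Ann r, ENNReal.ofReal
            (g ζ * (ups f ζ ^ (-ae κ) * Sn ζ ^ ae κ) * ‖deriv f ζ‖ ^ 2)) + d) := by
          rw [lintegral_const_mul' _ _ ENNReal.ofReal_ne_top, lintegral_add_left hVm]
      _ ≤ ENNReal.ofReal r⁻¹ * (ENNReal.ofReal C1 * ENNReal.ofReal (μ ^ (dd κ / 2)) +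
            ENNReal.ofReal (C0 ^ (1 - dd κ / 2) * μ ^ (dd κ / 2))) := by
          gcongr
          · exact h1.trans (mul_le_mul_right h2 _)
          · exact hd3.trans (ENNReal.ofReal_le_ofReal hμ2)
      _ = _ := by
          have := Real.rpow_nonneg hμ0 (dd κ / 2)
          rw [← ENNReal.ofReal_mul hC1, ← ENNReal.ofReal_add (by positivity) (by positivity),
            ← ENNReal.ofReal_mul (by positivity), ← ENNReal.ofReal_mul hC2]
          congr 1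
          ring
  refine (ENNReal.tsum_le_tsum fun k => key _ (by positivity)).trans ?_
  rw [ENNReal.tsum_mul_left, mul_assoc, ENNReal.ofReal_mul hC2]
  exact mul_le_mul_right (hS G m hG hm) _

/-- Window by window: `window_bad_le`, `window_bulk_ge` (if the window contains a point of `Aset` where
`bad ≠ 0`), `window_bulk` (`ball (ctr r) (r/4) ⊆ Ann r ∩ Hy m`), `windows_le_lintegral`. -/
theorem bad_le {κ : ℝ} (hκ : 0 < κ) (hκ8 : κ < 8) {C' : ℝ} (hC' : 1 ≤ C') : ∃ C : ℝ, 0 ≤ C ∧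
    ∀ (m : ℝ) (z0 : ℂ) (R : ℝ) (f : ℂ → ℂ), 0 < m → Univ f →
    ∫⁻ ζ, ENNReal.ofReal (bad κ C' m f ζ / ‖ζ‖ ^ 2) ∂(nuB m z0 R f) ≤
      ENNReal.ofReal C * ∫⁻ ζ, ENNReal.ofReal (dr f ζ / ‖ζ‖ ^ 2) ∂(nuA m z0 R f) := by
  obtain ⟨C1, hC1, h1⟩ := window_bad_le hκ hκ8 hC'
  obtain ⟨c, hc, h2⟩ := window_bulk_ge (C2 := C1) (by linarith)
  obtain ⟨C3, -, h3⟩ := window_bulk
  refine ⟨4 * C1 / c, by positivity, fun m z0 R f hm hf => ?_⟩
  have mb : Measurable fun ζ => ENNReal.ofReal (bad κ C' m f ζ / ‖ζ‖ ^ 2) :=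
    ((measurable_bad κ C' m hf).div (measurable_norm.pow_const 2)).ennreal_ofReal
  have md : Measurable fun ζ => ENNReal.ofReal (dr f ζ / ‖ζ‖ ^ 2) :=
    ((measurable_dr f).div (measurable_norm.pow_const 2)).ennreal_ofReal
  rw [lintegral_nuB m z0 R f mb, lintegral_nuA m z0 R hf md]
  refine (lintegral_le_windows _ hm _ fun ζ hζ => ?_).trans ?_
  · by_contra hlt
    apply hζ
    rw [bad, if_neg fun h => hlt h.1]
    simp
  refine le_trans ?_ (mul_le_mul_right (windows_le_lintegral _ hm _) _)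
  rw [← ENNReal.tsum_mul_left]
  refine ENNReal.tsum_le_tsum fun k => ?_
  have hmr : m ≤ 2 ^ k * m := le_mul_of_one_le_left hm.le (one_le_pow₀ (by norm_num))
  generalize 2 ^ k * m = r at hmr
  have hr : 0 < r := hm.trans_le hmr
  have mA : MeasurableSet (Ann r ∩ Aset m z0 R f) :=
    (measurableSet_Ann r).inter (measurableSet_Aset m z0 R hf)
  rw [Measure.restrict_restrict (measurableSet_Ann r),
    Measure.restrict_restrict (measurableSet_Ann r)]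
  by_cases hex : ∃ ζ ∈ Ann r ∩ Aset m z0 R f, bad κ C' m f ζ ≠ 0
  swap
  · rw [setLIntegral_congr_fun mA (g := fun _ => 0)]
    · simp
    · intro ζ hζ
      have : bad κ C' m f ζ = 0 := by
        by_contra h
        exact hex ⟨ζ, hζ, h⟩
      simp [this]
  obtain ⟨ζ0, ⟨hζ0, hζ0'⟩, hb0⟩ := hex
  obtain ⟨h1a, h1b⟩ := h1 f hf r hr
  have hG : ‖Gv f ζ0‖ ≤ C' * Lv f ζ0 := by
    by_contra h
    exact hb0 (by rw [bad, if_neg fun h' => h h'.2])
  have hz : ‖f (ctr r) - z0‖ ≤ R + C1 * ups f (ctr r) := by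
    have a1 := h1a ζ0 hζ0 hG
    have a2 : ‖f ζ0 - z0‖ < R := by
      rw [← dist_eq_norm]
      exact hζ0'.2.2
    have a3 := norm_sub_le_norm_sub_add_norm_sub (f (ctr r)) (f ζ0) z0
    rw [norm_sub_rev (f (ctr r)) (f ζ0)] at a3
    linarith
  have hL := hf.ups_pos (ctr_mem hr)
  set X := ups f (ctr r) ^ 3 / (1 + ups f (ctr r)) ^ 5 with hX
  have hX0 : 0 ≤ X := by positivity
  calc ∫⁻ ζ in Ann r ∩ Aset m z0 R f,
        ENNReal.ofReal (bad κ C' m f ζ / ‖ζ‖ ^ 2) * ENNReal.ofReal (‖deriv f ζ‖ ^ 2)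
      ≤ ∫⁻ ζ in Ann r ∩ Aset m z0 R f,
          ENNReal.ofReal (1 / r ^ 2) * ENNReal.ofReal (bad κ C' m f ζ * ‖deriv f ζ‖ ^ 2) := by
        refine setLIntegral_mono' mA fun ζ hζ => ?_
        have b0 := bad_nonneg κ C' m hf (Ann_subset r hζ.1)
        have b1 : r ≤ ‖ζ‖ := hζ.1.2.1
        rw [← ENNReal.ofReal_mul (by positivity), ← ENNReal.ofReal_mul (by positivity)]
        refine ENNReal.ofReal_le_ofReal ?_
        calc bad κ C' m f ζ / ‖ζ‖ ^ 2 * ‖deriv f ζ‖ ^ 2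
            ≤ bad κ C' m f ζ / r ^ 2 * ‖deriv f ζ‖ ^ 2 := by gcongr
          _ = _ := by ring
    _ ≤ ENNReal.ofReal (1 / r ^ 2) * ENNReal.ofReal (C1 * X) := by
        rw [lintegral_const_mul' _ _ ENNReal.ofReal_ne_top]
        refine mul_le_mul_right (le_trans (lintegral_mono_set ?_) (h1b m)) _
        exact fun ζ hζ => ⟨hζ.1, hζ.2.2.1⟩
    _ = ENNReal.ofReal (4 * C1 / c) *
          (ENNReal.ofReal (1 / (2 * r) ^ 2) * ENNReal.ofReal (c * X)) := by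
        rw [← ENNReal.ofReal_mul (by positivity), ← ENNReal.ofReal_mul (by positivity),
          ← ENNReal.ofReal_mul (by positivity)]
        congr 1
        field_simp
        ring
    _ ≤ ENNReal.ofReal (4 * C1 / c) * (ENNReal.ofReal (1 / (2 * r) ^ 2) *
          ∫⁻ ζ in ball (ctr r) (r / 4),
            ENNReal.ofReal (dr f ζ * (vt z0 R (f ζ) * ‖deriv f ζ‖ ^ 2))) := by
        gcongr
        exact h2 f hf r hr z0 R hz
    _ ≤ ENNReal.ofReal (4 * C1 / c) * ∫⁻ ζ in ball (ctr r) (r / 4),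
          ENNReal.ofReal (dr f ζ / ‖ζ‖ ^ 2) * ENNReal.ofReal (vt z0 R (f ζ) * ‖deriv f ζ‖ ^ 2) := by
        refine mul_le_mul_right ?_ _
        rw [← lintegral_const_mul' _ _ ENNReal.ofReal_ne_top]
        refine setLIntegral_mono' measurableSet_ball fun ζ hζ => ?_
        have hA := (h3 f hf r hr ζ hζ).1
        have b0 := dr_nonneg hf (Ann_subset r hA)
        have b1 : ‖ζ‖ ≤ 2 * r := hA.2.2.le
        have b2 : 0 < ‖ζ‖ := hr.trans_le hA.2.1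
        have b3 := vt_nonneg z0 R (f ζ)
        rw [← ENNReal.ofReal_mul (by positivity), ← ENNReal.ofReal_mul (by positivity)]
        refine ENNReal.ofReal_le_ofReal ?_
        calc 1 / (2 * r) ^ 2 * (dr f ζ * (vt z0 R (f ζ) * ‖deriv f ζ‖ ^ 2))
            = dr f ζ / (2 * r) ^ 2 * (vt z0 R (f ζ) * ‖deriv f ζ‖ ^ 2) := by ring
          _ ≤ _ := by gcongr
    _ ≤ _ := by
        refine mul_le_mul_right (lintegral_mono_set fun ζ hζ => ?_) _
        exact ⟨(h3 f hf r hr ζ hζ).1, hmr.trans (h3 f hf r hr ζ hζ).2.1⟩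

theorem pt_le {m : ℝ} (hm : 0 < m) (z0 : ℂ) (R : ℝ) {f : ℂ → ℂ} (hf : Univ f) :
    ∫⁻ ζ, ENNReal.ofReal (pt m f ζ / ‖ζ‖ ^ 2) ∂(nuB m z0 R f) ≤
      ∫⁻ ζ, ENNReal.ofReal (dr f ζ / ‖ζ‖ ^ 2) ∂(nuA m z0 R f) := by
  have mp : Measurable fun ζ => ENNReal.ofReal (pt m f ζ / ‖ζ‖ ^ 2) :=
    ((measurable_pt m f).div (measurable_norm.pow_const 2)).ennreal_ofReal
  have md : Measurable fun ζ => ENNReal.ofReal (dr f ζ / ‖ζ‖ ^ 2) :=
    ((measurable_dr f).div (measurable_norm.pow_const 2)).ennreal_ofReal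
  have _ := hm
  rw [lintegral_nuB m z0 R f mp, lintegral_nuA m z0 R hf md,
    ← lintegral_indicator (measurableSet_Aset m z0 R hf), ← lintegral_indicator (measurableSet_Hy m)]
  refine lintegral_mono fun ζ => ?_
  by_cases hA : ζ ∈ Aset m z0 R f
  · rw [indicator_of_mem hA]
    by_cases hH : m ≤ ζ.im
    · rw [indicator_of_mem (show ζ ∈ Hy m from hH), pt, if_pos hH, vt_eq_one hA.2.2, one_mul]
    · rw [pt, if_neg hH]
      simp
  · rw [indicator_of_notMem hA]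
    exact zero_le

end Crest.Agent.R162.E
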