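import Crest.Agent.R162.E3
import Crest.Agent.R162.E4c

/-! Row 162, block E: the deterministic inequality. -/

set_option autoImplicit false
open MeasureTheory ProbabilityTheory Set Filter Topology Metric
open scoped ENNReal NNReal ComplexConjugate

namespace Crest.Agent.R162.E

theorem isFinite_nuB {m : ℝ} (hm : 0 < m) (z0 : ℂ) (R : ℝ) {f : ℂ → ℂ} (hf : Univ f) :
    IsFiniteMeasure (nuB m z0 R f) :=
  ⟨(nuB_univ hm z0 R hf).trans_lt ENNReal.ofReal_lt_top⟩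

theorem isFinite_nuA {m : ℝ} (hm : 0 < m) (z0 : ℂ) {R : ℝ} (hR : 0 ≤ R) {f : ℂ → ℂ} (hf : Univ f) :
    IsFiniteMeasure (nuA m z0 R f) := by
  obtain ⟨C, -, hC⟩ := lintegral_vt
  exact ⟨((nuA_univ hm z0 R hf).trans (hC z0 R hR)).trans_lt ENNReal.ofReal_lt_top⟩

/-- Bounded (`TE_dens` with `y = m/2`, `dens_le_const`) and measurable on a finite measure. -/
theorem integrable_jdens {κ : ℝ} (hκ : 0 < κ) (hκ8 : κ < 8) {δ m : ℝ} (hδ : 0 < δ) (hm : 0 < m)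
    (z0 : ℂ) (R : ℝ) {f : ℂ → ℂ} (hf : Univ f) :
    Integrable (fun ζ => (jdens κ δ m f ζ).v) (nuB m z0 R f) ∧
    Integrable (fun ζ => (jdens κ δ m f ζ).a) (nuB m z0 R f) ∧
    Integrable (fun ζ => (jdens κ δ m f ζ).b) (nuB m z0 R f) ∧
    Integrable (fun ζ => (jdens κ δ m f ζ).c) (nuB m z0 R f) := by
  have := isFinite_nuB hm z0 R hf
  obtain ⟨C, e0, -, hC⟩ := TE_dens hκ hκ8 hδ m (half_pos hm)
  obtain ⟨ha, hb, hc⟩ := measurable_jdens κ δ m hf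
  have hI : ∀ᵐ ζ ∂(nuB m z0 R f), (f, ζ) ∈ Iset (m / 2) :=
    (ae_nuB m z0 R hf).mono fun ζ hζ => ⟨hf, hζ.1, hζ.2.1⟩
  refine ⟨?_, ?_, ?_, ?_⟩
  · simp only [jdens_v]
    refine Integrable.of_bound (measurable_dens κ δ m hf).aestronglyMeasurable
      (2 * (δ / 3) ^ (-ae κ) + 1) ((ae_nuB m z0 R hf).mono fun ζ hζ => ?_)
    have hH := Aset_subset hm z0 R f hζ
    rw [Real.norm_eq_abs, abs_of_nonneg (dens_nonneg κ δ m f hH)]
    exact dens_le_const hκ hκ8 hδ m f hH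
  · exact Integrable.of_bound ha.aestronglyMeasurable C (hI.mono fun ζ hζ => (hC _ hζ).1)
  · exact Integrable.of_bound hb.aestronglyMeasurable C (hI.mono fun ζ hζ => (hC _ hζ).2.1)
  · exact Integrable.of_bound hc.aestronglyMeasurable C (hI.mono fun ζ hζ => (hC _ hζ).2.2.1)

/-- The drift of the area potential. -/
theorem gen_int_jpsi (κ : ℝ) {m : ℝ} (hm : 0 < m) (z0 : ℂ) (R : ℝ) {f : ℂ → ℂ} (hf : Univ f) :
    (Jet.integral (nuA m z0 R f) (fun ζ => jpsi ζ (ups f ζ))).gen κ =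
      -4 * ∫ ζ, dr f ζ / ‖ζ‖ ^ 2 ∂(nuA m z0 R f) ∧
    (Jet.integral (nuA m z0 R f) (fun ζ => jpsi ζ (ups f ζ))).a = 0 := by
  refine ⟨?_, by simp [Jet.integral, jpsi]⟩
  simp only [Jet.gen, Jet.integral, jpsi, integral_zero, mul_zero, add_zero]
  rw [← integral_const_mul]
  refine integral_congr_ae (Eventually.of_forall fun ζ => ?_)
  simp only [dr, Sn]
  ring

/-- `jdens_a_le`, `qv_le` with `G = ∫ chi / ‖ζ‖²` (`ofReal_integral_eq_lintegral_ofReal`). -/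
theorem sq_int_a_le {κ : ℝ} (hκ : 0 < κ) (hκ8 : κ < 8) : ∃ C : ℝ, 0 < C ∧ ∀ (δ m : ℝ) (z0 : ℂ) (R : ℝ)
    (f : ℂ → ℂ), 0 < δ → 0 < m → Univ f →
    (∫ ζ, (jdens κ δ m f ζ).a ∂(nuB m z0 R f)) ^ 2 ≤
      C * ∫ ζ, chi κ m f ζ / ‖ζ‖ ^ 2 ∂(nuB m z0 R f) := by
  obtain ⟨C1, hC1, h1⟩ := jdens_a_le hκ hκ8
  obtain ⟨C2, hC2, h2⟩ := qv_le hκ hκ8
  refine ⟨(C1 * C2) ^ 2 + 1, by positivity, fun δ m z0 R f hδ hm hf => ?_⟩
  have := isFinite_nuB hm z0 R hf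
  have hA := ae_nuB m z0 R hf
  have hnn : 0 ≤ᵐ[nuB m z0 R f] fun ζ => chi κ m f ζ / ‖ζ‖ ^ 2 := hA.mono fun ζ hζ =>
    div_nonneg (chi_nonneg κ m f (Aset_subset hm z0 R f hζ)) (sq_nonneg _)
  have hint : Integrable (fun ζ => chi κ m f ζ / ‖ζ‖ ^ 2) (nuB m z0 R f) := by
    refine Integrable.of_bound
      ((measurable_chi κ m hf).div (measurable_norm.pow_const 2)).aestronglyMeasurable
      (1 / (m / 2) ^ 2) (hA.mono fun ζ hζ => ?_)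
    have hH := Aset_subset hm z0 R f hζ
    have hn : m / 2 ≤ ‖ζ‖ := hζ.1.trans ((le_abs_self _).trans (Complex.abs_im_le_norm ζ))
    rw [Real.norm_eq_abs, abs_of_nonneg (div_nonneg (chi_nonneg κ m f hH) (sq_nonneg _))]
    exact div_le_div₀ zero_le_one (chi_le_one hκ8 m f hH) (by positivity)
      (pow_le_pow_left₀ (by positivity) hn 2)
  have hG0 : 0 ≤ ∫ ζ, chi κ m f ζ / ‖ζ‖ ^ 2 ∂(nuB m z0 R f) := integral_nonneg_of_ae hnn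
  have h3 := h2 m z0 R f _ hm hf hG0 (ofReal_integral_eq_lintegral_ofReal hint hnn).ge
  generalize ∫ ζ, chi κ m f ζ / ‖ζ‖ ^ 2 ∂(nuB m z0 R f) = G at hG0 h3 ⊢
  have h4 : ∫⁻ ζ, ENNReal.ofReal ‖(jdens κ δ m f ζ).a‖ ∂(nuB m z0 R f) ≤
      ENNReal.ofReal (C1 * (C2 * √G)) := by
    rw [ENNReal.ofReal_mul hC1]
    refine le_trans ?_ (mul_le_mul_right h3 _)
    rw [← lintegral_const_mul' _ _ ENNReal.ofReal_ne_top]
    refine lintegral_mono_ae (hA.mono fun ζ hζ => ?_)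
    have hH := Aset_subset hm z0 R f hζ
    have hn : 0 < ‖ζ‖ :=
      ((half_pos hm).trans_le hζ.1).trans_le ((le_abs_self _).trans (Complex.abs_im_le_norm ζ))
    rw [← ENNReal.ofReal_mul hC1]
    refine ENNReal.ofReal_le_ofReal ?_
    rw [← mul_div_assoc, le_div_iff₀ hn]
    exact h1 δ m f hf ζ hH hζ.2.1
  have h5 : |∫ ζ, (jdens κ δ m f ζ).a ∂(nuB m z0 R f)| ≤ C1 * (C2 * √G) :=
    (norm_integral_le_lintegral_norm _).trans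
      (ENNReal.toReal_le_of_le_ofReal (by positivity) h4)
  have h6 := pow_le_pow_left₀ (abs_nonneg _) h5 2
  rw [sq_abs, mul_pow, mul_pow, Real.sq_sqrt hG0] at h6
  nlinarith

private theorem h14_int_div {ν : Measure ℂ} [IsFiniteMeasure ν] {y : ℝ} (hy : 0 < y)
    (hν : ∀ᵐ ζ ∂ν, ζ ∈ Hy y) {g : ℂ → ℝ} (hg : Measurable g) {B : ℝ}
    (hB : ∀ ζ ∈ H, |g ζ| ≤ B) : Integrable (fun ζ => g ζ / ‖ζ‖ ^ 2) ν := by
  refine Integrable.of_bound (hg.div (measurable_norm.pow_const 2)).aestronglyMeasurable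
    (B / y ^ 2) (hν.mono fun ζ h => ?_)
  have h1 : y ≤ ‖ζ‖ := le_trans h ((le_abs_self _).trans (Complex.abs_im_le_norm ζ))
  have h2 := hB ζ (Hy_subset hy h)
  rw [Real.norm_eq_abs, abs_div, abs_of_nonneg (sq_nonneg ‖ζ‖)]
  exact div_le_div₀ ((abs_nonneg _).trans h2) h2 (by positivity) (by gcongr)

private theorem h14_int_of_lint {ν : Measure ℂ} {g : ℂ → ℝ} (hg : Measurable g)
    (h0 : 0 ≤ᵐ[ν] g) {K : ℝ} (hK : 0 ≤ K)
    (h : ∫⁻ ζ, ENNReal.ofReal (g ζ) ∂ν ≤ ENNReal.ofReal K) :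
    Integrable g ν ∧ ∫ ζ, g ζ ∂ν ≤ K := by
  refine ⟨(lintegral_ofReal_ne_top_iff_integrable hg.aestronglyMeasurable h0).1
    (ne_top_of_le_ne_top ENNReal.ofReal_ne_top h), ?_⟩
  rw [integral_eq_lintegral_of_nonneg_ae h0 hg.aestronglyMeasurable]
  exact ENNReal.toReal_le_of_le_ofReal hK h

/-- `jdens_gen_le`, `bad_le`, `pt_le`. Move the good terms to the left: the integrable function
`gen + (c0 chi + c1 msk)/‖ζ‖²` is bounded by `C1 (pt + bad)/‖ζ‖²`, whose `lintegral` is controlled. -/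
theorem int_gen_le {κ : ℝ} (hκ : 0 < κ) (hκ8 : κ < 8) {s1 : ℝ} (hs1 : 0 < s1) :
    ∃ c0 c1 C : ℝ, 0 < c0 ∧ 0 < c1 ∧ 0 < C ∧ ∀ (δ m : ℝ) (z0 : ℂ) (R : ℝ) (f : ℂ → ℂ), 0 < δ →
      δ ≤ 1 / 10 → 0 < m → 0 ≤ R → Univ f →
      (Jet.integral (nuB m z0 R f) (fun ζ => jdens κ δ m f ζ)).gen κ ≤
        -(c0 * ∫ ζ, chi κ m f ζ / ‖ζ‖ ^ 2 ∂(nuB m z0 R f)) - c1 * rateP κ s1 δ m z0 R f +
          C * ∫ ζ, dr f ζ / ‖ζ‖ ^ 2 ∂(nuA m z0 R f) := by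
  obtain ⟨c0, c1, C1, C', hc0, hc1, hC1, hC', hgen⟩ := jdens_gen_le hκ hκ8 hs1
  obtain ⟨Cb, hCb, hbad⟩ := bad_le hκ hκ8 hC'
  refine ⟨c0, c1 / 2, C1 * (1 + Cb) + 1, hc0, by positivity, by positivity,
    fun δ m z0 R f hδ hδ1 hm hR hf => ?_⟩
  have := isFinite_nuB hm z0 R hf
  have := isFinite_nuA hm z0 hR hf
  have hB : ∀ᵐ ζ ∂(nuB m z0 R f), ζ ∈ Hy (m / 2) :=
    (ae_nuB m z0 R hf).mono fun ζ h => h.1
  have hBH : ∀ᵐ ζ ∂(nuB m z0 R f), ζ ∈ H := hB.mono fun ζ h => Hy_subset (by positivity) h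
  have hA := ae_nuA m z0 R f
  have hAH : ∀ᵐ ζ ∂(nuA m z0 R f), ζ ∈ H := hA.mono fun ζ h => Hy_subset hm h
  have iD : Integrable (fun ζ => dr f ζ / ‖ζ‖ ^ 2) (nuA m z0 R f) :=
    h14_int_div hm hA (measurable_dr f) (B := 1) fun ζ hζ => by
      rw [abs_of_nonneg (dr_nonneg hf hζ)]; exact dr_le_one hf hζ
  have hD0 : 0 ≤ᵐ[nuA m z0 R f] fun ζ => dr f ζ / ‖ζ‖ ^ 2 :=
    hAH.mono fun ζ h => div_nonneg (dr_nonneg hf h) (sq_nonneg _)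
  have hDl := ofReal_integral_eq_lintegral_ofReal iD hD0
  obtain ⟨D, hD⟩ : ∃ D, D = ∫ ζ, dr f ζ / ‖ζ‖ ^ 2 ∂(nuA m z0 R f) := ⟨_, rfl⟩
  rw [← hD] at hDl ⊢
  have hDn : 0 ≤ D := by rw [hD]; exact integral_nonneg_of_ae hD0
  have iC : Integrable (fun ζ => chi κ m f ζ / ‖ζ‖ ^ 2) (nuB m z0 R f) :=
    h14_int_div (by positivity) hB (measurable_chi κ m hf) (B := 1) fun ζ hζ => by
      rw [abs_of_nonneg (chi_nonneg κ m f hζ)]; exact chi_le_one hκ8 m f hζ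
  have iM : Integrable (fun ζ => msk κ s1 δ m f ζ / ‖ζ‖ ^ 2) (nuB m z0 R f) :=
    h14_int_div (by positivity) hB (measurable_msk κ s1 δ m f) (B := |δ ^ (dd κ - 2)|)
      fun ζ _ => by
        unfold msk
        split_ifs
        · exact le_rfl
        · rw [abs_zero]; exact abs_nonneg _
  obtain ⟨iP, hP⟩ := h14_int_of_lint (ν := nuB m z0 R f) (g := fun ζ => pt m f ζ / ‖ζ‖ ^ 2)
    ((measurable_pt m f).div (measurable_norm.pow_const 2))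
    (hBH.mono fun ζ h => div_nonneg (by
      unfold pt
      split_ifs
      · exact dr_nonneg hf h
      · exact le_rfl) (sq_nonneg _)) hDn (by rw [hDl]; exact pt_le hm z0 R hf)
  obtain ⟨iB, hBd⟩ := h14_int_of_lint (ν := nuB m z0 R f)
    (g := fun ζ => bad κ C' m f ζ / ‖ζ‖ ^ 2)
    ((measurable_bad κ C' m hf).div (measurable_norm.pow_const 2))
    (hBH.mono fun ζ h => div_nonneg (bad_nonneg κ C' m hf h) (sq_nonneg _))
    (mul_nonneg hCb hDn) (by rw [ENNReal.ofReal_mul hCb, hDl]; exact hbad m z0 R f hm hf)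
  obtain ⟨-, -, ib, ic⟩ := integrable_jdens hκ hκ8 hδ hm z0 R hf
  have e1 : (Jet.integral (nuB m z0 R f) (fun ζ => jdens κ δ m f ζ)).gen κ =
      ∫ ζ, (jdens κ δ m f ζ).gen κ ∂(nuB m z0 R f) := by
    simp only [Jet.gen, Jet.integral]
    rw [integral_add ic (ib.const_mul _), integral_const_mul]
  have e2 : rateP κ s1 δ m z0 R f = 2 * ∫ ζ, msk κ s1 δ m f ζ / ‖ζ‖ ^ 2 ∂(nuB m z0 R f) := by
    unfold rateP
    rw [integral_const_mul]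
  have i1 : Integrable (fun ζ => -c0 * (chi κ m f ζ / ‖ζ‖ ^ 2) +
      -c1 * (msk κ s1 δ m f ζ / ‖ζ‖ ^ 2)) (nuB m z0 R f) := (iC.const_mul _).add (iM.const_mul _)
  have i2 : Integrable (fun ζ => C1 * (pt m f ζ / ‖ζ‖ ^ 2) +
      C1 * (bad κ C' m f ζ / ‖ζ‖ ^ 2)) (nuB m z0 R f) := (iP.const_mul _).add (iB.const_mul _)
  have hle : ∫ ζ, (jdens κ δ m f ζ).gen κ ∂(nuB m z0 R f) ≤
      ∫ ζ, ((-c0 * (chi κ m f ζ / ‖ζ‖ ^ 2) + -c1 * (msk κ s1 δ m f ζ / ‖ζ‖ ^ 2)) +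
        (C1 * (pt m f ζ / ‖ζ‖ ^ 2) + C1 * (bad κ C' m f ζ / ‖ζ‖ ^ 2))) ∂(nuB m z0 R f) := by
    refine integral_mono_ae (ic.add (ib.const_mul _)) (i1.add i2) ?_
    filter_upwards [ae_nuB m z0 R hf, hBH] with ζ h1 h2
    have h3 := hgen δ m f hδ hδ1 hm hf ζ h2 h1.2.1
    have h4 : 0 < ‖ζ‖ ^ 2 := by
      have : ζ ≠ 0 := by
        rintro rfl
        exact absurd h2 (by simp [H])
      positivity
    rw [← le_div_iff₀ h4] at h3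
    refine h3.trans (le_of_eq ?_)
    ring
  rw [integral_add i1 i2, integral_add (iC.const_mul _) (iM.const_mul _),
    integral_add (iP.const_mul _) (iB.const_mul _), integral_const_mul, integral_const_mul,
    integral_const_mul, integral_const_mul] at hle
  rw [e1, e2]
  have h5 := mul_le_mul_of_nonneg_left hP hC1
  have h6 := mul_le_mul_of_nonneg_left hBd hC1
  nlinarith

/-- The deterministic inequality: `θ = min 1 (2 c0/(κ C))`-like, `β = θ C/4`, `θ' = θ c1`. -/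
theorem main_ineq {κ : ℝ} (hκ : 0 < κ) (hκ8 : κ < 8) {s1 : ℝ} (hs1 : 0 < s1) :
    ∃ θ β θ' : ℝ, 0 < θ ∧ 0 < β ∧ 0 < θ' ∧ ∀ (δ m : ℝ) (z0 : ℂ) (R : ℝ) (f : ℂ → ℂ), 0 < δ →
      δ ≤ 1 / 10 → 0 < m → 0 ≤ R → Univ f →
      (Jtot κ s1 δ m z0 R θ β θ' f).gen κ + κ / 2 * (Jtot κ s1 δ m z0 R θ β θ' f).a ^ 2 ≤ 0 := by
  obtain ⟨c0, c1, C, hc0, hc1, hC, hgen⟩ := int_gen_le hκ hκ8 hs1
  obtain ⟨C2, hC2, hsq⟩ := sq_int_a_le hκ hκ8
  obtain ⟨θ, hθ⟩ : ∃ θ : ℝ, θ = 2 * c0 / (κ * C2) := ⟨_, rfl⟩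
  have hθ0 : 0 < θ := by rw [hθ]; positivity
  refine ⟨θ, θ * C / 4, θ * c1, hθ0, by positivity, by positivity,
    fun δ m z0 R f hδ hδ1 hm hR hf => ?_⟩
  have h1 := hgen δ m z0 R f hδ hδ1 hm hR hf
  have h2 := hsq δ m z0 R f hδ hm hf
  obtain ⟨h3, h4⟩ := gen_int_jpsi κ hm z0 R hf
  have e1 : (Jtot κ s1 δ m z0 R θ (θ * C / 4) (θ * c1) f).gen κ =
      θ * (Jet.integral (nuB m z0 R f) (fun ζ => jdens κ δ m f ζ)).gen κ +
        θ * C / 4 * (Jet.integral (nuA m z0 R f) (fun ζ => jpsi ζ (ups f ζ))).gen κ +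
        θ * c1 * rateP κ s1 δ m z0 R f := by
    simp only [Jtot, Jet.gen, Jet.add, Jet.smul, Jet.const]
    ring
  have e2 : (Jtot κ s1 δ m z0 R θ (θ * C / 4) (θ * c1) f).a =
      θ * ∫ ζ, (jdens κ δ m f ζ).a ∂(nuB m z0 R f) := by
    simp only [Jtot, Jet.add, Jet.smul, Jet.const, h4]
    simp [Jet.integral]
  rw [e1, e2, h3]
  have h5 := mul_le_mul_of_nonneg_left h1 hθ0.le
  have h6 := mul_le_mul_of_nonneg_left h2 (show 0 ≤ κ / 2 * θ ^ 2 by positivity)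
  have e3 : κ / 2 * θ ^ 2 * (C2 * ∫ ζ, chi κ m f ζ / ‖ζ‖ ^ 2 ∂(nuB m z0 R f)) =
      θ * (c0 * ∫ ζ, chi κ m f ζ / ‖ζ‖ ^ 2 ∂(nuB m z0 R f)) := by
    have : κ / 2 * θ * C2 = c0 := by rw [hθ]; field_simp
    rw [← this]; ring
  rw [e3] at h6
  nlinarith

end Crest.Agent.R162.E
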