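import Crest.Agent.R162.E3
import Crest.Agent.R162.E4a
import Crest.Agent.R162.E4m

/-! Row 162, block E: the potentials along the flow. -/

set_option autoImplicit false
open MeasureTheory ProbabilityTheory Set Filter Topology Metric
open scoped ENNReal NNReal ComplexConjugate

namespace Crest.Agent.R162.E

/-- `integral_nuB`; off `Aset` the integrand vanishes (`dens_eq_zero`). -/
theorem PhiT_eq (κ δ : ℝ) {m : ℝ} (hm : 0 < m) (z0 : ℂ) (R : ℝ) {f : ℂ → ℂ} (hf : Univ f) :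
    PhiT κ δ m z0 R f = ∫ ζ, dens κ δ m f ζ ∂(nuB m z0 R f) := by
  rw [integral_nuB, PhiT, setIntegral_eq_of_subset_of_forall_sdiff_eq_zero measurableSet_H
    (Aset_subset hm z0 R f)]
  · refine setIntegral_congr_fun (measurableSet_Aset m z0 R hf) fun ζ hζ => ?_
    simp only [indicator_of_mem hζ.2.2, one_mul]
  · rintro ζ ⟨hζ, hA⟩
    by_cases h1 : f ζ ∈ ball z0 R
    · have h0 : dens κ δ m f ζ = 0 := by
        refine dens_eq_zero κ δ f hζ ?_
        by_contra hc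
        push Not at hc
        exact hA ⟨by linarith [hc.1], by linarith [hc.2], h1⟩
      rw [h0, mul_zero, zero_mul]
    · rw [indicator_of_notMem h1, zero_mul, zero_mul]

theorem PhiT_nonneg (κ δ m : ℝ) (z0 : ℂ) (R : ℝ) (f : ℂ → ℂ) : 0 ≤ PhiT κ δ m z0 R f := by
  refine setIntegral_nonneg measurableSet_H fun ζ hζ => ?_
  exact mul_nonneg (mul_nonneg (indicator_nonneg (fun _ _ => zero_le_one) _)
    (dens_nonneg κ δ m f hζ)) (sq_nonneg _)

theorem PhiT_le {κ : ℝ} (hκ : 0 < κ) (hκ8 : κ < 8) {δ m : ℝ} (hδ : 0 < δ) (hm : 0 < m) (z0 : ℂ)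
    (R : ℝ) {f : ℂ → ℂ} (hf : Univ f) :
    PhiT κ δ m z0 R f ≤ (2 * (δ / 3) ^ (-ae κ) + 1) * (Real.pi * R ^ 2) := by
  have hfin := nuB_univ hm z0 R hf
  have : IsFiniteMeasure (nuB m z0 R f) := ⟨hfin.trans_lt ENNReal.ofReal_lt_top⟩
  have hC : 0 ≤ 2 * (δ / 3) ^ (-ae κ) + 1 := by positivity
  rw [PhiT_eq κ δ hm z0 R hf]
  have h1 : ∫ ζ, dens κ δ m f ζ ∂(nuB m z0 R f) ≤
      ∫ _ζ, (2 * (δ / 3) ^ (-ae κ) + 1) ∂(nuB m z0 R f) := by
    refine integral_mono_of_nonneg ?_ (integrable_const _) ?_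
    · filter_upwards [ae_nuB m z0 R hf] with ζ hζ
      exact dens_nonneg κ δ m f (Aset_subset hm z0 R f hζ)
    · filter_upwards [ae_nuB m z0 R hf] with ζ hζ
      exact dens_le_const hκ hκ8 hδ m f (Aset_subset hm z0 R f hζ)
  refine h1.trans ?_
  rw [integral_const, smul_eq_mul, mul_comm]
  refine mul_le_mul_of_nonneg_left ?_ hC
  exact ENNReal.toReal_le_of_le_ofReal (by positivity) hfin

/-- `dens_le_init`, `dens_eq_zero`. -/
theorem PhiT_le_init {κ : ℝ} (hκ : 0 < κ) (hκ8 : κ < 8) (δ m : ℝ) (z0 : ℂ) (R : ℝ) {f : ℂ → ℂ}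
    (hf : Univ f) {K : ℝ} (hK : 0 ≤ K) (h : init κ f (ball z0 R) ≤ ENNReal.ofReal K) :
    PhiT κ δ m z0 R f ≤ 2 * K := by
  have hm : Measurable fun ζ =>
      ((ball z0 R).indicator (fun _ => (1 : ℝ)) (f ζ) * dens κ δ m f ζ) * ‖deriv f ζ‖ ^ 2 :=
    (((measurable_const.indicator measurableSet_ball).comp hf.meas).mul
      (measurable_dens κ δ m hf)).mul ((measurable_deriv f).norm.pow_const 2)
  rw [PhiT, integral_eq_lintegral_of_nonneg_ae ?_ hm.aestronglyMeasurable]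
  · refine ENNReal.toReal_le_of_le_ofReal (by positivity) ?_
    have h2 : ENNReal.ofReal (2 * K) = 2 * ENNReal.ofReal K := by
      rw [ENNReal.ofReal_mul zero_le_two, ENNReal.ofReal_ofNat]
    rw [h2]
    refine le_trans ?_ (mul_le_mul_right h 2)
    rw [init, ← lintegral_const_mul' _ _ ENNReal.ofNat_ne_top]
    refine setLIntegral_mono' measurableSet_H fun ζ hζ => ?_
    by_cases h1 : f ζ ∈ ball z0 R
    · simp only [indicator_of_mem h1, one_mul]
      by_cases h3 : ups f ζ ≤ 3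
      · have hp : 0 ≤ ups f ζ ^ (-ae κ) * Sn ζ ^ ae κ + 1 := by
          have := dens_le_init hκ hκ8 δ m hf hζ
          have := dens_nonneg κ δ m f hζ
          linarith
        rw [if_pos h3, ← ENNReal.ofReal_mul hp, ← ENNReal.ofReal_ofNat,
          ← ENNReal.ofReal_mul zero_le_two, ← mul_assoc]
        exact ENNReal.ofReal_le_ofReal
          (mul_le_mul_of_nonneg_right (dens_le_init hκ hκ8 δ m hf hζ) (sq_nonneg _))
      · rw [dens_eq_zero κ δ f hζ (Or.inr (not_le.1 h3).le), zero_mul, ENNReal.ofReal_zero]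
        exact zero_le
    · simp only [indicator_of_notMem h1, zero_mul, ENNReal.ofReal_zero]
      exact zero_le
  · filter_upwards [ae_restrict_mem measurableSet_H] with ζ hζ
    exact mul_nonneg (mul_nonneg (indicator_nonneg (fun _ _ => zero_le_one) _)
      (dens_nonneg κ δ m f hζ)) (sq_nonneg _)

/-- `integral_material`, `cfg_Zf`; points of `Aset` are alive (`alive_small'`); living points off `Aset`
do not contribute: `im_Zf_le`, and `ups_cfg` with `mm ≥ 9/10`, `4 * 9/10 ≥ 3` (`dens_eq_zero`). -/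
theorem PhiT_cfg (κ δ : ℝ) {m : ℝ} (hm : 0 < m) : ∃ e0 > 0, ∀ (z0 : ℂ) (R : ℝ) (f : ℂ → ℂ), Univ f →
    ∀ (w : Path) (t e : ℝ), e ≤ e0 → Small w t e →
      PhiT κ δ m z0 R (cfg f w t) = ∫ ζ, dens κ δ m (cfg f w t) (Zf w t ζ) ∂(nuB m z0 R f) := by
  obtain ⟨e0, he0, -, hal⟩ := alive_small' (half_pos hm)
  refine ⟨e0, he0, fun z0 R f hf w t e he hs => ?_⟩
  have ht : t ∈ Icc 0 t := ⟨hs.1, le_rfl⟩
  have hsub : Aset m z0 R f ⊆ dom w t := fun ζ hζ => (hal ζ hζ.1 w t e he hs t ht).1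
  rw [integral_nuB, PhiT, integral_material hf w t
    (fun ζ => (ball z0 R).indicator (fun _ => (1 : ℝ)) (cfg f w t ζ) * dens κ δ m (cfg f w t) ζ),
    setIntegral_eq_of_subset_of_forall_sdiff_eq_zero (isOpen_dom w t).measurableSet hsub]
  · refine setIntegral_congr_fun (measurableSet_Aset m z0 R hf) fun ζ hζ => ?_
    simp only [cfg_Zf f (hsub hζ), indicator_of_mem hζ.2.2, one_mul]
  · rintro ζ ⟨hζ, hA⟩
    rw [cfg_Zf f hζ]
    by_cases h1 : f ζ ∈ ball z0 R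
    · have h0 : dens κ δ m (cfg f w t) (Zf w t ζ) = 0 := by
        refine dens_eq_zero κ δ _ (Zf_mem hζ) ?_
        by_cases h2 : m / 2 ≤ ζ.im
        · right
          have h3 : 4 < ups f ζ := by
            by_contra hc
            exact hA ⟨h2, not_lt.1 hc, h1⟩
          have h4 := (hal ζ h2 w t e he hs t ht).2.2.2
          rw [ups_cfg hf hζ]
          nlinarith
        · left
          have := im_Zf_le w hs.1 (dom_subset w t hζ)
          linarith [not_le.1 h2]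
      rw [h0, mul_zero, zero_mul]
    · rw [indicator_of_notMem h1, zero_mul, zero_mul]

theorem psi_nonneg {u : ℝ} (hu : 0 ≤ u) : 0 ≤ psi u := by
  unfold psi; positivity

theorem psi_le_one {u : ℝ} (hu : 0 ≤ u) : psi u ≤ 1 := by
  unfold psi
  rw [div_le_one (by positivity)]; linarith

theorem psi_mono {u v : ℝ} (hu : 0 ≤ u) (huv : u ≤ v) : psi u ≤ psi v := by
  unfold psi
  rw [div_le_div_iff₀ (by positivity) (by linarith)]; nlinarith

theorem Psi_nonneg (z0 : ℂ) (R : ℝ) {f : ℂ → ℂ} (hf : Univ f) : 0 ≤ Psi z0 R f := by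
  exact setIntegral_nonneg measurableSet_H fun ζ hζ =>
    mul_nonneg (mul_nonneg (psi_nonneg (hf.ups_pos hζ).le) (vt_nonneg _ _ _)) (sq_nonneg _)

private theorem h30_lint (z0 : ℂ) (R : ℝ) {f : ℂ → ℂ} (hf : Univ f) :
    ∫⁻ ζ in H, ENNReal.ofReal (vt z0 R (f ζ) * ‖deriv f ζ‖ ^ 2) ≤
      ∫⁻ z, ENNReal.ofReal (vt z0 R z) := by
  have h := lintegral_area hf measurableSet_H subset_rfl (fun z => ENNReal.ofReal (vt z0 R z))
  refine le_trans (le_of_eq ?_) (h.le.trans (setLIntegral_le_lintegral _ _))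
  exact lintegral_congr fun ζ => ENNReal.ofReal_mul (vt_nonneg _ _ _)

private theorem h30_meas (z0 : ℂ) (R : ℝ) {f : ℂ → ℂ} (hf : Univ f) :
    Measurable fun ζ => vt z0 R (f ζ) * ‖deriv f ζ‖ ^ 2 :=
  ((measurable_vt z0 R).comp hf.meas).mul ((measurable_deriv f).norm.pow_const 2)

private theorem h30_nn (z0 : ℂ) (R : ℝ) (f : ℂ → ℂ) (ζ : ℂ) :
    0 ≤ vt z0 R (f ζ) * ‖deriv f ζ‖ ^ 2 := mul_nonneg (vt_nonneg _ _ _) (sq_nonneg _)

/-- `lintegral_area`, `lintegral_vt`. -/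
theorem integrableOn_vt (z0 : ℂ) {R : ℝ} (hR : 0 ≤ R) {f : ℂ → ℂ} (hf : Univ f) :
    IntegrableOn (fun ζ => vt z0 R (f ζ) * ‖deriv f ζ‖ ^ 2) H := by
  obtain ⟨C, -, hC⟩ := lintegral_vt
  refine ⟨(h30_meas z0 R hf).aestronglyMeasurable, ?_⟩
  rw [hasFiniteIntegral_iff_ofReal (Eventually.of_forall (h30_nn z0 R f))]
  exact ((h30_lint z0 R hf).trans (hC z0 R hR)).trans_lt ENNReal.ofReal_lt_top

private theorem h30_int (z0 : ℂ) {R : ℝ} (hR : 0 ≤ R) {f : ℂ → ℂ} (hf : Univ f) {u : ℂ → ℝ}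
    (hu : Measurable u) (h0 : ∀ ζ ∈ H, 0 ≤ u ζ) :
    IntegrableOn (fun ζ => psi (u ζ) * (vt z0 R (f ζ) * ‖deriv f ζ‖ ^ 2)) H := by
  refine Integrable.bdd_mul (c := 1) (integrableOn_vt z0 hR hf)
    (hu.div (hu.const_add 1)).aestronglyMeasurable ?_
  filter_upwards [ae_restrict_mem measurableSet_H] with ζ hζ
  rw [Real.norm_of_nonneg (psi_nonneg (h0 ζ hζ))]
  exact psi_le_one (h0 ζ hζ)

theorem Psi_le : ∃ C : ℝ, 0 ≤ C ∧ ∀ (z0 : ℂ) (R : ℝ) (f : ℂ → ℂ), 0 ≤ R → Univ f →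
    Psi z0 R f ≤ C * (1 + R) ^ 2 := by
  obtain ⟨C, hC0, hC⟩ := lintegral_vt
  refine ⟨C, hC0, fun z0 R f hR hf => ?_⟩
  have h1 : Psi z0 R f ≤ ∫ ζ in H, vt z0 R (f ζ) * ‖deriv f ζ‖ ^ 2 := by
    unfold Psi
    simp only [mul_assoc]
    refine setIntegral_mono_on (h30_int z0 hR hf (measurable_ups f) fun ζ hζ => (hf.ups_pos hζ).le)
      (integrableOn_vt z0 hR hf) measurableSet_H fun ζ hζ => ?_
    exact mul_le_of_le_one_left (h30_nn z0 R f ζ) (psi_le_one (hf.ups_pos hζ).le)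
  refine h1.trans ?_
  rw [integral_eq_lintegral_of_nonneg_ae (Eventually.of_forall (h30_nn z0 R f))
    (h30_meas z0 R hf).aestronglyMeasurable]
  exact ENNReal.toReal_le_of_le_ofReal (by positivity) ((h30_lint z0 R hf).trans (hC z0 R hR))

/-- `integral_material`; with `mm = 0` at dead points the integral over `dom` is the integral over `H` of
`psi (u mm) vt ‖f'‖²`; split `H = Hy m ∪ (H \ Hy m)` and use `mm ≤ 1` on the second part. -/
theorem Psi_cfg_le {m : ℝ} (hm : 0 < m) (z0 : ℂ) {R : ℝ} (hR : 0 ≤ R) {f : ℂ → ℂ} (hf : Univ f)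
    (w : Path) {t : ℝ} (ht : 0 ≤ t) :
    Psi z0 R (cfg f w t) ≤ (∫ ζ, psi (ups f ζ * mm w t ζ) ∂(nuA m z0 R f)) +
      (Psi z0 R f - ∫ ζ, psi (ups f ζ) ∂(nuA m z0 R f)) := by
  have hmm : Measurable fun ζ => mm w t ζ :=
    measurable_mm.comp (f := fun ζ : ℂ => (w, t, ζ)) (by fun_prop)
  have i1 := h30_int z0 hR hf (u := fun ζ => ups f ζ * mm w t ζ) ((measurable_ups f).mul hmm)
    fun ζ hζ => mul_nonneg (hf.ups_pos hζ).le (mm_nonneg w t ζ)
  have i2 := h30_int z0 hR hf (measurable_ups f) fun ζ hζ => (hf.ups_pos hζ).le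
  have h1 : Psi z0 R (cfg f w t) =
      ∫ ζ in H, psi (ups f ζ * mm w t ζ) * (vt z0 R (f ζ) * ‖deriv f ζ‖ ^ 2) := by
    unfold Psi
    rw [integral_material hf w t (fun ζ => psi (ups (cfg f w t) ζ) * vt z0 R (cfg f w t ζ)),
      setIntegral_eq_of_subset_of_forall_sdiff_eq_zero measurableSet_H (dom_subset w t)
        (fun ζ hζ => by rw [mm_dead hζ.2, mul_zero, psi, zero_div, zero_mul])]
    refine setIntegral_congr_fun (isOpen_dom w t).measurableSet fun ζ hζ => ?_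
    simp only [ups_cfg hf hζ, cfg_Zf f hζ, mul_assoc]
  have h2 : Psi z0 R f = ∫ ζ in H, psi (ups f ζ) * (vt z0 R (f ζ) * ‖deriv f ζ‖ ^ 2) := by
    unfold Psi
    simp only [mul_assoc]
  have hHy := measurableSet_Hy m
  have hsub := Hy_subset hm
  rw [h1, h2, integral_nuA m z0 R hf, integral_nuA m z0 R hf, ← setIntegral_sdiff hHy i2 hsub]
  have h3 := setIntegral_sdiff hHy i1 hsub
  have h4 : ∫ ζ in H \ Hy m, psi (ups f ζ * mm w t ζ) * (vt z0 R (f ζ) * ‖deriv f ζ‖ ^ 2) ≤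
      ∫ ζ in H \ Hy m, psi (ups f ζ) * (vt z0 R (f ζ) * ‖deriv f ζ‖ ^ 2) := by
    refine setIntegral_mono_on (i1.mono_set sdiff_subset) (i2.mono_set sdiff_subset)
      (measurableSet_H.diff hHy) fun ζ hζ => ?_
    have hu := (hf.ups_pos hζ.1).le
    exact mul_le_mul_of_nonneg_right (psi_mono (mul_nonneg hu (mm_nonneg w t ζ))
      (mul_le_of_le_one_right hu (mm_le_one w ht ζ))) (h30_nn z0 R f ζ)
  linarith

end Crest.Agent.R162.E
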