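import Crest.Agent.R162.M1

set_option autoImplicit false
open MeasureTheory ProbabilityTheory Set Filter Topology Metric
open scoped ENNReal NNReal ComplexConjugate

namespace Crest.Agent.R162

theorem mass_congr (κ s1 ε : ℝ) (f : ℂ → ℂ) {w w' : Path} {I : Set ℝ} (hI : MeasurableSet I)
    {s : ℝ} (hIs : ∀ t ∈ I, t ≤ s) (h : ∀ r, r ≤ s → w r = w' r) (B : Set ℂ) :
    mass κ s1 ε f w I B = mass κ s1 ε f w' I B := by
  unfold mass
  refine setLIntegral_congr_fun hI fun t ht => ?_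
  have := (phi_congr_le (hIs t ht) h).1
  unfold cfg
  simp only [this]

theorem M2_shift (G : ℝ → ℝ≥0∞) (s : ℝ) (A : Set ℝ) :
    ∫⁻ x in (fun r => s + r) '' A, G x = ∫⁻ r in A, G (s + r) :=
  ((measurePreserving_add_left volume s).setLIntegral_comp_emb
    (MeasurableEquiv.addLeft s).measurableEmbedding G A).symm

theorem mass_concat_Ioc (κ s1 ε : ℝ) (f : ℂ → ℂ) (w w' : Path) {s : ℝ} (hs : 0 ≤ s) (t : ℝ)
    (B : Set ℂ) :
    mass κ s1 ε f (concat s w w') (Ioc s (s + t)) B = mass κ s1 ε (cfg f w s) w' (Ioc 0 t) B := by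
  unfold mass
  have : Ioc s (s + t) = (fun r => s + r) '' Ioc 0 t := by simp [add_comm]
  rw [this, M2_shift]
  refine setLIntegral_congr_fun measurableSet_Ioc fun r hr => ?_
  simp only [cfg_concat_add f w w' hs hr.1.le]

theorem mass_concat_Ioi (κ s1 ε : ℝ) (f : ℂ → ℂ) (w w' : Path) {s : ℝ} (hs : 0 ≤ s) (B : Set ℂ) :
    mass κ s1 ε f (concat s w w') (Ioi s) B = mass κ s1 ε (cfg f w s) w' (Ioi 0) B := by
  unfold mass
  have : Ioi s = (fun r => s + r) '' Ioi 0 := by simp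
  rw [this, M2_shift]
  refine setLIntegral_congr_fun measurableSet_Ioi fun r hr => ?_
  simp only [cfg_concat_add f w w' hs (le_of_lt hr)]

theorem M2_Sn_mul {r : ℝ} (hr : 0 < r) (ζ : ℂ) : Sn (r * ζ) = Sn ζ := by
  unfold Sn
  rw [norm_mul, Complex.norm_real, Real.norm_of_nonneg hr.le, Complex.im_ofReal_mul,
    mul_div_mul_left _ _ hr.ne']

theorem M2_cr_dilate (κ s1 ε : ℝ) {r : ℝ} (hr : 0 < r) (ζ : ℂ) (u : ℝ) :
    cr κ s1 ε ζ u = ENNReal.ofReal (r ^ 2) * cr κ s1 ε (r * ζ) u := by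
  unfold cr
  rw [M2_Sn_mul hr, L3_mul_mem hr]
  split_ifs with h
  · rw [← ENNReal.ofReal_mul (by positivity), norm_mul, Complex.norm_real,
      Real.norm_of_nonneg hr.le]
    congr 1
    have hr' := hr.ne'
    field_simp
  · simp

theorem M2_image_H {r : ℝ} (hr : 0 < r) : (fun ζ : ℂ => (r : ℂ) * ζ) '' H = H := by
  have hr' : (r : ℂ) ≠ 0 := by exact_mod_cast hr.ne'
  ext z
  constructor
  · rintro ⟨ζ, hζ, rfl⟩
    exact (L3_mul_mem hr).2 hζ
  · intro hz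
    refine ⟨z / r, ?_, by simp only; field_simp⟩
    rw [← L3_mul_mem hr]
    have : (r : ℂ) * (z / r) = z := by field_simp
    rwa [this]

theorem rate_dilate {f : ℂ → ℂ} (hf : Univ f) (κ s1 ε : ℝ) {r : ℝ} (hr : 0 < r) {B : Set ℂ}
    (hB : MeasurableSet B) :
    rate κ s1 ε (fun ζ => f (r * ζ)) B = ENNReal.ofReal (r ^ 2) * rate κ s1 ε f B := by
  have hA := lintegral_area (univ_id.dilate hr) measurableSet_H subset_rfl
    (fun ξ => B.indicator (fun _ => (1 : ℝ≥0∞)) (f ξ) * cr κ s1 ε ξ (ups f ξ) *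
      ENNReal.ofReal (‖deriv f ξ‖ ^ 2))
  simp only [id] at hA
  rw [M2_image_H hr] at hA
  unfold rate
  rw [← hA, ← lintegral_const_mul' _ _ ENNReal.ofReal_ne_top]
  refine setLIntegral_congr_fun measurableSet_H fun ζ hζ => ?_
  have hd : deriv (fun ζ : ℂ => (r : ℂ) * ζ) ζ = r := by
    simpa using ((hasDerivAt_id ζ).const_mul (r : ℂ)).deriv
  have hd2 : deriv (fun ζ : ℂ => f (r * ζ)) ζ = r * deriv f (r * ζ) := by
    simpa using deriv_comp_mul_left (r : ℂ) f ζ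
  simp only
  rw [ups_dilate hf hr hζ, hd, hd2, M2_cr_dilate κ s1 ε hr ζ, norm_mul, mul_pow,
    ENNReal.ofReal_mul (by positivity)]
  ring

theorem cfg_scale (f : ℂ → ℂ) (w : Path) {r : ℝ} (hr : 0 < r) (t : ℝ) :
    (fun ζ => cfg f (scale r w) (r ^ 2 * t) (r * ζ)) = cfg (fun ζ => f (r * ζ)) w t := by
  funext ζ
  unfold cfg
  rw [phi_scale w hr]

theorem mass_scale_Ioc {f : ℂ → ℂ} (hf : Univ f) (κ s1 ε : ℝ) (w : Path) {r : ℝ} (hr : 0 < r)
    (t : ℝ) {B : Set ℂ} (hB : MeasurableSet B) :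
    mass κ s1 ε f (scale r w) (Ioc 0 (r ^ 2 * t)) B =
      mass κ s1 ε (fun ζ => f (r * ζ)) w (Ioc 0 t) B := by
  unfold mass
  have hr2 : 0 < r ^ 2 := by positivity
  have : Ioc 0 (r ^ 2 * t) = (fun s => r ^ 2 * s) '' Ioc 0 t := by
    rw [image_mul_left_Ioc hr2, mul_zero]
  rw [this, lintegral_image_eq_lintegral_abs_deriv_mul (f' := fun _ => r ^ 2) measurableSet_Ioc
    (fun x _ => by simpa using ((hasDerivAt_id x).const_mul (r ^ 2)).hasDerivWithinAt)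
    (fun a _ b _ hab => mul_left_cancel₀ hr2.ne' hab)]
  refine lintegral_congr fun s => ?_
  rw [← cfg_scale f w hr s, rate_dilate (hf.cfg _ _) κ s1 ε hr hB, abs_of_pos hr2]

theorem M2_cr_mul (κ s1 : ℝ) {ε c : ℝ} (hε : 0 < ε) (hc : 0 < c) (ζ : ℂ) (u : ℝ) :
    cr κ s1 (c * ε) ζ (c * u) = ENNReal.ofReal (c ^ (dd κ - 2)) * cr κ s1 ε ζ u := by
  unfold cr
  have h1 : c * ε ≤ c * u ↔ ε ≤ u := mul_le_mul_iff_right₀ hc
  have h2 : c * u ≤ 2 * (c * ε) ↔ u ≤ 2 * ε := by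
    rw [show 2 * (c * ε) = c * (2 * ε) by ring]
    exact mul_le_mul_iff_right₀ hc
  by_cases h : ζ ∈ H ∧ ε ≤ u ∧ u ≤ 2 * ε ∧ s1 ≤ Sn ζ
  · rw [if_pos h, if_pos ⟨h.1, h1.2 h.2.1, h2.2 h.2.2.1, h.2.2.2⟩,
      ← ENNReal.ofReal_mul (by positivity), Real.mul_rpow hc.le hε.le, mul_div_assoc]
  · rw [if_neg h, if_neg fun h' => h ⟨h'.1, h1.1 h'.2.1, h2.1 h'.2.2.1, h'.2.2.2⟩, mul_zero]

theorem M2_rate_const_mul (g : ℂ → ℂ) (κ s1 : ℝ) {ε c : ℝ} (hε : 0 < ε) (hc : 0 < c) (z : ℂ)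
    (R : ℝ) :
    rate κ s1 (c * ε) (fun ζ => c * g ζ) (ball (c * z) (c * R)) =
      ENNReal.ofReal (c ^ dd κ) * rate κ s1 ε g (ball z R) := by
  unfold rate
  rw [← lintegral_const_mul' _ _ ENNReal.ofReal_ne_top]
  refine lintegral_congr fun ζ => ?_
  have hb : (c : ℂ) * g ζ ∈ ball ((c : ℂ) * z) (c * R) ↔ g ζ ∈ ball z R := by
    rw [mem_ball_iff_norm, mem_ball_iff_norm, ← mul_sub, norm_mul, Complex.norm_real,
      Real.norm_of_nonneg hc.le]
    exact mul_lt_mul_iff_right₀ hc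
  have hi : (ball ((c : ℂ) * z) (c * R)).indicator (fun _ => (1 : ℝ≥0∞)) (c * g ζ) =
      (ball z R).indicator (fun _ => (1 : ℝ≥0∞)) (g ζ) := by
    by_cases h : g ζ ∈ ball z R
    · rw [indicator_of_mem h, indicator_of_mem (hb.2 h)]
    · rw [indicator_of_notMem h, indicator_of_notMem (fun h' => h (hb.1 h'))]
  rw [hi, ups_const_mul g hc, M2_cr_mul κ s1 hε hc, deriv_const_mul_field', norm_mul,
    Complex.norm_real, Real.norm_of_nonneg hc.le, mul_pow, ENNReal.ofReal_mul (by positivity)]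
  have hp : ENNReal.ofReal (c ^ dd κ) = ENNReal.ofReal (c ^ (dd κ - 2)) * ENNReal.ofReal (c ^ 2) := by
    rw [← ENNReal.ofReal_mul (by positivity)]
    congr 1
    rw [← Real.rpow_two, ← Real.rpow_add hc]
    congr 1
    ring
  rw [hp]
  ring

theorem mass_const_mul {f : ℂ → ℂ} (hf : Univ f) (κ s1 : ℝ) {ε c : ℝ} (hε : 0 < ε) (hc : 0 < c)
    (w : Path) (I : Set ℝ) (z : ℂ) (R : ℝ) :
    mass κ s1 (c * ε) (fun ζ => c * f ζ) w I (ball (c * z) (c * R)) =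
      ENNReal.ofReal (c ^ dd κ) * mass κ s1 ε f w I (ball z R) := by
  unfold mass
  rw [← lintegral_const_mul' _ _ ENNReal.ofReal_ne_top]
  exact lintegral_congr fun s => M2_rate_const_mul (cfg f w s) κ s1 hε hc z R

end Crest.Agent.R162
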