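import Crest.Agent.R162.E1
import Crest.Agent.R162.E2a
import Crest.Agent.R162.E4m
import Crest.Agent.R162.M2

/-! Row 162, block E: the creation rate, measurability in the path. -/

set_option autoImplicit false
open MeasureTheory ProbabilityTheory Set Filter Topology Metric
open scoped ENNReal NNReal ComplexConjugate

namespace Crest.Agent.R162.E

theorem h61_msk_nonneg (κ s1 : ℝ) {δ : ℝ} (hδ : 0 < δ) (m : ℝ) (f : ℂ → ℂ) (ζ : ℂ) :
    0 ≤ 2 * (msk κ s1 δ m f ζ / ‖ζ‖ ^ 2) := by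
  unfold msk
  split_ifs <;> positivity

theorem h61_msk_le (κ s1 : ℝ) {δ m : ℝ} (hδ : 0 < δ) (hm : 0 < m) (f : ℂ → ℂ) (ζ : ℂ) :
    2 * (msk κ s1 δ m f ζ / ‖ζ‖ ^ 2) ≤ 2 * (δ ^ (dd κ - 2) / m ^ 2) := by
  unfold msk
  split_ifs with h
  · have h1 : m ≤ ‖ζ‖ := by linarith [h.2.2.2, Complex.im_le_norm ζ]
    gcongr
  · rw [zero_div, mul_zero]
    positivity

theorem h61_vol_ball (z0 : ℂ) (R : ℝ) :
    volume (ball z0 R) ≤ ENNReal.ofReal (Real.pi * R ^ 2) := by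
  rw [Complex.volume_ball, mul_comm, ENNReal.ofReal_mul Real.pi_pos.le, ← NNReal.coe_real_pi,
    ENNReal.ofReal_coe_nnreal]
  refine mul_le_mul_right ?_ _
  rcases le_total 0 R with hR | hR
  · rw [ENNReal.ofReal_pow hR]
  · simp [ENNReal.ofReal_of_nonpos hR]

theorem rateP_nonneg (κ s1 : ℝ) {δ : ℝ} (hδ : 0 < δ) (m : ℝ) (z0 : ℂ) (R : ℝ) (f : ℂ → ℂ) :
    0 ≤ rateP κ s1 δ m z0 R f := by
  exact integral_nonneg fun ζ => h61_msk_nonneg κ s1 hδ m f ζ

theorem rateP_le (κ s1 : ℝ) {δ m : ℝ} (hδ : 0 < δ) (hm : 0 < m) (z0 : ℂ) (R : ℝ) {f : ℂ → ℂ}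
    (hf : Univ f) : rateP κ s1 δ m z0 R f ≤ 2 * (δ ^ (dd κ - 2) / m ^ 2) * (Real.pi * R ^ 2) := by
  have hfin : IsFiniteMeasure (nuB m z0 R f) :=
    ⟨(nuB_univ hm z0 R hf).trans_lt ENNReal.ofReal_lt_top⟩
  have h1 : rateP κ s1 δ m z0 R f ≤ ∫ _ζ, 2 * (δ ^ (dd κ - 2) / m ^ 2) ∂(nuB m z0 R f) :=
    integral_mono_of_nonneg (Eventually.of_forall fun ζ => h61_msk_nonneg κ s1 hδ m f ζ)
      (integrable_const _) (Eventually.of_forall fun ζ => h61_msk_le κ s1 hδ hm f ζ)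
  refine h1.trans ?_
  rw [integral_const, smul_eq_mul, mul_comm]
  refine mul_le_mul_of_nonneg_left ?_ (by positivity)
  exact ENNReal.toReal_le_of_le_ofReal (by positivity) (nuB_univ hm z0 R hf)

theorem rateM_le_const (κ s1 : ℝ) {δ m : ℝ} (hδ : 0 < δ) (hm : 0 < m) (z0 : ℂ) (R : ℝ) {f : ℂ → ℂ}
    (hf : Univ f) : rateM κ s1 δ m f (ball z0 R) ≤
      ENNReal.ofReal (δ ^ (dd κ - 2) / m ^ 2 * (Real.pi * R ^ 2)) := by
  set c : ℝ≥0∞ := ENNReal.ofReal (δ ^ (dd κ - 2) / m ^ 2) with hc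
  have h1 : rateM κ s1 δ m f (ball z0 R) ≤
      ∫⁻ ζ in H, (ball z0 R).indicator (fun _ => c) (f ζ) * ENNReal.ofReal (‖deriv f ζ‖ ^ 2) := by
    refine lintegral_mono fun ζ => mul_le_mul_left ?_ _
    by_cases hb : f ζ ∈ ball z0 R
    · by_cases hy : ζ ∈ Hy (3 * m)
      · rw [indicator_of_mem hb, indicator_of_mem hb, indicator_of_mem hy, one_mul, one_mul]
        unfold cr
        split_ifs
        · have h1 : m ≤ ‖ζ‖ := by
            have : 3 * m ≤ ζ.im := hy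
            linarith [Complex.im_le_norm ζ]
          exact ENNReal.ofReal_le_ofReal (by gcongr)
        · exact zero_le
      · rw [indicator_of_notMem hy, mul_zero, zero_mul]
        exact zero_le
    · rw [indicator_of_notMem hb, zero_mul, zero_mul]
      exact zero_le
  refine h1.trans ?_
  rw [lintegral_area hf measurableSet_H Subset.rfl ((ball z0 R).indicator fun _ => c)]
  refine (setLIntegral_le_lintegral _ _).trans ?_
  rw [lintegral_indicator measurableSet_ball, setLIntegral_const,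
    ENNReal.ofReal_mul (by positivity)]
  exact mul_le_mul_right (h61_vol_ball z0 R) _

/-- `lintegral_material`; a living point with `im Z ≥ 3m`, `u mm ∈ [δ, 2δ]`, `Sn Z ≥ s1` has `im ζ ≥ 3m`
(`im_Zf_le`), `u ∈ [δ, 3δ]`, `Sn ζ ≥ s1/2`, `‖ζ‖² ≤ 2 ‖Z‖²` (`alive_small'` with `y = 3m`). -/
theorem rateM_cfg_le (κ : ℝ) {s1 : ℝ} (hs1 : 0 < s1) {δ m : ℝ} (hδ : 0 < δ) (hδ1 : δ ≤ 1 / 10)
    (hm : 0 < m) : ∃ e0 > 0, ∀ (z0 : ℂ) (R : ℝ) (f : ℂ → ℂ), Univ f →
    ∀ (w : Path) (t e : ℝ), e ≤ e0 → Small w t e → ∀ s ∈ Icc 0 t,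
      rateM κ s1 δ m (cfg f w s) (ball z0 R) ≤ ENNReal.ofReal (rateP κ s1 δ m z0 R f) := by
  obtain ⟨e0, he0, he1, hal⟩ := alive_small' (y := 3 * m) (by positivity)
  refine ⟨e0, he0, fun z0 R f hf w t e he hsm s hs => ?_⟩
  have hfin : IsFiniteMeasure (nuB m z0 R f) :=
    ⟨(nuB_univ hm z0 R hf).trans_lt ENNReal.ofReal_lt_top⟩
  have hmeas : Measurable fun ζ => 2 * (msk κ s1 δ m f ζ / ‖ζ‖ ^ 2) :=
    ((measurable_msk κ s1 δ m f).div (measurable_norm.pow_const 2)).const_mul 2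
  have hint : Integrable (fun ζ => 2 * (msk κ s1 δ m f ζ / ‖ζ‖ ^ 2)) (nuB m z0 R f) :=
    Integrable.of_bound hmeas.aestronglyMeasurable (2 * (δ ^ (dd κ - 2) / m ^ 2))
      (Eventually.of_forall fun ζ => by
        rw [Real.norm_of_nonneg (h61_msk_nonneg κ s1 hδ m f ζ)]
        exact h61_msk_le κ s1 hδ hm f ζ)
  rw [rateP, ofReal_integral_eq_lintegral_ofReal hint
    (Eventually.of_forall fun ζ => h61_msk_nonneg κ s1 hδ m f ζ),
    lintegral_nuB m z0 R f hmeas.ennreal_ofReal, rateM, lintegral_material hf w s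
      (fun ξ => (ball z0 R).indicator (fun _ => (1 : ℝ≥0∞)) (cfg f w s ξ) *
        (Hy (3 * m)).indicator (fun _ => (1 : ℝ≥0∞)) ξ * cr κ s1 δ ξ (ups (cfg f w s) ξ)),
    ← lintegral_indicator (measurableSet_Aset m z0 R hf)]
  refine le_trans (setLIntegral_mono' (isOpen_dom w s).measurableSet fun ζ hζ => ?_)
    (setLIntegral_le_lintegral _ _)
  rw [cfg_Zf f hζ, ups_cfg hf hζ]
  by_cases hb : f ζ ∈ ball z0 R
  swap
  · rw [indicator_of_notMem hb, zero_mul, zero_mul, zero_mul]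
    exact zero_le
  by_cases hy : Zf w s ζ ∈ Hy (3 * m)
  swap
  · rw [indicator_of_notMem hy, mul_zero, zero_mul, zero_mul]
    exact zero_le
  rw [indicator_of_mem hb, indicator_of_mem hy, one_mul, one_mul]
  unfold cr
  split_ifs with hc
  swap
  · rw [zero_mul]
    exact zero_le
  obtain ⟨hZH, c1, c2, c3⟩ := hc
  have hζH : ζ ∈ H := dom_subset w s hζ
  have hZ3 : 3 * m ≤ (Zf w s ζ).im := hy
  have him := im_Zf_le w hs.1 hζH
  have hζ3 : 3 * m ≤ ζ.im := hZ3.trans him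
  obtain ⟨-, -, d1, d2⟩ := hal ζ hζ3 w t e he hsm s hs
  have d3 := mm_le_one w hs.1 ζ
  have hu := hf.ups_pos hζH
  have u1 : δ ≤ ups f ζ := c1.trans (mul_le_of_le_one_right hu.le d3)
  have u2 : ups f ζ ≤ 3 * δ := by nlinarith
  have n1 : 3 * m ≤ ‖Zf w s ζ‖ := hZ3.trans (Complex.im_le_norm _)
  have n0 : 0 < ‖Zf w s ζ‖ := lt_of_lt_of_le (by positivity) n1
  have n2 : ‖ζ‖ ≤ 6 / 5 * ‖Zf w s ζ‖ := by
    have : ‖ζ‖ ≤ ‖Zf w s ζ‖ + ‖Zf w s ζ - ζ‖ := by
      calc ‖ζ‖ = ‖Zf w s ζ - (Zf w s ζ - ζ)‖ := by congr 1; ring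
        _ ≤ _ := norm_sub_le _ _
    linarith
  have n3 : 0 < ‖ζ‖ := lt_of_lt_of_le (by positivity) (hζ3.trans (Complex.im_le_norm _))
  have hS : s1 / 2 ≤ Sn ζ := by
    unfold Sn at c3 ⊢
    rw [le_div_iff₀ n0] at c3
    rw [le_div_iff₀ n3]
    have : s1 * ‖ζ‖ ≤ s1 * (6 / 5 * ‖Zf w s ζ‖) := by gcongr
    have : 0 ≤ s1 * ‖Zf w s ζ‖ := by positivity
    linarith
  have hA : ζ ∈ Aset m z0 R f := ⟨by linarith, by linarith, hb⟩
  rw [indicator_of_mem hA]
  refine mul_le_mul_left (ENNReal.ofReal_le_ofReal ?_) _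
  have hmsk : msk κ s1 δ m f ζ = δ ^ (dd κ - 2) := by
    unfold msk
    rw [if_pos ⟨u1, u2, hS, hζ3⟩]
  rw [hmsk, ← mul_div_assoc, div_le_div_iff₀ (by positivity) (by positivity)]
  have hp : 0 < δ ^ (dd κ - 2) := by positivity
  have n4 : ‖ζ‖ ^ 2 ≤ 2 * ‖Zf w s ζ‖ ^ 2 := by nlinarith
  nlinarith

theorem h49_measurableSet_Hy (y : ℝ) : MeasurableSet (Hy y) :=
  measurableSet_le measurable_const Complex.measurable_im

theorem h49_rateM_eq (κ s1 δ m : ℝ) (f : ℂ → ℂ) (B : Set ℂ) :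
    rateM κ s1 δ m f B = ∫⁻ ζ in Hy (3 * m) ∩ H, B.indicator (fun _ => (1 : ℝ≥0∞)) (f ζ) *
      cr κ s1 δ ζ (ups f ζ) * ENNReal.ofReal (‖deriv f ζ‖ ^ 2) := by
  unfold rateM
  rw [← Measure.restrict_restrict (h49_measurableSet_Hy _),
    ← lintegral_indicator (h49_measurableSet_Hy _)]
  refine lintegral_congr fun ζ => ?_
  by_cases h : ζ ∈ Hy (3 * m)
  · rw [indicator_of_mem h, indicator_of_mem h, mul_one]
  · rw [indicator_of_notMem h, indicator_of_notMem h, mul_zero, zero_mul, zero_mul]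

theorem h49_Hy_anti {y y' : ℝ} (h : y ≤ y') : Hy y' ⊆ Hy y := fun _ hζ => le_trans h hζ

theorem h49_inv_anti {a b : ℕ} (h : a ≤ b) : 1 / ((b : ℝ) + 1) ≤ 1 / ((a : ℝ) + 1) :=
  Nat.one_div_le_one_div h

/-- As `measurable_rate` in `M1.lean`. -/
theorem measurable_rateM {f : ℂ → ℂ} (hf : Univ f) (κ s1 δ m : ℝ) {B : Set ℂ} (hB : MeasurableSet B) :
    Measurable (fun p : Path × ℝ => rateM κ s1 δ m (cfg f p.1 p.2) B) := by
  have e : ∀ p : Path × ℝ, rateM κ s1 δ m (cfg f p.1 p.2) B =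
      ∫⁻ ζ in Hy (3 * m) ∩ H, B.indicator (fun _ => (1 : ℝ≥0∞)) (cfg f p.1 p.2 ζ) *
        m1dens f κ s1 δ (p, ζ) := by
    intro p
    rw [h49_rateM_eq]
    refine setLIntegral_congr_fun ((h49_measurableSet_Hy _).inter measurableSet_H) fun ζ hζ => ?_
    simp only [m1dens, indicator_of_mem hζ.2, mul_assoc]
  simp only [e]
  refine Measurable.lintegral_prod_right' (f := fun q : (Path × ℝ) × ℂ =>
    B.indicator (fun _ => (1 : ℝ≥0∞)) (cfg f q.1.1 q.1.2 q.2) *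
      m1dens f κ s1 δ q) (Measurable.mul ?_ (measurable_m1dens hf κ s1 δ))
  exact (measurable_const.indicator hB).comp (m1_cfg hf)

theorem rateM_anti (κ s1 δ : ℝ) {m m' : ℝ} (h : m ≤ m') (f : ℂ → ℂ) (B : Set ℂ) :
    rateM κ s1 δ m' f B ≤ rateM κ s1 δ m f B := by
  rw [h49_rateM_eq, h49_rateM_eq]
  exact lintegral_mono_set (inter_subset_inter_left _ (h49_Hy_anti (by linarith)))

/-- Monotone convergence. -/
theorem rate_eq_iSup (κ s1 δ : ℝ) {f : ℂ → ℂ} (hf : Univ f) {B : Set ℂ} (hB : MeasurableSet B) :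
    rate κ s1 δ f B = ⨆ n : ℕ, rateM κ s1 δ (1 / (n + 1 : ℝ)) f B := by
  simp only [h49_rateM_eq]
  have e : H = ⋃ n : ℕ, Hy (3 * (1 / (n + 1 : ℝ))) ∩ H := by
    ext ζ
    simp only [mem_iUnion, mem_inter_iff]
    refine ⟨fun hζ => ?_, fun ⟨_, h⟩ => h.2⟩
    have h0 : 0 < ζ.im / 3 := div_pos hζ (by norm_num)
    obtain ⟨n, hn⟩ := exists_nat_one_div_lt h0
    refine ⟨n, ?_, hζ⟩
    show 3 * (1 / (n + 1 : ℝ)) ≤ ζ.im
    linarith
  unfold rate
  conv_lhs => rw [e]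
  exact setLIntegral_iUnion_of_directed _ (Monotone.directed_le fun a b hab =>
    inter_subset_inter_left _ (h49_Hy_anti (by linarith [h49_inv_anti hab])))

/-- `mass_Ioi_eq_iSup`, `rate_eq_iSup`, `lintegral_iSup`, diagonal of a doubly monotone family. -/
theorem mass_eq_iSup (κ s1 δ : ℝ) {f : ℂ → ℂ} (hf : Univ f) (w : Path) {B : Set ℂ}
    (hB : MeasurableSet B) : mass κ s1 δ f w (Ioi 0) B =
      ⨆ n : ℕ, ∫⁻ s in Ioc (0 : ℝ) n, rateM κ s1 δ (1 / (n + 1 : ℝ)) (cfg f w s) B := by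
  have hm : ∀ n : ℕ, Measurable fun s : ℝ => rateM κ s1 δ (1 / (n + 1 : ℝ)) (cfg f w s) B :=
    fun n => (measurable_rateM hf κ s1 δ _ hB).comp (measurable_const.prodMk measurable_id)
  have hmono : Monotone fun (n : ℕ) (s : ℝ) => rateM κ s1 δ (1 / (n + 1 : ℝ)) (cfg f w s) B :=
    fun a b hab s => rateM_anti κ s1 δ (h49_inv_anti hab) _ _
  rw [mass_Ioi_eq_iSup hf κ s1 δ w hB]
  have e : ∀ k : ℕ, mass κ s1 δ f w (Ioc 0 k) B =
      ⨆ n : ℕ, ∫⁻ s in Ioc (0 : ℝ) k, rateM κ s1 δ (1 / (n + 1 : ℝ)) (cfg f w s) B := by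
    intro k
    unfold mass
    rw [← lintegral_iSup hm hmono]
    exact lintegral_congr fun s => rate_eq_iSup κ s1 δ (hf.cfg w s) hB
  simp only [e]
  refine le_antisymm (iSup_le fun k => iSup_le fun n => le_iSup_of_le (max k n) ?_)
    (iSup_le fun n => le_iSup_of_le n (le_iSup_of_le n le_rfl))
  exact lintegral_mono' (Measure.restrict_mono
    (Ioc_subset_Ioc_right (Nat.cast_le.2 (le_max_left k n))) le_rfl) (hmono (le_max_right k n))

private theorem e6b_assoc (t : ℝ) :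
    Measurable fun q : Path × ℂ => ((q.1, t, q.2) : Path × ℝ × ℂ) := by
  fun_prop

private theorem e6b_cfg {f : ℂ → ℂ} (hf : Univ f) (t : ℝ) :
    Measurable fun q : Path × ℂ => cfg f q.1 t q.2 :=
  (measurable_cfg hf).comp (e6b_assoc t)

private theorem e6b_ups {f : ℂ → ℂ} (hf : Univ f) (t : ℝ) :
    Measurable fun q : Path × ℂ => H.indicator (ups (cfg f q.1 t)) q.2 :=
  (measurable_ups_cfg hf).comp (e6b_assoc t)

private theorem e6b_d {f : ℂ → ℂ} (hf : Univ f) (t : ℝ) :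
    Measurable fun q : Path × ℂ => H.indicator (deriv (cfg f q.1 t)) q.2 :=
  (measurable_dcfg hf).comp (e6b_assoc t)

private theorem e6b_top : Measurable top := by
  unfold top
  fun_prop

private theorem e6b_atom {k : ℝ → ℝ} (hk : Measurable k) (e : ℝ) :
    Measurable fun p : ℂ × ℝ => atom k e 0 p.1 p.2 := by
  unfold atom Sn
  exact ((hk.comp (Real.measurable_log.comp measurable_snd)).mul (by fun_prop)).mul (by fun_prop)

private theorem e6b_k1 (κ δ : ℝ) : Measurable (k1 κ δ) := by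
  have h := Real.smoothTransition.continuous.measurable
  unfold k1
  exact (by fun_prop : Measurable fun x : ℝ => Real.exp (-ae κ * x)).mul
    ((h.comp (by fun_prop)).mul ((h.comp (by fun_prop)).const_sub 1))

private theorem e6b_k2 : Measurable k2 := by
  have h := Real.smoothTransition.continuous.measurable
  unfold k2
  exact h.const_sub 1

/-- `measurable_cfg`, `measurable_ups_cfg`, `measurable_dcfg` (on `H` the indicators disappear; `top ζ ∈ H`),
`StronglyMeasurable.integral_prod_right'`. -/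
theorem measurable_PhiT {f : ℂ → ℂ} (hf : Univ f) (κ δ m : ℝ) (z0 : ℂ) (R t : ℝ) :
    Measurable (fun w : Path => PhiT κ δ m z0 R (cfg f w t)) := by
  have hg := e6b_cfg hf t
  have hu := e6b_ups hf t
  have hd := e6b_d hf t
  have hW : Measurable fun q : Path × ℂ => Wv (cfg f q.1 t) q.2 := by
    unfold Wv Gv
    exact ((hg.sub (hg.comp (measurable_fst.prodMk
      (e6b_top.comp measurable_snd)))).norm.pow_const 2 |>.const_add 1).inv
  have hrho : Measurable fun q : Path × ℂ => rho m q.2 := by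
    unfold rho
    exact Real.smoothTransition.continuous.measurable.comp
      ((Real.measurable_log.comp (Complex.measurable_im.comp measurable_snd)).add_const _)
  have ha : ∀ {k : ℝ → ℝ}, Measurable k → ∀ e : ℝ, Measurable fun q : Path × ℂ =>
      atom k e 0 q.2 (H.indicator (ups (cfg f q.1 t)) q.2) := fun hk e =>
    (e6b_atom hk e).comp (measurable_snd.prodMk hu)
  have e : (fun w : Path => PhiT κ δ m z0 R (cfg f w t)) = fun w : Path => ∫ ζ in H,
      ((ball z0 R).indicator (fun _ => (1 : ℝ)) (cfg f w t ζ) * (rho m ζ *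
        (atom (k1 κ δ) (aa κ) 0 ζ (H.indicator (ups (cfg f w t)) ζ) * Wv (cfg f w t) ζ ^ 2 +
        atom (k1 κ δ) (ae κ) 0 ζ (H.indicator (ups (cfg f w t)) ζ) *
          (Wv (cfg f w t) ζ ^ 2 + -1 * Wv (cfg f w t) ζ ^ 3) +
        atom k2 (ae κ / 2) 0 ζ (H.indicator (ups (cfg f w t)) ζ) * Wv (cfg f w t) ζ ^ 2))) *
        ‖H.indicator (deriv (cfg f w t)) ζ‖ ^ 2 := by
    funext w
    refine setIntegral_congr_fun measurableSet_H fun ζ hζ => ?_
    simp only [dens, indicator_of_mem hζ]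
  rw [e]
  refine (StronglyMeasurable.integral_prod_right' (f := fun q : Path × ℂ =>
      ((ball z0 R).indicator (fun _ => (1 : ℝ)) (cfg f q.1 t q.2) * (rho m q.2 *
        (atom (k1 κ δ) (aa κ) 0 q.2 (H.indicator (ups (cfg f q.1 t)) q.2) * Wv (cfg f q.1 t) q.2 ^ 2 +
        atom (k1 κ δ) (ae κ) 0 q.2 (H.indicator (ups (cfg f q.1 t)) q.2) *
          (Wv (cfg f q.1 t) q.2 ^ 2 + -1 * Wv (cfg f q.1 t) q.2 ^ 3) +
        atom k2 (ae κ / 2) 0 q.2 (H.indicator (ups (cfg f q.1 t)) q.2) * Wv (cfg f q.1 t) q.2 ^ 2))) *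
        ‖H.indicator (deriv (cfg f q.1 t)) q.2‖ ^ 2) (Measurable.stronglyMeasurable ?_)).measurable
  refine Measurable.mul (Measurable.mul ((measurable_const.indicator measurableSet_ball).comp hg)
    (hrho.mul ?_)) (hd.norm.pow_const 2)
  exact (((ha (e6b_k1 κ δ) _).mul (hW.pow_const 2)).add ((ha (e6b_k1 κ δ) _).mul
    ((hW.pow_const 2).add ((hW.pow_const 3).const_mul _)))).add ((ha e6b_k2 _).mul (hW.pow_const 2))

theorem measurable_Psi {f : ℂ → ℂ} (hf : Univ f) (z0 : ℂ) (R t : ℝ) :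
    Measurable (fun w : Path => Psi z0 R (cfg f w t)) := by
  have hg := e6b_cfg hf t
  have hu := e6b_ups hf t
  have hd := e6b_d hf t
  have hpsi : Measurable psi := by
    unfold psi
    fun_prop
  have hvt : Measurable (vt z0 R) := by
    unfold vt
    fun_prop
  have e : (fun w : Path => Psi z0 R (cfg f w t)) = fun w : Path => ∫ ζ in H,
      (psi (H.indicator (ups (cfg f w t)) ζ) * vt z0 R (cfg f w t ζ)) *
        ‖H.indicator (deriv (cfg f w t)) ζ‖ ^ 2 := by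
    funext w
    refine setIntegral_congr_fun measurableSet_H fun ζ hζ => ?_
    simp only [indicator_of_mem hζ]
  rw [e]
  exact (StronglyMeasurable.integral_prod_right' (f := fun q : Path × ℂ =>
      (psi (H.indicator (ups (cfg f q.1 t)) q.2) * vt z0 R (cfg f q.1 t q.2)) *
        ‖H.indicator (deriv (cfg f q.1 t)) q.2‖ ^ 2)
    (((hpsi.comp hu).mul (hvt.comp hg)).mul (hd.norm.pow_const 2)).stronglyMeasurable).measurable

end Crest.Agent.R162.E
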