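import Crest.Agent.R162.E5
import Crest.Agent.R162.E6a
import Crest.Agent.R162.E6b

/-! Row 162, block E: one step of the supermartingale. -/

set_option autoImplicit false
open MeasureTheory ProbabilityTheory Set Filter Topology Metric
open scoped ENNReal NNReal ComplexConjugate

namespace Crest.Agent.R162.E

/-- The majorant of the exponent. -/
noncomputable def Maj (κ s1 δ m : ℝ) (z0 : ℂ) (R θ β θ' : ℝ) (f : ℂ → ℂ) (w : Path) (t : ℝ) : ℝ :=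
  θ * (∫ ζ, dens κ δ m (cfg f w t) (Zf w t ζ) ∂(nuB m z0 R f)) +
    β * (∫ ζ, psi (ups f ζ * mm w t ζ) ∂(nuA m z0 R f)) +
    β * (Psi z0 R f - ∫ ζ, psi (ups f ζ) ∂(nuA m z0 R f)) + θ' * rateP κ s1 δ m z0 R f * t

/-- `TE.integral` twice (`TE_dens` on `Iset (m/2)`; `TE_psi` reindexed to `{p | Univ p.1 ∧ p.2 ∈ Hy m}`),
`nuB_univ`, `nuA_univ`, `lintegral_vt`, `TE.const`, `TE.time`, `TE.smul`, `rateP_le`, `TE.add`.
Measurability in `ζ`: `measurable_dens` for `cfg f w t`, `measurable_Zf`, `measurable_mm`. -/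
theorem TE_Maj {κ : ℝ} (hκ : 0 < κ) (hκ8 : κ < 8) (s1 : ℝ) {δ m : ℝ} (hδ : 0 < δ) (hm : 0 < m)
    (z0 : ℂ) {R : ℝ} (hR : 0 ≤ R) (θ β θ' : ℝ) :
    TE {f | Univ f} (Maj κ s1 δ m z0 R θ β θ') (Jtot κ s1 δ m z0 R θ β θ') := by
  have hm2 : 0 < m / 2 := half_pos hm
  have hZ : ∀ (w : Path) (t : ℝ), Measurable (Zf w t) := fun w t =>
    measurable_Zf.comp (f := fun ζ : ℂ => ((w, t, ζ) : Path × ℝ × ℂ)) (by fun_prop)
  have hmm : ∀ (w : Path) (t : ℝ), Measurable (mm w t) := fun w t =>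
    measurable_mm.comp (f := fun ζ : ℂ => ((w, t, ζ) : Path × ℝ × ℂ)) (by fun_prop)
  have hpsi : Measurable psi := by
    unfold psi
    fun_prop
  have h1 : TE {f | Univ f}
      (fun f w t => ∫ ζ, dens κ δ m (cfg f w t) (Zf w t ζ) ∂(nuB m z0 R f))
      (fun f => Jet.integral (nuB m z0 R f) (fun ζ => jdens κ δ m f ζ)) := by
    refine (TE_dens hκ hκ8 hδ m hm2).integral (I := {f | Univ f}) (fun f => nuB m z0 R f)
      (M := Real.pi * R ^ 2) one_pos (fun f hf => nuB_univ hm z0 R hf) (fun f hf => ?_)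
      (fun f hf => (integrable_jdens hκ hκ8 hδ hm z0 R hf).1) (fun f hf => ?_)
      (fun f hf w t e _ _ => ?_)
    · filter_upwards [ae_nuB m z0 R hf] with ζ hζ using ⟨hf, hζ.1, hζ.2.1⟩
    · obtain ⟨a, b, c⟩ := measurable_jdens κ δ m hf
      exact ⟨a.aestronglyMeasurable, b.aestronglyMeasurable, c.aestronglyMeasurable⟩
    · exact ((measurable_dens κ δ m (Univ.cfg hf w t)).comp (hZ w t)).aestronglyMeasurable
  obtain ⟨C, -, hC⟩ := lintegral_vt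
  have h2 : TE {f | Univ f}
      (fun f w t => ∫ ζ, psi (ups f ζ * mm w t ζ) ∂(nuA m z0 R f))
      (fun f => Jet.integral (nuA m z0 R f) (fun ζ => jpsi ζ (ups f ζ))) := by
    have h0 := (TE_psi hm).reindex (I' := {p : (ℂ → ℂ) × ℂ | Univ p.1 ∧ p.2 ∈ Hy m})
      (fun p => (p.2, ups p.1 p.2)) fun p hp => ⟨hp.2, hp.1.ups_pos (Hy_subset hm hp.2)⟩
    refine h0.integral (I := {f | Univ f}) (fun f => nuA m z0 R f)
      (M := C * (1 + R) ^ 2) one_pos (fun f hf => (nuA_univ hm z0 R hf).trans (hC z0 R hR))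
      (fun f hf => ?_) (fun f hf => ?_) (fun f hf => ?_) (fun f hf w t e _ _ => ?_)
    · filter_upwards [ae_nuA m z0 R f] with ζ hζ using ⟨hf, hζ⟩
    · have := isFinite_nuA hm z0 hR hf
      refine Integrable.of_bound (hpsi.comp (measurable_ups f)).aestronglyMeasurable 1 ?_
      filter_upwards [ae_nuA m z0 R f] with ζ hζ
      have hu : 0 ≤ ups f ζ := (Univ.ups_pos hf (Hy_subset hm hζ)).le
      change ‖psi (ups f ζ)‖ ≤ 1
      rw [Real.norm_of_nonneg (psi_nonneg hu)]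
      exact psi_le_one hu
    · refine ⟨aestronglyMeasurable_const, aestronglyMeasurable_const,
        Measurable.aestronglyMeasurable ?_⟩
      have := measurable_ups f
      simp only [jpsi]
      fun_prop
    · exact (hpsi.comp ((measurable_ups f).mul (hmm w t))).aestronglyMeasurable
  have h3 := (TE.time {f : ℂ → ℂ | Univ f}).smul (fun f => θ' * rateP κ s1 δ m z0 R f)
    (M := |θ'| * (2 * (δ ^ (dd κ - 2) / m ^ 2) * (Real.pi * R ^ 2))) fun f hf => by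
      rw [abs_mul, abs_of_nonneg (rateP_nonneg κ s1 hδ m z0 R f)]
      exact mul_le_mul_of_nonneg_left (rateP_le κ s1 hδ hm z0 R hf) (abs_nonneg _)
  exact (((h1.smul (fun _ => θ) fun _ _ => le_rfl).add (h2.smul (fun _ => β) fun _ _ => le_rfl)).add
    (TE.const _ fun f => β * (Psi z0 R f - ∫ ζ, psi (ups f ζ) ∂(nuA m z0 R f)))).add h3

theorem Jtot_v (κ s1 δ : ℝ) {m : ℝ} (hm : 0 < m) (z0 : ℂ) (R θ β θ' : ℝ) {f : ℂ → ℂ} (hf : Univ f) :
    (Jtot κ s1 δ m z0 R θ β θ' f).v = θ * PhiT κ δ m z0 R f + β * Psi z0 R f := by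
  rw [PhiT_eq κ δ hm z0 R hf]
  simp only [Jtot, Jet.add, Jet.smul, Jet.const, Jet.integral, jdens_v, jpsi]
  ring

private lemma h17_int_le {F : ℝ → ℝ≥0∞} {t K : ℝ} (ht : 0 ≤ t) (hK : 0 ≤ K)
    (h : ∀ s ∈ Icc 0 t, F s ≤ ENNReal.ofReal K) : (∫⁻ s in Ioc 0 t, F s).toReal ≤ K * t := by
  refine ENNReal.toReal_le_of_le_ofReal (mul_nonneg hK ht) ?_
  calc ∫⁻ s in Ioc 0 t, F s ≤ ∫⁻ _ in Ioc 0 t, ENNReal.ofReal K :=
        setLIntegral_mono' measurableSet_Ioc fun s hs => h s (Ioc_subset_Icc_self hs)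
    _ = ENNReal.ofReal (K * t) := by
        rw [setLIntegral_const, Real.volume_Ioc, sub_zero, ENNReal.ofReal_mul hK]

/-- `TE.expect_exp` with `TE_Maj`; `PhiT_cfg`, `Psi_cfg_le`, `rateM_cfg_le` give `hle`; `PhiT_le`, `Psi_le`,
`rateM_le_const`, nonnegativity give `hM`. -/
theorem one_step {κ : ℝ} (hκ : 0 < κ) (hκ8 : κ < 8) {P : Measure Path} (hP : IsDrv κ P) {s1 : ℝ}
    (hs1 : 0 < s1) {δ m : ℝ} (hδ : 0 < δ) (hδ1 : δ ≤ 1 / 10) (hm : 0 < m) (z0 : ℂ) {R : ℝ}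
    (hR : 0 ≤ R) {θ β θ' : ℝ} (hθ : 0 ≤ θ) (hβ : 0 ≤ β) (hθ' : 0 ≤ θ')
    (hJ : ∀ f, Univ f →
      (Jtot κ s1 δ m z0 R θ β θ' f).gen κ + κ / 2 * (Jtot κ s1 δ m z0 R θ β θ' f).a ^ 2 ≤ 0) :
    ∃ C : ℝ, 0 ≤ C ∧ ∀ f, Univ f → ∀ t : ℝ, 0 < t → t ≤ 1 →
      ∫⁻ w, ENNReal.ofReal (Real.exp (θ * PhiT κ δ m z0 R (cfg f w t) + β * Psi z0 R (cfg f w t) +
        θ' * (∫⁻ s in Ioc 0 t, rateM κ s1 δ m (cfg f w s) (ball z0 R)).toReal)) ∂P ≤
      ENNReal.ofReal (Real.exp (θ * PhiT κ δ m z0 R f + β * Psi z0 R f) *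
        (1 + C * t ^ (3 / 2 : ℝ))) := by
  obtain ⟨e1, he1, h1⟩ := PhiT_cfg κ δ hm
  obtain ⟨e2, he2, h2⟩ := rateM_cfg_le κ hs1 hδ hδ1 hm
  obtain ⟨C3, hC3, h3⟩ := Psi_le
  have hK : 0 ≤ δ ^ (dd κ - 2) / m ^ 2 * (Real.pi * R ^ 2) := by
    have := Real.pi_pos
    positivity
  have hle : ∀ f ∈ {f : ℂ → ℂ | Univ f}, ∀ w t e, e ≤ min e1 e2 → Small w t e →
      θ * PhiT κ δ m z0 R (cfg f w t) + β * Psi z0 R (cfg f w t) +
        θ' * (∫⁻ s in Ioc 0 t, rateM κ s1 δ m (cfg f w s) (ball z0 R)).toReal ≤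
      Maj κ s1 δ m z0 R θ β θ' f w t := by
    intro f hf w t e he hs
    have hf' : Univ f := hf
    have a1 := h1 z0 R f hf' w t e (he.trans (min_le_left _ _)) hs
    have a2 := Psi_cfg_le hm z0 hR hf' w hs.1
    have a3 := h17_int_le (F := fun s => rateM κ s1 δ m (cfg f w s) (ball z0 R)) hs.1
      (rateP_nonneg κ s1 hδ m z0 R f) (h2 z0 R f hf' w t e (he.trans (min_le_right _ _)) hs)
    have a4 := mul_le_mul_of_nonneg_left a2 hβ
    have a5 := mul_le_mul_of_nonneg_left a3 hθ'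
    unfold Maj
    rw [a1]
    linarith
  have hM : ∀ f ∈ {f : ℂ → ℂ | Univ f}, ∀ (w : Path) (t : ℝ), 0 ≤ t → t ≤ 1 →
      θ * PhiT κ δ m z0 R (cfg f w t) + β * Psi z0 R (cfg f w t) +
        θ' * (∫⁻ s in Ioc 0 t, rateM κ s1 δ m (cfg f w s) (ball z0 R)).toReal ≤
      (Jtot κ s1 δ m z0 R θ β θ' f).v +
      (θ * ((2 * (δ / 3) ^ (-ae κ) + 1) * (Real.pi * R ^ 2)) + β * (C3 * (1 + R) ^ 2) +
      θ' * (δ ^ (dd κ - 2) / m ^ 2 * (Real.pi * R ^ 2))) := by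
    intro f hf w t ht ht1
    have hf' : Univ f := hf
    rw [Jtot_v κ s1 δ hm z0 R θ β θ' hf']
    have a1 := PhiT_le hκ hκ8 hδ hm z0 R (hf'.cfg w t)
    have a2 := h3 z0 R _ hR (hf'.cfg w t)
    have a3 := h17_int_le (F := fun s => rateM κ s1 δ m (cfg f w s) (ball z0 R)) ht hK
      (fun s _ => rateM_le_const κ s1 hδ hm z0 R (hf'.cfg w s))
    have a3' := a3.trans (mul_le_of_le_one_right hK ht1)
    have a4 := mul_le_mul_of_nonneg_left a1 hθ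
    have a5 := mul_le_mul_of_nonneg_left a2 hβ
    have a6 := mul_le_mul_of_nonneg_left a3' hθ'
    have a7 := mul_nonneg hθ (PhiT_nonneg κ δ m z0 R f)
    have a8 := mul_nonneg hβ (Psi_nonneg z0 R hf')
    linarith
  obtain ⟨C, hC, h⟩ := (TE_Maj hκ hκ8 s1 hδ hm z0 hR θ β θ').expect_exp hκ hP
    (fun f w t => θ * PhiT κ δ m z0 R (cfg f w t) + β * Psi z0 R (cfg f w t) +
        θ' * (∫⁻ s in Ioc 0 t, rateM κ s1 δ m (cfg f w s) (ball z0 R)).toReal)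
    (lt_min he1 he2) hle hM
  refine ⟨C, hC, fun f hf t ht ht1 => (h f hf t ht ht1).trans ?_⟩
  rw [Jtot_v κ s1 δ hm z0 R θ β θ' hf]
  refine ENNReal.ofReal_le_ofReal (mul_le_mul_of_nonneg_left ?_ (Real.exp_pos _).le)
  have := mul_nonpos_of_nonpos_of_nonneg (hJ f hf) ht.le
  linarith

end Crest.Agent.R162.E
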