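import Crest.Agent.R162.L2

set_option autoImplicit false
open MeasureTheory ProbabilityTheory Set Filter Topology Metric
open scoped ENNReal NNReal ComplexConjugate

namespace Crest.Agent.R162

theorem L3_phi_not {w : Path} {t : ℝ} {ζ : ℂ} (h : ¬ (0 ≤ t ∧ ζ ∈ H)) : phi w t ζ = ζ :=
  if_neg h

theorem L3_mul_mem {r : ℝ} (hr : 0 < r) {ζ : ℂ} : (r : ℂ) * ζ ∈ H ↔ ζ ∈ H := by
  show 0 < ((r : ℂ) * ζ).im ↔ 0 < ζ.im
  rw [Complex.im_ofReal_mul]
  exact mul_pos_iff_of_pos_left hr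

theorem phi_congr {w w' : Path} {t : ℝ} (h : ∀ s ∈ Icc 0 t, w s - w 0 = w' s - w' 0) :
    phi w t = phi w' t := by
  funext ζ
  by_cases hc : 0 ≤ t ∧ ζ ∈ H
  · obtain ⟨g, hg⟩ := exists_sol w hc.1 hc.2
    have e : ∀ s ∈ Icc 0 t, (w' s : ℂ) = w s - w 0 + w' 0 := fun s hs => by
      have h1 : w' s = w s - w 0 + w' 0 := by linarith [h s hs]
      rw [h1]
      push_cast
      ring
    have hg' : IsSol w' t ζ fun s => g s - w 0 + w' 0 := by
      refine ⟨fun s hs => ?_, ?_, fun s hs => ?_⟩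
      · simpa using hg.pos s hs
      · rw [hg.last, e t ⟨hc.1, le_rfl⟩]
        ring
      · have h1 := ((hg.deriv s hs).sub_const (w 0 : ℂ)).add_const (w' 0 : ℂ)
        have h2 : g s - w 0 + w' 0 - (w' s : ℂ) = g s - w s := by
          rw [e s hs]
          ring
        rw [h2]
        exact h1
    rw [(hg.phi_eq hc.1).2, (hg'.phi_eq hc.1).2]
    ring
  · rw [L3_phi_not hc, L3_phi_not hc]

theorem phi_add (w : Path) {s t : ℝ} (hs : 0 ≤ s) (ht : 0 ≤ t) :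
    phi w (s + t) = fun ζ => phi w s (phi (shift s w) t ζ) := by
  funext ζ
  have hst : 0 ≤ s + t := add_nonneg hs ht
  by_cases hc : ζ ∈ H
  · obtain ⟨g, hg⟩ := exists_sol w hst hc
    have hm : MapsTo (fun r => s + r) (Icc 0 t) (Icc 0 (s + t)) := fun r hr =>
      ⟨add_nonneg hs hr.1, add_le_add_right hr.2 s⟩
    have hg' : IsSol (shift s w) t ζ fun r => g (s + r) := by
      refine ⟨fun r hr => hg.pos _ (hm hr), hg.last, fun r hr => ?_⟩
      have h1 := HasDerivWithinAt.scomp r (hg.deriv _ (hm hr))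
        ((hasDerivAt_id r).const_add s).hasDerivWithinAt hm
      rw [one_smul] at h1
      exact h1
    have h2 : phi (shift s w) t ζ = g s - w s := by
      rw [(hg'.phi_eq ht).2]
      show g (s + 0) - (w (s + 0) : ℂ) = _
      rw [add_zero]
    rw [(hg.phi_eq hst).2, h2, ((hg.restrict ⟨hs, le_add_of_nonneg_right ht⟩).phi_eq hs).2]
  · rw [L3_phi_not fun h => hc h.2, L3_phi_not (t := t) fun h => hc h.2,
      L3_phi_not fun h => hc h.2]

theorem dom_anti (w : Path) {s t : ℝ} (hs : 0 ≤ s) (hst : s ≤ t) : dom w t ⊆ dom w s := by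
  rintro _ ⟨ζ, hζ, rfl⟩
  have h := phi_add w hs (sub_nonneg.2 hst)
  rw [add_sub_cancel] at h
  rw [h]
  exact ⟨_, phi_mapsTo _ _ hζ, rfl⟩

theorem phi_congr_le {w w' : Path} {s t : ℝ} (hts : t ≤ s) (h : ∀ r, r ≤ s → w r = w' r) :
    phi w t = phi w' t ∧ dom w t = dom w' t ∧ Zf w t = Zf w' t ∧ mm w t = mm w' t := by
  have e : phi w t = phi w' t := phi_congr fun r hr => by
    rw [h r (hr.2.trans hts), h 0 (hr.1.trans (hr.2.trans hts))]
  have e2 : dom w t = dom w' t := by unfold dom; rw [e]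
  have e3 : Zf w t = Zf w' t := by
    funext z
    unfold Zf
    rw [e, e2]
  refine ⟨e, e2, e3, ?_⟩
  funext z
  unfold mm
  rw [e, e3]

theorem concat_le (s : ℝ) (w w' : Path) {r : ℝ} (hr : r ≤ s) : concat s w w' r = w r := by
  show w (min r s) + (w' (max (r - s) 0) - w' 0) = w r
  rw [min_eq_left hr, max_eq_right (sub_nonpos.2 hr), sub_self, add_zero]

theorem concat_add (s : ℝ) (w w' : Path) {r : ℝ} (hr : 0 ≤ r) :
    concat s w w' (s + r) = w s + (w' r - w' 0) := by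
  show w (min (s + r) s) + (w' (max (s + r - s) 0) - w' 0) = _
  rw [min_eq_right (le_add_of_nonneg_right hr), add_sub_cancel_left, max_eq_left hr]

theorem phi_concat_add (w w' : Path) {s t : ℝ} (hs : 0 ≤ s) (ht : 0 ≤ t) :
    phi (concat s w w') (s + t) = fun ζ => phi w s (phi w' t ζ) := by
  have h1 : phi (concat s w w') s = phi w s :=
    (phi_congr_le le_rfl fun r hr => concat_le s w w' hr).1
  have h2 : phi (shift s (concat s w w')) t = phi w' t := phi_congr fun r hr => by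
    show concat s w w' (s + r) - concat s w w' (s + 0) = _
    rw [concat_add s w w' hr.1, concat_add s w w' le_rfl]
    ring
  rw [phi_add _ hs ht, h1, h2]

theorem cfg_concat_le (f : ℂ → ℂ) (w w' : Path) {s t : ℝ} (hts : t ≤ s) :
    cfg f (concat s w w') t = cfg f w t := by
  unfold cfg
  rw [(phi_congr_le hts fun r hr => concat_le s w w' hr).1]

theorem cfg_concat_add (f : ℂ → ℂ) (w w' : Path) {s t : ℝ} (hs : 0 ≤ s) (ht : 0 ≤ t) :
    cfg f (concat s w w') (s + t) = cfg (cfg f w s) w' t := by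
  unfold cfg
  rw [phi_concat_add w w' hs ht]

theorem L3_mem {a b c : Path} {T s t : ℝ} (h : phi a T = fun ζ => phi b s (phi c t ζ)) (z : ℂ) :
    z ∈ dom a T ↔ z ∈ dom b s ∧ Zf b s z ∈ dom c t := by
  constructor
  · rintro ⟨ζ, hζ, rfl⟩
    rw [h]
    refine ⟨⟨_, phi_mapsTo _ _ hζ, rfl⟩, ?_⟩
    rw [Zf_phi b s (phi_mapsTo _ _ hζ)]
    exact ⟨ζ, hζ, rfl⟩
  · rintro ⟨h1, ζ, hζ, h2⟩
    refine ⟨ζ, hζ, ?_⟩
    rw [h]
    beta_reduce
    rw [h2, phi_Zf h1]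

theorem L3_Zf {a b c : Path} {T s t : ℝ} (h : phi a T = fun ζ => phi b s (phi c t ζ)) (z : ℂ) :
    Zf a T z = Zf c t (Zf b s z) := by
  by_cases hz : z ∈ dom a T
  · obtain ⟨ζ, hζ, rfl⟩ := hz
    rw [Zf_phi a T hζ, h]
    beta_reduce
    rw [Zf_phi b s (phi_mapsTo _ _ hζ), Zf_phi c t hζ]
  · rw [Zf_dead hz]
    refine (Zf_dead fun h2 => hz ((L3_mem h z).2 ⟨?_, h2⟩)).symm
    exact Zf_mem_iff.1 (dom_subset _ _ h2)

theorem L3_mm {a b c : Path} {T s t : ℝ} (h : phi a T = fun ζ => phi b s (phi c t ζ)) (z : ℂ) :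
    mm a T z = mm b s z * mm c t (Zf b s z) := by
  by_cases hz : z ∈ dom a T
  · have h1 := ups_cfg (univ_phi b s) ((L3_mem h z).1 hz).2
    have h2 : cfg (phi b s) c t = phi a T := h.symm
    rw [h2, ← L3_Zf h] at h1
    have h3 : mm a T z = ups (phi a T) (Zf a T z) / z.im := rfl
    have h4 : mm b s z = ups (phi b s) (Zf b s z) / z.im := rfl
    rw [h3, h4, h1]
    ring
  · rw [mm_dead hz]
    by_cases h1 : z ∈ dom b s
    · rw [mm_dead fun h2 => hz ((L3_mem h z).2 ⟨h1, h2⟩), mul_zero]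
    · rw [mm_dead h1, zero_mul]

theorem mem_dom_concat_add (w w' : Path) {s t : ℝ} (hs : 0 ≤ s) (ht : 0 ≤ t) (z : ℂ) :
    z ∈ dom (concat s w w') (s + t) ↔ z ∈ dom w s ∧ Zf w s z ∈ dom w' t :=
  L3_mem (phi_concat_add w w' hs ht) z

theorem Zf_concat_add (w w' : Path) {s t : ℝ} (hs : 0 ≤ s) (ht : 0 ≤ t) (z : ℂ) :
    Zf (concat s w w') (s + t) z = Zf w' t (Zf w s z) :=
  L3_Zf (phi_concat_add w w' hs ht) z

theorem mm_concat_add (w w' : Path) {s t : ℝ} (hs : 0 ≤ s) (ht : 0 ≤ t) (z : ℂ) :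
    mm (concat s w w') (s + t) z = mm w s z * mm w' t (Zf w s z) :=
  L3_mm (phi_concat_add w w' hs ht) z

theorem mem_dom_add (w : Path) {s t : ℝ} (hs : 0 ≤ s) (ht : 0 ≤ t) (z : ℂ) :
    z ∈ dom w (s + t) ↔ z ∈ dom w s ∧ Zf w s z ∈ dom (shift s w) t :=
  L3_mem (phi_add w hs ht) z

theorem Zf_add (w : Path) {s t : ℝ} (hs : 0 ≤ s) (ht : 0 ≤ t) (z : ℂ) :
    Zf w (s + t) z = Zf (shift s w) t (Zf w s z) :=
  L3_Zf (phi_add w hs ht) z

theorem mm_add (w : Path) {s t : ℝ} (hs : 0 ≤ s) (ht : 0 ≤ t) (z : ℂ) :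
    mm w (s + t) z = mm w s z * mm (shift s w) t (Zf w s z) :=
  L3_mm (phi_add w hs ht) z

theorem phi_scale (w : Path) {r : ℝ} (hr : 0 < r) (t : ℝ) (ζ : ℂ) :
    phi (scale r w) (r ^ 2 * t) (r * ζ) = r * phi w t ζ := by
  have hr2 : 0 < r ^ 2 := by positivity
  have hrc : (r : ℂ) ≠ 0 := Complex.ofReal_ne_zero.2 hr.ne'
  by_cases hc : 0 ≤ t ∧ ζ ∈ H
  · obtain ⟨g, hg⟩ := exists_sol w hc.1 hc.2
    have hm : MapsTo (fun u => u / r ^ 2) (Icc 0 (r ^ 2 * t)) (Icc 0 t) := fun u hu =>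
      ⟨div_nonneg hu.1 hr2.le, (div_le_iff₀' hr2).2 hu.2⟩
    have hsc : ∀ u, ((scale r w u : ℝ) : ℂ) = r * (w (u / r ^ 2) : ℂ) := fun u => by
      show ((r * w (u / r ^ 2) : ℝ) : ℂ) = _
      push_cast
      rfl
    have hg' : IsSol (scale r w) (r ^ 2 * t) (r * ζ) fun u => r * g (u / r ^ 2) := by
      refine ⟨fun u hu => (L3_mul_mem hr).2 (hg.pos _ (hm hu)), ?_, fun u hu => ?_⟩
      · rw [hsc, mul_div_cancel_left₀ t hr2.ne', hg.last]
        ring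
      · have h1 := (HasDerivWithinAt.scomp u (hg.deriv _ (hm hu))
          ((hasDerivAt_id u).div_const (r ^ 2)).hasDerivWithinAt hm).const_mul (r : ℂ)
        have h2 : (r : ℂ) * ((1 / r ^ 2 : ℝ) • (2 / (g (u / r ^ 2) - (w (u / r ^ 2) : ℂ)))) =
            2 / (r * g (u / r ^ 2) - ((scale r w u : ℝ) : ℂ)) := by
          rw [hsc, ← mul_sub, Complex.real_smul]
          push_cast
          field_simp
        rw [← h2]
        exact h1
    rw [(hg.phi_eq hc.1).2, (hg'.phi_eq (mul_nonneg hr2.le hc.1)).2, hsc, zero_div]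
    ring
  · rw [L3_phi_not hc, L3_phi_not]
    rintro ⟨h1, h2⟩
    exact hc ⟨(mul_nonneg_iff_of_pos_left hr2).1 h1, (L3_mul_mem hr).1 h2⟩

theorem mem_dom_scale (w : Path) {r : ℝ} (hr : 0 < r) (t : ℝ) (z : ℂ) :
    (r : ℂ) * z ∈ dom (scale r w) (r ^ 2 * t) ↔ z ∈ dom w t := by
  have hrc : (r : ℂ) ≠ 0 := Complex.ofReal_ne_zero.2 hr.ne'
  constructor
  · rintro ⟨ξ, hξ, h⟩
    have e : ξ = r * (ξ / r) := by field_simp
    rw [e] at hξ h
    rw [phi_scale w hr] at h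
    exact ⟨ξ / r, (L3_mul_mem hr).1 hξ, mul_left_cancel₀ hrc h⟩
  · rintro ⟨ζ, hζ, rfl⟩
    exact ⟨r * ζ, (L3_mul_mem hr).2 hζ, phi_scale w hr t ζ⟩

theorem Zf_scale (w : Path) {r : ℝ} (hr : 0 < r) (t : ℝ) (z : ℂ) :
    Zf (scale r w) (r ^ 2 * t) (r * z) = r * Zf w t z := by
  by_cases hz : z ∈ dom w t
  · obtain ⟨ζ, hζ, rfl⟩ := hz
    rw [← phi_scale w hr, Zf_phi _ _ ((L3_mul_mem hr).2 hζ), Zf_phi _ _ hζ]
  · rw [Zf_dead hz, Zf_dead fun h => hz ((mem_dom_scale w hr t z).1 h), mul_zero]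

theorem L3_ups_dilate (f : ℂ → ℂ) {r : ℝ} (hr : 0 < r) (ζ : ℂ) :
    ups (fun ζ => f (r * ζ)) ζ = ups f (r * ζ) := by
  unfold ups
  rw [deriv_comp_mul_left, norm_smul, Complex.norm_real, Real.norm_of_nonneg hr.le,
    Complex.im_ofReal_mul]
  ring

theorem L3_ups_const_mul (f : ℂ → ℂ) {c : ℝ} (hc : 0 < c) (ζ : ℂ) :
    ups (fun ζ => c * f ζ) ζ = c * ups f ζ := by
  unfold ups
  rw [deriv_const_mul_field, norm_mul, Complex.norm_real, Real.norm_of_nonneg hc.le]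
  ring

theorem mm_scale (w : Path) {r : ℝ} (hr : 0 < r) (t : ℝ) (z : ℂ) :
    mm (scale r w) (r ^ 2 * t) (r * z) = mm w t z := by
  unfold mm
  rw [Zf_scale w hr, ← L3_ups_dilate _ hr]
  simp only [phi_scale w hr]
  rw [L3_ups_const_mul _ hr, Complex.im_ofReal_mul, mul_div_mul_left _ _ hr.ne']

theorem Univ.dilate {f : ℂ → ℂ} (hf : Univ f) {r : ℝ} (hr : 0 < r) : Univ (fun ζ => f (r * ζ)) := by
  have hrc : (r : ℂ) ≠ 0 := Complex.ofReal_ne_zero.2 hr.ne'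
  refine ⟨hf.diff.comp (by fun_prop) fun ζ hζ => (L3_mul_mem hr).2 hζ, fun a ha b hb h => ?_,
    hf.meas.comp (measurable_const_mul _)⟩
  exact mul_left_cancel₀ hrc (hf.inj ((L3_mul_mem hr).2 ha) ((L3_mul_mem hr).2 hb) h)

theorem ups_dilate {f : ℂ → ℂ} (hf : Univ f) {r : ℝ} (hr : 0 < r) {ζ : ℂ} (hζ : ζ ∈ H) :
    ups (fun ζ => f (r * ζ)) ζ = ups f (r * ζ) :=
  L3_ups_dilate f hr ζ

theorem Univ.const_mul {f : ℂ → ℂ} (hf : Univ f) {c : ℝ} (hc : 0 < c) : Univ (fun ζ => c * f ζ) := by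
  have hrc : (c : ℂ) ≠ 0 := Complex.ofReal_ne_zero.2 hc.ne'
  exact ⟨hf.diff.const_mul _, fun a ha b hb h => hf.inj ha hb (mul_left_cancel₀ hrc h),
    hf.meas.const_mul _⟩

theorem ups_const_mul (f : ℂ → ℂ) {c : ℝ} (hc : 0 < c) (ζ : ℂ) :
    ups (fun ζ => c * f ζ) ζ = c * ups f ζ :=
  L3_ups_const_mul f hc ζ

end Crest.Agent.R162
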