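import Crest.Agent.R162.P1
import Crest.Agent.R162.L3

set_option autoImplicit false
open MeasureTheory ProbabilityTheory Set Filter Topology Metric
open scoped ENNReal NNReal ComplexConjugate

namespace Crest.Agent.R162

theorem measurable_concat₃ : Measurable (fun p : ℝ × Path × Path => concat p.1 p.2.1 p.2.2) :=
  continuous_concat.measurable

theorem measurable_concat (s : ℝ) : Measurable (fun p : Path × Path => concat s p.1 p.2) :=
  measurable_concat₃.comp (measurable_const.prodMk measurable_id)

theorem measurable_concat_time {σ : Path → ℝ} (hσ : Measurable σ) :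
    Measurable (fun p : Path × Path => concat (σ p.1) p.1 p.2) :=
  measurable_concat₃.comp ((hσ.comp measurable_fst).prodMk measurable_id)

theorem IsDrv.lintegral_markov {κ : ℝ} {P : Measure Path} (hP : IsDrv κ P) {s : ℝ} (hs : 0 ≤ s)
    {F : Path → ℝ≥0∞} (hF : Measurable F) :
    ∫⁻ w, F w ∂P = ∫⁻ w, ∫⁻ w', F (concat s w w') ∂P ∂P := by
  have := hP.prob
  conv_lhs => rw [← hP.markov s hs]
  rw [lintegral_map hF (measurable_concat s)]
  exact lintegral_prod _ (hF.comp (measurable_concat s)).aemeasurable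

theorem IsDrv.integral_markov {κ : ℝ} {P : Measure Path} (hP : IsDrv κ P) {s : ℝ} (hs : 0 ≤ s)
    {F : Path → ℝ} (hF : Integrable F P) :
    ∫ w, F w ∂P = ∫ w, ∫ w', F (concat s w w') ∂P ∂P := by
  have := hP.prob
  have hmp : MeasurePreserving (fun p : Path × Path => concat s p.1 p.2) (P.prod P) P :=
    ⟨measurable_concat s, hP.markov s hs⟩
  have h1 : Integrable (fun p : Path × Path => F (concat s p.1 p.2)) (P.prod P) :=
    hmp.integrable_comp_of_integrable hF
  rw [← integral_prod _ h1]
  conv_lhs => rw [← hP.markov s hs]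
  rw [integral_map (measurable_concat s).aemeasurable]
  rw [hP.markov s hs]
  exact hF.aestronglyMeasurable

theorem IsDrv.measure_scale {κ : ℝ} {P : Measure Path} (hP : IsDrv κ P) {r : ℝ} (hr : 0 < r)
    {A : Set Path} (hA : MeasurableSet A) : P A = P {w | R162.scale r w ∈ A} := by
  conv_lhs => rw [← hP.scale r hr]
  rw [Measure.map_apply (continuous_scale r).measurable hA]
  rfl

/-- Lower bound through sections. -/
theorem IsDrv.le_measure_of_section {κ : ℝ} {P : Measure Path} (hP : IsDrv κ P) {s : ℝ}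
    (hs : 0 ≤ s) {A E : Set Path} (hA : MeasurableSet A) (hE : MeasurableSet E) {p : ℝ≥0∞}
    (h : ∀ w ∈ E, p ≤ P {w' | concat s w w' ∈ A}) : P E * p ≤ P A := by
  have := hP.prob
  rw [← lintegral_indicator_one hA, hP.lintegral_markov hs (measurable_one.indicator hA),
    mul_comm, ← setLIntegral_const]
  refine le_trans ?_ (setLIntegral_le_lintegral E _)
  refine setLIntegral_mono' hE fun w hw => (h w hw).trans (le_of_eq ?_)
  have hm : MeasurableSet {w' | concat s w w' ∈ A} :=
    ((measurable_concat s).comp (measurable_const.prodMk measurable_id)) hA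
  rw [← lintegral_indicator_one hm]
  rfl

/-- Markov property at a discrete optional time. -/
theorem IsDrv.markov_discrete {κ : ℝ} {P : Measure Path} (hP : IsDrv κ P) {τ : Path → ℝ≥0∞}
    (hτ : IsOpt τ) {δ : ℝ} (hδ : 0 < δ) {F : Path → ℝ≥0∞} (hF : Measurable F) :
    ∫⁻ w in {w | τ w < ⊤}, F w ∂P =
      ∫⁻ w in {w | τ w < ⊤}, ∫⁻ w',
        F (concat (((⌊(τ w).toReal / δ⌋₊ : ℝ) + 1) * δ) w w') ∂P ∂P := by
  have := hP.prob
  set E : ℕ → Set Path := fun k => {w | τ w < ⊤ ∧ ⌊(τ w).toReal / δ⌋₊ = k} with hE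
  have hA : MeasurableSet {w | τ w < ⊤} := measurableSet_lt hτ.meas measurable_const
  have hk : Measurable fun w => ⌊(τ w).toReal / δ⌋₊ :=
    Nat.measurable_floor.comp (hτ.meas.ennreal_toReal.div_const δ)
  have hEm : ∀ k, MeasurableSet (E k) := fun k => hA.inter (hk (measurableSet_singleton k))
  have hdis : Pairwise (Function.onFun Disjoint E) := fun i j hij =>
    disjoint_left.2 fun w hi hj => hij (hi.2.symm.trans hj.2)
  have hU : {w | τ w < ⊤} = ⋃ k, E k := by
    ext w
    simp [hE]
  have hlt : ∀ k, ∀ w ∈ E k, τ w < ENNReal.ofReal (((k : ℝ) + 1) * δ) := by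
    intro k w hw
    rw [← ENNReal.ofReal_toReal hw.1.ne, ENNReal.ofReal_lt_ofReal_iff (by positivity),
      ← div_lt_iff₀ hδ, ← hw.2]
    exact Nat.lt_floor_add_one _
  rw [hU, lintegral_iUnion hEm hdis, lintegral_iUnion hEm hdis]
  refine tsum_congr fun k => ?_
  have ht : 0 ≤ ((k : ℝ) + 1) * δ := by positivity
  have hiff : ∀ w w', concat (((k : ℝ) + 1) * δ) w w' ∈ E k ↔ w ∈ E k := by
    intro w w'
    constructor
    · intro h
      have e := hτ.loc _ w _ ht (hlt k _ h) fun s hs => concat_le _ w w' hs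
      simpa only [hE, mem_ofPred_eq, e] using h
    · intro h
      have e := hτ.loc w (concat (((k : ℝ) + 1) * δ) w w') _ ht (hlt k _ h)
        fun s hs => (concat_le _ w w' hs).symm
      simpa only [hE, mem_ofPred_eq, e] using h
  rw [← lintegral_indicator (hEm k), hP.lintegral_markov ht (hF.indicator (hEm k)),
    ← lintegral_indicator (hEm k)]
  refine lintegral_congr fun w => ?_
  by_cases hw : w ∈ E k
  · rw [indicator_of_mem hw, hw.2]
    exact lintegral_congr fun w' => indicator_of_mem ((hiff w w').2 hw) _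
  · rw [indicator_of_notMem hw]
    rw [lintegral_congr fun w' => indicator_of_notMem (mt (hiff w w').1 hw) _, lintegral_zero]

/-- Strong Markov property. Approximate `τ` from above by `τ_n = (⌊2^n τ⌋ + 1)/2^n`; on
`{τ_n = t}` use `lintegral_markov` and `IsOpt.loc`; pass to the limit for bounded continuous `F`
(`continuous_concat`), then `ext_of_forall_lintegral_eq` for the two finite measures
`P.restrict {τ < ⊤}` and the image of `(P.restrict {τ < ⊤}).prod P`. -/
theorem IsDrv.strong_markov {κ : ℝ} {P : Measure Path} (hP : IsDrv κ P) {τ : Path → ℝ≥0∞}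
    (hτ : IsOpt τ) {F : Path → ℝ≥0∞} (hF : Measurable F) :
    ∫⁻ w in {w | τ w < ⊤}, F w ∂P =
      ∫⁻ w in {w | τ w < ⊤}, ∫⁻ w', F (concat (τ w).toReal w w') ∂P ∂P := by
  have := hP.prob
  have hτm : Measurable fun w => (τ w).toReal := hτ.meas.ennreal_toReal
  have hΦ := measurable_concat_time hτm
  have key : P.restrict {w | τ w < ⊤} = ((P.restrict {w | τ w < ⊤}).prod P).map
      (fun p : Path × Path => concat (τ p.1).toReal p.1 p.2) := by
    refine ext_of_forall_lintegral_eq_of_IsFiniteMeasure fun f => ?_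
    have hf : Measurable fun w => (f w : ℝ≥0∞) :=
      measurable_coe_nnreal_ennreal.comp f.continuous.measurable
    set σ : ℕ → Path → ℝ := fun n w =>
      ((⌊(τ w).toReal / (1 / ((n : ℝ) + 1))⌋₊ : ℝ) + 1) * (1 / ((n : ℝ) + 1)) with hσ
    have hσm : ∀ n, Measurable (σ n) := fun n =>
      ((measurable_from_top.comp (Nat.measurable_floor.comp (hτm.div_const _))).add_const
        1).mul_const _
    have h1 : ∀ n, ∫⁻ w in {w | τ w < ⊤}, (f w : ℝ≥0∞) ∂P =
        ∫⁻ p, (f (concat (σ n p.1) p.1 p.2) : ℝ≥0∞) ∂((P.restrict {w | τ w < ⊤}).prod P) := by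
      intro n
      rw [hP.markov_discrete hτ (δ := 1 / ((n : ℝ) + 1)) (by positivity) hf]
      exact (lintegral_prod _ (hf.comp (measurable_concat_time (hσm n))).aemeasurable).symm
    have hσt : ∀ w, Tendsto (fun n => σ n w) atTop (𝓝 (τ w).toReal) := by
      intro w
      have h0 : Tendsto (fun n : ℕ => (τ w).toReal + 1 / ((n : ℝ) + 1)) atTop
          (𝓝 ((τ w).toReal + 0)) :=
        tendsto_const_nhds.add tendsto_one_div_add_atTop_nhds_zero_nat
      rw [add_zero] at h0
      refine tendsto_of_tendsto_of_tendsto_of_le_of_le tendsto_const_nhds h0 (fun n => ?_)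
        (fun n => ?_)
      · have hδ : (0 : ℝ) < 1 / ((n : ℝ) + 1) := by positivity
        exact ((div_lt_iff₀ hδ).1 (Nat.lt_floor_add_one _)).le
      · have hδ : (0 : ℝ) < 1 / ((n : ℝ) + 1) := by positivity
        have h2 := (le_div_iff₀ hδ).1
          (Nat.floor_le (a := (τ w).toReal / (1 / ((n : ℝ) + 1))) (by positivity))
        simp only [hσ]
        linarith
    have h2 := tendsto_lintegral_of_dominated_convergence
      (μ := (P.restrict {w | τ w < ⊤}).prod P)
      (F := fun n p => (f (concat (σ n p.1) p.1 p.2) : ℝ≥0∞))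
      (f := fun p => (f (concat (τ p.1).toReal p.1 p.2) : ℝ≥0∞))
      (fun _ => (nndist 0 f : ℝ≥0∞)) (fun n => hf.comp (measurable_concat_time (hσm n)))
      (fun n => Eventually.of_forall fun p => by
        exact ENNReal.coe_le_coe.2 (BoundedContinuousFunction.NNReal.upper_bound f _ |>.trans
          (by rw [nndist_comm])))
      (by rw [lintegral_const]; exact ENNReal.mul_ne_top ENNReal.coe_ne_top (measure_ne_top _ _))
      (Eventually.of_forall fun p => by
        refine (ENNReal.continuous_coe.tendsto _).comp ((f.continuous.tendsto _).comp ?_)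
        exact (continuous_concat.tendsto ((τ p.1).toReal, p.1, p.2)).comp
          ((hσt p.1).prodMk_nhds tendsto_const_nhds))
    rw [lintegral_map hf hΦ]
    simp only [← h1] at h2
    exact tendsto_nhds_unique tendsto_const_nhds h2
  conv_lhs => rw [key]
  rw [lintegral_map hF hΦ]
  exact lintegral_prod _ (hF.comp hΦ).aemeasurable

end Crest.Agent.R162
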