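import Crest.Agent.R162.EDefs
import Crest.Agent.R162.P3

/-! Row 162, block E: iteration. -/

set_option autoImplicit false
open MeasureTheory ProbabilityTheory Set Filter Topology Metric
open scoped ENNReal NNReal ComplexConjugate

namespace Crest.Agent.R162.E

private theorem helper47_split (ρ : (ℂ → ℂ) → ℝ≥0∞) (f : ℂ → ℂ) (w w' : Path) {s t : ℝ}
    (hs : 0 ≤ s) (ht : 0 ≤ t) :
    ∫⁻ u in Ioc 0 (s + t), ρ (cfg f (concat s w w') u) =
      (∫⁻ u in Ioc 0 s, ρ (cfg f w u)) + ∫⁻ u in Ioc 0 t, ρ (cfg (cfg f w s) w' u) := by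
  rw [← Ioc_union_Ioc_eq_Ioc hs (le_add_of_nonneg_right ht),
    lintegral_union measurableSet_Ioc (Ioc_disjoint_Ioc_of_le le_rfl)]
  congr 1
  · exact setLIntegral_congr_fun measurableSet_Ioc fun u hu => by
      simp only [cfg_concat_le f w w' hu.2]
  · rw [← (measurePreserving_add_left volume s).setLIntegral_comp_preimage_emb
      (measurableEmbedding_addLeft s) (fun u => ρ (cfg f (concat s w w') u)) (Ioc s (s + t)),
      preimage_const_add_Ioc, sub_self, add_sub_cancel_left]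
    exact setLIntegral_congr_fun measurableSet_Ioc fun u hu => by
      simp only [cfg_concat_add f w w' hs hu.1.le]

private theorem helper47_fin {ρ : (ℂ → ℂ) → ℝ≥0∞} {M : ℝ}
    (hρ : ∀ f, Univ f → ρ f ≤ ENNReal.ofReal M) {f : ℂ → ℂ} (hf : Univ f) (w : Path) (t : ℝ) :
    ∫⁻ u in Ioc 0 t, ρ (cfg f w u) ≠ ⊤ := by
  refine ne_top_of_le_ne_top ?_ (lintegral_mono fun u => hρ _ (hf.cfg w u))
  rw [setLIntegral_const, Real.volume_Ioc]
  exact ENNReal.mul_ne_top ENNReal.ofReal_ne_top ENNReal.ofReal_ne_top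

/-- Iteration of a one-step bound. With `A f w t = (∫⁻ s in Ioc 0 t, ρ (cfg f w s)).toReal` and `h = T/n ≤ 1`
prove by induction on `k`, for all `Univ f`,
`∫⁻ exp (Φ (cfg f w (k h)) + θ' A f w (k h)) ≤ exp (Φ f) (1 + C h^(3/2))^k`: `lintegral_markov` at time `k h`,
`cfg_concat_add`, `cfg_concat_le`, splitting `Ioc 0 ((k+1) h)`, translation invariance of Lebesgue measure.
Then `Φ ≥ 0` and `(1 + C h^(3/2))^n ≤ exp (C T √h) → 1`. -/
theorem iterate {κ : ℝ} {P : Measure Path} (hP : IsDrv κ P) (Φ : (ℂ → ℂ) → ℝ) (ρ : (ℂ → ℂ) → ℝ≥0∞)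
    {M θ' C : ℝ} (hC : 0 ≤ C) (hΦ0 : ∀ f, Univ f → 0 ≤ Φ f)
    (hρ : ∀ f, Univ f → ρ f ≤ ENNReal.ofReal M)
    (hΦm : ∀ f, Univ f → ∀ t, Measurable (fun w : Path => Φ (cfg f w t)))
    (hρm : ∀ f, Univ f → Measurable (fun p : Path × ℝ => ρ (cfg f p.1 p.2)))
    (hstep : ∀ f, Univ f → ∀ t : ℝ, 0 < t → t ≤ 1 →
      ∫⁻ w, ENNReal.ofReal (Real.exp (Φ (cfg f w t) +
        θ' * (∫⁻ s in Ioc 0 t, ρ (cfg f w s)).toReal)) ∂P ≤
      ENNReal.ofReal (Real.exp (Φ f) * (1 + C * t ^ (3 / 2 : ℝ))))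
    {f : ℂ → ℂ} (hf : Univ f) {T : ℝ} (hT : 0 ≤ T) :
    ∫⁻ w, ENNReal.ofReal (Real.exp (θ' * (∫⁻ s in Ioc 0 T, ρ (cfg f w s)).toReal)) ∂P ≤
      ENNReal.ofReal (Real.exp (Φ f)) := by
  have := hP.prob
  have hAm : ∀ t : ℝ, Measurable fun w : Path => (∫⁻ s in Ioc 0 t, ρ (cfg f w s)).toReal :=
    fun t => ((hρm f hf).lintegral_prod_right' (ν := volume.restrict (Ioc 0 t))).ennreal_toReal
  have hFm : ∀ t : ℝ, Measurable fun w : Path => ENNReal.ofReal (Real.exp (Φ (cfg f w t) +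
      θ' * (∫⁻ s in Ioc 0 t, ρ (cfg f w s)).toReal)) := fun t =>
    ENNReal.measurable_ofReal.comp
      (Real.measurable_exp.comp ((hΦm f hf t).add ((hAm t).const_mul θ')))
  have key : ∀ h : ℝ, 0 < h → h ≤ 1 → ∀ k : ℕ,
      ∫⁻ w, ENNReal.ofReal (Real.exp (Φ (cfg f w (k * h)) +
        θ' * (∫⁻ s in Ioc 0 (k * h), ρ (cfg f w s)).toReal)) ∂P ≤
      ENNReal.ofReal (Real.exp (Φ f) * (1 + C * h ^ (3 / 2 : ℝ)) ^ k) := by
    intro h h0 h1 k
    have hq : 0 ≤ 1 + C * h ^ (3 / 2 : ℝ) := by positivity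
    induction k with
    | zero => simp [cfg_zero]
    | succ k ih =>
      have hs : (0 : ℝ) ≤ k * h := by positivity
      have e : ((k + 1 : ℕ) : ℝ) * h = k * h + h := by push_cast; ring
      rw [e, hP.lintegral_markov hs (hFm _)]
      calc _ ≤ ∫⁻ w, ENNReal.ofReal (Real.exp (Φ (cfg f w (k * h)) +
            θ' * (∫⁻ s in Ioc 0 (k * h), ρ (cfg f w s)).toReal)) *
              ENNReal.ofReal (1 + C * h ^ (3 / 2 : ℝ)) ∂P := by
            refine lintegral_mono fun w => ?_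
            have hg : Univ (cfg f w (k * h)) := hf.cfg w _
            have e2 : ∀ w' : Path, ENNReal.ofReal (Real.exp
                (Φ (cfg f (concat (k * h) w w') (k * h + h)) + θ' *
                  (∫⁻ s in Ioc 0 (k * h + h), ρ (cfg f (concat (k * h) w w') s)).toReal)) =
                ENNReal.ofReal (Real.exp
                  (θ' * (∫⁻ s in Ioc 0 (k * h), ρ (cfg f w s)).toReal)) *
                ENNReal.ofReal (Real.exp (Φ (cfg (cfg f w (k * h)) w' h) +
                  θ' * (∫⁻ s in Ioc 0 h, ρ (cfg (cfg f w (k * h)) w' s)).toReal)) := by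
              intro w'
              rw [helper47_split ρ f w w' hs h0.le, cfg_concat_add f w w' hs h0.le,
                ENNReal.toReal_add (helper47_fin hρ hf _ _) (helper47_fin hρ hg _ _),
                ← ENNReal.ofReal_mul (Real.exp_pos _).le, ← Real.exp_add]
              congr 2
              ring
            simp only [e2]
            rw [lintegral_const_mul' _ _ ENNReal.ofReal_ne_top]
            refine (mul_le_mul_right (hstep _ hg h h0 h1) _).trans (le_of_eq ?_)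
            rw [← ENNReal.ofReal_mul (Real.exp_pos _).le, ← ENNReal.ofReal_mul (Real.exp_pos _).le,
              Real.exp_add]
            congr 1
            ring
        _ ≤ ENNReal.ofReal (Real.exp (Φ f) * (1 + C * h ^ (3 / 2 : ℝ)) ^ k) *
              ENNReal.ofReal (1 + C * h ^ (3 / 2 : ℝ)) := by
            rw [lintegral_mul_const' _ _ ENNReal.ofReal_ne_top]
            exact mul_le_mul_left ih _
        _ = _ := by
            rw [← ENNReal.ofReal_mul (by positivity), pow_succ, mul_assoc]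
  rcases hT.eq_or_lt with rfl | hT
  · simp only [Ioc_self, Measure.restrict_empty, lintegral_zero_measure, ENNReal.toReal_zero,
      mul_zero, lintegral_const, measure_univ, mul_one]
    exact ENNReal.ofReal_le_ofReal (Real.exp_le_exp.2 (hΦ0 f hf))
  have hlim : Tendsto (fun n : ℕ => ENNReal.ofReal (Real.exp (Φ f) *
      Real.exp (C * T * Real.sqrt (T / n)))) atTop
      (𝓝 (ENNReal.ofReal (Real.exp (Φ f) * Real.exp (C * T * Real.sqrt 0)))) := by
    refine ENNReal.tendsto_ofReal (Tendsto.const_mul _ (Tendsto.rexp (Tendsto.const_mul _ ?_)))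
    exact (tendsto_const_div_atTop_nhds_zero_nat T).sqrt
  rw [Real.sqrt_zero, mul_zero, Real.exp_zero, mul_one] at hlim
  refine ge_of_tendsto hlim ?_
  filter_upwards [tendsto_natCast_atTop_atTop.eventually_ge_atTop T] with n hn
  have hn0 : (0 : ℝ) < n := hT.trans_le hn
  have h0 : 0 < T / n := div_pos hT hn0
  have h1 : T / n ≤ 1 := (div_le_one hn0).2 hn
  have hk := key (T / n) h0 h1 n
  have e : (n : ℝ) * (T / n) = T := by field_simp
  rw [e] at hk
  refine le_trans (lintegral_mono fun w => ENNReal.ofReal_le_ofReal (Real.exp_le_exp.2 ?_))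
    (hk.trans (ENNReal.ofReal_le_ofReal (mul_le_mul_of_nonneg_left ?_ (Real.exp_pos _).le)))
  · linarith [hΦ0 _ (hf.cfg w T)]
  · have e3 : (T / n) ^ (3 / 2 : ℝ) = T / n * Real.sqrt (T / n) := by
      rw [Real.sqrt_eq_rpow, show (3 / 2 : ℝ) = 1 + 1 / 2 by norm_num, Real.rpow_add h0,
        Real.rpow_one]
    calc (1 + C * (T / n) ^ (3 / 2 : ℝ)) ^ n ≤ Real.exp (C * (T / n) ^ (3 / 2 : ℝ)) ^ n := by
          refine pow_le_pow_left₀ (by positivity) ?_ n
          linarith [Real.add_one_le_exp (C * (T / n) ^ (3 / 2 : ℝ))]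
      _ = _ := by
          rw [← Real.exp_nat_mul, e3]
          congr 1
          field_simp

end Crest.Agent.R162.E
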