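import Crest.Agent.R162.E6c
import Crest.Agent.R162.E7a

/-! Row 162, block E: the upper tail. -/

set_option autoImplicit false
open MeasureTheory ProbabilityTheory Set Filter Topology Metric
open scoped ENNReal NNReal ComplexConjugate

namespace Crest.Agent.R162.E

/-- Upper tail, unit scale. `main_ineq`, `one_step`, `iterate`, Markov's inequality
(`mul_meas_ge_le_lintegral₀`), `mass_eq_iSup` and `Monotone.measure_iUnion`, `PhiT_le_init`, `Psi_le`. -/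
theorem tail_unit {κ : ℝ} (hκ : 0 < κ) (hκ8 : κ < 8) {P : Measure Path} (hP : IsDrv κ P) {s1 : ℝ}
    (hs1 : 0 < s1) : ∃ θ C : ℝ, 0 < θ ∧ 0 < C ∧ ∀ (f : ℂ → ℂ) (z0 : ℂ) (R δ K x : ℝ), Univ f →
      0 ≤ R → 0 < δ → δ ≤ 1 / 10 → 0 ≤ K → init κ f (ball z0 R) ≤ ENNReal.ofReal K →
      P {w | ENNReal.ofReal x < mass κ s1 δ f w (Ioi 0) (ball z0 R)} ≤
        ENNReal.ofReal (Real.exp (C * ((1 + R) ^ 2 + K) - θ * x)) := by
  obtain ⟨θ, β, θ', hθ, hβ, hθ', hJ⟩ := main_ineq hκ hκ8 hs1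
  obtain ⟨C0, hC0, hPsi⟩ := Psi_le
  refine ⟨θ', 2 * θ + β * C0, hθ', by positivity, fun f z0 R δ K x hf hR hδ hδ1 hK hinit => ?_⟩
  obtain ⟨A, hA⟩ : ∃ A : ℕ → Path → ℝ≥0∞, ∀ n w, A n w =
      ∫⁻ s in Ioc (0 : ℝ) n, rateM κ s1 δ (1 / (n + 1 : ℝ)) (cfg f w s) (ball z0 R) :=
    ⟨_, fun _ _ => rfl⟩
  have hset : {w | ENNReal.ofReal x < mass κ s1 δ f w (Ioi 0) (ball z0 R)} =
      ⋃ n : ℕ, {w | ENNReal.ofReal x < A n w} := by
    ext w
    simp only [mem_ofPred_eq, mem_iUnion, mass_eq_iSup κ s1 δ hf w measurableSet_ball, lt_iSup_iff,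
      hA]
  have hmono : Monotone fun n : ℕ => {w | ENNReal.ofReal x < A n w} := by
    intro n n' hn w hw
    have hn' : (n : ℝ) ≤ n' := by exact_mod_cast hn
    refine lt_of_lt_of_le (show ENNReal.ofReal x < A n w from hw) (show A n w ≤ A n' w from ?_)
    rw [hA, hA]
    refine lintegral_mono' (Measure.restrict_mono (Ioc_subset_Ioc_right hn') le_rfl) fun s => ?_
    exact rateM_anti κ s1 δ (one_div_le_one_div_of_le (by positivity) (by linarith)) _ _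
  rw [hset, hmono.measure_iUnion]
  refine iSup_le fun n => ?_
  have hm : (0 : ℝ) < 1 / (n + 1 : ℝ) := by positivity
  obtain ⟨m, hm'⟩ : ∃ m : ℝ, m = 1 / (n + 1 : ℝ) := ⟨_, rfl⟩
  have hAn : ∀ w, A n w = ∫⁻ s in Ioc (0 : ℝ) n, rateM κ s1 δ m (cfg f w s) (ball z0 R) := by
    intro w; rw [hA, hm']
  rw [← hm'] at hm
  obtain ⟨C1, hC1, hstep⟩ := one_step hκ hκ8 hP hs1 hδ hδ1 hm z0 hR hθ.le hβ.le hθ'.le
    fun g hg => hJ δ m z0 R g hδ hδ1 hm hR hg
  have hit := iterate hP (fun g => θ * PhiT κ δ m z0 R g + β * Psi z0 R g)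
    (fun g => rateM κ s1 δ m g (ball z0 R)) (θ' := θ') hC1
    (fun g hg => add_nonneg (mul_nonneg hθ.le (PhiT_nonneg κ δ m z0 R g))
      (mul_nonneg hβ.le (Psi_nonneg z0 R hg)))
    (fun g hg => rateM_le_const κ s1 hδ hm z0 R hg)
    (fun g hg t => ((measurable_PhiT hg κ δ m z0 R t).const_mul θ).add
      ((measurable_Psi hg z0 R t).const_mul β))
    (fun g hg => measurable_rateM hg κ s1 δ m measurableSet_ball) hstep hf
    (T := n) (Nat.cast_nonneg n)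
  simp only [← hAn] at hit
  have hmeas : Measurable (A n) := by
    rw [show A n = _ from funext hAn]
    exact (measurable_rateM hf κ s1 δ m measurableSet_ball).lintegral_prod_right'
  have hfin : ∀ w, A n w ≠ ⊤ := by
    intro w
    rw [hAn]
    refine ne_top_of_le_ne_top ?_
      (lintegral_mono fun s => rateM_le_const κ s1 hδ hm z0 R (hf.cfg w s))
    rw [setLIntegral_const, Real.volume_Ioc]
    exact ENNReal.mul_ne_top ENNReal.ofReal_ne_top ENNReal.ofReal_ne_top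
  have hmark := mul_meas_ge_le_lintegral₀ (μ := P)
    (f := fun w => ENNReal.ofReal (Real.exp (θ' * (A n w).toReal)))
    (hmeas.ennreal_toReal.const_mul θ').exp.ennreal_ofReal.aemeasurable
    (ENNReal.ofReal (Real.exp (θ' * x)))
  have hsub : {w | ENNReal.ofReal x < A n w} ⊆ {w | ENNReal.ofReal (Real.exp (θ' * x)) ≤
      ENNReal.ofReal (Real.exp (θ' * (A n w).toReal))} := by
    intro w hw
    exact ENNReal.ofReal_le_ofReal (Real.exp_le_exp.mpr (mul_le_mul_of_nonneg_left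
      ((ENNReal.ofReal_le_iff_le_toReal (hfin w)).mp (le_of_lt hw)) hθ'.le))
  have hΦ : θ * PhiT κ δ m z0 R f + β * Psi z0 R f ≤ (2 * θ + β * C0) * ((1 + R) ^ 2 + K) := by
    have h1 := mul_le_mul_of_nonneg_left (PhiT_le_init hκ hκ8 δ m z0 R hf hK hinit) hθ.le
    have h2 := mul_le_mul_of_nonneg_left (hPsi z0 R f hR hf) hβ.le
    have h3 : 0 ≤ θ * (1 + R) ^ 2 := by positivity
    have h4 : 0 ≤ β * C0 * K := by positivity
    linarith
  have hne : ENNReal.ofReal (Real.exp (θ' * x)) ≠ 0 :=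
    (ENNReal.ofReal_pos.mpr (Real.exp_pos _)).ne'
  refine (measure_mono hsub).trans ?_
  rw [← ENNReal.mul_le_mul_iff_right hne ENNReal.ofReal_ne_top]
  refine (hmark.trans hit).trans ?_
  rw [← ENNReal.ofReal_mul (Real.exp_pos _).le, ← Real.exp_add]
  exact ENNReal.ofReal_le_ofReal (Real.exp_le_exp.mpr (by linarith))

theorem init_eq_zero (κ : ℝ) (f : ℂ → ℂ) {B : Set ℂ} (h : ∀ ζ ∈ H, f ζ ∈ B → 3 < ups f ζ) :
    init κ f B = 0 := by
  classical
  refine (setLIntegral_congr_fun isOpen_H.measurableSet (g := fun _ => 0) fun ζ hζ => ?_).trans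
    lintegral_zero
  by_cases hB : f ζ ∈ B
  · simp only [if_neg (not_le.mpr (h ζ hζ hB)), ENNReal.ofReal_zero, mul_zero, zero_mul]
  · simp only [indicator_of_notMem hB, zero_mul]

/-- Upper tail for fresh balls at the scale `l`: `tail_unit` for `l⁻¹ f`, `mass_const_mul`. -/
theorem tail_fresh {κ : ℝ} (hκ : 0 < κ) (hκ8 : κ < 8) {P : Measure Path} (hP : IsDrv κ P) {s1 : ℝ}
    (hs1 : 0 < s1) : ∃ θ C : ℝ, 0 < θ ∧ 0 < C ∧ ∀ (f : ℂ → ℂ) (z0 : ℂ) (r l ε x : ℝ), Univ f →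
      0 ≤ r → 0 < l → 0 < ε → ε ≤ l / 10 → (∀ ζ ∈ H, f ζ ∈ ball z0 r → 3 * l < ups f ζ) →
      P {w | ENNReal.ofReal (x * l ^ dd κ) < mass κ s1 ε f w (Ioi 0) (ball z0 r)} ≤
        ENNReal.ofReal (Real.exp (C * (1 + r / l) ^ 2 - θ * x)) := by
  obtain ⟨θ, C, hθ, hC, h⟩ := tail_unit hκ hκ8 hP hs1
  refine ⟨θ, C, hθ, hC, fun f z0 r l ε x hf hr hl hε hεl hfresh => ?_⟩
  have hc : 0 < l⁻¹ := inv_pos.mpr hl
  have hcl : l⁻¹ * l = 1 := inv_mul_cancel₀ hl.ne'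
  have hinit : init κ (fun ζ => ((l⁻¹ : ℝ) : ℂ) * f ζ) (ball (((l⁻¹ : ℝ) : ℂ) * z0) (l⁻¹ * r)) = 0 := by
    refine init_eq_zero κ _ fun ζ hζ hb => ?_
    rw [mem_ball, dist_eq_norm, ← mul_sub, norm_mul, Complex.norm_real, Real.norm_eq_abs,
      abs_of_pos hc] at hb
    have h1 := hfresh ζ hζ (by
      rw [mem_ball, dist_eq_norm]; exact lt_of_mul_lt_mul_left hb hc.le)
    have h2 := mul_lt_mul_of_pos_left h1 hc
    rw [ups_const_mul f hc]
    linarith [show l⁻¹ * (3 * l) = 3 * (l⁻¹ * l) by ring]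
  have h1 := h _ (((l⁻¹ : ℝ) : ℂ) * z0) (l⁻¹ * r) (l⁻¹ * ε) 0 x (hf.const_mul hc) (by positivity)
    (by positivity) (by
      have h2 := mul_le_mul_of_nonneg_left hεl hc.le
      linarith [show l⁻¹ * (l / 10) = (l⁻¹ * l) / 10 by ring]) le_rfl (by rw [hinit]; exact bot_le)
  rw [add_zero] at h1
  rw [div_eq_inv_mul]
  refine le_trans (measure_mono fun w hw => ?_) h1
  have hp : 0 < l⁻¹ ^ dd κ := Real.rpow_pos_of_pos hc _
  have e : ENNReal.ofReal x = ENNReal.ofReal (l⁻¹ ^ dd κ) * ENNReal.ofReal (x * l ^ dd κ) := by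
    rw [← ENNReal.ofReal_mul hp.le, mul_left_comm, ← Real.mul_rpow hc.le hl.le, hcl, Real.one_rpow,
      mul_one]
  rw [mem_ofPred_eq, mass_const_mul hf κ s1 hε hc, e]
  exact ENNReal.mul_lt_mul_right (ENNReal.ofReal_pos.mpr hp).ne' ENNReal.ofReal_ne_top hw

end Crest.Agent.R162.E
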