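import Crest.Agent.R162.E7

/-! Row 162, block E: exponential moment. -/

set_option autoImplicit false
open MeasureTheory ProbabilityTheory Set Filter Topology Metric
open scoped ENNReal NNReal ComplexConjugate

namespace Crest.Agent.R162.E

/-- Exponential moment, unit scale. `main_ineq`, `one_step`, `iterate` for `m = 1/(n+1)`, `T = n`;
`mass_eq_iSup` (the mass is finite by `mass_le_vol`, so the `toReal`s increase to `mass.toReal`), monotone
convergence (`lintegral_iSup`) or Fatou (`lintegral_liminf_le`), `PhiT_le_init`, `Psi_le`. -/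
theorem exp_unit {κ : ℝ} (hκ : 0 < κ) (hκ8 : κ < 8) {P : Measure Path} (hP : IsDrv κ P) {s1 : ℝ}
    (hs1 : 0 < s1) : ∃ θ C : ℝ, 0 < θ ∧ 0 < C ∧ ∀ (f : ℂ → ℂ) (z0 : ℂ) (R δ K : ℝ), Univ f →
      0 ≤ R → 0 < δ → δ ≤ 1 / 10 → 0 ≤ K → init κ f (ball z0 R) ≤ ENNReal.ofReal K →
      ∫⁻ w, ENNReal.ofReal (Real.exp (θ * (mass κ s1 δ f w (Ioi 0) (ball z0 R)).toReal)) ∂P ≤
        ENNReal.ofReal (Real.exp (C * ((1 + R) ^ 2 + K))) := by
  obtain ⟨θ, β, θ', hθ, hβ, hθ', hJ⟩ := main_ineq hκ hκ8 hs1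
  obtain ⟨C0, hC0, hPsi⟩ := Psi_le
  refine ⟨θ', 2 * θ + β * C0, hθ', by positivity, fun f z0 R δ K hf hR hδ hδ1 hK hinit => ?_⟩
  obtain ⟨A, hA⟩ : ∃ A : ℕ → Path → ℝ≥0∞, ∀ n w, A n w =
      ∫⁻ s in Ioc (0 : ℝ) n, rateM κ s1 δ (1 / (n + 1 : ℝ)) (cfg f w s) (ball z0 R) :=
    ⟨_, fun _ _ => rfl⟩
  have hmono : ∀ w, Monotone fun n : ℕ => A n w := by
    intro w n n' hn
    have hn' : (n : ℝ) ≤ n' := by exact_mod_cast hn
    show A n w ≤ A n' w
    rw [hA, hA]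
    refine lintegral_mono' (Measure.restrict_mono (Ioc_subset_Ioc_right hn') le_rfl) fun s => ?_
    exact rateM_anti κ s1 δ (one_div_le_one_div_of_le (by positivity) (by linarith)) _ _
  have hmeas : ∀ n, Measurable (A n) := by
    intro n
    rw [show A n = _ from funext (hA n)]
    exact (measurable_rateM hf κ s1 δ _ measurableSet_ball).lintegral_prod_right'
  have hfin : ∀ n w, A n w ≠ ⊤ := by
    intro n w
    rw [hA]
    refine ne_top_of_le_ne_top ?_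
      (lintegral_mono fun s => rateM_le_const κ s1 hδ (by positivity) z0 R (hf.cfg w s))
    rw [setLIntegral_const, Real.volume_Ioc]
    exact ENNReal.mul_ne_top ENNReal.ofReal_ne_top ENNReal.ofReal_ne_top
  have hpt : ∀ w, ENNReal.ofReal (Real.exp (θ' * (mass κ s1 δ f w (Ioi 0) (ball z0 R)).toReal)) ≤
      ⨆ n, ENNReal.ofReal (Real.exp (θ' * (A n w).toReal)) := by
    intro w
    have e : mass κ s1 δ f w (Ioi 0) (ball z0 R) = ⨆ n, A n w := by
      simp only [mass_eq_iSup κ s1 δ hf w measurableSet_ball, hA]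
    rw [e]
    by_cases htop : ⨆ n, A n w = ⊤
    · rw [htop]
      refine le_iSup_of_le 0 (ENNReal.ofReal_le_ofReal (Real.exp_le_exp.mpr ?_))
      exact mul_le_mul_of_nonneg_left (by simp) hθ'.le
    · refine le_of_tendsto' (ENNReal.tendsto_ofReal (((ENNReal.tendsto_toReal htop).comp
        (tendsto_atTop_iSup (hmono w))).const_mul θ').rexp) fun n => ?_
      exact le_iSup (fun n => ENNReal.ofReal (Real.exp (θ' * (A n w).toReal))) n
  refine (lintegral_mono hpt).trans ?_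
  rw [lintegral_iSup (fun n => ((hmeas n).ennreal_toReal.const_mul θ').exp.ennreal_ofReal)
    fun n n' hn w => ENNReal.ofReal_le_ofReal (Real.exp_le_exp.mpr (mul_le_mul_of_nonneg_left
      (ENNReal.toReal_mono (hfin n' w) (hmono w hn)) hθ'.le))]
  refine iSup_le fun n => ?_
  have hm : (0 : ℝ) < 1 / (n + 1 : ℝ) := by positivity
  obtain ⟨m, hm'⟩ : ∃ m : ℝ, m = 1 / (n + 1 : ℝ) := ⟨_, rfl⟩
  have hAn : ∀ w, A n w = ∫⁻ s in Ioc (0 : ℝ) n, rateM κ s1 δ m (cfg f w s) (ball z0 R) := by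
    intro w; rw [hA, hm']
  rw [← hm'] at hm
  obtain ⟨C1, hC1, hstep⟩ := one_step hκ hκ8 hP hs1 hδ hδ1 hm z0 hR hθ.le hβ.le hθ'.le
    fun g hg => hJ δ m z0 R g hδ hδ1 hm hR hg
  have hit := iterate hP (fun g => θ * PhiT κ δ m z0 R g + β * Psi z0 R g)
    (fun g => rateM κ s1 δ m g (ball z0 R)) (θ' := θ') hC1
    (fun g hg => add_nonneg (mul_nonneg hθ.le (PhiT_nonneg κ δ m z0 R g))
      (mul_nonneg hβ.le (Psi_nonneg z0 R hg)))
    (fun g hg => rateM_le_const κ s1 hδ hm z0 R hg)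
    (fun g hg t => ((measurable_PhiT hg κ δ m z0 R t).const_mul θ).add
      ((measurable_Psi hg z0 R t).const_mul β))
    (fun g hg => measurable_rateM hg κ s1 δ m measurableSet_ball) hstep hf
    (T := n) (Nat.cast_nonneg n)
  simp only [← hAn] at hit
  refine hit.trans (ENNReal.ofReal_le_ofReal (Real.exp_le_exp.mpr ?_))
  have h1 := mul_le_mul_of_nonneg_left (PhiT_le_init hκ hκ8 δ m z0 R hf hK hinit) hθ.le
  have h2 := mul_le_mul_of_nonneg_left (hPsi z0 R f hR hf) hβ.le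
  have h3 : 0 ≤ θ * (1 + R) ^ 2 := by positivity
  have h4 : 0 ≤ β * C0 * K := by positivity
  linarith

/-- The statement of `EXP.lean`: `exp_unit` for `r⁻¹ f` (`Univ.const_mul`, `ups_const_mul`, `mass_const_mul`,
`init_eq_zero`), `(1 + R/r)² ≤ 4 (R/r)²`. -/
theorem exp_moment' {κ : ℝ} (hκ : 0 < κ) (hκ8 : κ < 8) {P : Measure Path} (hP : IsDrv κ P) {s1 : ℝ}
    (hs1 : 0 < s1) : ∃ θ C : ℝ, 0 < θ ∧ 0 < C ∧ ∀ f : ℂ → ℂ, Univ f → ∀ (z0 : ℂ) (R r ε : ℝ),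
      0 < ε → 10 * ε ≤ r → r ≤ R → (∀ ζ ∈ H, f ζ ∈ ball z0 R → 4 * r ≤ ups f ζ) →
      ∫⁻ w, ENNReal.ofReal (Real.exp (θ * r ^ (-dd κ) *
        (mass κ s1 ε f w (Ioi 0) (ball z0 R)).toReal)) ∂P ≤
      ENNReal.ofReal (Real.exp (C * (R / r) ^ 2)) := by
  -- h29_ exp_moment'
  obtain ⟨θ, C, hθ, hC, h⟩ := exp_unit hκ hκ8 hP hs1
  refine ⟨θ, 4 * C, hθ, by positivity, fun f hf z0 R r ε hε hεr hrR hfresh => ?_⟩
  have hr : 0 < r := by linarith
  have hc : 0 < r⁻¹ := inv_pos.mpr hr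
  have hcl : r⁻¹ * r = 1 := inv_mul_cancel₀ hr.ne'
  have hinit : init κ (fun ζ => ((r⁻¹ : ℝ) : ℂ) * f ζ) (ball (((r⁻¹ : ℝ) : ℂ) * z0) (r⁻¹ * R)) = 0 := by
    refine init_eq_zero κ _ fun ζ hζ hb => ?_
    rw [mem_ball, dist_eq_norm, ← mul_sub, norm_mul, Complex.norm_real, Real.norm_eq_abs,
      abs_of_pos hc] at hb
    have h1 := hfresh ζ hζ (by
      rw [mem_ball, dist_eq_norm]; exact lt_of_mul_lt_mul_left hb hc.le)
    have h2 := mul_le_mul_of_nonneg_left h1 hc.le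
    rw [ups_const_mul f hc]
    linarith [show r⁻¹ * (4 * r) = 4 * (r⁻¹ * r) by ring]
  have hR : 0 ≤ R := by linarith
  have h1 := h _ (((r⁻¹ : ℝ) : ℂ) * z0) (r⁻¹ * R) (r⁻¹ * ε) 0 (hf.const_mul hc) (by positivity)
    (by positivity) (by
      have h2 := mul_le_mul_of_nonneg_left hεr hc.le
      linarith [show r⁻¹ * (10 * ε) = 10 * (r⁻¹ * ε) by ring]) le_rfl (by rw [hinit]; exact bot_le)
  rw [add_zero] at h1
  have hp : 0 < r⁻¹ ^ dd κ := Real.rpow_pos_of_pos hc _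
  have e : r ^ (-dd κ) = r⁻¹ ^ dd κ := by rw [Real.rpow_neg hr.le, Real.inv_rpow hr.le]
  refine le_trans (le_of_eq (lintegral_congr fun w => ?_)) (h1.trans ?_)
  · rw [mass_const_mul hf κ s1 hε hc, ENNReal.toReal_mul, ENNReal.toReal_ofReal hp.le, e, mul_assoc]
  · refine ENNReal.ofReal_le_ofReal (Real.exp_le_exp.mpr ?_)
    rw [div_eq_inv_mul]
    have h3 : 1 ≤ r⁻¹ * R := by
      have := mul_le_mul_of_nonneg_left hrR hc.le
      linarith
    have h4 : (1 + r⁻¹ * R) ^ 2 ≤ 4 * (r⁻¹ * R) ^ 2 := by nlinarith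
    have h5 := mul_le_mul_of_nonneg_left h4 hC.le
    linarith

end Crest.Agent.R162.E
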