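import Crest.Agent.R162.K2

set_option autoImplicit false
open MeasureTheory ProbabilityTheory Set Filter Topology Metric
open scoped ENNReal NNReal ComplexConjugate

namespace Crest.Agent.R162

/-- Weak Koebe covering. Let `w0 ∉ f '' ball ζ (y/2)`, `δ = ‖w0 - f ζ‖`. On every circle of radius
`r ∈ (y/4, y/2)` the maximum principle for `1/(f - w0)` gives a point with `‖f - w0‖ ≤ δ` (take
`a` slightly larger than `δ` to avoid the end point of the arc), the maximum principle for `f - w0`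
a point with `‖f - w0‖ ≥ M := max_{‖·-ζ‖ ≤ y/4} ‖f - w0‖`. `length_area` bounds `M/δ`, Cauchy's
estimate bounds `‖f' ζ‖ y ≤ 4 M`. -/
theorem koebe_cover : ∃ c : ℝ, 0 < c ∧ c ≤ 1 / 4 ∧ ∀ f : ℂ → ℂ, Univ f → ∀ ζ ∈ H,
    ball (f ζ) (c * ups f ζ) ⊆ f '' ball ζ (ζ.im / 2) := by
  refine ⟨1 / 800, by norm_num, by norm_num, fun f hf ζ hζ => ?_⟩
  have h := koebe_H' hf.diff hf.inj hζ (t := 1 / 2) (by norm_num) (by norm_num)
  have e1 : 1 / 800 * ups f ζ = 1 / 2 * ζ.im * ‖deriv f ζ‖ / 400 := by unfold ups; ring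
  have e2 : ζ.im / 2 = 1 / 2 * ζ.im := by ring
  rw [e1, e2]
  exact h

/-- Growth and distortion (local: the same bound `M ≤ C δ` with `w0` the nearest omitted point,
`δ ≤ 2 ups` by `schwarz_ball`-type argument or directly from `harnack_ball`/`koebe_cover`;
global: chain of such discs up, across and down). -/
theorem distortion : ∃ (C : ℝ) (p0 : ℕ), 1 ≤ C ∧ 1 ≤ p0 ∧ ∀ f : ℂ → ℂ, Univ f → ∀ ζ ∈ H, ∀ ξ ∈ H,
    ups f ξ ≤ C * Qh ζ ξ ^ p0 * ups f ζ ∧ ‖f ξ - f ζ‖ ≤ C * Qh ζ ξ ^ p0 * ups f ζ := by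
  exact ⟨1200 ^ 3 * Real.exp 400, 400,
    one_le_mul_of_one_le_of_one_le (by norm_num) (Real.one_le_exp (by norm_num)), by norm_num,
    fun f hf ζ hζ ξ hξ => distort_Q hf.diff hf.inj hζ hξ⟩

/-- Lower growth (from `koebe_cover` and injectivity). -/
theorem lower_growth : ∃ c : ℝ, 0 < c ∧ ∀ f : ℂ → ℂ, Univ f → ∀ ζ ∈ H, ∀ ξ ∈ H,
    ζ.im / 2 ≤ ‖ξ - ζ‖ → c * ups f ζ ≤ ‖f ξ - f ζ‖ := by
  refine ⟨1 / 800, by norm_num, fun f hf ζ hζ ξ hξ h => ?_⟩
  have := ups_le_norm_sub hf.diff hf.inj hζ hξ (t := 1 / 2) (by norm_num) (by norm_num)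
    (by linarith)
  unfold ups
  linarith

end Crest.Agent.R162
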