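import Crest.Agent.R162.L5

set_option autoImplicit false
open MeasureTheory ProbabilityTheory Set Filter Topology Metric
open scoped ENNReal NNReal ComplexConjugate

namespace Crest.Agent.R162

/-- Koebe covering and joint continuity of `phi` and its derivative. -/
theorem L7_near {p : Path × ℝ × ℂ} (h0 : 0 ≤ p.2.1) (hp : p.2.2 ∈ dom p.1 p.2.1) {τ : ℝ}
    (hτ : 0 < τ) (hτ1 : τ ≤ 1) :
    ∀ᶠ q in 𝓝[{q : Path × ℝ × ℂ | 0 ≤ q.2.1}] p, q.2.2 ∈ dom q.1 q.2.1 ∧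
      Zf q.1 q.2.1 q.2.2 ∈ ball (Zf p.1 p.2.1 p.2.2) (τ * (Zf p.1 p.2.1 p.2.2).im) := by
  set ζ := Zf p.1 p.2.1 p.2.2 with hζ
  have hζH : ζ ∈ H := Zf_mem hp
  have hζ0 : 0 < ζ.im := hζH
  have hc : Continuous fun q : Path × ℝ × ℂ => ((q.1, q.2.1, ζ) : Path × ℝ × ℂ) := by fun_prop
  have hm : MapsTo (fun q : Path × ℝ × ℂ => ((q.1, q.2.1, ζ) : Path × ℝ × ℂ))
      {q : Path × ℝ × ℂ | 0 ≤ q.2.1} {p | 0 ≤ p.2.1 ∧ p.2.2 ∈ H} := fun q hq => ⟨hq, hζH⟩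
  have h1 : ContinuousOn (fun q : Path × ℝ × ℂ => phi q.1 q.2.1 ζ) {q | 0 ≤ q.2.1} :=
    continuousOn_phi.comp hc.continuousOn hm
  have h2 : ContinuousOn (fun q : Path × ℝ × ℂ => deriv (phi q.1 q.2.1) ζ) {q | 0 ≤ q.2.1} :=
    continuousOn_dphi.comp hc.continuousOn hm
  have h3 : ContinuousOn (fun q : Path × ℝ × ℂ =>
      τ * ζ.im * ‖deriv (phi q.1 q.2.1) ζ‖ / 400 - dist q.2.2 (phi q.1 q.2.1 ζ))
      {q | 0 ≤ q.2.1} :=
    ((continuousOn_const.mul h2.norm).div_const _).sub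
      (continuous_dist.comp_continuousOn
        ((continuous_snd.comp continuous_snd).continuousOn.prodMk h1))
  have h4 : 0 < τ * ζ.im * ‖deriv (phi p.1 p.2.1) ζ‖ / 400 - dist p.2.2 (phi p.1 p.2.1 ζ) := by
    have := norm_pos_iff.2 ((univ_phi p.1 p.2.1).deriv_ne_zero hζH)
    rw [hζ, phi_Zf hp, dist_self, sub_zero, ← hζ]
    positivity
  filter_upwards [(h3 p h0).eventually (lt_mem_nhds h4)] with q hq
  obtain ⟨ξ, hξ, e⟩ := koebe_H' (univ_phi q.1 q.2.1).diff (univ_phi q.1 q.2.1).inj hζ0 hτ hτ1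
    (mem_ball.2 (sub_pos.1 hq))
  have hξH : ξ ∈ H := ((ball_subset_ball (by nlinarith)).trans ball_im_subset) hξ
  refine ⟨⟨ξ, hξH, e⟩, ?_⟩
  rw [← e, Zf_phi _ _ hξH]
  exact hξ

theorem L7_phi_neg (w : Path) {t : ℝ} (ht : t < 0) : phi w t = id := by
  funext ζ
  rw [phi, if_neg fun h => not_le.2 ht h.1, id]

theorem L7_meas {X E : Type*} [TopologicalSpace X] [MeasurableSpace X] [OpensMeasurableSpace X]
    [TopologicalSpace E] [MeasurableSpace E] [BorelSpace E] {f g : X → E} {S : Set X}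
    (hS : MeasurableSet S) (hf : ContinuousOn f S) (hg : Measurable g) (c : E)
    (h : ∀ x, x ∉ S → f x = g x) : Measurable f := by
  classical
  have h1 := (hf.measurable_piecewise (g := fun _ => c) continuousOn_const hS)
  convert Measurable.piecewise hS h1 hg using 1
  funext x
  by_cases hx : x ∈ S
  · rw [piecewise_eq_of_mem _ _ _ hx, piecewise_eq_of_mem _ _ _ hx]
  · rw [piecewise_eq_of_notMem _ _ _ hx, h x hx]

/-- The set of living triples is relatively open (forward stability: `IsSol.stable`,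
`alive_of_lower`, `alive_right`). -/
theorem alive_nhds {p : Path × ℝ × ℂ} (h0 : 0 ≤ p.2.1) (hp : p.2.2 ∈ dom p.1 p.2.1) :
    ∀ᶠ q in 𝓝[{q : Path × ℝ × ℂ | 0 ≤ q.2.1}] p, q.2.2 ∈ dom q.1 q.2.1 := by
  exact (L7_near h0 hp one_pos le_rfl).mono fun q hq => hq.1

theorem continuousOn_Zf_joint : ContinuousOn (fun p : Path × ℝ × ℂ => Zf p.1 p.2.1 p.2.2)
    {p | 0 ≤ p.2.1 ∧ p.2.2 ∈ dom p.1 p.2.1} := by
  rintro p ⟨h0, hp⟩
  refine ContinuousWithinAt.mono (t := {q : Path × ℝ × ℂ | 0 ≤ q.2.1}) ?_ fun q hq => hq.1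
  refine Metric.tendsto_nhds.2 fun ε hε => ?_
  have hζ0 : 0 < (Zf p.1 p.2.1 p.2.2).im := Zf_mem hp
  filter_upwards [L7_near h0 hp (τ := min 1 (ε / (Zf p.1 p.2.1 p.2.2).im))
    (lt_min one_pos (div_pos hε hζ0)) (min_le_left _ _)] with q hq
  exact (mem_ball.1 hq.2).trans_le ((le_div_iff₀ hζ0).1 (min_le_right _ _))

theorem continuousOn_mm_joint : ContinuousOn (fun p : Path × ℝ × ℂ => mm p.1 p.2.1 p.2.2)
    {p | 0 ≤ p.2.1 ∧ p.2.2 ∈ dom p.1 p.2.1} := by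
  have hc : ContinuousOn (fun q : Path × ℝ × ℂ =>
      ((q.1, q.2.1, Zf q.1 q.2.1 q.2.2) : Path × ℝ × ℂ)) {p | 0 ≤ p.2.1 ∧ p.2.2 ∈ dom p.1 p.2.1} :=
    continuousOn_fst.prodMk ((continuous_fst.comp continuous_snd).continuousOn.prodMk
      continuousOn_Zf_joint)
  have h2 := continuousOn_dphi.comp hc fun q hq => ⟨hq.1, Zf_mem hq.2⟩
  exact ((Complex.continuous_im.comp_continuousOn continuousOn_Zf_joint).mul h2.norm).div
    (by fun_prop) fun q hq => ne_of_gt (dom_subset _ _ hq.2)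

theorem L7_alive : MeasurableSet {p : Path × ℝ × ℂ | 0 ≤ p.2.1 ∧ p.2.2 ∈ dom p.1 p.2.1} := by
  have e : {p : Path × ℝ × ℂ | 0 ≤ p.2.1 ∧ p.2.2 ∈ dom p.1 p.2.1} = {p | 0 ≤ p.2.1} ∩
      interior {p : Path × ℝ × ℂ | 0 ≤ p.2.1 → p.2.2 ∈ dom p.1 p.2.1} := by
    ext p
    refine ⟨fun h => ⟨h.1, mem_interior_iff_mem_nhds.2
      (eventually_nhdsWithin_iff.1 (alive_nhds h.1 h.2))⟩, fun h => ⟨h.1, interior_subset h.2 h.1⟩⟩
  rw [e]
  exact (isClosed_le continuous_const (by fun_prop)).measurableSet.inter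
    isOpen_interior.measurableSet

theorem L7_neg : MeasurableSet {p : Path × ℝ × ℂ | p.2.1 < 0 ∧ p.2.2 ∈ H} :=
  ((isOpen_lt (continuous_fst.comp continuous_snd) (continuous_const (y := (0 : ℝ)))).inter
    (isOpen_H.preimage (continuous_snd.comp continuous_snd))).measurableSet

theorem L7_dead {p : Path × ℝ × ℂ} (h1 : ¬ (0 ≤ p.2.1 ∧ p.2.2 ∈ dom p.1 p.2.1))
    (h2 : ¬ (p.2.1 < 0 ∧ p.2.2 ∈ H)) : p.2.2 ∉ dom p.1 p.2.1 := fun h =>
  h2 ⟨not_le.1 fun h0 => h1 ⟨h0, h⟩, dom_subset _ _ h⟩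

theorem L7_Zf_neg (w : Path) {t : ℝ} (ht : t < 0) {z : ℂ} (hz : z ∈ H) : Zf w t z = z := by
  have := Zf_phi w t hz
  rwa [L7_phi_neg w ht, id] at this

theorem measurableSet_alive : MeasurableSet {p : Path × ℝ × ℂ | p.2.2 ∈ dom p.1 p.2.1} := by
  convert L7_alive.union L7_neg using 1
  ext p
  constructor
  · intro h
    by_contra hn
    exact L7_dead (fun h1 => hn (Or.inl h1)) (fun h2 => hn (Or.inr h2)) h
  · rintro (h | h)
    · exact h.2
    · exact ⟨p.2.2, h.2, by rw [L7_phi_neg _ h.1, id]⟩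

theorem measurable_Zf : Measurable (fun p : Path × ℝ × ℂ => Zf p.1 p.2.1 p.2.2) := by
  refine L7_meas L7_alive continuousOn_Zf_joint
    ((measurable_snd.comp measurable_snd).indicator L7_neg) 0 fun p hp => ?_
  by_cases h : p ∈ {p : Path × ℝ × ℂ | p.2.1 < 0 ∧ p.2.2 ∈ H}
  · rw [indicator_of_mem h]
    exact L7_Zf_neg _ h.1 h.2
  · rw [indicator_of_notMem h]
    exact Zf_dead (L7_dead hp h)

theorem measurable_mm : Measurable (fun p : Path × ℝ × ℂ => mm p.1 p.2.1 p.2.2) := by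
  refine L7_meas L7_alive continuousOn_mm_joint
    ((measurable_const (a := (1 : ℝ))).indicator L7_neg) 0 fun p hp => ?_
  by_cases h : p ∈ {p : Path × ℝ × ℂ | p.2.1 < 0 ∧ p.2.2 ∈ H}
  · rw [indicator_of_mem h, mm, L7_Zf_neg _ h.1 h.2, L7_phi_neg _ h.1, ups_id,
      div_self (ne_of_gt h.2)]
  · rw [indicator_of_notMem h]
    exact mm_dead (L7_dead hp h)

theorem L7_state {E : Type*} [TopologicalSpace E] (F : ℂ → ℝ → E)
    (hF : ContinuousOn (fun p : ℂ × ℝ => F p.1 p.2) (H ×ˢ Ioi 0)) (w : Path) {ζ : ℂ} {u t : ℝ}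
    (hu : 0 < u) (ht : 0 ≤ t) (hζ : ζ ∈ dom w t) :
    ContinuousWithinAt (fun s => F (Zf w s ζ) (u * mm w s ζ)) (Ici 0) t := by
  obtain ⟨t', htt, h'⟩ := alive_right ht hζ
  have ht' := ht.trans htt.le
  have h1 : ContinuousOn (fun s => F (Zf w s ζ) (u * mm w s ζ)) (Icc 0 t') :=
    hF.comp ((continuousOn_Zf ht' h').prodMk (continuousOn_const.mul (continuousOn_mm ht' h')))
      fun s hs => ⟨Zf_mem (dom_anti w hs.1 hs.2 h'), mul_pos hu (mm_pos (dom_anti w hs.1 hs.2 h'))⟩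
  refine (h1 t ⟨ht, htt.le⟩).mono_of_mem_nhdsWithin ?_
  filter_upwards [self_mem_nhdsWithin, mem_nhdsWithin_of_mem_nhds (Iic_mem_nhds htt)] with s h2 h3
  exact ⟨h2, h3⟩

/-- Functions of the state are right-continuous in time (dead points stay dead). -/
theorem state_right_cont {E : Type*} [TopologicalSpace E] (F : ℂ → ℝ → E)
    (hF : ContinuousOn (fun p : ℂ × ℝ => F p.1 p.2) (H ×ˢ Ioi 0)) (w : Path) (ζ : ℂ) {u t : ℝ}
    (hu : 0 < u) (ht : 0 ≤ t) :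
    ContinuousWithinAt (fun s => F (Zf w s ζ) (u * mm w s ζ)) (Ici t) t := by
  by_cases hζ : ζ ∈ dom w t
  · exact (L7_state F hF w hu ht hζ).mono (Ici_subset_Ici.2 ht)
  · have h1 : ∀ s ∈ Ici t, F (Zf w s ζ) (u * mm w s ζ) = F 0 (u * 0) := fun s hs => by
      have h2 : ζ ∉ dom w s := fun h => hζ (dom_anti w ht hs h)
      rw [Zf_dead h2, mm_dead h2]
    exact continuousWithinAt_const.congr h1 (h1 t self_mem_Ici)

/-- Functions of the state that vanish near the real line are continuous in time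
(`exists_death`, `im_Zf_anti`). -/
theorem state_cont (F : ℂ → ℝ → ℝ) (hF : ContinuousOn (fun p : ℂ × ℝ => F p.1 p.2) (H ×ˢ Ioi 0))
    {y0 : ℝ} (hy0 : 0 < y0) (h0 : ∀ ζ u, ζ.im ≤ y0 → F ζ u = 0) (w : Path) {ζ : ℂ} (hζ : ζ ∈ H)
    {u : ℝ} (hu : 0 < u) : ContinuousOn (fun s => F (Zf w s ζ) (u * mm w s ζ)) (Ici 0) := by
  intro t ht
  by_cases hd : ζ ∈ dom w t
  · exact L7_state F hF w hu ht hd
  · obtain ⟨T, hT, -, -, h1⟩ := exists_death w hζ ht hd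
    obtain ⟨s₀, hs₀, h2⟩ := h1 y0 hy0
    refine ContinuousAt.continuousWithinAt ?_
    refine (continuousAt_const (y := (0 : ℝ))).congr ?_
    filter_upwards [Ioi_mem_nhds (hs₀.2.trans_le hT.2)] with s hs
    exact (h0 _ _ ((im_Zf_anti w hs₀.1 (le_of_lt hs) ζ).trans h2.le)).symm

end Crest.Agent.R162
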