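import Crest.Agent.R162.P5

set_option autoImplicit false
open MeasureTheory ProbabilityTheory Set Filter Topology Metric
open scoped ENNReal NNReal ComplexConjugate

namespace Crest.Agent.R162

/-- The measurable majorant of `e³`. -/
noncomputable def p6G (w : Path) (t : ℝ) : ℝ := osc w t ^ 4 / √t + √t ^ 3

theorem p6_rpow {t : ℝ} (ht : 0 < t) : t ^ (3 / 2 : ℝ) = √t ^ 3 := by
  rw [Real.sqrt_eq_rpow, ← Real.rpow_natCast, ← Real.rpow_mul ht.le]; norm_num

theorem p6_small (w : Path) {t : ℝ} (ht : 0 < t) : Small w t (max (osc w t) √t) := by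
  have hs : 0 < √t := Real.sqrt_pos.2 ht
  refine ⟨ht.le, ?_, lt_of_lt_of_le hs (le_max_right _ _), fun s hs' => ?_⟩
  · calc t = √t ^ 2 := (Real.sq_sqrt ht.le).symm
      _ ≤ _ := pow_le_pow_left₀ hs.le (le_max_right _ _) 2
  · exact (le_osc w hs').trans (le_max_left _ _)

theorem p6_cube_le (w : Path) {t : ℝ} (ht : 0 < t) : (max (osc w t) √t) ^ 3 ≤ p6G w t := by
  have hs : 0 < √t := Real.sqrt_pos.2 ht
  have ho := osc_nonneg w t
  unfold p6G
  rcases le_total (osc w t) √t with h | h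
  · rw [max_eq_right h]
    have : 0 ≤ osc w t ^ 4 / √t := by positivity
    linarith
  · rw [max_eq_left h]
    have h1 : osc w t ^ 3 ≤ osc w t ^ 4 / √t := by
      rw [le_div_iff₀ hs]
      calc osc w t ^ 3 * √t ≤ osc w t ^ 3 * osc w t := by gcongr
        _ = _ := by ring
    have : 0 ≤ √t ^ 3 := by positivity
    linarith

theorem p6_int {κ : ℝ} (hκ : 0 < κ) {P : Measure Path} (hP : IsDrv κ P) :
    ∃ C : ℝ, 0 ≤ C ∧ ∀ t : ℝ, 0 < t → Integrable (fun w => p6G w t) P ∧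
      ∫ w, p6G w t ∂P ≤ C * t ^ (3 / 2 : ℝ) := by
  obtain ⟨C, hC, h⟩ := hP.osc_four hκ
  have := hP.prob
  refine ⟨C + 1, by positivity, fun t ht => ?_⟩
  have hs : 0 < √t := Real.sqrt_pos.2 ht
  have hm : Measurable (fun w : Path => osc w t ^ 4) := (measurable_osc t).pow_const 4
  have hnn : ∀ w : Path, 0 ≤ osc w t ^ 4 := fun w => by have := osc_nonneg w t; positivity
  have hi : Integrable (fun w : Path => osc w t ^ 4) P := by
    refine ⟨hm.aestronglyMeasurable, ?_⟩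
    rw [hasFiniteIntegral_iff_ofReal (Eventually.of_forall hnn)]
    exact lt_of_le_of_lt (h t ht) ENNReal.ofReal_lt_top
  have hle : ∫ w, osc w t ^ 4 ∂P ≤ C * t ^ 2 := by
    have h1 := h t ht
    rw [← ofReal_integral_eq_lintegral_ofReal hi (Eventually.of_forall hnn)] at h1
    exact (ENNReal.ofReal_le_ofReal_iff (by positivity)).1 h1
  have hi2 : Integrable (fun w : Path => osc w t ^ 4 / √t) P := hi.div_const _
  refine ⟨hi2.add (integrable_const _), ?_⟩
  unfold p6G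
  rw [integral_add hi2 (integrable_const _), integral_div, integral_const, p6_rpow ht]
  simp only [probReal_univ, smul_eq_mul, one_mul]
  have h2 : (∫ w, osc w t ^ 4 ∂P) / √t ≤ C * √t ^ 3 := by
    rw [div_le_iff₀ hs]
    calc _ ≤ C * t ^ 2 := hle
      _ = C * (√t ^ 2) ^ 2 := by rw [Real.sq_sqrt ht.le]
      _ = _ := by ring
  linarith

/-- Crude bound of the polynomial part when `e` is not small. -/
theorem p6_crude {a b c x t e e0 C : ℝ} (he0 : 0 < e0) (he : e0 ≤ e) (ha : |a| ≤ C)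
    (hb : |b| ≤ C) (hc : |c| ≤ C) (hx : |x| ≤ e) (ht0 : 0 ≤ t) (ht : t ≤ e ^ 2) :
    |a * x + b / 2 * x ^ 2 + c * t| ≤ (C / e0 ^ 2 + 2 * C / e0) * e ^ 3 := by
  have hC : 0 ≤ C := (abs_nonneg _).trans ha
  have hep : 0 < e := he0.trans_le he
  have h1 : |a * x| ≤ C * e := by rw [abs_mul]; gcongr
  have h2 : |b / 2 * x ^ 2| ≤ C * e ^ 2 := by
    rw [abs_mul, abs_div, abs_pow, abs_two]
    have : |b| / 2 ≤ C := by linarith [abs_nonneg b]
    gcongr
  have h3 : |c * t| ≤ C * e ^ 2 := by rw [abs_mul, abs_of_nonneg ht0]; gcongr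
  have h4 : C * e ≤ C / e0 ^ 2 * e ^ 3 := by
    rw [div_mul_eq_mul_div, le_div_iff₀ (by positivity)]
    calc C * e * e0 ^ 2 ≤ C * e * e ^ 2 := by gcongr
      _ = _ := by ring
  have h5 : 2 * C * e ^ 2 ≤ 2 * C / e0 * e ^ 3 := by
    rw [div_mul_eq_mul_div, le_div_iff₀ (by positivity)]
    calc 2 * C * e ^ 2 * e0 ≤ 2 * C * e ^ 2 * e := by gcongr
      _ = _ := by ring
  calc _ ≤ |a * x| + |b / 2 * x ^ 2| + |c * t| := abs_add_three _ _ _
    _ ≤ _ := by nlinarith

theorem p6_const_le {M e e0 : ℝ} (hM : 0 ≤ M) (he0 : 0 < e0) (he : e0 ≤ e) :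
    M ≤ M / e0 ^ 3 * e ^ 3 := by
  rw [div_mul_eq_mul_div, le_div_iff₀ (by positivity)]
  gcongr

/-- Expectation of an expansion. Take `e = max (osc w h) (√h)`; `E e³ ≤ C h^(3/2)` by `osc_four`;
on `{e > e0}` everything is `≤ C e³`. -/
theorem TE.expect {ι : Type*} {I : Set ι} {Ψ : ι → Path → ℝ → ℝ} {J : ι → Jet} (h : TE I Ψ J)
    {κ : ℝ} (hκ : 0 < κ) {P : Measure Path} (hP : IsDrv κ P) {M : ℝ}
    (hM : ∀ i ∈ I, |(J i).v| ≤ M ∧ ∀ w t, 0 ≤ t → |Ψ i w t| ≤ M)
    (hm : ∀ i ∈ I, ∀ t, Measurable (fun w => Ψ i w t)) :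
    ∃ C : ℝ, ∀ i ∈ I, ∀ t : ℝ, 0 < t → t ≤ 1 →
      |∫ w, Ψ i w t ∂P - (J i).v - (J i).gen κ * t| ≤ C * t ^ (3 / 2 : ℝ) := by
  obtain ⟨C, e0, he0, h⟩ := h
  obtain ⟨C0, hC0, hG⟩ := p6_int hκ hP
  have := hP.prob
  set C1 : ℝ := C + (2 * M / e0 ^ 3 + (C / e0 ^ 2 + 2 * C / e0)) with hC1
  refine ⟨C1 * C0, fun i hi t ht _ => ?_⟩
  obtain ⟨ha, hb, hc, hT⟩ := h i hi
  obtain ⟨hv, hΨ⟩ := hM i hi
  have hC : 0 ≤ C := (abs_nonneg _).trans ha
  have hM0 : 0 ≤ M := (abs_nonneg _).trans hv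
  have hC1n : 0 ≤ C1 := by positivity
  obtain ⟨hGi, hGle⟩ := hG t ht
  obtain ⟨i1, i2, e1, e2⟩ := hP.integral_inc hκ.le ht.le
  have iΨ : Integrable (fun w => Ψ i w t) P :=
    Integrable.of_bound (hm i hi t).aestronglyMeasurable M
      (Eventually.of_forall fun w => by simpa [Real.norm_eq_abs] using hΨ w t ht.le)
  set R : Path → ℝ := fun w => Ψ i w t - (J i).v - (J i).a * (w t - w 0) -
    (J i).b / 2 * (w t - w 0) ^ 2 - (J i).c * t with hR
  have hpt : ∀ w, |R w| ≤ C1 * p6G w t := by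
    intro w
    have hs := p6_small w ht
    have hq := p6_cube_le w ht
    set e := max (osc w t) √t with he
    have hep : 0 < e := hs.2.2.1
    refine le_trans ?_ (mul_le_mul_of_nonneg_left hq hC1n)
    rcases le_total e e0 with h1 | h1
    · refine (hT w t e h1 hs).trans ?_
      have : C ≤ C1 := by
        have : 0 ≤ 2 * M / e0 ^ 3 + (C / e0 ^ 2 + 2 * C / e0) := by positivity
        linarith
      gcongr
    · have hx : |w t - w 0| ≤ e := hs.2.2.2 t ⟨ht.le, le_rfl⟩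
      have h2 := p6_crude he0 h1 ha hb hc hx ht.le hs.2.1
      have h3 := p6_const_le (M := 2 * M) (by positivity) he0 h1
      have h4 : |R w| ≤ |Ψ i w t| + |(J i).v| +
          |(J i).a * (w t - w 0) + (J i).b / 2 * (w t - w 0) ^ 2 + (J i).c * t| := by
        have : R w = Ψ i w t + (-(J i).v) +
            (-((J i).a * (w t - w 0) + (J i).b / 2 * (w t - w 0) ^ 2 + (J i).c * t)) := by
          simp only [hR]; ring
        rw [this]
        refine (abs_add_three _ _ _).trans ?_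
        rw [abs_neg, abs_neg]
      have h5 := hΨ w t ht.le
      have h6 : 0 ≤ C * e ^ 3 := by positivity
      rw [hC1]
      nlinarith
  have hint : ∫ w, R w ∂P = ∫ w, Ψ i w t ∂P - (J i).v - (J i).gen κ * t := by
    simp only [hR]
    rw [integral_sub, integral_sub, integral_sub, integral_sub, integral_const_mul,
      integral_const_mul, e1, e2, integral_const, integral_const]
    · simp only [probReal_univ, smul_eq_mul, one_mul, Jet.gen]; ring
    · exact iΨ
    · exact integrable_const _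
    · exact iΨ.sub (integrable_const _)
    · exact i1.const_mul _
    · exact (iΨ.sub (integrable_const _)).sub (i1.const_mul _)
    · exact i2.const_mul _
    · exact ((iΨ.sub (integrable_const _)).sub (i1.const_mul _)).sub (i2.const_mul _)
    · exact integrable_const _
  rw [← hint]
  calc |∫ w, R w ∂P| ≤ ∫ w, C1 * p6G w t ∂P := by
        rw [← Real.norm_eq_abs]
        exact norm_integral_le_of_norm_le (hGi.const_mul _)
          (Eventually.of_forall fun w => by simpa [Real.norm_eq_abs] using hpt w)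
    _ = C1 * ∫ w, p6G w t ∂P := integral_const_mul _ _
    _ ≤ C1 * (C0 * t ^ (3 / 2 : ℝ)) := by gcongr
    _ = _ := by ring

/-- Third order expansion of the exponential of a small expansion. -/
theorem p6_exp {a b c x t e r C : ℝ} (hep : 0 < e) (he1 : e ≤ 1) (he2 : e ≤ 1 / (4 * C + 1))
    (ha : |a| ≤ C) (hb : |b| ≤ C) (hc : |c| ≤ C) (hx : |x| ≤ e) (ht0 : 0 ≤ t) (ht : t ≤ e ^ 2)
    (hr : |r| ≤ C * e ^ 3) :
    Real.exp (a * x + b / 2 * x ^ 2 + c * t + r) ≤
      1 + (a * x + (b + a ^ 2) / 2 * x ^ 2 + c * t) + (C + 8 * C ^ 2 + 64 * C ^ 3) * e ^ 3 := by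
  have hC : 0 ≤ C := (abs_nonneg _).trans ha
  have h1 : |a * x| ≤ C * e := by rw [abs_mul]; gcongr
  have h2 : |b / 2 * x ^ 2| ≤ C * e ^ 2 := by
    rw [abs_mul, abs_div, abs_pow, abs_two]
    have : |b| / 2 ≤ C := by linarith [abs_nonneg b]
    gcongr
  have h3 : |c * t| ≤ C * e ^ 2 := by rw [abs_mul, abs_of_nonneg ht0]; gcongr
  have he32 : e ^ 3 ≤ e ^ 2 := pow_le_pow_of_le_one hep.le he1 (by norm_num)
  have he21 : e ^ 2 ≤ e := by nlinarith
  have he43 : e ^ 4 ≤ e ^ 3 := pow_le_pow_of_le_one hep.le he1 (by norm_num)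
  set z := b / 2 * x ^ 2 + c * t + r with hz
  have hzb : |z| ≤ 3 * C * e ^ 2 := by
    calc |z| ≤ |b / 2 * x ^ 2| + |c * t| + |r| := abs_add_three _ _ _
      _ ≤ C * e ^ 2 + C * e ^ 2 + C * e ^ 2 := by
          gcongr
          exact hr.trans (by gcongr)
      _ = _ := by ring
  set y := a * x + b / 2 * x ^ 2 + c * t + r with hy
  have hyz : y = a * x + z := by simp only [hy, hz]; ring
  have hyb : |y| ≤ 4 * C * e := by
    rw [hyz]
    calc |a * x + z| ≤ |a * x| + |z| := abs_add_le _ _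
      _ ≤ C * e + 3 * C * e ^ 2 := by gcongr
      _ ≤ C * e + 3 * C * e := by gcongr
      _ = _ := by ring
  have hy1 : |y| ≤ 1 := by
    refine hyb.trans ?_
    rw [le_div_iff₀ (by positivity)] at he2
    nlinarith
  have hb3 := Real.exp_bound hy1 (n := 3) (by norm_num)
  simp only [Finset.sum_range_succ, Finset.sum_range_zero, Nat.factorial, pow_zero, pow_one,
    Nat.succ_eq_add_one] at hb3
  norm_num at hb3
  have hb4 : Real.exp y ≤ 1 + y + y ^ 2 / 2 + |y| ^ 3 := by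
    have := (abs_le.1 hb3).2
    have h0 : 0 ≤ |y| ^ 3 := by positivity
    linarith
  have hy3 : |y| ^ 3 ≤ 64 * C ^ 3 * e ^ 3 := by
    calc |y| ^ 3 ≤ (4 * C * e) ^ 3 := by gcongr
      _ = _ := by ring
  have hy2 : y ^ 2 ≤ a ^ 2 * x ^ 2 + 16 * C ^ 2 * e ^ 3 := by
    have k1 : a * x * z ≤ C * e * (3 * C * e ^ 2) := by
      refine (le_abs_self _).trans ?_
      rw [abs_mul]; gcongr
    have k2 : z ^ 2 ≤ (3 * C * e ^ 2) ^ 2 := by
      rw [← sq_abs z]; gcongr
    have k3 : (3 * C * e ^ 2) ^ 2 ≤ 9 * C ^ 2 * e ^ 3 := by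
      calc (3 * C * e ^ 2) ^ 2 = 9 * C ^ 2 * e ^ 4 := by ring
        _ ≤ _ := by gcongr
    have k4 : 0 ≤ C ^ 2 * e ^ 3 := by positivity
    rw [hyz]
    nlinarith
  have hr' := (abs_le.1 hr).2
  have : y = a * x + b / 2 * x ^ 2 + c * t + r := hy
  nlinarith

/-- One-sided exponential version; no measurability needed (bound the integrand by a measurable
function of `w t - w 0` and `osc w t`: `exp x ≤ 1 + x + x²/2 + C |x|³` for bounded `x`). -/
theorem TE.expect_exp {ι : Type*} {I : Set ι} {Ψ' : ι → Path → ℝ → ℝ} {J : ι → Jet}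
    (h : TE I Ψ' J) {κ : ℝ} (hκ : 0 < κ) {P : Measure Path} (hP : IsDrv κ P)
    (Ψ : ι → Path → ℝ → ℝ) {e1 M : ℝ} (he1 : 0 < e1)
    (hle : ∀ i ∈ I, ∀ w t e, e ≤ e1 → Small w t e → Ψ i w t ≤ Ψ' i w t)
    (hM : ∀ i ∈ I, ∀ w t, 0 ≤ t → t ≤ 1 → Ψ i w t ≤ (J i).v + M) :
    ∃ C : ℝ, 0 ≤ C ∧ ∀ i ∈ I, ∀ t : ℝ, 0 < t → t ≤ 1 →
      ∫⁻ w, ENNReal.ofReal (Real.exp (Ψ i w t)) ∂P ≤
        ENNReal.ofReal (Real.exp (J i).v *
          (1 + ((J i).gen κ + κ / 2 * (J i).a ^ 2) * t + C * t ^ (3 / 2 : ℝ))) := by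
  obtain ⟨C', e0, he0, h⟩ := h
  obtain ⟨C0, hC0, hG⟩ := p6_int hκ hP
  have := hP.prob
  set C : ℝ := max C' 0 with hCdef
  have hC : 0 ≤ C := le_max_right _ _
  have hCC : C' ≤ C := le_max_left _ _
  set e2 : ℝ := min (min e0 e1) (min 1 (1 / (4 * C + 1))) with he2
  have he2p : 0 < e2 := by positivity
  set C1 : ℝ := (C + 8 * C ^ 2 + 64 * C ^ 3) +
    (Real.exp M / e2 ^ 3 + (C / e2 ^ 2 + 2 * C / e2)) with hC1
  have hC1n : 0 ≤ C1 := by positivity
  refine ⟨C1 * C0, by positivity, fun i hi t ht ht1 => ?_⟩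
  obtain ⟨ha, hb, hc, hT⟩ := h i hi
  replace ha := ha.trans hCC
  replace hb := hb.trans hCC
  replace hc := hc.trans hCC
  obtain ⟨hGi, hGle⟩ := hG t ht
  obtain ⟨i1, i2, e1', e2'⟩ := hP.integral_inc hκ.le ht.le
  set F : Path → ℝ := fun w => Real.exp (J i).v * (1 + ((J i).a * (w t - w 0) +
    ((J i).b + (J i).a ^ 2) / 2 * (w t - w 0) ^ 2 + (J i).c * t) + C1 * p6G w t) with hF
  have hpt : ∀ w, Real.exp (Ψ i w t) ≤ F w := by
    intro w
    have hs := p6_small w ht
    have hq := p6_cube_le w ht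
    set e := max (osc w t) √t with he
    have hep : 0 < e := hs.2.2.1
    have hx : |w t - w 0| ≤ e := hs.2.2.2 t ⟨ht.le, le_rfl⟩
    have hq' : C1 * e ^ 3 ≤ C1 * p6G w t := mul_le_mul_of_nonneg_left hq hC1n
    have hev := Real.exp_pos (J i).v
    rcases le_total e e2 with h1 | h1
    · have k0 : e ≤ e0 := h1.trans ((min_le_left _ _).trans (min_le_left _ _))
      have k1 : e ≤ e1 := h1.trans ((min_le_left _ _).trans (min_le_right _ _))
      have k2 : e ≤ 1 := h1.trans ((min_le_right _ _).trans (min_le_left _ _))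
      have k3 : e ≤ 1 / (4 * C + 1) := h1.trans ((min_le_right _ _).trans (min_le_right _ _))
      have hr := (hT w t e k0 hs).trans
        (mul_le_mul_of_nonneg_right hCC (by positivity : 0 ≤ e ^ 3))
      have hE := p6_exp hep k2 k3 ha hb hc hx ht.le hs.2.1 hr
      have k4 : Ψ i w t ≤ (J i).v + ((J i).a * (w t - w 0) + (J i).b / 2 * (w t - w 0) ^ 2 +
          (J i).c * t + (Ψ' i w t - (J i).v - (J i).a * (w t - w 0) -
            (J i).b / 2 * (w t - w 0) ^ 2 - (J i).c * t)) := by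
        have := hle i hi w t e k1 hs
        linarith
      refine (Real.exp_le_exp.2 k4).trans ?_
      rw [Real.exp_add]
      simp only [hF]
      refine mul_le_mul_of_nonneg_left (hE.trans ?_) hev.le
      have k5 : (C + 8 * C ^ 2 + 64 * C ^ 3) * e ^ 3 ≤ C1 * e ^ 3 := by
        have : 0 ≤ Real.exp M / e2 ^ 3 + (C / e2 ^ 2 + 2 * C / e2) := by positivity
        have : C + 8 * C ^ 2 + 64 * C ^ 3 ≤ C1 := by linarith
        gcongr
      linarith
    · have h2 := p6_crude he2p h1 ha hb hc hx ht.le hs.2.1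
      have h3 := p6_const_le (M := Real.exp M) (Real.exp_pos M).le he2p h1
      refine (Real.exp_le_exp.2 (hM i hi w t ht.le ht1)).trans ?_
      rw [Real.exp_add]
      simp only [hF]
      refine mul_le_mul_of_nonneg_left ?_ hev.le
      have k1 := (abs_le.1 h2).1
      have k2 : 0 ≤ (J i).a ^ 2 / 2 * (w t - w 0) ^ 2 := by positivity
      have k3 : 0 ≤ (C + 8 * C ^ 2 + 64 * C ^ 3) * e ^ 3 := by positivity
      have k4 : C1 * e ^ 3 = (C + 8 * C ^ 2 + 64 * C ^ 3) * e ^ 3 +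
          (Real.exp M / e2 ^ 3 * e ^ 3 + (C / e2 ^ 2 + 2 * C / e2) * e ^ 3) := by
        rw [hC1]; ring
      nlinarith
  have j1 : Integrable (fun w : Path => (J i).a * (w t - w 0) +
      ((J i).b + (J i).a ^ 2) / 2 * (w t - w 0) ^ 2) P := (i1.const_mul _).add (i2.const_mul _)
  have j2 : Integrable (fun w : Path => (J i).a * (w t - w 0) +
      ((J i).b + (J i).a ^ 2) / 2 * (w t - w 0) ^ 2 + (J i).c * t) P := j1.add (integrable_const _)
  have j3 : Integrable (fun w : Path => 1 + ((J i).a * (w t - w 0) +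
      ((J i).b + (J i).a ^ 2) / 2 * (w t - w 0) ^ 2 + (J i).c * t)) P :=
    (integrable_const _).add j2
  have hFi : Integrable F P := (j3.add (hGi.const_mul _)).const_mul _
  have hint : ∫ w, F w ∂P = Real.exp (J i).v * (1 + ((J i).gen κ + κ / 2 * (J i).a ^ 2) * t +
      C1 * ∫ w, p6G w t ∂P) := by
    simp only [hF]
    rw [integral_const_mul, integral_add j3 (hGi.const_mul _), integral_add (integrable_const _) j2,
      integral_add j1 (integrable_const _), integral_add (i1.const_mul _) (i2.const_mul _),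
      integral_const_mul (J i).a, integral_const_mul (((J i).b + (J i).a ^ 2) / 2),
      integral_const_mul C1, e1', e2', integral_const, integral_const]
    simp only [probReal_univ, smul_eq_mul, one_mul, Jet.gen]; ring
  calc ∫⁻ w, ENNReal.ofReal (Real.exp (Ψ i w t)) ∂P ≤ ∫⁻ w, ENNReal.ofReal (F w) ∂P :=
        lintegral_mono fun w => ENNReal.ofReal_le_ofReal (hpt w)
    _ = ENNReal.ofReal (∫ w, F w ∂P) :=
        (ofReal_integral_eq_lintegral_ofReal hFi
          (Eventually.of_forall fun w => (Real.exp_pos _).le.trans (hpt w))).symm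
    _ ≤ _ := by
        refine ENNReal.ofReal_le_ofReal ?_
        rw [hint]
        refine mul_le_mul_of_nonneg_left ?_ (Real.exp_pos _).le
        have : C1 * ∫ w, p6G w t ∂P ≤ C1 * (C0 * t ^ (3 / 2 : ℝ)) := by gcongr
        linarith

end Crest.Agent.R162
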