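import Crest.Agent.R162.T2
import Crest.Agent.R162.K3
import Crest.Agent.R162.L7
import Crest.Agent.R162.P6

/-! Row 162, block E (upper tail of the approximate natural measure): definitions.
Unit of length 1, fine scale `δ ≤ 1/10`, height cut-off `m`, target ball `ball z0 R`.
`r = ‖ζ‖`, `G = f ζ - f (i r)`, `L = ups f (i r)`, `W = 1/(1+‖G‖²)`.
`exp (θ PhiT + β Psi + θ' mass)` is a supermartingale. -/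

set_option autoImplicit false
open MeasureTheory ProbabilityTheory Set Filter Topology Metric
open scoped ENNReal NNReal ComplexConjugate

namespace Crest.Agent.R162.E

/-- `a = 2 - d = κ α / 8`. -/
noncomputable def ae (κ : ℝ) : ℝ := 2 - dd κ

/-- Points of height at least `y`. -/
def Hy (y : ℝ) : Set ℂ := {ζ | y ≤ ζ.im}

/-- The point of the imaginary axis with the same modulus. -/
noncomputable def top (ζ : ℂ) : ℂ := (‖ζ‖ : ℂ) * Complex.I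
noncomputable def Gv (f : ℂ → ℂ) (ζ : ℂ) : ℂ := f ζ - f (top ζ)
noncomputable def Lv (f : ℂ → ℂ) (ζ : ℂ) : ℝ := ups f (top ζ)
noncomputable def Wv (f : ℂ → ℂ) (ζ : ℂ) : ℝ := (1 + ‖Gv f ζ‖ ^ 2)⁻¹
/-- Relative volatility of the discount. -/
noncomputable def tv (f : ℂ → ℂ) (ζ : ℂ) : ℝ := (Lv f ζ * ‖Gv f ζ‖ + Lv f ζ ^ 2) * Wv f ζ

/-- Centre of the window `Ann r`. -/
noncomputable def ctr (r : ℝ) : ℂ := ((3 / 2 * r : ℝ) : ℂ) * Complex.I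

noncomputable def k1 (κ δ : ℝ) (x : ℝ) : ℝ :=
  Real.exp (-ae κ * x) * (st ((x - Real.log δ + 1) / 3) * (1 - st (x + 1)))
noncomputable def k2 (x : ℝ) : ℝ := 1 - st x
noncomputable def rho (m : ℝ) (ζ : ℂ) : ℝ := st (Real.log ζ.im + -Real.log m)

/-- The density of the potential. -/
noncomputable def dens (κ δ m : ℝ) (f : ℂ → ℂ) (ζ : ℂ) : ℝ :=
  rho m ζ * (atom (k1 κ δ) (aa κ) 0 ζ (ups f ζ) * Wv f ζ ^ 2 +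
    atom (k1 κ δ) (ae κ) 0 ζ (ups f ζ) * (Wv f ζ ^ 2 + -1 * Wv f ζ ^ 3) +
    atom k2 (ae κ / 2) 0 ζ (ups f ζ) * Wv f ζ ^ 2)

/-- Weight of the area potential. -/
noncomputable def vt (z0 : ℂ) (R : ℝ) (z : ℂ) : ℝ := (1 + max (‖z - z0‖ - R) 0)⁻¹ ^ 3
noncomputable def psi (u : ℝ) : ℝ := u / (1 + u)

noncomputable def PhiT (κ δ m : ℝ) (z0 : ℂ) (R : ℝ) (f : ℂ → ℂ) : ℝ :=
  ∫ ζ in H, ((ball z0 R).indicator (fun _ => (1 : ℝ)) (f ζ) * dens κ δ m f ζ) * ‖deriv f ζ‖ ^ 2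
noncomputable def Psi (z0 : ℂ) (R : ℝ) (f : ℂ → ℂ) : ℝ :=
  ∫ ζ in H, (psi (ups f ζ) * vt z0 R (f ζ)) * ‖deriv f ζ‖ ^ 2

def Aset (m : ℝ) (z0 : ℂ) (R : ℝ) (f : ℂ → ℂ) : Set ℂ :=
  {ζ | m / 2 ≤ ζ.im ∧ ups f ζ ≤ 4 ∧ f ζ ∈ ball z0 R}
noncomputable def nuB (m : ℝ) (z0 : ℂ) (R : ℝ) (f : ℂ → ℂ) : Measure ℂ :=
  (volume.restrict (Aset m z0 R f)).withDensity (fun ζ => ENNReal.ofReal (‖deriv f ζ‖ ^ 2))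
noncomputable def nuA (m : ℝ) (z0 : ℂ) (R : ℝ) (f : ℂ → ℂ) : Measure ℂ :=
  (volume.restrict (Hy m)).withDensity
    (fun ζ => ENNReal.ofReal (vt z0 R (f ζ) * ‖deriv f ζ‖ ^ 2))

/-- The creation rate with a height cut-off. -/
noncomputable def rateM (κ s1 δ m : ℝ) (f : ℂ → ℂ) (B : Set ℂ) : ℝ≥0∞ :=
  ∫⁻ ζ in H, B.indicator (fun _ => (1 : ℝ≥0∞)) (f ζ) *
    (Hy (3 * m)).indicator (fun _ => (1 : ℝ≥0∞)) ζ * cr κ s1 δ ζ (ups f ζ) *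
    ENNReal.ofReal (‖deriv f ζ‖ ^ 2)

open Classical in
/-- Enlarged creation region. -/
noncomputable def msk (κ s1 δ m : ℝ) (f : ℂ → ℂ) (ζ : ℂ) : ℝ :=
  if δ ≤ ups f ζ ∧ ups f ζ ≤ 3 * δ ∧ s1 / 2 ≤ Sn ζ ∧ 3 * m ≤ ζ.im then δ ^ (dd κ - 2) else 0

noncomputable def rateP (κ s1 δ m : ℝ) (z0 : ℂ) (R : ℝ) (f : ℂ → ℂ) : ℝ :=
  ∫ ζ, 2 * (msk κ s1 δ m f ζ / ‖ζ‖ ^ 2) ∂(nuB m z0 R f)

/-! ### Jets -/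

noncomputable def aX (ζ : ℂ) : ℂ := 1 - ((ζ.re / ‖ζ‖ : ℝ) : ℂ) * Complex.I
noncomputable def bX (ζ : ℂ) : ℂ := ((ζ.im ^ 2 / ‖ζ‖ ^ 3 : ℝ) : ℂ) * Complex.I
noncomputable def cX (ζ : ℂ) : ℂ := ((4 * ζ.re ^ 2 / ‖ζ‖ ^ 3 : ℝ) : ℂ) * Complex.I
noncomputable def aD (f : ℂ → ℂ) (ζ : ℂ) : ℂ := deriv f (top ζ) * aX ζ
noncomputable def bD (f : ℂ → ℂ) (ζ : ℂ) : ℂ :=
  deriv f (top ζ) * bX ζ + deriv (deriv f) (top ζ) * aX ζ ^ 2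
noncomputable def cD (f : ℂ → ℂ) (ζ : ℂ) : ℂ := deriv f (top ζ) * cX ζ

/-- Relative change of `1 + ‖G‖²` along the flow. -/
noncomputable def qv (f : ℂ → ℂ) (ζ : ℂ) (w : Path) (t : ℝ) : ℝ :=
  (1 + ‖f ζ - f (phi w t (top (Zf w t ζ)))‖ ^ 2) * Wv f ζ - 1

noncomputable def jq (f : ℂ → ℂ) (ζ : ℂ) : Jet :=
  ⟨0, -2 * (conj (Gv f ζ) * aD f ζ).re * Wv f ζ,
    (-2 * (conj (Gv f ζ) * bD f ζ).re + 2 * ‖aD f ζ‖ ^ 2) * Wv f ζ,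
    -2 * (conj (Gv f ζ) * cD f ζ).re * Wv f ζ⟩

/-- Jet of `W ^ K`. -/
noncomputable def jOm (K : ℕ) (f : ℂ → ℂ) (ζ : ℂ) : Jet :=
  ⟨Wv f ζ ^ K, -K * Wv f ζ ^ K * (jq f ζ).a,
    Wv f ζ ^ K * (-K * (jq f ζ).b + K * (K + 1) * (jq f ζ).a ^ 2), -K * Wv f ζ ^ K * (jq f ζ).c⟩

/-- Jet of `atom k e 0`. -/
noncomputable def jat (k : ℝ → ℝ) (e : ℝ) (ζ : ℂ) (u : ℝ) : Jet :=
  ⟨atom k e 0 ζ u, e * atom k e 0 ζ u * ζ.re / ‖ζ‖ ^ 2,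
    atom k e 0 ζ u * (e * (ζ.re ^ 2 - ζ.im ^ 2) + e ^ 2 * ζ.re ^ 2) / ‖ζ‖ ^ 4,
    -4 * e * atom k e 0 ζ u * ζ.re ^ 2 / ‖ζ‖ ^ 4 -
      4 * ζ.im ^ 2 / ‖ζ‖ ^ 4 * (deriv k (Real.log u) * Sn ζ ^ e)⟩

/-- `r² gen (S ^ e) / S ^ e`. -/
noncomputable def Lam (κ e s : ℝ) : ℝ :=
  -4 * e * (1 - s ^ 2) + κ / 2 * (e * (1 - 2 * s ^ 2) + e ^ 2 * (1 - s ^ 2))

noncomputable def jrho (m : ℝ) (ζ : ℂ) : Jet :=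
  ⟨rho m ζ, 0, 0, deriv st (Real.log ζ.im + -Real.log m) * (-2 / ‖ζ‖ ^ 2)⟩

/-- Jet of the bracket in `dens`. -/
noncomputable def jbr (κ δ : ℝ) (f : ℂ → ℂ) (ζ : ℂ) : Jet :=
  (((jat (k1 κ δ) (aa κ) ζ (ups f ζ)).mul (jOm 2 f ζ)).add
    ((jat (k1 κ δ) (ae κ) ζ (ups f ζ)).mul ((jOm 2 f ζ).add ((jOm 3 f ζ).smul (-1))))).add
    ((jat k2 (ae κ / 2) ζ (ups f ζ)).mul (jOm 2 f ζ))

noncomputable def jdens (κ δ m : ℝ) (f : ℂ → ℂ) (ζ : ℂ) : Jet := (jrho m ζ).mul (jbr κ δ f ζ)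

noncomputable def jpsi (ζ : ℂ) (u : ℝ) : Jet :=
  ⟨psi u, 0, 0, -4 * ζ.im ^ 2 / ‖ζ‖ ^ 4 * (u / (1 + u) ^ 2)⟩

/-- Index set of the expansions. -/
def Iset (y : ℝ) : Set ((ℂ → ℂ) × ℂ) := {p | Univ p.1 ∧ y ≤ p.2.im ∧ ups p.1 p.2 ≤ 4}

/-- The jet of the whole exponent. -/
noncomputable def Jtot (κ s1 δ m : ℝ) (z0 : ℂ) (R θ β θ' : ℝ) (f : ℂ → ℂ) : Jet :=
  ((((Jet.integral (nuB m z0 R f) (fun ζ => jdens κ δ m f ζ)).smul θ).add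
    ((Jet.integral (nuA m z0 R f) (fun ζ => jpsi ζ (ups f ζ))).smul β)).add
    (Jet.const (β * (Psi z0 R f - ∫ ζ, psi (ups f ζ) ∂(nuA m z0 R f))))).add
    ((⟨0, 0, 0, 1⟩ : Jet).smul (θ' * rateP κ s1 δ m z0 R f))

/-! ### Pieces of the pointwise estimate -/

noncomputable def chi (κ m : ℝ) (f : ℂ → ℂ) (ζ : ℂ) : ℝ :=
  rho m ζ * k2 (Real.log (ups f ζ)) * Wv f ζ ^ 2 * Sn ζ ^ (ae κ / 2)
noncomputable def Vv (κ m : ℝ) (f : ℂ → ℂ) (ζ : ℂ) : ℝ :=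
  rho m ζ * k2 (Real.log (ups f ζ)) * Wv f ζ ^ 2 * (ups f ζ ^ (-ae κ) * Sn ζ ^ ae κ)
/-- Drop rate of the area potential (times `r² / 4`). -/
noncomputable def dr (f : ℂ → ℂ) (ζ : ℂ) : ℝ := Sn ζ ^ 2 * (ups f ζ / (1 + ups f ζ) ^ 2)
open Classical in
noncomputable def pt (m : ℝ) (f : ℂ → ℂ) (ζ : ℂ) : ℝ := if m ≤ ζ.im then dr f ζ else 0
open Classical in
noncomputable def bad (κ C' m : ℝ) (f : ℂ → ℂ) (ζ : ℂ) : ℝ :=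
  if m ≤ ζ.im ∧ ‖Gv f ζ‖ ≤ C' * Lv f ζ then
    Lv f ζ ^ 2 * Wv f ζ ^ 3 * (ups f ζ ^ (-ae κ) * Sn ζ ^ ae κ + 1) else 0

open Classical in
/-- Bound for the initial potential. -/
noncomputable def init (κ : ℝ) (f : ℂ → ℂ) (B : Set ℂ) : ℝ≥0∞ :=
  ∫⁻ ζ in H, B.indicator (fun _ => (1 : ℝ≥0∞)) (f ζ) *
    ENNReal.ofReal (if ups f ζ ≤ 3 then ups f ζ ^ (-ae κ) * Sn ζ ^ ae κ + 1 else 0) *
    ENNReal.ofReal (‖deriv f ζ‖ ^ 2)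

end Crest.Agent.R162.E
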