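import Crest.Agent.R162.LA

/-! Row 162, block L, part B: existence, gluing, symmetries, a priori bounds. -/

set_option autoImplicit false
open MeasureTheory Set Filter Topology Metric
open scoped ENNReal NNReal ComplexConjugate

namespace Crest.Agent.R162

variable {w w' : Path} {a b : ℝ} {g g' : ℝ → ℂ}

/-- The truncated field. -/
private noncomputable def h44F (m : ℝ) (Z : ℂ) : ℂ := ((2 / (max ‖Z‖ m) ^ 2 : ℝ) : ℂ) * conj Z

private theorem h44F_norm {m : ℝ} (hm : 0 < m) (Z : ℂ) : ‖h44F m Z‖ ≤ 2 / m := by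
  have h1 : ‖Z‖ ≤ max ‖Z‖ m := le_max_left _ _
  have h2 : m ≤ max ‖Z‖ m := le_max_right _ _
  unfold h44F
  generalize max ‖Z‖ m = n at h1 h2
  have hn : 0 < n := hm.trans_le h2
  rw [norm_mul, Complex.norm_real, Complex.norm_conj, Real.norm_eq_abs,
    abs_of_nonneg (by positivity)]
  calc 2 / n ^ 2 * ‖Z‖ ≤ 2 / n ^ 2 * n := by gcongr
    _ = 2 / n := by field_simp
    _ ≤ 2 / m := by gcongr

private theorem h44F_lip {m : ℝ} (hm : 0 < m) (Z Z' : ℂ) :
    ‖h44F m Z - h44F m Z'‖ ≤ 6 / m ^ 2 * ‖Z - Z'‖ := by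
  have h1 : ‖Z‖ ≤ max ‖Z‖ m := le_max_left _ _
  have h2 : m ≤ max ‖Z‖ m := le_max_right _ _
  have h3 : m ≤ max ‖Z'‖ m := le_max_right _ _
  have h4 : |max ‖Z'‖ m - max ‖Z‖ m| ≤ ‖Z - Z'‖ :=
    (abs_max_sub_max_le_abs _ _ _).trans (by rw [abs_sub_comm]; exact abs_norm_sub_norm_le _ _)
  unfold h44F
  generalize max ‖Z‖ m = n at h1 h2 h4
  generalize max ‖Z'‖ m = n' at h3 h4
  have hn : 0 < n := hm.trans_le h2
  have hn' : 0 < n' := hm.trans_le h3
  have e : ((2 / n ^ 2 : ℝ) : ℂ) * conj Z - ((2 / n' ^ 2 : ℝ) : ℂ) * conj Z' =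
      ((2 / n' ^ 2 : ℝ) : ℂ) * conj (Z - Z') + ((2 / n ^ 2 - 2 / n' ^ 2 : ℝ) : ℂ) * conj Z := by
    rw [map_sub]; push_cast; ring
  rw [e]
  refine (norm_add_le _ _).trans ?_
  rw [norm_mul, norm_mul, Complex.norm_real, Complex.norm_real, Complex.norm_conj,
    Complex.norm_conj, Real.norm_eq_abs, Real.norm_eq_abs, abs_of_nonneg (by positivity)]
  have e2 : 2 / n ^ 2 - 2 / n' ^ 2 = (n' - n) * (2 * (n + n') / (n ^ 2 * n' ^ 2)) := by
    field_simp; ring
  rw [e2, abs_mul, abs_of_nonneg (a := 2 * (n + n') / (n ^ 2 * n' ^ 2)) (by positivity)]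
  have h5 : 2 / n' ^ 2 ≤ 2 / m ^ 2 := by gcongr
  have h6 : 2 / (n * n') ≤ 2 / m ^ 2 := by rw [sq]; gcongr
  have h7 : |n' - n| * (2 * (n + n') / (n ^ 2 * n' ^ 2)) * ‖Z‖ ≤
      ‖Z - Z'‖ * (2 * (n + n') / (n ^ 2 * n' ^ 2)) * n := by gcongr
  have e3 : ‖Z - Z'‖ * (2 * (n + n') / (n ^ 2 * n' ^ 2)) * n =
      (2 / n' ^ 2 + 2 / (n * n')) * ‖Z - Z'‖ := by
    field_simp
  have e4 : 6 / m ^ 2 = 2 / m ^ 2 + (2 / m ^ 2 + 2 / m ^ 2) := by ring
  rw [e3] at h7
  rw [e4, add_mul]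
  refine add_le_add (by gcongr) (h7.trans (by gcongr))

private theorem h44F_eq {m : ℝ} (hm : 0 < m) {Z : ℂ} (h : m ≤ ‖Z‖) : h44F m Z = 2 / Z := by
  have hZ : Z ≠ 0 := norm_pos_iff.1 (hm.trans_le h)
  have hc : conj Z ≠ 0 := by simpa using hZ
  unfold h44F
  rw [max_eq_left h]
  push_cast
  rw [← Complex.mul_conj' Z]
  field_simp

private theorem h44F_im (m : ℝ) (Z : ℂ) : (h44F m Z).im = -(2 / (max ‖Z‖ m) ^ 2) * Z.im := by
  unfold h44F
  rw [Complex.im_ofReal_mul, Complex.conj_im]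
  ring

private theorem h44F_cont {m : ℝ} (hm : 0 < m) : Continuous (h44F m) :=
  (LipschitzWith.of_dist_le' (K := 6 / m ^ 2) fun x y => by
    rw [dist_eq_norm, dist_eq_norm]; exact h44F_lip hm x y).continuous

/-- The solution of the truncated equation and its a priori bounds. -/
private theorem h44_exists (w : Path) {a b t₀ m : ℝ} (ht : t₀ ∈ Icc a b) (hm : 0 < m) {z : ℂ}
    (hz : 0 < z.im) : ∃ g : ℝ → ℂ, g t₀ = z ∧
      (∀ s ∈ Icc a b, HasDerivWithinAt g (h44F m (g s - (w s : ℂ))) (Icc a b) s) ∧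
      (∀ s ∈ Icc a b, 0 < (g s).im) ∧ AntitoneOn (fun s => (g s).im) (Icc a b) ∧
      MonotoneOn (fun s => (g s).im ^ 2 + 4 * s) (Icc a b) := by
  have hab : 0 ≤ b - a := by linarith [ht.1, ht.2]
  have hPL : IsPicardLindelof (fun (s : ℝ) (x : ℂ) => h44F m (x - (w s : ℂ))) (⟨t₀, ht⟩ : Icc a b) z
      ⟨2 / m * (b - a), by positivity⟩ 0 ⟨2 / m, by positivity⟩ ⟨6 / m ^ 2, by positivity⟩ := by
    refine ⟨fun s _ => ?_, fun x _ => ?_, fun s _ x _ => h44F_norm hm _, ?_⟩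
    · refine LipschitzOnWith.of_dist_le_mul fun x _ y _ => ?_
      rw [dist_eq_norm, dist_eq_norm]
      have h1 := h44F_lip hm (x - (w s : ℂ)) (y - (w s : ℂ))
      rw [sub_sub_sub_cancel_right] at h1
      exact h1
    · exact ((h44F_cont hm).comp
        (continuous_const.sub (Complex.continuous_ofReal.comp w.continuous))).continuousOn
    · change 2 / m * max (b - t₀) (t₀ - a) ≤ 2 / m * (b - a) - 0
      rw [sub_zero]
      gcongr
      exact max_le (by linarith [ht.1]) (by linarith [ht.2])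
  obtain ⟨g, hg0, hg⟩ := hPL.exists_eq_forall_mem_Icc_hasDerivWithinAt₀
  have hg0' : g t₀ = z := hg0
  have hgc : ContinuousOn g (Icc a b) := fun s hs => (hg s hs).continuousWithinAt
  obtain ⟨c, hc⟩ : ∃ c : ℝ → ℝ, c = fun s => 2 / (max ‖g s - (w s : ℂ)‖ m) ^ 2 := ⟨_, rfl⟩
  have hc0 : ∀ s, 0 ≤ c s := fun s => by rw [hc]; positivity
  have hcc : ContinuousOn c (Icc a b) := by
    rw [hc]
    refine continuousOn_const.div (ContinuousOn.pow (ContinuousOn.sup ?_ continuousOn_const) 2)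
      fun s _ => (pow_pos (hm.trans_le (le_max_right _ _)) 2).ne'
    exact (hgc.sub (Complex.continuous_ofReal.comp w.continuous).continuousOn).norm
  have hy : ∀ s ∈ Icc a b,
      HasDerivWithinAt (fun s => (g s).im) (-(c s) * (g s).im) (Icc a b) s := by
    intro s hs
    have h1 := Complex.imCLM.hasFDerivAt.comp_hasDerivWithinAt s (hg s hs)
    refine HasDerivWithinAt.congr_deriv h1 ?_
    rw [Complex.imCLM_apply, h44F_im, hc]
    simp
  have hyc : ContinuousOn (fun s => (g s).im) (Icc a b) := fun s hs => (hy s hs).continuousWithinAt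
  have hne : ∀ s ∈ Icc a b, (g s).im ≠ 0 := by
    intro s hs h0
    have h1 := linear_ode (D := fun s => (((g s).im : ℝ) : ℂ)) (c := fun s => ((c s : ℝ) : ℂ))
      (Complex.continuous_ofReal.comp_continuousOn hcc)
      (fun r hr => by
        have h2 := Complex.ofRealCLM.hasFDerivAt.comp_hasDerivWithinAt r (hy r hr)
        refine HasDerivWithinAt.congr_deriv h2 ?_
        simp) ht hs
    simp only [h0, hg0', Complex.ofReal_zero] at h1
    exact mul_ne_zero (by exact_mod_cast hz.ne') (Complex.exp_ne_zero _) h1.symm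
  have hpos : ∀ s ∈ Icc a b, 0 < (g s).im := by
    intro s hs
    by_contra hn
    have h1 := isPreconnected_Icc.intermediate_value hs ht hyc
      (show (0 : ℝ) ∈ Icc (g s).im (g t₀).im from ⟨not_lt.1 hn, by rw [hg0']; exact hz.le⟩)
    obtain ⟨r, hr, h0⟩ := h1
    exact hne r hr h0
  refine ⟨g, hg0', hg, hpos, ?_, ?_⟩
  · refine antitoneOn_of_hasDerivWithinAt_nonpos (convex_Icc a b) hyc
      (fun s hs => (hy s (interior_subset hs)).mono interior_subset) fun s hs => ?_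
    have := mul_nonneg (hc0 s) (hpos s (interior_subset hs)).le
    linarith
  · have hd : ∀ s ∈ Icc a b, HasDerivWithinAt (fun s => (g s).im ^ 2 + 4 * s)
        (4 - 2 * (c s * (g s).im ^ 2)) (Icc a b) s := by
      intro s hs
      refine HasDerivWithinAt.congr_deriv
        (((hy s hs).pow 2).add ((hasDerivWithinAt_id s _).const_mul 4)) ?_
      simp only [Nat.cast_ofNat, Nat.add_one_sub_one, pow_one]
      ring
    refine monotoneOn_of_hasDerivWithinAt_nonneg (convex_Icc a b)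
      (fun s hs => (hd s hs).continuousWithinAt)
      (fun s hs => (hd s (interior_subset hs)).mono interior_subset) fun s hs => ?_
    have h1 : (g s).im ≤ max ‖g s - (w s : ℂ)‖ m := by
      have := Complex.im_le_norm (g s - (w s : ℂ))
      exact le_trans (by simpa using this) (le_max_left _ _)
    have h2 : 0 < max ‖g s - (w s : ℂ)‖ m := hm.trans_le (le_max_right _ _)
    have h3 : c s * (g s).im ^ 2 ≤ 2 := by
      rw [hc]
      change 2 / (max ‖g s - (w s : ℂ)‖ m) ^ 2 * (g s).im ^ 2 ≤ 2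
      rw [div_mul_eq_mul_div, div_le_iff₀ (by positivity)]
      have := pow_le_pow_left₀ (hpos s (interior_subset hs)).le h1 2
      linarith
    linarith

private theorem h44_sol {m : ℝ} (hm : 0 < m)
    (hg : ∀ s ∈ Icc a b, HasDerivWithinAt g (h44F m (g s - (w s : ℂ))) (Icc a b) s)
    (hpos : ∀ s ∈ Icc a b, 0 < (g s).im) (h : ∀ s ∈ Icc a b, m ≤ ‖g s - (w s : ℂ)‖) :
    Sol w a b g :=
  ⟨hpos, fun s hs => by rw [← h44F_eq hm (h s hs)]; exact hg s hs⟩

private theorem h44_im_le (x : ℂ) (r : ℝ) : x.im ≤ ‖x - (r : ℂ)‖ := by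
  simpa using Complex.im_le_norm (x - (r : ℂ))

/-- Backward existence (Picard–Lindelöf for the field with the imaginary part clamped below at
`z.im`; the imaginary part of the clamped solution is antitone, so the clamp is inactive). -/
theorem exists_bwd (w : Path) {a b : ℝ} (hab : a ≤ b) {z : ℂ} (hz : 0 < z.im) :
    ∃ g, Sol w a b g ∧ g b = z := by
  have hb : b ∈ Icc a b := right_mem_Icc.2 hab
  obtain ⟨g, hg0, hg, hpos, hanti, -⟩ := h44_exists w hb hz hz
  refine ⟨g, h44_sol hz hg hpos fun s hs => le_trans ?_ (h44_im_le _ _), hg0⟩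
  rw [← hg0]
  exact hanti hs hb hs.2

/-- Forward existence for a time `< (im z)² / 4` (clamp at `m = √((im z)² - 4 (b - a))`). -/
theorem exists_fwd (w : Path) {a b : ℝ} (hab : a ≤ b) {z : ℂ} (hz : 0 < z.im)
    (h : 4 * (b - a) < z.im ^ 2) : ∃ g, Sol w a b g ∧ g a = z := by
  have ha : a ∈ Icc a b := left_mem_Icc.2 hab
  have hm : 0 < Real.sqrt (z.im ^ 2 - 4 * (b - a)) := Real.sqrt_pos.2 (by linarith)
  obtain ⟨g, hg0, hg, hpos, -, hmono⟩ := h44_exists w ha hm hz
  refine ⟨g, h44_sol hm hg hpos fun s hs => le_trans ?_ (h44_im_le _ _), hg0⟩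
  have h1 : (g a).im ^ 2 + 4 * a ≤ (g s).im ^ 2 + 4 * s := hmono ha hs hs.1
  rw [hg0] at h1
  exact Real.sqrt_le_iff.2 ⟨(hpos s hs).le, by linarith [hs.2]⟩

theorem Sol.glue {c : ℝ} (hab : a ≤ b) (hbc : b ≤ c) (h : Sol w a b g) (h' : Sol w b c g')
    (he : g b = g' b) : Sol w a c (fun s => if s ≤ b then g s else g' s) := by
  have e1 : ∀ s ∈ Icc a b, (if s ≤ b then g s else g' s) = g s := fun s hs => if_pos hs.2
  have e2 : ∀ s ∈ Icc b c, (if s ≤ b then g s else g' s) = g' s := by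
    intro s hs
    split_ifs with hsb
    · rw [le_antisymm hsb hs.1, he]
    · rfl
  have k1 := h.congr e1
  have k2 := h'.congr e2
  refine ⟨fun s hs => ?_, fun s hs => ?_⟩
  · rcases le_total s b with hsb | hsb
    · exact k1.pos s ⟨hs.1, hsb⟩
    · exact k2.pos s ⟨hsb, hs.2⟩
  · rw [← Icc_union_Icc_eq_Icc hab hbc]
    refine HasDerivWithinAt.union ?_ ?_
    · by_cases hm : s ∈ Icc a b
      · exact k1.deriv s hm
      · exact HasFDerivWithinAt.of_notMem_closure (by rwa [closure_Icc])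
    · by_cases hm : s ∈ Icc b c
      · exact k2.deriv s hm
      · exact HasFDerivWithinAt.of_notMem_closure (by rwa [closure_Icc])

theorem Sol.shift (h : Sol w a b g) (s : ℝ) :
    Sol (shift s w) (a - s) (b - s) (fun r => g (s + r)) := by
  have hm : MapsTo (fun r : ℝ => s + r) (Icc (a - s) (b - s)) (Icc a b) :=
    fun r hr => ⟨by linarith [hr.1], by linarith [hr.2]⟩
  refine ⟨fun r hr => h.pos _ (hm hr), fun r hr => ?_⟩
  have := (h.deriv _ (hm hr)).scomp r ((hasDerivAt_id r).const_add s).hasDerivWithinAt hm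
  rw [one_smul] at this
  exact this

theorem Sol.of_shift {s : ℝ} (h : Sol (R162.shift s w) a b g) :
    Sol w (s + a) (s + b) (fun r => g (r - s)) := by
  have hm : MapsTo (fun r : ℝ => r - s) (Icc (s + a) (s + b)) (Icc a b) :=
    fun r hr => ⟨by linarith [hr.1], by linarith [hr.2]⟩
  refine ⟨fun r hr => h.pos _ (hm hr), fun r hr => ?_⟩
  have := (h.deriv _ (hm hr)).scomp r ((hasDerivAt_id r).sub_const s).hasDerivWithinAt hm
  rw [one_smul] at this
  have e : (R162.shift s w) (r - s) = w r := by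
    change w (s + (r - s)) = w r
    rw [add_sub_cancel]
  rw [e] at this
  exact this

/-- Adding a real constant to the path and to the solution. -/
theorem Sol.add_const (h : Sol w a b g) (c : ℝ) (hw : ∀ s ∈ Icc a b, w' s = w s + c) :
    Sol w' a b (fun s => g s + (c : ℂ)) := by
  refine ⟨fun s hs => by simpa using h.pos s hs, fun s hs => ?_⟩
  have e : g s + (c : ℂ) - (w' s : ℂ) = g s - (w s : ℂ) := by
    rw [hw s hs]
    push_cast
    ring
  rw [e]
  exact (h.deriv s hs).add_const _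

theorem Sol.scale (h : Sol w a b g) {r : ℝ} (hr : 0 < r) :
    Sol (scale r w) (r ^ 2 * a) (r ^ 2 * b) (fun s => (r : ℂ) * g (s / r ^ 2)) := by
  have hr2 : 0 < r ^ 2 := by positivity
  have hm : MapsTo (fun s : ℝ => s / r ^ 2) (Icc (r ^ 2 * a) (r ^ 2 * b)) (Icc a b) :=
    fun s hs => ⟨by rw [le_div_iff₀ hr2]; linarith [hs.1], by rw [div_le_iff₀ hr2]; linarith [hs.2]⟩
  refine ⟨fun s hs => ?_, fun s hs => ?_⟩
  · have := h.pos _ (hm hs)
    rw [Complex.im_ofReal_mul]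
    exact mul_pos hr this
  · have := ((h.deriv _ (hm hs)).scomp s
      ((hasDerivAt_id s).div_const (r ^ 2)).hasDerivWithinAt hm).const_mul (r : ℂ)
    have hne := h.ne (hm hs)
    have hrc : (r : ℂ) ≠ 0 := by exact_mod_cast hr.ne'
    refine this.congr_deriv ?_
    have e : ((R162.scale r w s : ℝ) : ℂ) = r * (w (s / r ^ 2) : ℂ) := by
      change ((r * w (s / r ^ 2) : ℝ) : ℂ) = _
      push_cast
      rfl
    rw [e, ← mul_sub, Complex.real_smul]
    push_cast
    field_simp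

private theorem h32_first {f : ℝ → ℝ} {s s' M : ℝ} (hf : ContinuousOn f (Icc s s'))
    (hex : ∃ r ∈ Icc s s', f r ≤ M) :
    ∃ r1 ∈ Icc s s', f r1 ≤ M ∧ ∀ r, s ≤ r → r < r1 → M < f r := by
  have hc : IsCompact (Icc s s' ∩ f ⁻¹' Iic M) :=
    isCompact_Icc.of_isClosed_subset
      (hf.preimage_isClosed_of_isClosed isClosed_Icc isClosed_Iic) inter_subset_left
  obtain ⟨r0, h0, h0'⟩ := hex
  obtain ⟨r1, h1, h2⟩ := hc.exists_isLeast ⟨r0, h0, h0'⟩
  refine ⟨r1, h1.1, h1.2, fun r hr hr1 => ?_⟩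
  by_contra hle
  exact absurd (h2 ⟨⟨hr, hr1.le.trans h1.1.2⟩, not_lt.1 hle⟩) (not_le.2 hr1)

private theorem h32_last {f : ℝ → ℝ} {s s' M : ℝ} (hf : ContinuousOn f (Icc s s'))
    (hex : ∃ r ∈ Icc s s', f r ≤ M) :
    ∃ r1 ∈ Icc s s', f r1 ≤ M ∧ ∀ r, r1 < r → r ≤ s' → M < f r := by
  have hc : IsCompact (Icc s s' ∩ f ⁻¹' Iic M) :=
    isCompact_Icc.of_isClosed_subset
      (hf.preimage_isClosed_of_isClosed isClosed_Icc isClosed_Iic) inter_subset_left
  obtain ⟨r0, h0, h0'⟩ := hex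
  obtain ⟨r1, h1, h2⟩ := hc.exists_isGreatest ⟨r0, h0, h0'⟩
  refine ⟨r1, h1.1, h1.2, fun r hr1 hr => ?_⟩
  by_contra hle
  exact absurd (h2 ⟨⟨h1.1.1.trans hr1.le, hr⟩, not_lt.1 hle⟩) (not_le.2 hr1)

private theorem h32_speed (h : Sol w a b g) {s s' m : ℝ} (hs : a ≤ s) (hss : s ≤ s') (hs' : s' ≤ b)
    (hm : 0 < m) (H : ∀ r ∈ Ioo s s', m ≤ ‖g r - (w r : ℂ)‖) :
    ‖g s' - g s‖ ≤ 2 / m * (s' - s) := by
  rcases hss.eq_or_lt with rfl | hlt
  · simp
  have h' := h.mono hs hs'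
  have H' : ∀ r ∈ Icc s s', m ≤ ‖g r - (w r : ℂ)‖ := by
    have := le_on_closure (f := fun _ => m) (g := fun r => ‖g r - (w r : ℂ)‖) H
      continuousOn_const (by rw [closure_Ioo hlt.ne]; exact h'.continuousOn_Z.norm)
    rw [closure_Ioo hlt.ne] at this
    exact this
  refine norm_image_sub_le_of_norm_deriv_le_segment' h'.deriv (fun r hr => ?_) s' ⟨hss, le_rfl⟩
  rw [norm_div, Complex.norm_two]
  exact div_le_div_of_nonneg_left (by norm_num) hm (H' r (Ico_subset_Icc_self hr))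

private theorem h32_re (h : Sol w a b g) {c M ε : ℝ} (hA : ∀ s ∈ Icc a b, ε * (w s - c) ≤ M)
    {s s' : ℝ} (hs : a ≤ s) (hss : s ≤ s') (hs' : s' ≤ b) (hM : ε * ((g s').re - c) ≤ M) :
    ε * ((g s).re - c) ≤ M := by
  have hc : ∀ {x y : ℝ}, Sol w x y g → ContinuousOn (fun r => ε * ((g r).re - c)) (Icc x y) :=
    fun h => continuousOn_const.mul
      ((Complex.continuous_re.comp_continuousOn h.continuousOn).sub continuousOn_const)
  obtain ⟨r1, h1, h2, h3⟩ := h32_first (hc (h.mono hs hs')) ⟨s', ⟨hss, le_rfl⟩, hM⟩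
  have h' := h.mono hs (h1.2.trans hs')
  have hmono : MonotoneOn (fun r => ε * ((g r).re - c)) (Icc s r1) := by
    refine monotoneOn_of_hasDerivWithinAt_nonneg (convex_Icc _ _)
      (f' := fun r => ε * (2 / (g r - (w r : ℂ))).re) (hc h') (fun r hr => ?_) fun r hr => ?_
    · have hd := (h'.deriv r (interior_subset hr)).mono interior_subset
      have hre : HasDerivWithinAt (fun r => (g r).re) (2 / (g r - (w r : ℂ))).re
          (interior (Icc s r1)) r :=
        Complex.reCLM.hasFDerivAt.comp_hasDerivWithinAt r hd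
      exact (hre.sub_const c).const_mul ε
    · rw [interior_Icc] at hr
      have e1 := h3 r hr.1.le hr.2
      have e2 := hA r ⟨hs.trans hr.1.le, hr.2.le.trans (h1.2.trans hs')⟩
      have e3 : (2 / (g r - (w r : ℂ))).re =
          2 * ((g r).re - w r) / Complex.normSq (g r - (w r : ℂ)) := by
        rw [Complex.div_re]; simp
      have e4 : 0 ≤ ε * ((g r).re - w r) := by nlinarith
      have e5 := Complex.normSq_nonneg (g r - (w r : ℂ))
      show 0 ≤ ε * (2 / (g r - (w r : ℂ))).re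
      rw [e3, show ε * (2 * ((g r).re - w r) / Complex.normSq (g r - (w r : ℂ))) =
        2 * (ε * ((g r).re - w r)) / Complex.normSq (g r - (w r : ℂ)) by ring]
      positivity
  exact (hmono ⟨le_rfl, h1.1⟩ ⟨h1.1, le_rfl⟩ h1.1).trans h2

/-- Going backwards in time the real part does not leave `[-A', A']`. -/
theorem Sol.abs_re_le (h : Sol w a b g) {c A : ℝ} (hA : ∀ s ∈ Icc a b, |w s - c| ≤ A)
    {s s' : ℝ} (hs : a ≤ s) (hss : s ≤ s') (hs' : s' ≤ b) :
    |(g s).re - c| ≤ max |(g s').re - c| A := by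
  have e1 := le_max_left |(g s').re - c| A
  have e2 := le_max_right |(g s').re - c| A
  have e3 := le_abs_self ((g s').re - c)
  have e4 := neg_le_abs ((g s').re - c)
  have h1 := h32_re h (c := c) (M := max |(g s').re - c| A) (ε := 1)
    (fun r hr => by linarith [(abs_le.1 (hA r hr)).2]) hs hss hs' (by linarith)
  have h2 := h32_re h (c := c) (M := max |(g s').re - c| A) (ε := -1)
    (fun r hr => by linarith [(abs_le.1 (hA r hr)).1]) hs hss hs' (by linarith)
  rw [abs_le]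
  constructor <;> linarith

/-- Uniform displacement bound (first time the solution is `√(b-a)`-close to the path). -/
theorem Sol.disp_le (h : Sol w a b g) {c A : ℝ} (hA : ∀ s ∈ Icc a b, |w s - c| ≤ A)
    {s s' : ℝ} (hs : a ≤ s) (hss : s ≤ s') (hs' : s' ≤ b) :
    ‖g s' - g s‖ ≤ 20 * (A + Real.sqrt (b - a)) := by
  have hab : a ≤ b := hs.trans (hss.trans hs')
  have hA0 : 0 ≤ A := (abs_nonneg _).trans (hA a ⟨le_rfl, hab⟩)
  set d := Real.sqrt (b - a) with hd
  have hd0 : 0 ≤ d := Real.sqrt_nonneg _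
  have hd2 : d ^ 2 = b - a := Real.sq_sqrt (by linarith)
  rcases hd0.eq_or_lt with h0 | h0
  · have : s = s' := by
      have : b - a = 0 := by rw [← hd2, ← h0]; norm_num
      linarith
    rw [this, sub_self, norm_zero]; positivity
  have key : ∀ r, s ≤ r → r ≤ s' → (∀ x ∈ Ioo r s', d ≤ ‖g x - (w x : ℂ)‖) →
      ‖g s' - g r‖ ≤ 2 * d := by
    intro r h1 h2 H
    refine (h32_speed h (hs.trans h1) h2 hs' h0 H).trans ?_
    rw [div_mul_eq_mul_div, div_le_iff₀ h0]
    nlinarith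
  by_cases hex : ∃ r ∈ Icc s s', ‖g r - (w r : ℂ)‖ ≤ d
  · obtain ⟨r1, h1, h2, h3⟩ := h32_last (h.mono hs hs').continuousOn_Z.norm hex
    have hr1 : r1 ∈ Icc a b := ⟨hs.trans h1.1, h1.2.trans hs'⟩
    have e1 := key r1 h1.1 h1.2 fun x hx => (h3 x hx.1 hx.2.le).le
    have e2 : ‖g r1 - (c : ℂ)‖ ≤ d + A := by
      have : g r1 - (c : ℂ) = (g r1 - (w r1 : ℂ)) + ((w r1 - c : ℝ) : ℂ) := by push_cast; ring
      rw [this]
      refine (norm_add_le _ _).trans (add_le_add h2 ?_)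
      rw [Complex.norm_real, Real.norm_eq_abs]; exact hA r1 hr1
    have e3 : |(g s).re - c| ≤ d + A := by
      refine (h.abs_re_le hA hs h1.1 hr1.2).trans (max_le ?_ (by linarith))
      have := Complex.abs_re_le_norm (g r1 - (c : ℂ))
      simp only [Complex.sub_re, Complex.ofReal_re] at this
      linarith
    have e4 : (g s).im ≤ 3 * d := by
      have i1 := h.im_sq_le hs h1.1 hr1.2
      have i2 := (h.im_le_norm hr1).trans h2
      have i3 := h.pos r1 hr1
      have i4 : (g s).im ^ 2 ≤ (3 * d) ^ 2 := by nlinarith [hr1.2]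
      exact (abs_le_of_sq_le_sq' i4 (by positivity)).2
    have e5 : ‖g s - (c : ℂ)‖ ≤ 4 * d + A := by
      have := Complex.norm_le_abs_re_add_abs_im (g s - (c : ℂ))
      simp only [Complex.sub_re, Complex.ofReal_re, Complex.sub_im, Complex.ofReal_im,
        sub_zero] at this
      rw [abs_of_pos (h.pos s ⟨hs, hss.trans hs'⟩)] at this
      linarith
    have e6 : g s' - g s = (g s' - g r1) + ((g r1 - (c : ℂ)) - (g s - (c : ℂ))) := by ring
    rw [e6]
    have := norm_add_le (g s' - g r1) ((g r1 - (c : ℂ)) - (g s - (c : ℂ)))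
    have := _root_.norm_sub_le (g r1 - (c : ℂ)) (g s - (c : ℂ))
    linarith
  · have := key s le_rfl hss fun x hx => by
      by_contra hlt
      exact hex ⟨x, Ioo_subset_Icc_self hx, (not_le.1 hlt).le⟩
    linarith

/-- Far from the path the solution hardly moves. -/
theorem Sol.far (h : Sol w a b g) {c A R : ℝ} (hA : ∀ s ∈ Icc a b, |w s - c| ≤ A)
    {s s' : ℝ} (hs : s ∈ Icc a b) (hs' : s' ∈ Icc a b) (hR : 0 < R)
    (hRA : 4 * (A + Real.sqrt (b - a)) ≤ R) (hg : R ≤ ‖g s - (c : ℂ)‖) :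
    ‖g s' - g s‖ ≤ 4 * |s' - s| / R ∧ R / 2 ≤ ‖g s' - (w s' : ℂ)‖ := by
  have hab : a ≤ b := hs.1.trans hs.2
  have hA0 : 0 ≤ A := (abs_nonneg _).trans (hA a ⟨le_rfl, hab⟩)
  set d := Real.sqrt (b - a) with hd
  have hd0 : 0 ≤ d := Real.sqrt_nonneg _
  have hd2 : d ^ 2 = b - a := Real.sq_sqrt (by linarith)
  have hR2 : 0 < R / 2 := half_pos hR
  have e0 : ∀ t : ℝ, 2 / (R / 2) * t = 4 * t / R := fun t => by field_simp; ring
  have key : ∀ r ∈ Icc a b, ∀ t : ℝ, t ≤ b - a → ‖g r - g s‖ ≤ 2 / (R / 2) * t →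
      R / 2 < ‖g r - (w r : ℂ)‖ := by
    intro r hr t ht hle
    rw [e0] at hle
    have h1 : 4 * t / R ≤ d := by
      rw [div_le_iff₀ hR]; nlinarith
    have h2 : g s - (c : ℂ) = (g r - (w r : ℂ)) + (((w r - c : ℝ) : ℂ) - (g r - g s)) := by
      push_cast; ring
    have h3 := norm_add_le (g r - (w r : ℂ)) (((w r - c : ℝ) : ℂ) - (g r - g s))
    have h4 := _root_.norm_sub_le ((w r - c : ℝ) : ℂ) (g r - g s)
    rw [Complex.norm_real, Real.norm_eq_abs] at h4
    have h5 := hA r hr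
    rw [← h2] at h3
    linarith
  rcases le_total s s' with hss | hss
  · have hall : ∀ r ∈ Icc s s', R / 2 < ‖g r - (w r : ℂ)‖ := by
      by_contra hcon
      push Not at hcon
      obtain ⟨r1, h1, h2, h3⟩ := h32_first (h.mono hs.1 hs'.2).continuousOn_Z.norm hcon
      have hr1 : r1 ∈ Icc a b := ⟨hs.1.trans h1.1, h1.2.trans hs'.2⟩
      have := key r1 hr1 (r1 - s) (by linarith [hr1.2, hs.1])
        (h32_speed h hs.1 h1.1 hr1.2 hR2 fun x hx => (h3 x hx.1.le hx.2).le)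
      exact absurd h2 (not_le.2 this)
    refine ⟨?_, (hall s' ⟨hss, le_rfl⟩).le⟩
    rw [abs_of_nonneg (sub_nonneg.2 hss), ← e0]
    exact h32_speed h hs.1 hss hs'.2 hR2 fun x hx => (hall x (Ioo_subset_Icc_self hx)).le
  · have hall : ∀ r ∈ Icc s' s, R / 2 < ‖g r - (w r : ℂ)‖ := by
      by_contra hcon
      push Not at hcon
      obtain ⟨r1, h1, h2, h3⟩ := h32_last (h.mono hs'.1 hs.2).continuousOn_Z.norm hcon
      have hr1 : r1 ∈ Icc a b := ⟨hs'.1.trans h1.1, h1.2.trans hs.2⟩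
      have := key r1 hr1 (s - r1) (by linarith [hr1.1, hs.2]) (by
        rw [norm_sub_rev]
        exact h32_speed h hr1.1 h1.2 hs.2 hR2 fun x hx => (h3 x hx.1 hx.2.le).le)
      exact absurd h2 (not_le.2 this)
    refine ⟨?_, (hall s' ⟨le_rfl, hss⟩).le⟩
    rw [abs_sub_comm, abs_of_nonneg (sub_nonneg.2 hss), ← e0, norm_sub_rev]
    exact h32_speed h hs'.1 hss hs.2 hR2 fun x hx => (hall x (Ioo_subset_Icc_self hx)).le

/-- Forward existence for far points. -/
theorem exists_fwd_far (w : Path) {a b c A : ℝ} (hab : a ≤ b) (hA : ∀ s ∈ Icc a b, |w s - c| ≤ A)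
    {z : ℂ} (hz : 0 < z.im) (hzA : 4 * (A + Real.sqrt (b - a)) < ‖z - (c : ℂ)‖) :
    ∃ g, Sol w a b g ∧ g a = z := by
  have ha : a ∈ Icc a b := left_mem_Icc.2 hab
  have hA0 : 0 ≤ A := (abs_nonneg _).trans (hA a ha)
  have hσ : 0 ≤ Real.sqrt (b - a) := Real.sqrt_nonneg _
  have hσ2 : Real.sqrt (b - a) * Real.sqrt (b - a) = b - a := Real.mul_self_sqrt (by linarith)
  obtain ⟨R, hR⟩ : ∃ R : ℝ, R = ‖z - (c : ℂ)‖ := ⟨_, rfl⟩
  rw [← hR] at hzA
  have hR0 : 0 < R := by linarith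
  have hm : 0 < R / 2 := by positivity
  obtain ⟨g, hg0, hg, hpos, -, -⟩ := h44_exists w ha hm hz
  refine ⟨g, h44_sol hm hg hpos fun s hs => ?_, hg0⟩
  have h1 := (convex_Icc a b).norm_image_sub_le_of_norm_hasDerivWithin_le hg
    (fun r _ => h44F_norm hm _) ha hs
  rw [hg0, Real.norm_eq_abs, abs_of_nonneg (by linarith [hs.1])] at h1
  have h2 : 2 / (R / 2) * (s - a) ≤ Real.sqrt (b - a) := by
    rw [div_mul_eq_mul_div, div_le_iff₀ hm]
    nlinarith [hs.2]
  have h3 : ‖(w s : ℂ) - (c : ℂ)‖ ≤ A := by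
    rw [← Complex.ofReal_sub, Complex.norm_real]
    exact hA s hs
  have h4 : z - (c : ℂ) = (g s - (w s : ℂ)) + ((w s : ℂ) - (c : ℂ)) - (g s - z) := by ring
  have h5 : R ≤ ‖g s - (w s : ℂ)‖ + ‖(w s : ℂ) - (c : ℂ)‖ + ‖g s - z‖ := by
    rw [hR, h4]
    exact (norm_sub_le _ _).trans (by gcongr; exact norm_add_le _ _)
  linarith

/-- Gronwall: backward stability with respect to the path and the terminal value. -/
theorem Sol.stab_bwd (h : Sol w a b g) (h' : Sol w' a b g') {y δ : ℝ} (hy : 0 < y)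
    (hgy : y ≤ (g b).im) (hgy' : y ≤ (g' b).im) (hδ : ∀ s ∈ Icc a b, |w s - w' s| ≤ δ)
    {s : ℝ} (hs : s ∈ Icc a b) :
    ‖g s - g' s‖ ≤ (‖g b - g' b‖ + δ) * Real.exp (2 * (b - s) / y ^ 2) := by
  have hK : (2 : ℝ) / y ^ 2 ≠ 0 := by positivity
  have hm : MapsTo (fun r : ℝ => b - r) (Icc 0 (b - a)) (Icc a b) :=
    fun r hr => ⟨by linarith [hr.2], by linarith [hr.1]⟩
  have hd : ∀ r ∈ Icc 0 (b - a), HasDerivWithinAt (fun r => g (b - r) - g' (b - r))
      (-(2 / (g (b - r) - (w (b - r) : ℂ)) - 2 / (g' (b - r) - (w' (b - r) : ℂ))))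
      (Icc 0 (b - a)) r := by
    intro r hr
    have := ((h.deriv _ (hm hr)).sub (h'.deriv _ (hm hr))).scomp r
      ((hasDerivAt_id r).const_sub b).hasDerivWithinAt hm
    rw [neg_smul, one_smul] at this
    exact this
  have hδ0 : 0 ≤ δ := (abs_nonneg _).trans (hδ s hs)
  have key := norm_le_gronwallBound_of_norm_deriv_right_le
    (f := fun r => g (b - r) - g' (b - r)) (δ := ‖g b - g' b‖) (K := 2 / y ^ 2)
    (ε := 2 / y ^ 2 * δ) (a := 0) (b := b - a) (fun r hr => (hd r hr).continuousWithinAt)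
    (fun r hr => (hd r (Ico_subset_Icc_self hr)).mono_of_mem_nhdsWithin (Icc_mem_nhdsGE_of_mem hr))
    (by simp) (fun r hr => by
      have ht := hm (Ico_subset_Icc_self hr)
      beta_reduce at ht
      set t := b - r
      have n1 : y ≤ ‖g t - (w t : ℂ)‖ :=
        (hgy.trans (h.im_anti ht.1 ht.2 le_rfl)).trans (h.im_le_norm ht)
      have n2 : y ≤ ‖g' t - (w' t : ℂ)‖ :=
        (hgy'.trans (h'.im_anti ht.1 ht.2 le_rfl)).trans (h'.im_le_norm ht)
      have e : -(2 / (g t - (w t : ℂ)) - 2 / (g' t - (w' t : ℂ))) =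
          2 * ((g t - g' t) - ((w t - w' t : ℝ) : ℂ)) /
            ((g t - (w t : ℂ)) * (g' t - (w' t : ℂ))) := by
        have := h.ne ht
        have := h'.ne ht
        push_cast
        field_simp
        ring
      have n3 : ‖(g t - g' t) - ((w t - w' t : ℝ) : ℂ)‖ ≤ ‖g t - g' t‖ + δ := by
        refine (_root_.norm_sub_le _ _).trans ?_
        rw [Complex.norm_real, Real.norm_eq_abs]
        linarith [hδ t ht]
      rw [e, norm_div, norm_mul, norm_mul, Complex.norm_ofNat]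
      calc 2 * ‖(g t - g' t) - ((w t - w' t : ℝ) : ℂ)‖ /
            (‖g t - (w t : ℂ)‖ * ‖g' t - (w' t : ℂ)‖)
          ≤ 2 * (‖g t - g' t‖ + δ) / (y * y) := by gcongr
        _ = 2 / y ^ 2 * ‖g t - g' t‖ + 2 / y ^ 2 * δ := by ring)
    (b - s) ⟨by linarith [hs.2], by linarith [hs.1]⟩
  simp only [sub_sub_cancel, sub_zero, gronwallBound_of_K_ne_0 hK] at key
  rw [mul_div_cancel_left₀ _ hK] at key
  rw [show 2 * (b - s) / y ^ 2 = 2 / y ^ 2 * (b - s) by ring]
  linarith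

end Crest.Agent.R162
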