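import Crest.Agent.R162.L4
import Crest.Agent.R162.LB

set_option autoImplicit false
open MeasureTheory ProbabilityTheory Set Filter Topology Metric
open scoped ENNReal NNReal ComplexConjugate

namespace Crest.Agent.R162

/-- Local forward existence: `8 h ≤ y²`. (Picard-Lindelöf with a clamp, `(im g)² ≥ y² - 4 s`.) -/
theorem alive_low (w : Path) {z : ℂ} (hz : z ∈ H) {h : ℝ} (h0 : 0 ≤ h) (hh : 8 * h ≤ z.im ^ 2) :
    z ∈ dom w h ∧ z.im ^ 2 - 4 * h ≤ (Zf w h z).im ^ 2 ∧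
      ‖Zf w h z - (z - ((w h - w 0 : ℝ) : ℂ))‖ ≤ 3 * h / z.im ∧
      Real.exp (-(8 * h / z.im ^ 2)) ≤ mm w h z := by
  have hz' : 0 < z.im := hz
  obtain ⟨g, hg, hg0⟩ := exists_fwd w h0 (z := z + (w 0 : ℂ)) (by simpa using hz')
    (by simp; nlinarith)
  have hd : ∀ s ∈ Icc 0 h, z ∈ dom w s ∧ Zf w s z = g s - w s := fun s hs => by
    have := mem_dom_of_sol hg.isSol hs
    rwa [hg0, add_sub_cancel_right] at this
  have him : ∀ s ∈ Icc 0 h, z.im ^ 2 - 4 * s ≤ (Zf w s z).im ^ 2 ∧ 0 < (Zf w s z).im := by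
    intro s hs
    have h1 := hg.im_sq_le le_rfl hs.1 hs.2
    rw [(hd s hs).2]
    rw [hg0] at h1
    simp at h1 ⊢
    exact ⟨by linarith, hg.pos s hs⟩
  have hh' : h ∈ Icc 0 h := ⟨h0, le_rfl⟩
  refine ⟨(hd h hh').1, (him h hh').1, ?_, ?_⟩
  · have h1 := hg.norm_sub_le le_rfl h0 le_rfl
    have e : Zf w h z - (z - ((w h - w 0 : ℝ) : ℂ)) = g h - g 0 := by
      rw [(hd h hh').2, hg0]; push_cast; ring
    have h2 := him h hh'
    have h3 : (Zf w h z).im = (g h).im := by rw [(hd h hh').2]; simp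
    rw [h3] at h2
    have h4 : 2 / 3 * z.im ≤ (g h).im := by
      by_contra hc
      push Not at hc
      nlinarith [h2.1, h2.2]
    rw [e]
    refine h1.trans ?_
    rw [div_le_div_iff₀ h2.2 hz']
    nlinarith
  · rw [mm_eq h0 (hd h hh').1, Real.exp_le_exp, neg_le_neg_iff]
    have h1 := intervalIntegral.norm_integral_le_of_norm_le_const (a := 0) (b := h)
      (f := fun s => 4 * (Zf w s z).im ^ 2 / ‖Zf w s z‖ ^ 4) (C := 8 / z.im ^ 2) (by
        intro s hs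
        rw [uIoc_of_le h0] at hs
        obtain ⟨h2, h3⟩ := him s ⟨hs.1.le, hs.2⟩
        have h4 : (Zf w s z).im ≤ ‖Zf w s z‖ := Complex.im_le_norm _
        have h5 : 0 < ‖Zf w s z‖ := h3.trans_le h4
        rw [Real.norm_of_nonneg (by positivity), div_le_div_iff₀ (by positivity) (by positivity)]
        have h6 : (Zf w s z).im ^ 2 ≤ ‖Zf w s z‖ ^ 2 := by gcongr
        have h7 : z.im ^ 2 ≤ 2 * ‖Zf w s z‖ ^ 2 := by linarith [hs.2]
        calc 4 * (Zf w s z).im ^ 2 * z.im ^ 2 ≤ 4 * ‖Zf w s z‖ ^ 2 * (2 * ‖Zf w s z‖ ^ 2) := by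
              gcongr
          _ = 8 * ‖Zf w s z‖ ^ 4 := by ring)
    rw [sub_zero, abs_of_nonneg h0] at h1
    refine ((le_abs_self _).trans h1).trans (le_of_eq ?_)
    ring

theorem alive_right {w : Path} {t : ℝ} (ht : 0 ≤ t) {z : ℂ} (hz : z ∈ dom w t) :
    ∃ t' > t, z ∈ dom w t' := by
  have h1 : 0 < (Zf w t z).im := Zf_mem hz
  refine ⟨t + (Zf w t z).im ^ 2 / 8, by linarith [pow_pos h1 2], ?_⟩
  rw [mem_dom_add w ht (by positivity)]
  exact ⟨hz, (alive_low _ (Zf_mem hz) (by positivity) (by linarith)).1⟩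

/-- Time of death. -/
theorem exists_death (w : Path) {z : ℂ} (hz : z ∈ H) {t : ℝ} (ht : 0 ≤ t) (hd : z ∉ dom w t) :
    ∃ T ∈ Ioc 0 t, z ∉ dom w T ∧ (∀ s ∈ Ico 0 T, z ∈ dom w s) ∧
      ∀ δ > 0, ∃ s ∈ Ico 0 T, (Zf w s z).im < δ := by
  set S : Set ℝ := {s | 0 ≤ s ∧ z ∉ dom w s} with hS
  have hne : S.Nonempty := ⟨t, ht, hd⟩
  have hbd : BddBelow S := ⟨0, fun s hs => hs.1⟩
  have hT0 : 0 ≤ sInf S := le_csInf hne fun s hs => hs.1
  have hTt : sInf S ≤ t := csInf_le hbd ⟨ht, hd⟩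
  have halive : ∀ s ∈ Ico 0 (sInf S), z ∈ dom w s := by
    intro s hs
    by_contra hc
    exact absurd (csInf_le hbd ⟨hs.1, hc⟩) (not_le.2 hs.2)
  have hdead : z ∉ dom w (sInf S) := by
    intro hc
    obtain ⟨t', ht', hz'⟩ := alive_right hT0 hc
    obtain ⟨s, hs, hst⟩ := exists_lt_of_csInf_lt hne ht'
    exact hs.2 (dom_anti w hs.1 hst.le hz')
  have hpos : 0 < sInf S := by
    rcases hT0.lt_or_eq with h | h
    · exact h
    · rw [← h, dom_zero] at hdead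
      exact absurd hz hdead
  refine ⟨sInf S, ⟨hpos, hTt⟩, hdead, halive, fun δ hδ => ?_⟩
  by_contra hc
  push Not at hc
  have hs : max 0 (sInf S - δ ^ 2 / 8) ∈ Ico 0 (sInf S) :=
    ⟨le_max_left _ _, max_lt hpos (by linarith [pow_pos hδ 2])⟩
  have h1 := hc _ hs
  have h2 := halive _ hs
  have h3 := le_max_right 0 (sInf S - δ ^ 2 / 8)
  apply hdead
  have e : sInf S = max 0 (sInf S - δ ^ 2 / 8) + (sInf S - max 0 (sInf S - δ ^ 2 / 8)) := by ring
  rw [e, mem_dom_add w hs.1 (by linarith [hs.2])]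
  refine ⟨h2, (alive_low _ (Zf_mem h2) (by linarith [hs.2]) ?_).1⟩
  nlinarith

/-- Continuation principle (`exists_death`, `im_Zf_eq`). -/
theorem alive_of_lower (w : Path) {z : ℂ} (hz : z ∈ H) {t δ : ℝ} (ht : 0 ≤ t) (hδ : 0 < δ)
    (h : ∀ s ∈ Icc 0 t, z ∈ dom w s → δ ≤ ‖Zf w s z‖) : z ∈ dom w t := by
  by_contra hd
  obtain ⟨T, hT, -, halive, hlow⟩ := exists_death w hz ht hd
  have hz' : 0 < z.im := hz
  obtain ⟨s, hs, hlt⟩ := hlow (z.im * Real.exp (-(2 / δ ^ 2 * t))) (by positivity)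
  rw [im_Zf_eq hs.1 (halive s hs)] at hlt
  have h1 := intervalIntegral.norm_integral_le_of_norm_le_const (a := 0) (b := s)
    (f := fun r => 2 / ‖Zf w r z‖ ^ 2) (C := 2 / δ ^ 2) (by
      intro r hr
      rw [uIoc_of_le hs.1] at hr
      have h2 := h r ⟨hr.1.le, hr.2.trans (hs.2.le.trans hT.2)⟩
        (halive r ⟨hr.1.le, hr.2.trans_lt hs.2⟩)
      rw [Real.norm_of_nonneg (by positivity)]
      gcongr)
  rw [sub_zero, abs_of_nonneg hs.1] at h1
  have h2 := (le_abs_self _).trans h1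
  have h3 : 2 / δ ^ 2 * s ≤ 2 / δ ^ 2 * t := by
    gcongr
    exact hs.2.le.trans hT.2
  have h4 := Real.exp_lt_exp.1 (lt_of_mul_lt_mul_left hlt hz'.le)
  linarith

/-- Far points survive. -/
theorem alive_far (w : Path) {z : ℂ} (hz : z ∈ H) {t M : ℝ} (ht : 0 ≤ t)
    (hM : ∀ s ∈ Icc 0 t, |w s - w 0| ≤ M) (hfar : 2 * M + 4 * Real.sqrt t ≤ ‖z‖) :
    z ∈ dom w t ∧ ‖Zf w t z - z‖ ≤ M + Real.sqrt t ∧
      z.im * Real.exp (-(8 * t / ‖z‖ ^ 2)) ≤ (Zf w t z).im ∧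
      Real.exp (-(16 * t / ‖z‖ ^ 2)) ≤ mm w t z := by
  have hz' : 0 < z.im := hz
  have hn : 0 < ‖z‖ := hz'.trans_le (Complex.im_le_norm z)
  have hM0 : 0 ≤ M := (abs_nonneg _).trans (hM 0 ⟨le_rfl, ht⟩)
  have hq := Real.sqrt_nonneg t
  have key : ∀ s ∈ Icc 0 t, z ∈ dom w s → ‖Zf w s z - z‖ ≤ M + Real.sqrt t := by
    intro s hs hd
    rcases ht.lt_or_eq with ht' | ht'
    · have hq' : 0 < Real.sqrt t := Real.sqrt_pos.2 ht'
      have hqq : Real.sqrt t * Real.sqrt t = t := Real.mul_self_sqrt ht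
      have hg := (fwd_sol hs.1 hd).sol
      have hB := image_norm_le_of_norm_deriv_right_lt_deriv_boundary'
        (f := fun r => Zf w r z + (w r : ℂ) - (z + (w 0 : ℂ)))
        (f' := fun r => 2 / (Zf w r z + (w r : ℂ) - (w r : ℂ))) (a := 0) (b := s)
        (hg.continuousOn.sub continuousOn_const)
        (fun r hr => (((hg.deriv r ⟨hr.1, hr.2.le⟩).mono_of_mem_nhdsWithin
          (Icc_mem_nhdsGE_of_mem hr)).sub_const _))
        (B := fun r => r / Real.sqrt t) (B' := fun _ => 1 / Real.sqrt t)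
        (by simp [Zf_zero w hz]) (by fun_prop)
        (fun r _ => ((hasDerivAt_id r).div_const _).hasDerivWithinAt)
        (by
          intro r hr he
          have h1 : r / Real.sqrt t ≤ Real.sqrt t := by
            rw [div_le_iff₀ hq']; linarith [hr.2, hs.2]
          have h2 := hM r ⟨hr.1, hr.2.le.trans hs.2⟩
          have h3 : ‖z‖ ≤ ‖Zf w r z‖ + ‖Zf w r z + (w r : ℂ) - (z + (w 0 : ℂ))‖ + |w r - w 0| := by
            have e : z = Zf w r z - (Zf w r z + (w r : ℂ) - (z + (w 0 : ℂ))) +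
                ((w r - w 0 : ℝ) : ℂ) := by push_cast; ring
            calc ‖z‖ = ‖Zf w r z - (Zf w r z + (w r : ℂ) - (z + (w 0 : ℂ))) +
                ((w r - w 0 : ℝ) : ℂ)‖ := by rw [← e]
              _ ≤ _ := by
                refine (norm_add_le _ _).trans (add_le_add (norm_sub_le _ _) ?_)
                rw [Complex.norm_real, Real.norm_eq_abs]
          have h4 : 3 * Real.sqrt t ≤ ‖Zf w r z‖ := by
            linarith
          rw [add_sub_cancel_right, norm_div, Complex.norm_two, div_lt_div_iff₀ (by linarith) hq']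
          linarith) ⟨hs.1, le_rfl⟩
      have h1 : s / Real.sqrt t ≤ Real.sqrt t := by
        rw [div_le_iff₀ hq']; linarith [hs.2]
      have e : Zf w s z - z = (Zf w s z + (w s : ℂ) - (z + (w 0 : ℂ))) - ((w s - w 0 : ℝ) : ℂ) := by
        push_cast; ring
      rw [e]
      refine (norm_sub_le _ _).trans ?_
      rw [Complex.norm_real, Real.norm_eq_abs]
      linarith [hM s hs]
    · have : s = 0 := le_antisymm (ht' ▸ hs.2) hs.1
      rw [this, Zf_zero w hz]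
      simp only [sub_self, norm_zero]
      positivity
  have hlow : ∀ s ∈ Icc 0 t, z ∈ dom w s → ‖z‖ / 2 ≤ ‖Zf w s z‖ := by
    intro s hs hd
    have h1 := key s hs hd
    have h2 : ‖z‖ ≤ ‖Zf w s z‖ + ‖Zf w s z - z‖ := by
      calc ‖z‖ = ‖Zf w s z - (Zf w s z - z)‖ := by congr 1; ring
        _ ≤ _ := norm_sub_le _ _
    linarith
  have hd := alive_of_lower w hz ht (half_pos hn) hlow
  have hall : ∀ s ∈ Ioc 0 t, ‖z‖ / 2 ≤ ‖Zf w s z‖ := fun s hs =>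
    hlow s ⟨hs.1.le, hs.2⟩ (dom_anti w hs.1.le hs.2 hd)
  refine ⟨hd, key t ⟨ht, le_rfl⟩ hd, ?_, ?_⟩
  · rw [im_Zf_eq ht hd]
    have h1 := intervalIntegral.norm_integral_le_of_norm_le_const (a := 0) (b := t)
      (f := fun r => 2 / ‖Zf w r z‖ ^ 2) (C := 2 / (‖z‖ / 2) ^ 2) (by
        intro r hr
        rw [uIoc_of_le ht] at hr
        have h2 := hall r hr
        rw [Real.norm_of_nonneg (by positivity)]
        gcongr)
    rw [sub_zero, abs_of_nonneg ht] at h1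
    have h2 := (le_abs_self _).trans h1
    have e : 2 / (‖z‖ / 2) ^ 2 * t = 8 * t / ‖z‖ ^ 2 := by field_simp; ring
    gcongr
    linarith
  · rw [mm_eq ht hd, Real.exp_le_exp, neg_le_neg_iff]
    have h1 := intervalIntegral.norm_integral_le_of_norm_le_const (a := 0) (b := t)
      (f := fun s => 4 * (Zf w s z).im ^ 2 / ‖Zf w s z‖ ^ 4) (C := 16 / ‖z‖ ^ 2) (by
        intro s hs
        rw [uIoc_of_le ht] at hs
        have h2 := hall s hs
        have h5 : 0 < ‖Zf w s z‖ := by linarith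
        have h4 : (Zf w s z).im ^ 2 ≤ ‖Zf w s z‖ ^ 2 :=
          sq_le_sq' (by linarith [abs_le.1 (Complex.abs_im_le_norm (Zf w s z))])
            (Complex.im_le_norm _)
        rw [Real.norm_of_nonneg (by positivity), div_le_div_iff₀ (by positivity) (by positivity)]
        have h7 : ‖z‖ ^ 2 ≤ 4 * ‖Zf w s z‖ ^ 2 := by nlinarith
        calc 4 * (Zf w s z).im ^ 2 * ‖z‖ ^ 2 ≤ 4 * ‖Zf w s z‖ ^ 2 * (4 * ‖Zf w s z‖ ^ 2) := by
              gcongr
          _ = 16 * ‖Zf w s z‖ ^ 4 := by ring)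
    rw [sub_zero, abs_of_nonneg ht] at h1
    refine ((le_abs_self _).trans h1).trans (le_of_eq ?_)
    ring

/-- A ball that stays in the domain up to the death of its centre dies with it
(`harnack_ball`, `im_le_Qh`, `exists_death`). -/
theorem ball_dead (w : Path) {z : ℂ} {ρ T : ℝ} (hρ : 0 < ρ) (hT : 0 < T)
    (h : ∀ s ∈ Ico 0 T, ball z ρ ⊆ dom w s) (hd : z ∉ dom w T) :
    ∀ z' ∈ ball z (ρ / 2), z' ∉ dom w T := by
  intro z' hz' hd'
  have hz : z ∈ H := dom_subset w 0 (h 0 ⟨le_rfl, hT⟩ (mem_ball_self hρ))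
  obtain ⟨T', hT', hdead, -, hlow⟩ := exists_death w hz hT.le hd
  have hy : 0 < (Zf w T z').im := Zf_mem hd'
  obtain ⟨s, hs, hlt⟩ := hlow ((Zf w T z').im / 6) (by positivity)
  have hsT : s ∈ Ico 0 T := ⟨hs.1, hs.2.trans_le hT'.2⟩
  have h1 : z ∈ dom w s := h s hsT (mem_ball_self hρ)
  have h2 : z' ∈ dom w s := dom_anti w hs.1 hsT.2.le hd'
  have h3 := harnack_ball (univ_phi w s) (Zf_mem h1) (Zf_mem h2) (ρ := ρ)
    (by rw [phi_Zf h1]; exact h s hsT)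
    (by rw [phi_Zf h1, phi_Zf h2]; exact (mem_ball_iff_norm.1 hz').le) hρ
  have h4 := im_le_Qh (Zf_mem h2) (Zf_mem h1)
  rw [Qh_comm] at h4
  have h5 := im_Zf_anti w hs.1 hsT.2.le z'
  have h6 : 0 < (Zf w s z).im := Zf_mem h1
  nlinarith

theorem alive_small {y R : ℝ} (hy : 0 < y) : ∃ e0 > 0, ∀ ζ ∈ Kc y R, ∀ (w : Path) (h e : ℝ),
    e ≤ e0 → Small w h e → ∀ s ∈ Icc 0 h,
      ζ ∈ dom w s ∧ Zf w s ζ ∈ Kc (y / 2) (R + 1) ∧ ‖Zf w s ζ - ζ‖ ≤ 2 * e ∧ 9 / 10 ≤ mm w s ζ := by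
  refine ⟨min (y / 10) (1 / 2), by positivity, fun ζ hζ w h e he hS s hs => ?_⟩
  obtain ⟨h0, hh, he0, hw⟩ := hS
  have he1 : e ≤ y / 10 := he.trans (min_le_left _ _)
  have he2 : e ≤ 1 / 2 := he.trans (min_le_right _ _)
  have hy1 : y ≤ ζ.im := hζ.1
  have hζH : ζ ∈ H := hy.trans_le hy1
  have hζ0 : 0 < ζ.im := hζH
  have hse : s ≤ e ^ 2 := hs.2.trans hh
  have hs2 : 100 * s ≤ ζ.im ^ 2 := by nlinarith
  obtain ⟨a1, a2, a3, a4⟩ := alive_low w hζH hs.1 (by linarith [hs.1])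
  have hY : 0 < (Zf w s ζ).im := Zf_mem a1
  have hn : ‖Zf w s ζ - ζ‖ ≤ 2 * e := by
    have e1 : Zf w s ζ - ζ = (Zf w s ζ - (ζ - ((w s - w 0 : ℝ) : ℂ))) - ((w s - w 0 : ℝ) : ℂ) := by
      ring
    rw [e1]
    refine (norm_sub_le _ _).trans ?_
    rw [Complex.norm_real, Real.norm_eq_abs]
    have h1 : 3 * s / ζ.im ≤ e := by
      rw [div_le_iff₀ hζ0]; nlinarith
    linarith [hw s hs]
  refine ⟨a1, ⟨?_, ?_⟩, hn, le_trans ?_ a4⟩
  · by_contra hc
    push Not at hc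
    nlinarith
  · have h1 : ‖Zf w s ζ‖ ≤ ‖Zf w s ζ - ζ‖ + ‖ζ‖ := by
      simpa using norm_add_le (Zf w s ζ - ζ) ζ
    linarith [hζ.2]
  · have h1 : 8 * s / ζ.im ^ 2 ≤ 1 / 10 := by
      rw [div_le_iff₀ (by positivity)]; nlinarith [hs.1]
    linarith [Real.add_one_le_exp (-(8 * s / ζ.im ^ 2))]

end Crest.Agent.R162
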