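import Crest.Agent.R162.Defs

set_option autoImplicit false
open MeasureTheory ProbabilityTheory Set Filter Topology Metric
open scoped ENNReal NNReal ComplexConjugate

namespace Crest.Agent.R162

lemma p1_isClosed (U : Set ℝ) (δ : ℝ) : IsClosed {y : ℝ | ball y δ ⊆ U} := by
  have : {y : ℝ | ball y δ ⊆ U} = ⋂ z ∈ Uᶜ, (ball z δ)ᶜ := by
    ext y
    simp only [mem_setOf_eq, mem_iInter, mem_compl_iff, mem_ball]
    constructor
    · intro h z hz hd
      exact hz (h (by rw [mem_ball, dist_comm]; exact hd))
    · intro h z hz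
      by_contra hzU
      exact h z hzU (by rw [dist_comm]; exact hz)
  rw [this]
  exact isClosed_biInter fun z _ => isOpen_ball.isClosed_compl

lemma p1_mapsTo_iff (f : Path) {K U D : Set ℝ} (hK : IsCompact K) (hU : IsOpen U) (hDK : D ⊆ K)
    (hKD : K ⊆ closure D) :
    MapsTo f K U ↔ ∃ n : ℕ, ∀ q ∈ D, ball (f q) (1 / ((n : ℝ) + 1)) ⊆ U := by
  constructor
  · intro h
    obtain ⟨δ, hδ, hs⟩ := (hK.image f.continuous).exists_thickening_subset_open hU h.image_subset
    obtain ⟨n, hn⟩ := exists_nat_one_div_lt hδ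
    refine ⟨n, fun q hq => ?_⟩
    exact (ball_subset_ball hn.le).trans
      ((ball_subset_thickening (mem_image_of_mem f (hDK hq)) δ).trans hs)
  · rintro ⟨n, hn⟩ x hx
    have hc : IsClosed (f ⁻¹' {y : ℝ | ball y (1 / ((n : ℝ) + 1)) ⊆ U}) :=
      (p1_isClosed U _).preimage f.continuous
    have h1 : closure D ⊆ f ⁻¹' {y : ℝ | ball y (1 / ((n : ℝ) + 1)) ⊆ U} :=
      closure_minimal (fun q hq => hn q hq) hc
    exact h1 (hKD hx) (mem_ball_self (by positivity))

/-- The Borel σ-algebra of `C(ℝ,ℝ)` is generated by the evaluations (second countability;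
`{f | MapsTo f K U}` is a countable Boolean combination of evaluation events). -/
theorem measurable_path_iff {Ω : Type*} [MeasurableSpace Ω] (W : Ω → Path) :
    Measurable W ↔ ∀ t : ℝ, Measurable (fun ω => W ω t) := by
  constructor
  · intro h t
    exact (continuous_eval_const t : Continuous fun w : Path => w t).measurable.comp h
  · intro h
    have hb : (borel Path) = MeasurableSpace.generateFrom
        (image2 (fun K U => {f : Path | MapsTo f K U}) {K | IsCompact K} {U | IsOpen U}) :=
      borel_eq_generateFrom_of_subbasis ContinuousMap.compactOpen_eq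
    have key : @Measurable Ω Path _ (MeasurableSpace.generateFrom
        (image2 (fun K U => {f : Path | MapsTo f K U}) {K | IsCompact K} {U | IsOpen U})) W := by
      refine measurable_generateFrom ?_
      rintro _ ⟨K, hK, U, hU, rfl⟩
      obtain ⟨D, hDK, hDc, hKD⟩ :=
        (TopologicalSpace.IsSeparable.of_separableSpace K).exists_countable_dense_subset
      have : W ⁻¹' {f : Path | MapsTo f K U} =
          ⋃ n : ℕ, ⋂ q ∈ D, (fun ω => W ω q) ⁻¹' {y : ℝ | ball y (1 / ((n : ℝ) + 1)) ⊆ U} := by
        ext ω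
        simp only [mem_preimage, mem_setOf_eq, mem_iUnion, mem_iInter]
        exact p1_mapsTo_iff (W ω) hK hU hDK hKD
      rw [this]
      exact MeasurableSet.iUnion fun n => MeasurableSet.biInter hDc fun q _ =>
        h q (p1_isClosed U _).measurableSet
    rw [← hb] at key
    exact key

theorem measurable_eval (t : ℝ) : Measurable (fun w : Path => w t) := by
  exact (continuous_eval_const t : Continuous fun w : Path => w t).measurable

theorem measurable_eval₂ : Measurable (fun p : Path × ℝ => p.1 p.2) := by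
  exact (continuous_eval : Continuous fun p : Path × ℝ => p.1 p.2).measurable

/-- Finite measures on path space are determined by their finite-dimensional marginals. -/
theorem path_ext (μ ν : Measure Path) [IsFiniteMeasure μ] [IsFiniteMeasure ν]
    (h : ∀ I : Finset ℝ, μ.map (fun (w : Path) (i : I) => w i) = ν.map (fun (w : Path) (i : I) => w i)) :
    μ = ν := by
  let Φ : Path → (ℝ → ℝ) := fun w t => w t
  have hΦ : Measurable Φ := measurable_pi_lambda _ fun t => measurable_eval t
  have hI : ∀ (ρ : Measure Path) (I : Finset ℝ),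
      (ρ.map Φ).map I.restrict = ρ.map (fun (w : Path) (i : I) => w i) := by
    intro ρ I
    rw [Measure.map_map (Finset.measurable_restrict I) hΦ]
    rfl
  have hmap : μ.map Φ = ν.map Φ := by
    refine IsProjectiveLimit.unique (α := fun _ : ℝ => ℝ)
      (P := fun I : Finset ℝ => μ.map (fun (w : Path) (i : I) => w i)) ?_ ?_
    · intro I
      exact hI μ I
    · intro I
      rw [hI ν I]
      exact (h I).symm
  have hle : @Measurable Path Path (MeasurableSpace.comap Φ inferInstance) _ id := by
    refine (@measurable_path_iff Path (MeasurableSpace.comap Φ inferInstance) id).2 fun t => ?_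
    have h1 : @Measurable Path (ℝ → ℝ) (MeasurableSpace.comap Φ inferInstance) _ Φ :=
      comap_measurable Φ
    exact (measurable_pi_apply t).comp h1
  ext s hs
  obtain ⟨t, ht, hts⟩ := hle hs
  have hts' : Φ ⁻¹' t = s := hts
  rw [← hts', ← Measure.map_apply hΦ ht, ← Measure.map_apply hΦ ht, hmap]

theorem continuous_concat : Continuous (fun p : ℝ × Path × Path => concat p.1 p.2.1 p.2.2) := by
  refine ContinuousMap.continuous_of_continuous_uncurry _ ?_
  show Continuous fun q : (ℝ × Path × Path) × ℝ =>
    q.1.2.1 (min q.2 q.1.1) + (q.1.2.2 (max (q.2 - q.1.1) 0) - q.1.2.2 0)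
  fun_prop

theorem continuous_scale (r : ℝ) : Continuous (scale r) := by
  refine ContinuousMap.continuous_of_continuous_uncurry _ ?_
  show Continuous fun q : Path × ℝ => r * q.1 (q.2 / r ^ 2)
  fun_prop

theorem continuous_shift : Continuous (fun p : ℝ × Path => shift p.1 p.2) := by
  refine ContinuousMap.continuous_of_continuous_uncurry _ ?_
  show Continuous fun q : (ℝ × Path) × ℝ => q.1.2 (q.1.1 + q.2)
  fun_prop

theorem le_osc (w : Path) {h s : ℝ} (hs : s ∈ Icc 0 h) : |w s - w 0| ≤ osc w h := by
  refine le_csSup ?_ (mem_image_of_mem (fun s => |w s - w 0|) hs)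
  exact (isCompact_Icc.image (by fun_prop)).bddAbove

theorem osc_le (w : Path) {h M : ℝ} (hh : 0 ≤ h) (hM : ∀ s ∈ Icc 0 h, |w s - w 0| ≤ M) :
    osc w h ≤ M := by
  refine csSup_le ⟨_, mem_image_of_mem _ (left_mem_Icc.2 hh)⟩ ?_
  rintro _ ⟨s, hs, rfl⟩
  exact hM s hs

theorem osc_nonneg (w : Path) (h : ℝ) : 0 ≤ osc w h := by
  refine Real.sSup_nonneg ?_
  rintro _ ⟨s, -, rfl⟩
  exact abs_nonneg _

theorem measurable_osc (h : ℝ) : Measurable (fun w : Path => osc w h) := by
  rcases lt_or_ge h 0 with hh | hh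
  · have : (fun w : Path => osc w h) = fun _ => 0 := by
      funext w
      simp [osc, Icc_eq_empty_of_lt hh]
    rw [this]
    exact measurable_const
  · refine measurable_of_Iic fun M => ?_
    have : (fun w : Path => osc w h) ⁻¹' Iic M = ⋂ s ∈ Icc 0 h, {w : Path | |w s - w 0| ≤ M} := by
      ext w
      simp only [mem_preimage, mem_Iic, mem_iInter, mem_setOf_eq]
      exact ⟨fun hw s hs => (le_osc w hs).trans hw, fun hw => osc_le w hh hw⟩
    rw [this]
    refine (isClosed_biInter fun s _ => ?_).measurableSet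
    exact isClosed_le (by fun_prop) continuous_const

theorem osc_scale (w : Path) {r : ℝ} (hr : 0 < r) (h : ℝ) :
    osc (scale r w) (r ^ 2 * h) = r * osc w h := by
  have hr2 : 0 < r ^ 2 := by positivity
  rcases lt_or_ge h 0 with hh | hh
  · have h1 : r ^ 2 * h < 0 := mul_neg_of_pos_of_neg hr2 hh
    simp [osc, Icc_eq_empty_of_lt hh, Icc_eq_empty_of_lt h1]
  · have hs : ∀ s : ℝ, |scale r w s - scale r w 0| = r * |w (s / r ^ 2) - w 0| := by
      intro s
      show |r * w (s / r ^ 2) - r * w (0 / r ^ 2)| = _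
      rw [zero_div, ← mul_sub, abs_mul, abs_of_pos hr]
    apply le_antisymm
    · refine osc_le _ (by positivity) fun s hs' => ?_
      rw [hs]
      refine mul_le_mul_of_nonneg_left (le_osc w ⟨div_nonneg hs'.1 hr2.le, ?_⟩) hr.le
      rw [div_le_iff₀ hr2]
      linarith [hs'.2]
    · rw [← le_div_iff₀' hr]
      refine osc_le _ hh fun s hs' => ?_
      rw [le_div_iff₀' hr]
      have h1 := le_osc (scale r w) (h := r ^ 2 * h) (s := r ^ 2 * s)
        ⟨mul_nonneg hr2.le hs'.1, mul_le_mul_of_nonneg_left hs'.2 hr2.le⟩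
      rw [hs, mul_div_cancel_left₀ _ hr2.ne'] at h1
      exact h1

/-- Tube events are closed. -/
theorem isClosed_tube (g : ℝ → ℝ) (a b δ : ℝ) :
    IsClosed {w : Path | ∀ s ∈ Icc a b, |w s - w 0 - g s| ≤ δ} := by
  have : {w : Path | ∀ s ∈ Icc a b, |w s - w 0 - g s| ≤ δ} =
      ⋂ s ∈ Icc a b, {w : Path | |w s - w 0 - g s| ≤ δ} := by
    ext w
    simp only [mem_iInter, mem_setOf_eq]
  rw [this]
  refine isClosed_biInter fun s _ => ?_
  exact isClosed_le (by fun_prop) continuous_const

end Crest.Agent.R162
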