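import Crest.Agent.R162.L7
import Crest.Agent.R162.P1

set_option autoImplicit false
open MeasureTheory ProbabilityTheory Set Filter Topology Metric
open scoped ENNReal NNReal ComplexConjugate

namespace Crest.Agent.R162

theorem measurable_cr (κ s1 ε : ℝ) : Measurable (fun p : ℂ × ℝ => cr κ s1 ε p.1 p.2) := by
  unfold cr
  have hS : Measurable fun p : ℂ × ℝ => Sn p.1 := by
    unfold Sn
    fun_prop
  refine Measurable.ite ?_ (by fun_prop) measurable_const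
  exact (measurable_fst measurableSet_H).inter ((measurableSet_le measurable_const measurable_snd).inter
    ((measurableSet_le measurable_snd measurable_const).inter (measurableSet_le measurable_const hS)))

/-- The jointly measurable density of the mass. -/
noncomputable def m1dens (f : ℂ → ℂ) (κ s1 ε : ℝ) (q : (Path × ℝ) × ℂ) : ℝ≥0∞ :=
  cr κ s1 ε q.2 (H.indicator (ups (cfg f q.1.1 q.1.2)) q.2) *
    ENNReal.ofReal (‖H.indicator (deriv (cfg f q.1.1 q.1.2)) q.2‖ ^ 2)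

theorem m1_assoc : Measurable fun q : (Path × ℝ) × ℂ => ((q.1.1, q.1.2, q.2) : Path × ℝ × ℂ) := by
  fun_prop

theorem m1_cfg {f : ℂ → ℂ} (hf : Univ f) :
    Measurable fun q : (Path × ℝ) × ℂ => cfg f q.1.1 q.1.2 q.2 :=
  (measurable_cfg hf).comp m1_assoc

theorem measurable_m1dens {f : ℂ → ℂ} (hf : Univ f) (κ s1 ε : ℝ) :
    Measurable (m1dens f κ s1 ε) := by
  have h1 : Measurable fun q : (Path × ℝ) × ℂ => H.indicator (ups (cfg f q.1.1 q.1.2)) q.2 :=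
    (measurable_ups_cfg hf).comp m1_assoc
  have h2 : Measurable fun q : (Path × ℝ) × ℂ => H.indicator (deriv (cfg f q.1.1 q.1.2)) q.2 :=
    (measurable_dcfg hf).comp m1_assoc
  exact ((measurable_cr κ s1 ε).comp (measurable_snd.prodMk h1)).mul
    (h2.norm.pow_const 2).ennreal_ofReal

theorem m1_rate_eq (f : ℂ → ℂ) (κ s1 ε : ℝ) (w : Path) (s : ℝ) (B : Set ℂ) :
    rate κ s1 ε (cfg f w s) B =
      ∫⁻ ζ in H, B.indicator (fun _ => (1 : ℝ≥0∞)) (cfg f w s ζ) * m1dens f κ s1 ε ((w, s), ζ) := by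
  refine setLIntegral_congr_fun measurableSet_H fun ζ hζ => ?_
  simp only [m1dens, indicator_of_mem hζ, mul_assoc]

/-- Joint measurability, with a random set. -/
theorem measurable_rate {f : ℂ → ℂ} (hf : Univ f) (κ s1 ε : ℝ) {𝓑 : Set (Path × ℂ)}
    (h𝓑 : MeasurableSet 𝓑) :
    Measurable (fun p : Path × ℝ => rate κ s1 ε (cfg f p.1 p.2) {z | (p.1, z) ∈ 𝓑}) := by
  simp only [m1_rate_eq]
  refine Measurable.lintegral_prod_right' (f := fun q : (Path × ℝ) × ℂ =>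
    {z | (q.1.1, z) ∈ 𝓑}.indicator (fun _ => (1 : ℝ≥0∞)) (cfg f q.1.1 q.1.2 q.2) *
      m1dens f κ s1 ε q) (Measurable.mul ?_ (measurable_m1dens hf κ s1 ε))
  exact (measurable_const.indicator h𝓑).comp (measurable_fst.fst.prodMk (m1_cfg hf))

theorem measurable_mass' {f : ℂ → ℂ} (hf : Univ f) (κ s1 ε : ℝ) {𝓑 : Set (Path × ℂ)}
    (h𝓑 : MeasurableSet 𝓑) (I : Set ℝ) :
    Measurable (fun w : Path => mass κ s1 ε f w I {z | (w, z) ∈ 𝓑}) := by
  exact (measurable_rate hf κ s1 ε h𝓑).lintegral_prod_right'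

theorem measurable_mass {f : ℂ → ℂ} (hf : Univ f) (κ s1 ε : ℝ) {B : Set ℂ} (hB : MeasurableSet B)
    (I : Set ℝ) : Measurable (fun w : Path => mass κ s1 ε f w I B) := by
  exact measurable_mass' hf κ s1 ε (measurable_snd hB) I

theorem mass_mono (κ s1 ε : ℝ) (f : ℂ → ℂ) (w : Path) {I I' : Set ℝ} {B B' : Set ℂ} (hI : I ⊆ I')
    (hB : B ⊆ B') : mass κ s1 ε f w I B ≤ mass κ s1 ε f w I' B' := by
  refine lintegral_mono' (Measure.restrict_mono hI le_rfl) fun s => lintegral_mono fun ζ => ?_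
  exact mul_le_mul' (mul_le_mul' (indicator_le_indicator_of_subset hB (fun _ => zero_le) _) le_rfl)
    le_rfl

theorem mass_exists_measure {f : ℂ → ℂ} (hf : Univ f) (κ s1 ε : ℝ) (w : Path) (I : Set ℝ) :
    ∃ ν : Measure ℂ, ∀ B, MeasurableSet B → mass κ s1 ε f w I B = ν B := by
  have hw : Measurable fun q : ℝ × ℂ => (((w, q.1), q.2) : (Path × ℝ) × ℂ) := by fun_prop
  have h1 : Measurable fun q : ℝ × ℂ => cfg f w q.1 q.2 := (m1_cfg hf).comp hw
  have h2 : Measurable fun q : ℝ × ℂ => m1dens f κ s1 ε ((w, q.1), q.2) :=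
    (measurable_m1dens hf κ s1 ε).comp hw
  refine ⟨(((volume.restrict I).prod (volume.restrict H)).withDensity
    fun q : ℝ × ℂ => m1dens f κ s1 ε ((w, q.1), q.2)).map fun q : ℝ × ℂ => cfg f w q.1 q.2,
    fun B hB => ?_⟩
  rw [Measure.map_apply h1 hB, withDensity_apply _ (h1 hB), ← lintegral_indicator (h1 hB),
    lintegral_prod _ (h2.indicator (h1 hB)).aemeasurable]
  unfold mass
  simp only [m1_rate_eq]
  refine lintegral_congr fun s => lintegral_congr fun ζ => ?_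
  by_cases h : cfg f w s ζ ∈ B
  · rw [indicator_of_mem h, indicator_of_mem (show (s, ζ) ∈ (fun q : ℝ × ℂ => cfg f w q.1 q.2) ⁻¹' B
      from h), one_mul]
  · rw [indicator_of_notMem h, indicator_of_notMem
      (show (s, ζ) ∉ (fun q : ℝ × ℂ => cfg f w q.1 q.2) ⁻¹' B from h), zero_mul]

theorem mass_union_time {f : ℂ → ℂ} (hf : Univ f) (κ s1 ε : ℝ) (w : Path) {a b c : ℝ}
    (hab : a ≤ b) (hbc : b ≤ c) (B : Set ℂ) :
    mass κ s1 ε f w (Ioc a c) B = mass κ s1 ε f w (Ioc a b) B + mass κ s1 ε f w (Ioc b c) B := by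
  unfold mass
  rw [← Ioc_union_Ioc_eq_Ioc hab hbc, lintegral_union measurableSet_Ioc (Ioc_disjoint_Ioc_of_le le_rfl)]

theorem mass_union_Ioi (f : ℂ → ℂ) (κ s1 ε : ℝ) (w : Path) {a b : ℝ} (hab : a ≤ b) (B : Set ℂ) :
    mass κ s1 ε f w (Ioi a) B = mass κ s1 ε f w (Ioc a b) B + mass κ s1 ε f w (Ioi b) B := by
  unfold mass
  rw [← Ioc_union_Ioi_eq_Ioi hab, lintegral_union measurableSet_Ioi Ioc_disjoint_Ioi_same]

theorem mass_Ioi_eq_iSup {f : ℂ → ℂ} (hf : Univ f) (κ s1 ε : ℝ) (w : Path) {B : Set ℂ}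
    (hB : MeasurableSet B) :
    mass κ s1 ε f w (Ioi 0) B = ⨆ n : ℕ, mass κ s1 ε f w (Ioc 0 n) B := by
  have e : Ioi (0 : ℝ) = ⋃ n : ℕ, Ioc (0 : ℝ) n := by
    ext x
    simp only [mem_Ioi, mem_iUnion, mem_Ioc]
    exact ⟨fun hx => (exists_nat_ge x).imp fun n hn => ⟨hx, hn⟩, fun ⟨_, hn⟩ => hn.1⟩
  unfold mass
  rw [e]
  exact setLIntegral_iUnion_of_directed _ (Monotone.directed_le fun m n hmn =>
    Ioc_subset_Ioc_right (Nat.cast_le.2 hmn))

theorem mass_eq_zero (κ s1 ε : ℝ) (f : ℂ → ℂ) (w : Path) {I : Set ℝ} (hI : MeasurableSet I)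
    {B : Set ℂ} (h : ∀ s ∈ I, ∀ ζ ∈ H, cfg f w s ζ ∈ B → 2 * ε < ups (cfg f w s) ζ) :
    mass κ s1 ε f w I B = 0 := by
  unfold mass rate
  refine setLIntegral_eq_zero hI fun s hs => setLIntegral_eq_zero measurableSet_H fun ζ hζ => ?_
  by_cases hB : cfg f w s ζ ∈ B
  · have h1 := h s hs ζ hζ hB
    have h2 : cr κ s1 ε ζ (ups (cfg f w s) ζ) = 0 := if_neg fun hh => not_le.2 h1 hh.2.2.1
    simp only [h2, mul_zero, zero_mul, Pi.zero_apply]
  · simp only [indicator_of_notMem hB, zero_mul, Pi.zero_apply]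

theorem m1_rate_material {f : ℂ → ℂ} (hf : Univ f) (κ s1 ε : ℝ) (w : Path) (s : ℝ) (B : Set ℂ) :
    rate κ s1 ε (cfg f w s) B = ∫⁻ ζ in H, B.indicator (fun _ => (1 : ℝ≥0∞)) (f ζ) *
      cr κ s1 ε (Zf w s ζ) (ups f ζ * mm w s ζ) * ENNReal.ofReal (‖deriv f ζ‖ ^ 2) := by
  unfold rate
  rw [lintegral_material hf w s fun ζ => B.indicator (fun _ => (1 : ℝ≥0∞)) (cfg f w s ζ) *
      cr κ s1 ε ζ (ups (cfg f w s) ζ), ← lintegral_indicator (isOpen_dom w s).measurableSet,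
    ← lintegral_indicator measurableSet_H]
  refine lintegral_congr fun ζ => ?_
  by_cases h : ζ ∈ dom w s
  · rw [indicator_of_mem h, indicator_of_mem (dom_subset w s h), cfg_Zf f h, ups_cfg hf h]
  · have h2 : cr κ s1 ε (Zf w s ζ) (ups f ζ * mm w s ζ) = 0 :=
      if_neg fun hh => h (Zf_mem_iff.1 hh.1)
    rw [indicator_of_notMem h]
    by_cases h3 : ζ ∈ H
    · rw [indicator_of_mem h3, h2, mul_zero, zero_mul]
    · rw [indicator_of_notMem h3]

theorem m1_cr_meas (f : ℂ → ℂ) (κ s1 ε : ℝ) (w : Path) :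
    Measurable fun q : ℝ × ℂ => cr κ s1 ε (Zf w q.1 q.2) (ups f q.2 * mm w q.1 q.2) := by
  have hw : Measurable fun q : ℝ × ℂ => ((w, q.1, q.2) : Path × ℝ × ℂ) := by fun_prop
  have hu : Measurable (ups f) :=
    Complex.measurable_im.mul (measurable_deriv f).norm
  exact (measurable_cr κ s1 ε).comp ((measurable_Zf.comp hw).prodMk
    ((hu.comp measurable_snd).mul (measurable_mm.comp hw)))

/-- Material coordinates (`lintegral_material`, `ups_cfg`, Tonelli). -/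
theorem mass_material {f : ℂ → ℂ} (hf : Univ f) (κ s1 ε : ℝ) (w : Path) {I : Set ℝ}
    (hI : MeasurableSet I) {B : Set ℂ} (hB : MeasurableSet B) :
    mass κ s1 ε f w I B = ∫⁻ ζ in H, B.indicator (fun _ => (1 : ℝ≥0∞)) (f ζ) *
      (∫⁻ s in I, cr κ s1 ε (Zf w s ζ) (ups f ζ * mm w s ζ)) * ENNReal.ofReal (‖deriv f ζ‖ ^ 2) := by
  have h1 := m1_cr_meas f κ s1 ε w
  have h2 : Measurable fun q : ℝ × ℂ => B.indicator (fun _ => (1 : ℝ≥0∞)) (f q.2) :=
    (measurable_const.indicator hB).comp (hf.meas.comp measurable_snd)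
  have h3 : Measurable fun q : ℝ × ℂ => ENNReal.ofReal (‖deriv f q.2‖ ^ 2) :=
    (((measurable_deriv f).comp measurable_snd).norm.pow_const 2).ennreal_ofReal
  unfold mass
  simp only [m1_rate_material hf]
  rw [lintegral_lintegral_swap ((h2.mul h1).mul h3).aemeasurable]
  refine lintegral_congr fun ζ => ?_
  have h4 : Measurable fun s : ℝ => cr κ s1 ε (Zf w s ζ) (ups f ζ * mm w s ζ) :=
    h1.comp (measurable_id.prodMk measurable_const)
  rw [lintegral_mul_const _ (h4.const_mul _), lintegral_const_mul _ h4]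

/-- `clock_le`. -/
theorem cr_time_le (κ : ℝ) {s1 ε : ℝ} (hs1 : 0 < s1) (hε : 0 < ε) (w : Path) {ζ : ℂ} (hζ : ζ ∈ H)
    {u : ℝ} (hu : 0 < u) :
    ∫⁻ s in Ioi (0 : ℝ), cr κ s1 ε (Zf w s ζ) (u * mm w s ζ) ≤
      ENNReal.ofReal (ε ^ (dd κ - 2) / s1 ^ 2) := by
  have hp : 0 ≤ ε ^ (dd κ - 2) := Real.rpow_nonneg hε.le _
  have h1 : ∀ s, cr κ s1 ε (Zf w s ζ) (u * mm w s ζ) ≤
      ENNReal.ofReal (ε ^ (dd κ - 2) / (4 * s1 ^ 2)) *
        ((Icc ε (2 * ε)).indicator (fun _ => (1 : ℝ≥0∞)) (u * mm w s ζ) *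
          ENNReal.ofReal (4 * Sn (Zf w s ζ) ^ 2 / ‖Zf w s ζ‖ ^ 2)) := by
    intro s
    unfold cr
    split_ifs with h
    · rw [indicator_of_mem (show u * mm w s ζ ∈ Icc ε (2 * ε) from ⟨h.2.1, h.2.2.1⟩), one_mul,
        ← ENNReal.ofReal_mul (by positivity)]
      refine ENNReal.ofReal_le_ofReal ?_
      have h2 : s1 ^ 2 ≤ Sn (Zf w s ζ) ^ 2 := pow_le_pow_left₀ hs1.le h.2.2.2 2
      have h3 : ε ^ (dd κ - 2) / (4 * s1 ^ 2) * (4 * Sn (Zf w s ζ) ^ 2 / ‖Zf w s ζ‖ ^ 2) =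
          ε ^ (dd κ - 2) / ‖Zf w s ζ‖ ^ 2 * (Sn (Zf w s ζ) ^ 2 / s1 ^ 2) := by
        field_simp
      rw [h3]
      exact le_mul_of_one_le_right (by positivity) ((one_le_div (by positivity)).2 h2)
    · exact zero_le
  refine (lintegral_mono h1).trans ?_
  rw [lintegral_const_mul' _ _ ENNReal.ofReal_ne_top]
  refine (mul_le_mul' le_rfl (clock_le w hζ hu hε)).trans ?_
  rw [← ENNReal.ofReal_mul (by positivity)]
  refine ENNReal.ofReal_le_ofReal ?_
  have h4 : Real.log 2 ≤ 4 := (Real.log_le_sub_one_of_pos two_pos).trans (by norm_num)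
  calc ε ^ (dd κ - 2) / (4 * s1 ^ 2) * Real.log 2 ≤ ε ^ (dd κ - 2) / (4 * s1 ^ 2) * 4 :=
        mul_le_mul_of_nonneg_left h4 (by positivity)
    _ = ε ^ (dd κ - 2) / s1 ^ 2 := by field_simp

theorem mass_le_vol {f : ℂ → ℂ} (hf : Univ f) (κ : ℝ) {s1 ε : ℝ} (hs1 : 0 < s1) (hε : 0 < ε)
    (w : Path) {B : Set ℂ} (hB : MeasurableSet B) :
    mass κ s1 ε f w (Ioi 0) B ≤ ENNReal.ofReal (ε ^ (dd κ - 2) / s1 ^ 2) * volume B := by
  rw [mass_material hf κ s1 ε w measurableSet_Ioi hB]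
  calc _ ≤ ∫⁻ ζ in H, ENNReal.ofReal (ε ^ (dd κ - 2) / s1 ^ 2) *
        (B.indicator (fun _ => (1 : ℝ≥0∞)) (f ζ) * ENNReal.ofReal (‖deriv f ζ‖ ^ 2)) := by
        refine setLIntegral_mono' measurableSet_H fun ζ hζ => ?_
        rw [← mul_assoc, mul_comm (ENNReal.ofReal _)]
        exact mul_le_mul' (mul_le_mul' le_rfl (cr_time_le κ hs1 hε w hζ (hf.ups_pos hζ))) le_rfl
    _ = ENNReal.ofReal (ε ^ (dd κ - 2) / s1 ^ 2) *
        ∫⁻ z in f '' H, B.indicator (fun _ => (1 : ℝ≥0∞)) z := by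
        rw [lintegral_const_mul' _ _ ENNReal.ofReal_ne_top,
          lintegral_area hf measurableSet_H subset_rfl]
    _ ≤ _ := by
        refine mul_le_mul' le_rfl ((setLIntegral_le_lintegral _ _).trans_eq ?_)
        exact lintegral_indicator_one hB

end Crest.Agent.R162
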