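import Crest.Agent.R162.O2
import Crest.Agent.R162.M1

set_option autoImplicit false
open MeasureTheory ProbabilityTheory Set Filter Topology Metric
open scoped ENNReal NNReal ComplexConjugate

namespace Crest.Agent.R162

theorem aa_pos {κ : ℝ} (hκ : 0 < κ) (hκ8 : κ < 8) : 0 < aa κ := by
  unfold aa
  rw [sub_pos, one_lt_div hκ]
  exact hκ8

theorem cO_pos {κ : ℝ} (hκ : 0 < κ) (hκ8 : κ < 8) : 0 < cO κ ∧ cO κ < aa κ ∧ cO κ ≤ 1 := by
  have h := aa_pos hκ hκ8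
  unfold cO
  exact ⟨lt_min (by linarith) one_pos, (min_le_left _ _).trans_lt (by linarith), min_le_right _ _⟩

theorem dd_mem {κ : ℝ} (hκ : 0 < κ) (hκ8 : κ < 8) : 1 < dd κ ∧ dd κ < 2 := by
  unfold dd
  constructor <;> linarith

theorem O3_kaa {κ : ℝ} (hκ : 0 < κ) : κ * aa κ / 2 = 4 * (2 - dd κ) := by
  unfold aa dd
  field_simp
  ring

theorem O3_latom {κ : ℝ} (hκ : 0 < κ) (k : ℝ → ℝ) (e : ℝ) (ζ : ℂ) (u : ℝ) :
    latom κ k e 0 ζ u = Sn ζ ^ e *
      (k (Real.log u) * (κ / 2 * e * (e - aa κ) * (1 - Sn ζ ^ 2) - κ * e / 2 * Sn ζ ^ 2) -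
        4 * Sn ζ ^ 2 * deriv k (Real.log u)) / ‖ζ‖ ^ 2 := by
  unfold latom
  have h1 : ‖ζ‖ ^ ((0 : ℝ) - 2) = (‖ζ‖ ^ 2)⁻¹ := by
    rw [zero_sub, Real.rpow_neg (norm_nonneg _), Real.rpow_two]
  have h2 : (0 - e) * (2 - κ / 2) * (1 - 2 * Sn ζ ^ 2) + κ / 2 * (0 - e) ^ 2 * (1 - Sn ζ ^ 2) - 2 * e
      = κ / 2 * e * (e - aa κ) * (1 - Sn ζ ^ 2) - κ * e / 2 * Sn ζ ^ 2 := by
    unfold aa
    field_simp
    ring
  rw [h1, h2]
  ring

theorem O3_st_deriv (x : ℝ) : HasDerivAt st (deriv st x) x :=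
  (BC3_st.1.differentiable (by norm_num) x).hasDerivAt

/-- The cut-off exponentials. -/
noncomputable def O3g (b L x : ℝ) : ℝ :=
  Real.exp (-b * (x - L)) * st ((x - L) / Real.log 2 + 1)

theorem O3g_BC3 {b : ℝ} (hb : 0 ≤ b) (L : ℝ) : BC3 (O3g b L) := by
  have hl : 0 < Real.log 2 := Real.log_pos (by norm_num)
  have h1 : BC3 (fun y => Real.exp (-b * y) * st (1 / Real.log 2 * y + 1)) := by
    refine (BC3_st.affine _ _).exp_mul (x0 := -Real.log 2) hb fun x hx => ?_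
    apply Real.smoothTransition.zero_of_nonpos
    have : 1 / Real.log 2 * x ≤ -1 := by
      rw [one_div, inv_mul_le_iff₀ hl]; linarith
    linarith
  have h2 := h1.affine 1 (-L)
  convert h2 using 1
  ext x
  unfold O3g
  congr 2
  · ring
  · ring

theorem O3g_deriv (b L x : ℝ) : HasDerivAt (O3g b L) (-b * O3g b L x +
    Real.exp (-b * (x - L)) * (deriv st ((x - L) / Real.log 2 + 1) / Real.log 2)) x := by
  have h1 : HasDerivAt (fun x => -b * (x - L)) (-b) x := by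
    simpa using ((hasDerivAt_id x).sub_const L).const_mul (-b)
  have h2 : HasDerivAt (fun x => (x - L) / Real.log 2 + 1) (1 / Real.log 2) x :=
    (((hasDerivAt_id x).sub_const L).div_const _).add_const 1
  have h3 := (O3_st_deriv _).comp x h2
  have h4 := h1.exp.mul h3
  refine HasDerivAt.congr_deriv (f := O3g b L) h4 ?_
  unfold O3g
  simp only [Function.comp]
  ring

theorem O3_exM {μ q e : ℝ} (hμ : 0 < μ) (hq : 0 < q) (he : 0 < e) :
    ∃ M : ℝ, 0 < M ∧ ∀ S : ℝ, 0 < S → q * S ^ 2 - μ ≤ M * S ^ e * S ^ 2 := by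
  set s0 := Real.sqrt (μ / q) with hs0
  have hs : 0 < s0 := Real.sqrt_pos.2 (by positivity)
  have hs2 : s0 ^ 2 = μ / q := Real.sq_sqrt (by positivity)
  have hse : 0 < s0 ^ e := Real.rpow_pos_of_pos hs e
  refine ⟨q / s0 ^ e, by positivity, fun S hS => ?_⟩
  have hSe : 0 < S ^ e := Real.rpow_pos_of_pos hS e
  rcases le_total S s0 with h | h
  · have h1 : S ^ 2 ≤ s0 ^ 2 := by gcongr
    have h2 : q * S ^ 2 ≤ μ := by
      rw [hs2, le_div_iff₀ hq] at h1; linarith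
    have : 0 ≤ q / s0 ^ e * S ^ e * S ^ 2 := by positivity
    linarith
  · have h1 : s0 ^ e ≤ S ^ e := Real.rpow_le_rpow hs.le h he.le
    have h2 : q ≤ q / s0 ^ e * S ^ e := by
      rw [div_mul_eq_mul_div, le_div_iff₀ hse]; gcongr
    have : q * S ^ 2 ≤ q / s0 ^ e * S ^ e * S ^ 2 := by gcongr
    linarith

/-- The test function. With `v = u/ε`, `j = st ((log v + log 2)/log 2)` (`0` for `v ≤ 1/2`, `1` for
`v ≥ 1`): `φ = j [K' (2 v^(d-2) - v^(d-3)) S^a + K v^(d-3) S^c]`, `c = cO κ`. In the clock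
`S²/‖ζ‖²`: `L (v^(-b) S^e) = v^(-b) S^e [(κ/2) e (e-a) cot² + 4 b - κ e/2]`, and `κ a/2 = 4 (2-d)`. -/
theorem exists_test {κ : ℝ} (hκ : 0 < κ) (hκ8 : κ < 8) : ∃ C : ℝ, 0 < C ∧ ∀ ε > 0,
    ∃ k : Fin 2 → ℝ → ℝ, AtomOK k ![aa κ, cO κ] ![0, 0] ∧ ∀ ζ ∈ H, ∀ u > 0,
      0 ≤ asum k ![aa κ, cO κ] ![0, 0] ζ u ∧ lsum κ k ![aa κ, cO κ] ![0, 0] ζ u ≤ 0 ∧
      asum k ![aa κ, cO κ] ![0, 0] ζ u ≤
        C * (ε / u) ^ (2 - dd κ) * (Sn ζ ^ aa κ + ε / u * Sn ζ ^ cO κ) ∧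
      (u ∈ Icc ε (2 * ε) → Sn ζ ^ cO κ ≤ asum k ![aa κ, cO κ] ![0, 0] ζ u ∧
        Sn ζ ^ cO κ / ‖ζ‖ ^ 2 ≤ -lsum κ k ![aa κ, cO κ] ![0, 0] ζ u) := by
  have ha := aa_pos hκ hκ8
  obtain ⟨hc, hca, hc1⟩ := cO_pos hκ hκ8
  obtain ⟨hd1, hd2⟩ := dd_mem hκ hκ8
  have hka := O3_kaa hκ
  have hl : 0 < Real.log 2 := Real.log_pos (by norm_num)
  set a := aa κ with ha_def
  set c := cO κ with hc_def
  set p := 2 - dd κ with hp_def
  have hp : 0 < p := by linarith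
  have hp1 : p < 1 := by linarith
  set μ := κ / 2 * c * min (a - c) 1 with hμ_def
  have hmin : 0 < min (a - c) 1 := lt_min (by linarith) one_pos
  have hμ : 0 < μ := by positivity
  obtain ⟨M, hM, hMS⟩ := O3_exM (μ := μ / 2) (q := 4 * (p + 1)) (e := a - c) (by positivity)
    (by positivity) (by linarith)
  set K := 4 + 8 / μ with hK_def
  have hK4 : 4 ≤ K := by
    have : 0 ≤ 8 / μ := by positivity
    linarith
  have hK : 0 < K := by linarith
  have hKμ : 8 ≤ K * μ := by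
    have : K * μ = 4 * μ + 8 := by rw [hK_def]; field_simp
    linarith
  set K' := K * M / 4 with hK'_def
  have hK' : 0 < K' := by positivity
  refine ⟨2 * K' + K, by positivity, fun ε hε => ?_⟩
  set L := Real.log ε with hL
  refine ⟨![fun x => K' * (2 * O3g p L x + (-1) * O3g (p + 1) L x), fun x => K * O3g (p + 1) L x],
    ⟨?_, ?_, ?_, ?_⟩, fun ζ hζ u hu => ?_⟩
  · intro i
    fin_cases i
    · exact (((O3g_BC3 hp.le L).const_mul 2).add
        ((O3g_BC3 (by linarith) L).const_mul (-1))).const_mul K'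
    · exact (O3g_BC3 (by linarith) L).const_mul K
  · intro i
    fin_cases i
    · exact ha
    · exact hc
  · intro i
    fin_cases i <;> simp
  · intro i
    fin_cases i <;> simp
  have hS := Sn_pos hζ
  have hS1 := Sn_le_one ζ
  have hn := T2_norm_pos hζ
  set S := Sn ζ with hS_def
  set x := Real.log u with hx
  set j := st ((x - L) / Real.log 2 + 1) with hj_def
  set j' := deriv st ((x - L) / Real.log 2 + 1) / Real.log 2 with hj'_def
  set r := ε / u with hr_def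
  have hr : 0 < r := by positivity
  have hE1 : Real.exp (-p * (x - L)) = r ^ p := by
    rw [Real.rpow_def_of_pos hr, hr_def, Real.log_div hε.ne' hu.ne']
    congr 1; ring
  have hE2 : Real.exp (-(p + 1) * (x - L)) = r ^ p * r := by
    rw [← Real.rpow_add_one hr.ne', Real.rpow_def_of_pos hr, hr_def, Real.log_div hε.ne' hu.ne']
    congr 1; ring
  have hrp : 0 < r ^ p := Real.rpow_pos_of_pos hr p
  have hj0 : 0 ≤ j := Real.smoothTransition.nonneg _
  have hj1 : j ≤ 1 := Real.smoothTransition.le_one _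
  have hj'0 : 0 ≤ j' := div_nonneg (st_deriv_nonneg _) hl.le
  have hr2 : (j = 0 ∧ j' = 0) ∨ r ≤ 2 := by
    by_cases h : r ≤ 2
    · exact Or.inr h
    · left
      have h1 : Real.log 2 ≤ Real.log r := Real.log_le_log (by norm_num) (le_of_lt (not_le.1 h))
      rw [hr_def, Real.log_div hε.ne' hu.ne'] at h1
      have h2 : (x - L) / Real.log 2 + 1 ≤ 0 := by
        have : (x - L) / Real.log 2 ≤ -1 := by
          rw [div_le_iff₀ hl]; linarith
        linarith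
      exact ⟨Real.smoothTransition.zero_of_nonpos h2, by
        rw [hj'_def, (st_deriv_eq_zero (Or.inl h2)).1, zero_div]⟩
  have hjr : 0 ≤ j * (2 - r) := by
    rcases hr2 with h | h
    · rw [h.1, zero_mul]
    · exact mul_nonneg hj0 (by linarith)
  have hj'r : 0 ≤ j' * (2 - r) := by
    rcases hr2 with h | h
    · rw [h.2, zero_mul]
    · exact mul_nonneg hj'0 (by linarith)
  have hg1 : O3g p L x = r ^ p * j := by unfold O3g; rw [hE1]
  have hg2 : O3g (p + 1) L x = r ^ p * r * j := by unfold O3g; rw [hE2]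
  have hD1 : deriv (fun x => K' * (2 * O3g p L x + (-1) * O3g (p + 1) L x)) x =
      K' * (2 * (-p * (r ^ p * j) + r ^ p * j') +
        (-1) * (-(p + 1) * (r ^ p * r * j) + r ^ p * r * j')) := by
    have := ((((O3g_deriv p L x).const_mul 2).add
      ((O3g_deriv (p + 1) L x).const_mul (-1))).const_mul K').deriv
    rw [hg1, hg2, hE1, hE2] at this
    exact this
  have hD2 : deriv (fun x => K * O3g (p + 1) L x) x =
      K * (-(p + 1) * (r ^ p * r * j) + r ^ p * r * j') := by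
    have := ((O3g_deriv (p + 1) L x).const_mul K).deriv
    rw [hg2, hE2] at this
    exact this
  have hSa : 0 < S ^ a := Real.rpow_pos_of_pos hS a
  have hSc : 0 < S ^ c := Real.rpow_pos_of_pos hS c
  have hSac : S ^ a = S ^ c * S ^ (a - c) := by
    rw [← Real.rpow_add hS]; congr 1; ring
  have hA : asum ![fun x => K' * (2 * O3g p L x + (-1) * O3g (p + 1) L x),
      fun x => K * O3g (p + 1) L x] ![a, c] ![0, 0] ζ u =
      K' * r ^ p * (j * (2 - r)) * S ^ a + K * (r ^ p * r * j) * S ^ c := by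
    unfold asum atom
    simp only [Fin.sum_univ_two, Matrix.cons_val_zero, Matrix.cons_val_one, Real.rpow_zero]
    rw [← hx, hg1, hg2]
    ring
  have hLs : -lsum κ ![fun x => K' * (2 * O3g p L x + (-1) * O3g (p + 1) L x),
      fun x => K * O3g (p + 1) L x] ![a, c] ![0, 0] ζ u =
      (4 * K' * S ^ a * S ^ 2 * r ^ p * (j' * (2 - r)) + 4 * K * S ^ c * S ^ 2 * r ^ p * r * j' +
        r ^ p * r * j * S ^ c * (4 * K' * S ^ (a - c) * S ^ 2 - K * (4 * (p + 1) * S ^ 2) +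
          K * (κ / 2 * c * (a - c) * (1 - S ^ 2) + κ * c / 2 * S ^ 2))) / ‖ζ‖ ^ 2 := by
    unfold lsum
    simp only [Fin.sum_univ_two, Matrix.cons_val_zero, Matrix.cons_val_one]
    rw [O3_latom hκ, O3_latom hκ, ← hx, hD1, hD2, hg1, hg2, ← ha_def, ← hS_def, hka, hSac]
    ring
  have hS2 : S ^ 2 ≤ 1 := pow_le_one₀ hS.le hS1
  have hΛ : μ ≤ κ / 2 * c * (a - c) * (1 - S ^ 2) + κ * c / 2 * S ^ 2 := by
    have h1 : min (a - c) 1 * (1 - S ^ 2) ≤ (a - c) * (1 - S ^ 2) :=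
      mul_le_mul_of_nonneg_right (min_le_left _ _) (by linarith)
    have h2 : min (a - c) 1 * S ^ 2 ≤ 1 * S ^ 2 :=
      mul_le_mul_of_nonneg_right (min_le_right _ _) (by positivity)
    have h3 : min (a - c) 1 ≤ (a - c) * (1 - S ^ 2) + S ^ 2 := by linarith
    have h4 : 0 < κ / 2 * c := by positivity
    calc μ = κ / 2 * c * min (a - c) 1 := rfl
      _ ≤ κ / 2 * c * ((a - c) * (1 - S ^ 2) + S ^ 2) := by gcongr
      _ = _ := by ring
  have hB : 4 ≤ 4 * K' * S ^ (a - c) * S ^ 2 - K * (4 * (p + 1) * S ^ 2) +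
      K * (κ / 2 * c * (a - c) * (1 - S ^ 2) + κ * c / 2 * S ^ 2) := by
    have h1 := mul_le_mul_of_nonneg_left (hMS S hS) hK.le
    have h2 := mul_le_mul_of_nonneg_left hΛ hK.le
    have h3 : 4 * K' * S ^ (a - c) * S ^ 2 = K * (M * S ^ (a - c) * S ^ 2) := by
      rw [hK'_def]; ring
    rw [h3]
    linarith
  have hlow : r ^ p * r * j * S ^ c * 4 / ‖ζ‖ ^ 2 ≤ -lsum κ
      ![fun x => K' * (2 * O3g p L x + (-1) * O3g (p + 1) L x),
        fun x => K * O3g (p + 1) L x] ![a, c] ![0, 0] ζ u := by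
    rw [hLs]
    apply div_le_div_of_nonneg_right _ (by positivity)
    have h1 : 0 ≤ 4 * K' * S ^ a * S ^ 2 * r ^ p * (j' * (2 - r)) := by positivity
    have h2 : 0 ≤ 4 * K * S ^ c * S ^ 2 * r ^ p * r * j' := by positivity
    have h3 := mul_le_mul_of_nonneg_left hB (show 0 ≤ r ^ p * r * j * S ^ c by positivity)
    linarith
  refine ⟨?_, ?_, ?_, fun hI => ?_⟩
  · rw [hA]; positivity
  · have : 0 ≤ r ^ p * r * j * S ^ c * 4 / ‖ζ‖ ^ 2 := by positivity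
    linarith
  · rw [hA]
    have h1 : j * (2 - r) ≤ 2 := by
      have := mul_nonneg hj0 hr.le
      linarith
    have h2 : K' * r ^ p * (j * (2 - r)) * S ^ a ≤ K' * r ^ p * 2 * S ^ a := by gcongr
    have h3 : K * (r ^ p * r * j) * S ^ c ≤ K * (r ^ p * r * 1) * S ^ c := by gcongr
    have h4 : 0 ≤ K * r ^ p * S ^ a := by positivity
    have h5 : 0 ≤ 2 * K' * r ^ p * (r * S ^ c) := by positivity
    linarith
  · have hj : j = 1 := by
      apply Real.smoothTransition.one_of_one_le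
      have h1 : L ≤ x := Real.log_le_log hε hI.1
      have : 0 ≤ (x - L) / Real.log 2 := div_nonneg (by linarith) hl.le
      linarith
    have hr1 : r ≤ 1 := by rw [hr_def, div_le_one hu]; exact hI.1
    have hr3 : 1 / 2 ≤ r := by
      rw [hr_def, le_div_iff₀ hu]; linarith [hI.2]
    have hr4 : r ≤ r ^ p := by
      have := Real.rpow_le_rpow_of_exponent_ge hr hr1 hp1.le
      rwa [Real.rpow_one] at this
    have hr5 : 1 / 4 ≤ r ^ p * r := by
      have := mul_le_mul (hr3.trans hr4) hr3 (by norm_num) hrp.le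
      linarith
    constructor
    · rw [hA]
      have h1 : 0 ≤ K' * r ^ p * (j * (2 - r)) * S ^ a := by positivity
      have h2 : 1 ≤ K * (r ^ p * r * j) := by
        have := mul_le_mul hK4 hr5 (by norm_num) hK.le
        rw [hj]
        linarith
      have := mul_le_mul_of_nonneg_right h2 hSc.le
      linarith
    · refine le_trans ?_ hlow
      apply div_le_div_of_nonneg_right _ (by positivity)
      have := mul_le_mul_of_nonneg_right hr5 hSc.le
      rw [hj]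
      linarith

theorem O3_alive {w : Path} {t : ℝ} {ζ : ℂ} {u ε : ℝ} (hε : 0 < ε) (h : ε ≤ u * mm w t ζ) :
    Zf w t ζ ∈ H ∧ 0 < u * mm w t ζ := by
  refine ⟨Zf_mem ?_, hε.trans_le h⟩
  by_contra hd
  rw [mm_dead hd, mul_zero] at h
  linarith

theorem O3_Sn_nonneg (w : Path) (t : ℝ) (ζ : ℂ) : 0 ≤ Sn (Zf w t ζ) := by
  by_cases h : ζ ∈ dom w t
  · exact (Sn_pos (Zf_mem h)).le
  · rw [Zf_dead h, Sn_zero]

theorem occ {κ : ℝ} (hκ : 0 < κ) (hκ8 : κ < 8) {P : Measure Path} (hP : IsDrv κ P) :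
    ∃ C : ℝ, 0 < C ∧ ∀ ζ ∈ H, ∀ u > 0, ∀ ε > 0,
      ∫⁻ w, (∫⁻ s in Ioi (0 : ℝ), (Icc ε (2 * ε)).indicator (fun _ => (1 : ℝ≥0∞)) (u * mm w s ζ) *
        ENNReal.ofReal (Sn (Zf w s ζ) ^ cO κ / ‖Zf w s ζ‖ ^ 2)) ∂P ≤
      ENNReal.ofReal (C * (ε / u) ^ (2 - dd κ) * (Sn ζ ^ aa κ + ε / u * Sn ζ ^ cO κ)) := by
  obtain ⟨C, hC, h⟩ := exists_test hκ hκ8
  refine ⟨C, hC, fun ζ hζ u hu ε hε => ?_⟩
  obtain ⟨k, hk, hk'⟩ := h ε hε
  have h1 := exc_Ioi hκ hP hk (fun ζ hζ u hu => ⟨(hk' ζ hζ u hu).1, (hk' ζ hζ u hu).2.1⟩) hζ hu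
  refine le_trans ?_ (h1.trans (ENNReal.ofReal_le_ofReal (hk' ζ hζ u hu).2.2.1))
  refine lintegral_mono fun w => lintegral_mono fun s => ?_
  by_cases hI : u * mm w s ζ ∈ Icc ε (2 * ε)
  · obtain ⟨h2, h3⟩ := O3_alive hε hI.1
    simp only [indicator_of_mem hI, one_mul]
    exact ENNReal.ofReal_le_ofReal ((hk' _ h2 _ h3).2.2.2 hI).2
  · simp only [indicator_of_notMem hI, zero_mul, zero_le]

theorem measurableSet_hit (ζ : ℂ) (u ε : ℝ) (hu : 0 ≤ u) :
    MeasurableSet {w : Path | ∃ t, 0 ≤ t ∧ ζ ∈ dom w t ∧ u * mm w t ζ ≤ ε} := by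
  have h : {w : Path | ∃ t, 0 ≤ t ∧ ζ ∈ dom w t ∧ u * mm w t ζ ≤ ε} =
      ⋃ q : ℚ, {w : Path | 0 ≤ (q : ℝ) ∧ ζ ∈ dom w q ∧ u * mm w q ζ ≤ ε} := by
    ext w
    simp only [mem_ofPred_eq, mem_iUnion]
    constructor
    · rintro ⟨t, ht, h1, h2⟩
      obtain ⟨t', ht', h3⟩ := alive_right ht h1
      obtain ⟨q, hq1, hq2⟩ := exists_rat_btwn ht'
      exact ⟨q, ht.trans hq1.le, dom_anti w (ht.trans hq1.le) hq2.le h3,
        (mul_le_mul_of_nonneg_left (mm_anti w ht hq1.le ζ) hu).trans h2⟩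
    · rintro ⟨q, h⟩
      exact ⟨q, h⟩
  rw [h]
  refine MeasurableSet.iUnion fun q => ?_
  have hm : Measurable (fun w : Path => (w, (q : ℝ), ζ)) := by fun_prop
  refine (MeasurableSet.const _).inter (MeasurableSet.inter (hm measurableSet_alive) ?_)
  exact measurableSet_le ((measurable_mm.comp hm).const_mul u) measurable_const

/-- `le_clock`, `occ`, Markov's inequality. -/
theorem hit {κ : ℝ} (hκ : 0 < κ) (hκ8 : κ < 8) {P : Measure Path} (hP : IsDrv κ P) :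
    ∃ C : ℝ, 1 ≤ C ∧ ∀ ζ ∈ H, ∀ u > 0, ∀ ε > 0, 2 * ε ≤ u →
      P {w | ∃ t, 0 ≤ t ∧ ζ ∈ dom w t ∧ u * mm w t ζ ≤ ε} ≤
      ENNReal.ofReal (C * (ε / u) ^ (2 - dd κ) * (Sn ζ ^ aa κ + ε / u * Sn ζ ^ cO κ)) := by
  obtain ⟨C, hC, h⟩ := occ hκ hκ8 hP
  obtain ⟨hc, -, hc1⟩ := cO_pos hκ hκ8
  have hl : (1 : ℝ) / 2 ≤ Real.log 2 := by linarith [Real.log_two_gt_d9]
  refine ⟨8 * C + 1, by linarith, fun ζ hζ u hu ε hε h2 => ?_⟩
  have hS := Sn_pos hζ
  have hX : 0 ≤ (ε / u) ^ (2 - dd κ) * (Sn ζ ^ aa κ + ε / u * Sn ζ ^ cO κ) := by positivity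
  have h1 := h ζ hζ u hu ε hε
  rw [← lintegral_indicator_one (measurableSet_hit ζ u ε hu.le)]
  calc _ ≤ ∫⁻ w, 8 * (∫⁻ s in Ioi (0 : ℝ),
        (Icc ε (2 * ε)).indicator (fun _ => (1 : ℝ≥0∞)) (u * mm w s ζ) *
        ENNReal.ofReal (Sn (Zf w s ζ) ^ cO κ / ‖Zf w s ζ‖ ^ 2)) ∂P := by
        refine lintegral_mono fun w => ?_
        by_cases hw : w ∈ {w : Path | ∃ t, 0 ≤ t ∧ ζ ∈ dom w t ∧ u * mm w t ζ ≤ ε}
        · rw [indicator_of_mem hw]
          obtain ⟨t, ht, h3, h4⟩ := hw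
          have h5 := le_clock w hε h2 ht h3 h4
          have h6 : (1 : ℝ≥0∞) ≤ 2 * ENNReal.ofReal (Real.log 2) := by
            rw [← ENNReal.ofReal_ofNat, ← ENNReal.ofReal_mul (by norm_num), ENNReal.one_le_ofReal]
            linarith
          refine h6.trans ((mul_le_mul_right h5 2).trans ?_)
          rw [← lintegral_const_mul' _ _ (by norm_num), ← lintegral_const_mul' _ _ (by norm_num)]
          refine lintegral_mono fun s => ?_
          simp only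
          rw [mul_left_comm, mul_left_comm (8 : ℝ≥0∞)]
          refine mul_le_mul_right ?_ _
          rw [← ENNReal.ofReal_ofNat 2, ← ENNReal.ofReal_ofNat 8,
            ← ENNReal.ofReal_mul (by norm_num), ← ENNReal.ofReal_mul (by norm_num)]
          apply ENNReal.ofReal_le_ofReal
          have h7 : Sn (Zf w s ζ) ^ 2 ≤ Sn (Zf w s ζ) ^ cO κ := by
            rw [← Real.rpow_two]
            exact Real.rpow_le_rpow_of_exponent_ge' (O3_Sn_nonneg w s ζ) (Sn_le_one _) hc.le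
              (by linarith)
          rw [← mul_div_assoc, ← mul_div_assoc]
          apply div_le_div_of_nonneg_right _ (by positivity)
          linarith
        · rw [indicator_of_notMem hw]
          exact zero_le
    _ ≤ 8 * ENNReal.ofReal (C * (ε / u) ^ (2 - dd κ) * (Sn ζ ^ aa κ + ε / u * Sn ζ ^ cO κ)) := by
        rw [lintegral_const_mul' _ _ (by norm_num)]
        exact mul_le_mul_right h1 8
    _ ≤ _ := by
        rw [← ENNReal.ofReal_ofNat 8, ← ENNReal.ofReal_mul (by norm_num)]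
        apply ENNReal.ofReal_le_ofReal
        linarith

theorem hit' {κ : ℝ} (hκ : 0 < κ) (hκ8 : κ < 8) {P : Measure Path} (hP : IsDrv κ P) :
    ∃ C : ℝ, 1 ≤ C ∧ ∀ ζ ∈ H, ∀ u > 0, ∀ ε > 0,
      P {w | ∃ t, 0 ≤ t ∧ ζ ∈ dom w t ∧ u * mm w t ζ ≤ ε} ≤
      ENNReal.ofReal (C * (ε / u) ^ (2 - dd κ)) := by
  obtain ⟨C, hC, h⟩ := hit hκ hκ8 hP
  obtain ⟨hc, -, hc1⟩ := cO_pos hκ hκ8
  have ha := aa_pos hκ hκ8
  obtain ⟨hd1, hd2⟩ := dd_mem hκ hκ8
  have := hP.prob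
  refine ⟨2 * C, by linarith, fun ζ hζ u hu ε hε => ?_⟩
  have hS := Sn_pos hζ
  have hr : 0 < ε / u := by positivity
  have hrp : 0 < (ε / u) ^ (2 - dd κ) := Real.rpow_pos_of_pos hr _
  by_cases h2 : 2 * ε ≤ u
  · refine (h ζ hζ u hu ε hε h2).trans (ENNReal.ofReal_le_ofReal ?_)
    have h3 : Sn ζ ^ aa κ ≤ 1 := Real.rpow_le_one hS.le (Sn_le_one _) ha.le
    have h4 : Sn ζ ^ cO κ ≤ 1 := Real.rpow_le_one hS.le (Sn_le_one _) hc.le
    have h5 : ε / u ≤ 1 := by rw [div_le_one hu]; linarith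
    have h6 : ε / u * Sn ζ ^ cO κ ≤ 1 := mul_le_one₀ h5 (by positivity) h4
    have h7 : C * (ε / u) ^ (2 - dd κ) * (Sn ζ ^ aa κ + ε / u * Sn ζ ^ cO κ) ≤
        C * (ε / u) ^ (2 - dd κ) * 2 :=
      mul_le_mul_of_nonneg_left (by linarith) (by positivity)
    linarith
  · refine prob_le_one.trans ?_
    rw [ENNReal.one_le_ofReal]
    have h3 : 1 / 2 ≤ ε / u := by rw [le_div_iff₀ hu]; linarith [not_le.1 h2]
    have h4 : (1 / 2 : ℝ) ^ (2 - dd κ) ≤ (ε / u) ^ (2 - dd κ) :=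
      Real.rpow_le_rpow (by norm_num) h3 (by linarith)
    have h5 : (1 / 2 : ℝ) ^ (1 : ℝ) ≤ (1 / 2 : ℝ) ^ (2 - dd κ) :=
      Real.rpow_le_rpow_of_exponent_ge (by norm_num) (by norm_num) (by linarith)
    rw [Real.rpow_one] at h5
    have h6 := mul_le_mul hC (h5.trans h4) (by norm_num) (by linarith)
    linarith

theorem stopS {κ : ℝ} (hκ : 0 < κ) (hκ8 : κ < 8) {P : Measure Path} (hP : IsDrv κ P) :
    ∃ C : ℝ, 1 ≤ C ∧ ∀ ζ ∈ H, ∀ u > 0, ∀ ε > 0, ∀ τ : Path → ℝ≥0∞, IsOpt τ →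
      ∫⁻ w in {w | τ w < ⊤},
        (Icc ε (2 * ε)).indicator (fun _ => (1 : ℝ≥0∞)) (u * mm w (τ w).toReal ζ) *
          ENNReal.ofReal (Sn (Zf w (τ w).toReal ζ) ^ cO κ) ∂P ≤
      ENNReal.ofReal (C * (ε / u) ^ (2 - dd κ) * (Sn ζ ^ aa κ + ε / u * Sn ζ ^ cO κ)) := by
  obtain ⟨C, hC, h⟩ := exists_test hκ hκ8
  refine ⟨C + 1, by linarith, fun ζ hζ u hu ε hε τ hτ => ?_⟩
  obtain ⟨k, hk, hk'⟩ := h ε hε
  have h1 := exc_stop hκ hP hk (fun ζ hζ u hu => ⟨(hk' ζ hζ u hu).1, (hk' ζ hζ u hu).2.1⟩) hζ hu hτ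
  have hS := Sn_pos hζ
  have hX : 0 ≤ (ε / u) ^ (2 - dd κ) * (Sn ζ ^ aa κ + ε / u * Sn ζ ^ cO κ) := by positivity
  refine le_trans ?_ (h1.trans (ENNReal.ofReal_le_ofReal ((hk' ζ hζ u hu).2.2.1.trans (by linarith))))
  refine lintegral_mono fun w => ?_
  by_cases hI : u * mm w (τ w).toReal ζ ∈ Icc ε (2 * ε)
  · obtain ⟨h2, h3⟩ := O3_alive hε hI.1
    simp only [indicator_of_mem hI, one_mul]
    exact ENNReal.ofReal_le_ofReal ((hk' _ h2 _ h3).2.2.2 hI).1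
  · simp only [indicator_of_notMem hI, zero_mul, zero_le]

theorem BC3_kG {κ : ℝ} (hκ : 0 < κ) (hκ8 : κ < 8) (ε : ℝ) : BC3 (kG κ ε) := by
  obtain ⟨hd1, hd2⟩ := dd_mem hκ hκ8
  have hl : 0 < Real.log 2 := Real.log_pos (by norm_num)
  have h1 : BC3 (fun x => Real.exp (-(2 - dd κ) * x) *
      st (1 / Real.log 2 * x + -Real.log ε / Real.log 2)) := by
    refine (BC3_st.affine _ _).exp_mul (x0 := Real.log ε) (by linarith) fun x hx => ?_
    apply Real.smoothTransition.zero_of_nonpos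
    have : 1 / Real.log 2 * x + -Real.log ε / Real.log 2 = (x - Real.log ε) / Real.log 2 := by ring
    rw [this]
    exact div_nonpos_of_nonpos_of_nonneg (by linarith) hl.le
  convert h1 using 1
  ext x
  unfold kG
  congr 2
  · ring
  · ring

theorem O3_kG_deriv (κ ε x : ℝ) : deriv (kG κ ε) x = (dd κ - 2) * kG κ ε x +
    Real.exp ((dd κ - 2) * x) * (deriv st ((x - Real.log ε) / Real.log 2) / Real.log 2) := by
  have h1 : HasDerivAt (fun x => (dd κ - 2) * x) (dd κ - 2) x := by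
    simpa using (hasDerivAt_id x).const_mul (dd κ - 2)
  have h2 : HasDerivAt (fun x => (x - Real.log ε) / Real.log 2) (1 / Real.log 2) x :=
    ((hasDerivAt_id x).sub_const _).div_const _
  have h3 := (O3_st_deriv _).comp x h2
  have h4 := h1.exp.mul h3
  refine (HasDerivAt.congr_deriv (f := kG κ ε) h4 ?_).deriv
  unfold kG
  simp only [Function.comp]
  ring

theorem latom_kG {κ : ℝ} (hκ : 0 < κ) (hκ8 : κ < 8) (ε : ℝ) {ζ : ℂ} (hζ : ζ ∈ H) {u : ℝ}
    (hu : 0 < u) : latom κ (kG κ ε) (aa κ) 0 ζ u =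
      -(4 * Sn ζ ^ (aa κ + 2) * u ^ (dd κ - 2) *
        (deriv st ((Real.log u - Real.log ε) / Real.log 2) / Real.log 2) / ‖ζ‖ ^ 2) := by
  have _ := hκ8
  rw [O3_latom hκ, O3_kG_deriv, O3_kaa hκ, Real.rpow_add (Sn_pos hζ), Real.rpow_two,
    Real.rpow_def_of_pos hu, mul_comm (Real.log u)]
  ring

theorem O3_atom_kG (κ ε : ℝ) (ζ : ℂ) {u : ℝ} (hu : 0 < u) :
    atom (kG κ ε) (aa κ) 0 ζ u = Gf κ ζ u * st ((Real.log u - Real.log ε) / Real.log 2) := by
  unfold atom kG Gf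
  rw [Real.rpow_zero, Real.rpow_def_of_pos hu, mul_comm (Real.log u)]
  ring

/-- `exc_stop` for the atom `kG κ (ε/2)`. -/
theorem stopG {κ : ℝ} (hκ : 0 < κ) (hκ8 : κ < 8) {P : Measure Path} (hP : IsDrv κ P) {ζ : ℂ}
    (hζ : ζ ∈ H) {u ε : ℝ} (hu : 0 < u) (hε : 0 < ε) {τ : Path → ℝ≥0∞} (hτ : IsOpt τ) :
    ∫⁻ w in {w | τ w < ⊤}, (Ici ε).indicator (fun _ => (1 : ℝ≥0∞)) (u * mm w (τ w).toReal ζ) *
      ENNReal.ofReal (Gf κ (Zf w (τ w).toReal ζ) (u * mm w (τ w).toReal ζ)) ∂P ≤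
      ENNReal.ofReal (Gf κ ζ u) := by
  have hl : 0 < Real.log 2 := Real.log_pos (by norm_num)
  have hG : ∀ ζ ∈ H, ∀ u > 0, 0 ≤ Gf κ ζ u := fun ζ hζ u hu => by
    have := Sn_pos hζ
    unfold Gf
    positivity
  have hk : AtomOK (fun _ : Fin 1 => kG κ (ε / 2)) (fun _ => aa κ) (fun _ => 0) :=
    ⟨fun _ => BC3_kG hκ hκ8 _, fun _ => aa_pos hκ hκ8, fun _ => le_rfl, fun _ => two_pos⟩
  have hA : ∀ ζ u, asum (fun _ : Fin 1 => kG κ (ε / 2)) (fun _ => aa κ) (fun _ => 0) ζ u =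
      atom (kG κ (ε / 2)) (aa κ) 0 ζ u := fun ζ u => by simp [asum]
  have hL : ∀ ζ u, lsum κ (fun _ : Fin 1 => kG κ (ε / 2)) (fun _ => aa κ) (fun _ => 0) ζ u =
      latom κ (kG κ (ε / 2)) (aa κ) 0 ζ u := fun ζ u => by simp [lsum]
  have h1 := exc_stop hκ hP hk (fun ζ hζ u hu => ⟨by
    rw [hA, O3_atom_kG _ _ _ hu]
    exact mul_nonneg (hG ζ hζ u hu) (Real.smoothTransition.nonneg _), by
    rw [hL, latom_kG hκ hκ8 _ hζ hu, neg_nonpos]
    have := Sn_pos hζ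
    have := st_deriv_nonneg ((Real.log u - Real.log (ε / 2)) / Real.log 2)
    positivity⟩) hζ hu hτ
  simp only [hA] at h1
  refine le_trans ?_ (h1.trans (ENNReal.ofReal_le_ofReal ?_))
  · refine lintegral_mono fun w => ?_
    by_cases hI : u * mm w (τ w).toReal ζ ∈ Ici ε
    · obtain ⟨h2, h3⟩ := O3_alive hε hI
      simp only [indicator_of_mem hI, one_mul]
      have h4 : st ((Real.log (u * mm w (τ w).toReal ζ) - Real.log (ε / 2)) / Real.log 2) = 1 := by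
        apply Real.smoothTransition.one_of_one_le
        rw [le_div_iff₀ hl, Real.log_div hε.ne' two_ne_zero]
        have := Real.log_le_log hε hI
        linarith
      rw [O3_atom_kG _ _ _ h3, h4, mul_one]
    · simp only [indicator_of_notMem hI, zero_mul, zero_le]
  · rw [O3_atom_kG _ _ _ hu]
    exact mul_le_of_le_one_right (hG ζ hζ u hu) (Real.smoothTransition.le_one _)

theorem mean_cr {κ : ℝ} (hκ : 0 < κ) (hκ8 : κ < 8) {P : Measure Path} (hP : IsDrv κ P) {s1 : ℝ}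
    (hs1 : 0 < s1) : ∃ C : ℝ, 0 < C ∧ ∀ ζ ∈ H, ∀ u > 0, ∀ ε > 0,
      ∫⁻ w, (∫⁻ s in Ioi (0 : ℝ), cr κ s1 ε (Zf w s ζ) (u * mm w s ζ)) ∂P ≤
      ENNReal.ofReal (C * u ^ (dd κ - 2)) := by
  obtain ⟨C, hC, h⟩ := occ hκ hκ8 hP
  obtain ⟨hc, -, hc1⟩ := cO_pos hκ hκ8
  have ha := aa_pos hκ hκ8
  have hs : 0 < s1 ^ cO κ := Real.rpow_pos_of_pos hs1 _
  refine ⟨2 * C / s1 ^ cO κ, by positivity, fun ζ hζ u hu ε hε => ?_⟩
  have hS := Sn_pos hζ
  by_cases hεu : ε ≤ u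
  · have h1 := h ζ hζ u hu ε hε
    have hq : 0 ≤ ε ^ (dd κ - 2) / s1 ^ cO κ := by positivity
    calc _ ≤ ∫⁻ w, ENNReal.ofReal (ε ^ (dd κ - 2) / s1 ^ cO κ) * (∫⁻ s in Ioi (0 : ℝ),
          (Icc ε (2 * ε)).indicator (fun _ => (1 : ℝ≥0∞)) (u * mm w s ζ) *
          ENNReal.ofReal (Sn (Zf w s ζ) ^ cO κ / ‖Zf w s ζ‖ ^ 2)) ∂P := by
          refine lintegral_mono fun w => ?_
          simp only
          rw [← lintegral_const_mul' _ _ ENNReal.ofReal_ne_top]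
          refine lintegral_mono fun s => ?_
          simp only [cr]
          split_ifs with hh
          · obtain ⟨h2, h3, h4, h5⟩ := hh
            rw [indicator_of_mem (show u * mm w s ζ ∈ Icc ε (2 * ε) from ⟨h3, h4⟩), one_mul,
              ← ENNReal.ofReal_mul hq]
            apply ENNReal.ofReal_le_ofReal
            rw [← mul_div_assoc]
            apply div_le_div_of_nonneg_right _ (by positivity)
            rw [div_mul_eq_mul_div, le_div_iff₀ hs]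
            exact mul_le_mul_of_nonneg_left (Real.rpow_le_rpow hs1.le h5 hc.le) (by positivity)
          · exact zero_le
      _ ≤ ENNReal.ofReal (ε ^ (dd κ - 2) / s1 ^ cO κ) *
          ENNReal.ofReal (C * (ε / u) ^ (2 - dd κ) * (Sn ζ ^ aa κ + ε / u * Sn ζ ^ cO κ)) := by
          rw [lintegral_const_mul' _ _ ENNReal.ofReal_ne_top]
          exact mul_le_mul_right h1 _
      _ ≤ _ := by
          rw [← ENNReal.ofReal_mul hq]
          apply ENNReal.ofReal_le_ofReal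
          have h3 : Sn ζ ^ aa κ ≤ 1 := Real.rpow_le_one hS.le (Sn_le_one _) ha.le
          have h4 : Sn ζ ^ cO κ ≤ 1 := Real.rpow_le_one hS.le (Sn_le_one _) hc.le
          have h5 : ε / u ≤ 1 := by rw [div_le_one hu]; linarith
          have h6 : ε / u * Sn ζ ^ cO κ ≤ 1 := mul_le_one₀ h5 (by positivity) h4
          have h7 : ε ^ (dd κ - 2) * (ε / u) ^ (2 - dd κ) = u ^ (dd κ - 2) := by
            rw [Real.div_rpow hε.le hu.le, ← mul_div_assoc, ← Real.rpow_add hε,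
              show dd κ - 2 + (2 - dd κ) = 0 by ring, Real.rpow_zero, one_div,
              ← Real.rpow_neg hu.le, neg_sub]
          calc _ ≤ ε ^ (dd κ - 2) / s1 ^ cO κ * (C * (ε / u) ^ (2 - dd κ) * 2) :=
                mul_le_mul_of_nonneg_left
                  (mul_le_mul_of_nonneg_left (by linarith) (by positivity)) hq
            _ = _ := by rw [← h7]; ring
  · have h0 : ∀ w : Path, ∫⁻ s in Ioi (0 : ℝ), cr κ s1 ε (Zf w s ζ) (u * mm w s ζ) = 0 := by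
      intro w
      apply setLIntegral_eq_zero measurableSet_Ioi
      intro s hs
      simp only [cr, Pi.zero_apply]
      rw [if_neg]
      rintro ⟨-, h3, -⟩
      have := mul_le_of_le_one_right hu.le (mm_le_one w (le_of_lt hs) ζ)
      exact hεu (h3.trans this)
    simp only [h0, lintegral_zero, zero_le]

end Crest.Agent.R162
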