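import Crest.Agent.R162.Defs
import Crest.Agent.R162.DistQ

set_option autoImplicit false
open MeasureTheory ProbabilityTheory Set Filter Topology Metric
open scoped ENNReal NNReal ComplexConjugate

namespace Crest.Agent.R162

theorem isOpen_H : IsOpen H := by
  exact isOpen_Hs

theorem measurableSet_H : MeasurableSet H := by
  exact isOpen_H.measurableSet

theorem four_le_Qh {ζ ξ : ℂ} (hζ : ζ ∈ H) (hξ : ξ ∈ H) : 4 ≤ Qh ζ ξ := by
  exact four_le_Q hζ hξ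

theorem Qh_comm (ζ ξ : ℂ) : Qh ζ ξ = Qh ξ ζ := by
  have h : ‖ζ - conj ξ‖ = ‖ξ - conj ζ‖ := by
    rw [← Complex.norm_conj, map_sub, Complex.conj_conj, norm_sub_rev]
  rw [Qh, Qh, h, mul_comm]

/-- Use `(a - c̄)(b - b̄) = (a - b̄)(b - c̄) - (a - b)(b̄ - c̄)`, `‖a - b‖ ≤ ‖a - b̄‖` (even true without the 4). -/
theorem Qh_submul {a b c : ℂ} (ha : a ∈ H) (hb : b ∈ H) (hc : c ∈ H) :
    Qh a c ≤ 4 * Qh a b * Qh b c := by
  have ha' : 0 < a.im := ha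
  have hb' : 0 < b.im := hb
  have hc' : 0 < c.im := hc
  have h1 : ‖a - conj c‖ ≤ ‖a - conj b‖ + ‖b - conj c‖ := by
    calc ‖a - conj c‖ = ‖(a - b) + (b - conj c)‖ := by ring_nf
      _ ≤ ‖a - b‖ + ‖b - conj c‖ := norm_add_le _ _
      _ ≤ _ := by linarith [norm_sub_le_conj ha' hb']
  have h2 := im_add_im_le a b
  have h3 := im_add_im_le b c
  have h4 : ‖a - conj c‖ * b.im ≤ 2 * (‖a - conj b‖ * ‖b - conj c‖) := by nlinarith
  have h5 : (‖a - conj c‖ * b.im) ^ 2 ≤ (2 * (‖a - conj b‖ * ‖b - conj c‖)) ^ 2 :=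
    pow_le_pow_left₀ (by positivity) h4 2
  have e : 4 * Qh a b * Qh b c =
      ((2 * (‖a - conj b‖ * ‖b - conj c‖)) ^ 2 / b.im ^ 2) / (a.im * c.im) := by
    unfold Qh; field_simp; ring
  rw [e, Qh]
  refine div_le_div_of_nonneg_right ?_ (by positivity)
  rw [le_div_iff₀ (by positivity), ← mul_pow]
  exact h5

theorem im_le_Qh {ζ ξ : ℂ} (hζ : ζ ∈ H) (hξ : ξ ∈ H) : ζ.im ≤ Qh ζ ξ * ξ.im := by
  have h1 : 0 < ζ.im := hζ
  have h2 : 0 < ξ.im := hξ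
  have h3 := im_add_im_le ζ ξ
  have e : Qh ζ ξ * ξ.im = ‖ζ - conj ξ‖ ^ 2 / ζ.im := by unfold Qh; field_simp
  rw [e, le_div_iff₀ h1]
  nlinarith

theorem norm_sub_le_Qh {ζ ξ : ℂ} (hζ : ζ ∈ H) (hξ : ξ ∈ H) : ‖ζ - ξ‖ ≤ Qh ζ ξ * ζ.im := by
  have h1 : 0 < ζ.im := hζ
  have h2 : 0 < ξ.im := hξ
  have h3 := im_add_im_le ζ ξ
  have h4 := norm_sub_le_conj h1 h2
  have e : Qh ζ ξ * ζ.im = ‖ζ - conj ξ‖ ^ 2 / ξ.im := by unfold Qh; field_simp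
  rw [e, le_div_iff₀ h2]
  nlinarith [norm_nonneg (ζ - ξ)]

/-- `Sn` changes by at most a power of `Qh`. -/
theorem Sn_le_Qh {ζ ξ : ℂ} (hζ : ζ ∈ H) (hξ : ξ ∈ H) : Sn ζ ≤ 2 * Qh ζ ξ ^ 2 * Sn ξ := by
  have h1 : 0 < ζ.im := hζ
  have h2 : 0 < ξ.im := hξ
  have h3 := im_le_Qh hζ hξ
  have h4 := norm_sub_le_Qh hζ hξ
  have h5 := four_le_Qh hζ hξ
  have h6 : ζ.im ≤ ‖ζ‖ := (le_abs_self _).trans (Complex.abs_im_le_norm ζ)
  have h7 : ξ.im ≤ ‖ξ‖ := (le_abs_self _).trans (Complex.abs_im_le_norm ξ)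
  have h8 : ‖ξ‖ ≤ ‖ζ‖ + ‖ζ - ξ‖ := by
    calc ‖ξ‖ = ‖ζ - (ζ - ξ)‖ := by ring_nf
      _ ≤ _ := norm_sub_le _ _
  have h9 : ‖ξ‖ ≤ 2 * Qh ζ ξ * ‖ζ‖ := by nlinarith
  have hz : 0 < ‖ζ‖ := by linarith
  have hx : 0 < ‖ξ‖ := by linarith
  rw [Sn, Sn, ← mul_div_assoc, div_le_div_iff₀ hz hx]
  calc ζ.im * ‖ξ‖ ≤ (Qh ζ ξ * ξ.im) * (2 * Qh ζ ξ * ‖ζ‖) :=
        mul_le_mul h3 h9 hx.le (by positivity)
    _ = _ := by ring

/-- An injective holomorphic map has non-vanishing derivative. -/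
theorem Univ.deriv_ne_zero {f : ℂ → ℂ} (hf : Univ f) {ζ : ℂ} (hζ : ζ ∈ H) : deriv f ζ ≠ 0 := by
  exact Lib.RMT.deriv_ne_zero_of_injOn isOpen_H hf.diff hf.inj hζ

theorem Univ.ups_pos {f : ℂ → ℂ} (hf : Univ f) {ζ : ℂ} (hζ : ζ ∈ H) : 0 < ups f ζ := by
  exact ups_pos' hf.diff hf.inj hζ

theorem Univ.isOpen_image {f : ℂ → ℂ} (hf : Univ f) {A : Set ℂ} (hA : IsOpen A) (hAH : A ⊆ H) :
    IsOpen (f '' A) := by
  exact Lib.RMT.isOpen_image_of_injOn hA (hf.diff.mono hAH) (hf.inj.mono hAH)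

theorem Univ.continuousOn_ups {f : ℂ → ℂ} (hf : Univ f) : ContinuousOn (ups f) H := by
  exact Complex.continuous_im.continuousOn.mul (hf.diff.deriv isOpen_H).continuousOn.norm

theorem univ_id : Univ id := by
  exact ⟨differentiableOn_id, injOn_id _, measurable_id⟩

theorem ups_id (ζ : ℂ) : ups id ζ = ζ.im := by
  simp [ups]

theorem Univ.comp {f g : ℂ → ℂ} (hf : Univ f) (hg : Univ g) (hgH : MapsTo g H H) :
    Univ (fun ζ => f (g ζ)) := by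
  exact ⟨hf.diff.comp hg.diff hgH, hf.inj.comp hg.inj hgH, hf.meas.comp hg.meas⟩

theorem ups_comp {f g : ℂ → ℂ} (hf : Univ f) (hg : Univ g) (hgH : MapsTo g H H) {ζ : ℂ}
    (hζ : ζ ∈ H) : ups (fun ζ => f (g ζ)) ζ = ‖deriv f (g ζ)‖ * ups g ζ := by
  have h1 := (hf.diff.differentiableAt (isOpen_H.mem_nhds (hgH hζ))).hasDerivAt
  have h2 := (hg.diff.differentiableAt (isOpen_H.mem_nhds hζ)).hasDerivAt
  have h3 : HasDerivAt (fun ζ => f (g ζ)) (deriv f (g ζ) * deriv g ζ) ζ := h1.comp ζ h2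
  rw [ups, ups, h3.deriv, norm_mul]
  ring

/-- Area formula (`lintegral_image_eq_lintegral_abs_det_fderiv_mul`). -/
theorem lintegral_area {f : ℂ → ℂ} (hf : Univ f) {A : Set ℂ} (hA : MeasurableSet A) (hAH : A ⊆ H)
    (g : ℂ → ℝ≥0∞) :
    ∫⁻ ζ in A, g (f ζ) * ENNReal.ofReal (‖deriv f ζ‖ ^ 2) = ∫⁻ z in f '' A, g z := by
  rw [lintegral_image_eq_lintegral_abs_det_fderiv_mul (volume : Measure ℂ) hA
    (f := f) (f' := fun z => (ContinuousLinearMap.toSpanSingleton ℂ (deriv f z)).restrictScalars ℝ)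
    (fun z hz => ((hf.diff.differentiableAt
      (isOpen_H.mem_nhds (hAH hz))).hasDerivAt.hasFDerivAt.restrictScalars
      ℝ).hasFDerivWithinAt) (hf.inj.mono hAH)]
  refine lintegral_congr fun z => ?_
  rw [mul_comm]
  congr 2
  simp [ContinuousLinearMap.det, LinearMap.det_restrictScalars, Algebra.norm_complex_eq,
    Complex.normSq_eq_norm_sq]

/-- Schwarz lemma for the inverse map `ball → H` (compose with a Cayley map). -/
theorem schwarz_ball {f : ℂ → ℂ} (hf : Univ f) {ζ : ℂ} (hζ : ζ ∈ H) {ρ : ℝ}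
    (h : ball (f ζ) ρ ⊆ f '' H) : ρ ≤ 2 * ups f ζ := by
  exact radius_le_H hf.diff hf.inj hζ h

/-- Schwarz-Pick for the inverse map on a ball. -/
theorem harnack_ball {f : ℂ → ℂ} (hf : Univ f) {ζ ξ : ℂ} (hζ : ζ ∈ H) (hξ : ξ ∈ H) {ρ : ℝ}
    (h : ball (f ζ) ρ ⊆ f '' H) (hd : ‖f ξ - f ζ‖ ≤ ρ / 2) (hρ : 0 < ρ) : Qh ζ ξ ≤ 6 := by
  have h1 := (invFunOn_diff isOpen_H hf.diff hf.inj).mono h
  have h2 : ∀ z ∈ ball (f ζ) ρ, 0 < (Function.invFunOn f H z).im := by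
    intro z hz
    obtain ⟨a, ha, rfl⟩ := h hz
    rw [hf.inj.leftInvOn_invFunOn ha]; exact ha
  have h3 := pick_dist h1 h2 (z := f ξ) (by rw [mem_ball, dist_eq_norm]; linarith)
  rw [hf.inj.leftInvOn_invFunOn hζ, hf.inj.leftInvOn_invFunOn hξ] at h3
  have h4 : ‖ξ - ζ‖ ≤ 1 / 2 * ‖ξ - conj ζ‖ := by
    refine h3.trans (mul_le_mul_of_nonneg_right ?_ (norm_nonneg _))
    rw [div_le_iff₀ hρ]; linarith
  have h5 := normSq_sub_conj ξ ζ
  have h6 : ‖ξ - ζ‖ ^ 2 ≤ (1 / 2 * ‖ξ - conj ζ‖) ^ 2 := pow_le_pow_left₀ (norm_nonneg _) h4 2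
  have hz : 0 < ζ.im := hζ
  have hx : 0 < ξ.im := hξ
  rw [Qh_comm, Qh, div_le_iff₀ (by positivity)]
  nlinarith [mul_pos hz hx]

/-- Chains of balls. -/
theorem harnack_chain {f : ℂ → ℂ} (hf : Univ f) (n : ℕ) (ξ : ℕ → ℂ) (hξ : ∀ i ≤ n, ξ i ∈ H)
    {ρ : ℝ} (hρ : 0 < ρ) (hb : ∀ i < n, ball (f (ξ i)) ρ ⊆ f '' H)
    (hd : ∀ i < n, ‖f (ξ (i + 1)) - f (ξ i)‖ ≤ ρ / 2) : Qh (ξ 0) (ξ n) ≤ 4 * 24 ^ n := by
  induction n with
  | zero =>
    have h0 : 0 < (ξ 0).im := hξ 0 le_rfl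
    rw [Qh, normSq_sub_conj, div_le_iff₀ (by positivity)]
    simp [mul_assoc]
  | succ n ih =>
    have h1 := ih (fun i hi => hξ i (by omega)) (fun i hi => hb i (by omega))
      (fun i hi => hd i (by omega))
    have h2 := harnack_ball hf (hξ n (by omega)) (hξ (n + 1) le_rfl) (hb n (by omega))
      (hd n (by omega)) hρ
    have h3 := Qh_submul (hξ 0 (by omega)) (hξ n (by omega)) (hξ (n + 1) le_rfl)
    have h4 := four_le_Qh (hξ 0 (by omega)) (hξ n (by omega))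
    have h5 := four_le_Qh (hξ n (by omega)) (hξ (n + 1) le_rfl)
    calc _ ≤ _ := h3
      _ ≤ 4 * (4 * 24 ^ n) * 6 := by gcongr
      _ = _ := by ring

/-- Along a segment all of whose points carry a ball of radius `ρ` inside the domain. -/
theorem harnack_segment {f : ℂ → ℂ} (hf : Univ f) {ζ ξ : ℂ} (hζ : ζ ∈ H) (hξ : ξ ∈ H) {ρ : ℝ}
    (hρ : 0 < ρ) (n : ℕ) (hn : ‖f ξ - f ζ‖ ≤ n * (ρ / 2))
    (hb : ∀ z ∈ segment ℝ (f ζ) (f ξ), ball z ρ ⊆ f '' H) : Qh ζ ξ ≤ 4 * 24 ^ n := by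
  rcases Nat.eq_zero_or_pos n with rfl | hn0
  · have h1 : f ξ = f ζ := by
      have : ‖f ξ - f ζ‖ ≤ 0 := by simpa using hn
      exact sub_eq_zero.1 (norm_le_zero_iff.1 this)
    have h2 : ξ = ζ := hf.inj hξ hζ h1
    subst h2
    simpa using harnack_chain hf 0 (fun _ => ξ) (fun _ _ => hξ) hρ (by simp) (by simp)
  have hn' : (0 : ℝ) < n := by exact_mod_cast hn0
  set z : ℕ → ℂ := fun i => f ζ + (((i : ℝ) / n : ℝ) : ℂ) * (f ξ - f ζ) with hz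
  have hseg : ∀ i ≤ n, z i ∈ segment ℝ (f ζ) (f ξ) := by
    intro i hi
    rw [segment_eq_image']
    refine ⟨(i : ℝ) / n, ⟨by positivity, (div_le_one hn').2 (by exact_mod_cast hi)⟩, ?_⟩
    simp [hz]
  have him : ∀ i ≤ n, z i ∈ f '' H := fun i hi => hb _ (hseg i hi) (mem_ball_self hρ)
  have hf1 : ∀ i ≤ n, f (Function.invFunOn f H (z i)) = z i := fun i hi =>
    Function.invFunOn_eq (him i hi)
  have h := harnack_chain hf n (fun i => Function.invFunOn f H (z i))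
    (fun i hi => Function.invFunOn_mem (him i hi)) hρ
    (fun i hi => by rw [hf1 i hi.le]; exact hb _ (hseg i hi.le))
    (fun i hi => by
      rw [hf1 i hi.le, hf1 (i + 1) hi]
      have e : z (i + 1) - z i = (((1 : ℝ) / n : ℝ) : ℂ) * (f ξ - f ζ) := by
        simp only [hz]; push_cast; ring
      rw [e, norm_mul, Complex.norm_real, Real.norm_eq_abs, abs_of_pos (by positivity),
        one_div, inv_mul_le_iff₀ hn']
      exact hn)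
  have e0 : z 0 = f ζ := by simp [hz]
  have en : z n = f ξ := by simp only [hz]; rw [div_self hn'.ne']; simp
  simp only [e0, en] at h
  rwa [hf.inj.leftInvOn_invFunOn hζ, hf.inj.leftInvOn_invFunOn hξ] at h

end Crest.Agent.R162
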