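import Crest.Agent.R162.T1
import Crest.Agent.R162.L5
import Crest.Agent.R162.K1

set_option autoImplicit false
open MeasureTheory ProbabilityTheory Set Filter Topology Metric
open scoped ENNReal NNReal ComplexConjugate

namespace Crest.Agent.R162

theorem T2_Kc_convex (y R : ℝ) : Convex ℝ (Kc y R) := by
  have e : Kc y R = {ζ : ℂ | y ≤ ζ.im} ∩ closedBall 0 R := by
    ext ζ; simp [Kc]
  rw [e]
  exact (convex_halfSpace_im_ge y).inter (convex_closedBall _ _)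

theorem T2_Kc_compact (y R : ℝ) : IsCompact (Kc y R) := by
  have e : Kc y R = {ζ : ℂ | y ≤ ζ.im} ∩ closedBall 0 R := by
    ext ζ; simp [Kc]
  rw [e]
  exact (isCompact_closedBall _ _).inter_left (isClosed_le continuous_const Complex.continuous_im)

theorem T2_Kc_norm {y R : ℝ} {ζ : ℂ} (h : ζ ∈ Kc y R) : y ≤ ‖ζ‖ :=
  h.1.trans ((le_abs_self _).trans (Complex.abs_im_le_norm ζ))

theorem T2_Kc_ne {y R : ℝ} (hy : 0 < y) {ζ : ℂ} (h : ζ ∈ Kc y R) : ζ ≠ 0 :=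
  norm_pos_iff.1 (hy.trans_le (T2_Kc_norm h))

/-- Time integrals of a smooth function of two flowing points. -/
theorem T2_int {E : Type*} [NormedAddCommGroup E] [NormedSpace ℝ E] [CompleteSpace E] {y R : ℝ}
    (hy : 0 < y) (φ : ℂ × ℂ → E)
    (hφ : ContDiffOn ℝ 1 φ (Kc (y / 2) (R + 1) ×ˢ Kc (y / 2) (R + 1))) :
    ∃ C e0 : ℝ, 0 ≤ C ∧ 0 < e0 ∧ ∀ ζ ∈ Kc y R, ∀ ξ ∈ Kc y R, ‖φ (ζ, ξ)‖ ≤ C ∧
      ∀ (w : Path) (h e : ℝ), e ≤ e0 → Small w h e → ζ ∈ dom w h ∧ ξ ∈ dom w h ∧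
        ‖(∫ s in (0 : ℝ)..h, φ (Zf w s ζ, Zf w s ξ)) - h • φ (ζ, ξ)‖ ≤ C * e ^ 3 := by
  have hK := (T2_Kc_compact (y / 2) (R + 1)).prod (T2_Kc_compact (y / 2) (R + 1))
  obtain ⟨L, hL⟩ := hφ.exists_lipschitzOnWith one_ne_zero
    ((T2_Kc_convex _ _).prod (T2_Kc_convex _ _)) hK
  obtain ⟨M, hM⟩ := hK.exists_bound_of_continuousOn hφ.continuousOn
  obtain ⟨e0, he0, ha⟩ := alive_small (R := R) hy
  have hsub : Kc y R ⊆ Kc (y / 2) (R + 1) := fun ζ hζ =>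
    ⟨by linarith [hζ.1], by linarith [hζ.2]⟩
  refine ⟨max M (2 * L), e0, le_max_of_le_right (by positivity), he0, fun ζ hζ ξ hξ =>
    ⟨(hM _ ⟨hsub hζ, hsub hξ⟩).trans (le_max_left _ _), fun w h e he hs => ?_⟩⟩
  have h1 := ha ζ hζ w h e he hs
  have h2 := ha ξ hξ w h e he hs
  obtain ⟨hh0, hh1, he1, -⟩ := hs
  have hd1 := (h1 h ⟨hh0, le_rfl⟩).1
  have hd2 := (h2 h ⟨hh0, le_rfl⟩).1
  refine ⟨hd1, hd2, ?_⟩
  have hc : ContinuousOn (fun s => φ (Zf w s ζ, Zf w s ξ)) (uIcc 0 h) := by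
    rw [uIcc_of_le hh0]
    exact hφ.continuousOn.comp ((continuousOn_Zf hh0 hd1).prodMk (continuousOn_Zf hh0 hd2))
      fun s hs => ⟨(h1 s hs).2.1, (h2 s hs).2.1⟩
  have e1 : (∫ s in (0 : ℝ)..h, φ (Zf w s ζ, Zf w s ξ)) - h • φ (ζ, ξ) =
      ∫ s in (0 : ℝ)..h, (φ (Zf w s ζ, Zf w s ξ) - φ (ζ, ξ)) := by
    rw [intervalIntegral.integral_sub hc.intervalIntegrable intervalIntegrable_const,
      intervalIntegral.integral_const, sub_zero]
  rw [e1]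
  have h3 : ∀ s ∈ uIoc 0 h, ‖φ (Zf w s ζ, Zf w s ξ) - φ (ζ, ξ)‖ ≤ L * (2 * e) := by
    intro s hs
    rw [uIoc_of_le hh0] at hs
    have hs' : s ∈ Icc 0 h := ⟨hs.1.le, hs.2⟩
    have h4 := hL.dist_le_mul (Zf w s ζ, Zf w s ξ) ⟨(h1 s hs').2.1, (h2 s hs').2.1⟩ (ζ, ξ)
      ⟨hsub hζ, hsub hξ⟩
    rw [dist_eq_norm] at h4
    refine h4.trans (mul_le_mul_of_nonneg_left ?_ L.2)
    rw [Prod.dist_eq, dist_eq_norm, dist_eq_norm]
    exact max_le (h1 s hs').2.2.1 (h2 s hs').2.2.1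
  refine (intervalIntegral.norm_integral_le_of_norm_le_const h3).trans ?_
  rw [sub_zero, abs_of_nonneg hh0]
  have hL0 : (0 : ℝ) ≤ L := L.2
  calc L * (2 * e) * h ≤ L * (2 * e) * e ^ 2 := mul_le_mul_of_nonneg_left hh1 (by positivity)
    _ = 2 * L * e ^ 3 := by ring
    _ ≤ _ := mul_le_mul_of_nonneg_right (le_max_right _ _) (by positivity)

theorem T2_log_taylor {x : ℂ} (hx : ‖x‖ ≤ 1 / 2) :
    |Real.log ‖1 + x‖ - (x - x ^ 2 / 2).re| ≤ ‖x‖ ^ 3 := by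
  have h1 := Complex.norm_log_sub_logTaylor_le 2 (z := x) (by linarith)
  have h2 : Complex.logTaylor (2 + 1) x = x - x ^ 2 / 2 := by
    simp [Complex.logTaylor, Finset.sum_range_succ]; ring
  rw [h2] at h1
  rw [← Complex.log_re, ← Complex.sub_re]
  refine (Complex.abs_re_le_norm _).trans (h1.trans ?_)
  have h3 : (1 - ‖x‖)⁻¹ ≤ 2 := by
    rw [inv_le_comm₀ (by linarith) (by norm_num)]; linarith
  have h4 : 0 ≤ ‖x‖ ^ 3 := by positivity
  have h5 : ‖x‖ ^ 3 * (1 - ‖x‖)⁻¹ ≤ ‖x‖ ^ 3 * 2 := mul_le_mul_of_nonneg_left h3 h4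
  push_cast
  linarith

theorem T2_div {g : ℂ × ℂ → ℂ} {s : Set (ℂ × ℂ)} (hg : ContDiffOn ℝ 1 g s)
    (h0 : ∀ p ∈ s, g p ≠ 0) : ContDiffOn ℝ 1 (fun p => 2 / g p) s := by
  simp only [div_eq_mul_inv]
  exact contDiffOn_const.mul (hg.inv h0)

theorem T2_alg {p E : ℂ} {q C D e v h : ℝ} (hq0 : 0 < q) (hC : 0 ≤ C) (hD : D = 2 * q ^ 2 + C * q)
    (hpq : ‖p‖ ≤ q) (hE : ‖E‖ ≤ C * e ^ 3) (he1 : 0 < e) (he2 : e ≤ 1)
    (he3 : e ≤ 1 / (2 * (q + D))) (hv : |v| ≤ e) (hh0 : 0 ≤ h) (hh1 : h ≤ e ^ 2) :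
    1 + (-v * p + (2 * h * p ^ 2 + E * p)) ≠ 0 ∧
    |Real.log ‖1 + (-v * p + (2 * h * p ^ 2 + E * p))‖ -
      (-v * p.re + (-v ^ 2 / 2 + 2 * h) * (p ^ 2).re)| ≤
      ((q + D) ^ 3 + (C * q + D * (2 * q + D))) * e ^ 3 := by
  have hD0 : 0 ≤ D := by rw [hD]; positivity
  have hp2 : ‖p ^ 2‖ ≤ q ^ 2 := by
    rw [norm_pow]; exact pow_le_pow_left₀ (norm_nonneg _) hpq 2
  obtain ⟨d, hddef⟩ : ∃ d : ℂ, d = 2 * h * p ^ 2 + E * p := ⟨_, rfl⟩
  obtain ⟨x, hx⟩ : ∃ x : ℂ, x = -v * p + d := ⟨_, rfl⟩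
  rw [← hddef, ← hx]
  have he32 : e ^ 3 ≤ e ^ 2 := pow_le_pow_of_le_one he1.le he2 (by norm_num)
  have he21 : e ^ 2 ≤ e := by nlinarith
  have hEp : ‖E * p‖ ≤ C * q * e ^ 3 := by
    rw [norm_mul]
    calc ‖E‖ * ‖p‖ ≤ C * e ^ 3 * q := mul_le_mul hE hpq (norm_nonneg _) (by positivity)
      _ = _ := by ring
  have hdn : ‖d‖ ≤ D * e ^ 2 := by
    rw [hddef]
    refine (norm_add_le _ _).trans ?_
    have h1 : ‖2 * (h : ℂ) * p ^ 2‖ ≤ 2 * e ^ 2 * q ^ 2 := by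
      rw [norm_mul, norm_mul, Complex.norm_real, Real.norm_eq_abs, abs_of_nonneg hh0,
        Complex.norm_two]
      exact mul_le_mul (by linarith) hp2 (norm_nonneg _) (by positivity)
    have h2 : C * q * e ^ 3 ≤ C * q * e ^ 2 := mul_le_mul_of_nonneg_left he32 (by positivity)
    rw [hD]
    linarith
  have hvp : ‖-(v : ℂ) * p‖ ≤ q * e := by
    rw [norm_mul, norm_neg, Complex.norm_real, Real.norm_eq_abs, mul_comm q]
    exact mul_le_mul hv hpq (norm_nonneg _) he1.le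
  have hDe : D * e ^ 2 ≤ D * e := mul_le_mul_of_nonneg_left he21 hD0
  have hxn : ‖x‖ ≤ (q + D) * e := by
    rw [hx]
    refine (norm_add_le _ _).trans ?_
    linarith
  have hxh : ‖x‖ ≤ 1 / 2 := by
    refine hxn.trans ?_
    rw [le_div_iff₀ (by positivity)] at he3
    linarith
  have hx1 : (1 + x) ≠ 0 := by
    intro h0
    have : x = -1 := by linear_combination h0
    rw [this] at hxh
    norm_num at hxh
  refine ⟨hx1, ?_⟩
  have hT := T2_log_taylor hxh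
  have hx3 : ‖x‖ ^ 3 ≤ (q + D) ^ 3 * e ^ 3 := by
    rw [← mul_pow]; exact pow_le_pow_left₀ (norm_nonneg _) hxn 3
  have hr : ‖E * p - d * (x + -v * p) / 2‖ ≤ (C * q + D * (2 * q + D)) * e ^ 3 := by
    refine (norm_sub_le _ _).trans ?_
    have h1 : ‖x + -v * p‖ ≤ (2 * q + D) * e := by
      refine (norm_add_le _ _).trans ?_
      linarith
    have h2 : ‖d * (x + -v * p)‖ ≤ D * e ^ 2 * ((2 * q + D) * e) := by
      rw [norm_mul]; exact mul_le_mul hdn h1 (norm_nonneg _) (by positivity)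
    rw [norm_div, Complex.norm_two]
    have h3 := norm_nonneg (d * (x + -v * p))
    linarith
  have key : x - x ^ 2 / 2 = (-v : ℝ) * p + (-v ^ 2 / 2 + 2 * h : ℝ) * p ^ 2 +
      (E * p - d * (x + -v * p) / 2) := by
    push_cast
    rw [hx, hddef]
    ring
  have key2 : (x - x ^ 2 / 2).re = -v * p.re + (-v ^ 2 / 2 + 2 * h) * (p ^ 2).re +
      (E * p - d * (x + -v * p) / 2).re := by
    rw [key, Complex.add_re, Complex.add_re, Complex.re_ofReal_mul, Complex.re_ofReal_mul]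
  have hr' := (Complex.abs_re_le_norm _).trans hr
  have e3 : Real.log ‖1 + x‖ - (-v * p.re + (-v ^ 2 / 2 + 2 * h) * (p ^ 2).re) =
      (Real.log ‖1 + x‖ - (x - x ^ 2 / 2).re) + (E * p - d * (x + -v * p) / 2).re := by
    rw [key2]; ring
  rw [e3]
  refine (abs_add_le _ _).trans ?_
  linarith

/-- `Zf_eq`, `alive_small`: `Z = ζ - v + 2h/ζ + O(e³)`, then `log ‖1 + x‖ = re (x - x²/2) + O(‖x‖³)`. -/
theorem TE_A {y R : ℝ} (hy : 0 < y) : TE (Kc y R) (fun ζ w t => Real.log ‖Zf w t ζ‖) jA := by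
  obtain ⟨C, e0, hC, he0, H1⟩ := T2_int (R := R) hy (fun p : ℂ × ℂ => 2 / p.1)
    (T2_div contDiff_fst.contDiffOn fun p hp => T2_Kc_ne (half_pos hy) hp.1)
  obtain ⟨q, hq⟩ : ∃ q : ℝ, q = y⁻¹ := ⟨_, rfl⟩
  have hq0 : 0 < q := hq ▸ inv_pos.2 hy
  obtain ⟨D, hD⟩ : ∃ D : ℝ, D = 2 * q ^ 2 + C * q := ⟨_, rfl⟩
  have hD0 : 0 ≤ D := by rw [hD]; positivity
  obtain ⟨A, hA⟩ : ∃ A : ℝ, A = (q + D) ^ 3 + (C * q + D * (2 * q + D)) := ⟨_, rfl⟩
  have hA0 : 0 ≤ A := by rw [hA]; positivity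
  refine ⟨q + 2 * q ^ 2 + A, min (min e0 1) (1 / (2 * (q + D))), by positivity, fun ζ hζ => ?_⟩
  have hne := T2_Kc_ne hy hζ
  have hn : 0 < ‖ζ‖ := norm_pos_iff.2 hne
  have hpq : ‖ζ⁻¹‖ ≤ q := by
    rw [hq, norm_inv]; exact inv_anti₀ hy (T2_Kc_norm hζ)
  have hp2 : ‖ζ⁻¹ ^ 2‖ ≤ q ^ 2 := by
    rw [norm_pow]; exact pow_le_pow_left₀ (norm_nonneg _) hpq 2
  have ea : (jA ζ).a = -ζ⁻¹.re := by
    simp only [jA, Complex.inv_re, Complex.normSq_eq_norm_sq]; ring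
  have e2 : (ζ⁻¹ ^ 2).re = (ζ.re ^ 2 - ζ.im ^ 2) / ‖ζ‖ ^ 4 := by
    rw [sq, Complex.mul_re, Complex.inv_re, Complex.inv_im, Complex.normSq_eq_norm_sq]
    field_simp
  have eb : (jA ζ).b = -(ζ⁻¹ ^ 2).re := by rw [e2]; simp only [jA]; ring
  have ec : (jA ζ).c = 2 * (ζ⁻¹ ^ 2).re := by rw [e2]; simp only [jA]; ring
  have b1 : |ζ⁻¹.re| ≤ q := (Complex.abs_re_le_norm _).trans hpq
  have b2 : |(ζ⁻¹ ^ 2).re| ≤ q ^ 2 := (Complex.abs_re_le_norm _).trans hp2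
  have hq2 : 0 ≤ q ^ 2 := by positivity
  refine ⟨by rw [ea, abs_neg]; linarith, by rw [eb, abs_neg]; linarith,
    by rw [ec, abs_mul, abs_two]; linarith, fun w h e he hs => ?_⟩
  obtain ⟨hd, -, hE⟩ := (H1 ζ hζ ζ hζ).2 w h e (he.trans ((min_le_left _ _).trans
    (min_le_left _ _))) hs
  obtain ⟨hh0, hh1, he1, hv⟩ := hs
  obtain ⟨hx1, hb⟩ := T2_alg hq0 hC hD hpq hE he1
    (he.trans ((min_le_left _ _).trans (min_le_right _ _))) (he.trans (min_le_right _ _))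
    (hv h ⟨hh0, le_rfl⟩) hh0 hh1
  have hZ := Zf_eq hh0 hd
  beta_reduce at hx1 hb ⊢
  generalize (∫ s in (0 : ℝ)..h, 2 / Zf w s ζ) = I at hx1 hb hZ
  generalize w h - w 0 = v at hx1 hb hZ ⊢
  have hZ' : Zf w h ζ = ζ * (1 + (-v * ζ⁻¹ + (2 * h * ζ⁻¹ ^ 2 + (I - h • (2 / ζ)) * ζ⁻¹))) := by
    rw [hZ, Complex.real_smul]
    field_simp
    ring
  have ev : (jA ζ).v = Real.log ‖ζ‖ := rfl
  rw [hZ', norm_mul, Real.log_mul hn.ne' (norm_ne_zero_iff.2 hx1), ea, eb, ec, ev]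
  rw [← hA] at hb
  have h5 : 0 ≤ (q + 2 * q ^ 2) * e ^ 3 := by positivity
  refine le_trans (le_of_eq ?_) (hb.trans (by linarith))
  congr 1
  ring

theorem T2_norm_smooth {y R : ℝ} (hy : 0 < y) (n : ℕ) : ContDiffOn ℝ 1
    (fun p : ℂ × ℂ => ‖p.1‖ ^ n) (Kc y R ×ˢ Kc y R) := fun _ hp =>
  ((contDiffAt_fst.norm ℝ (T2_Kc_ne hy hp.1)).pow n).contDiffWithinAt

theorem TE_L {y R : ℝ} (hy : 0 < y) : TE (Kc y R) (fun ζ w t => Real.log (Zf w t ζ).im) jL := by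
  obtain ⟨C, e0, hC, he0, H1⟩ := T2_int (R := R) hy (fun p : ℂ × ℂ => 2 / ‖p.1‖ ^ 2)
    (ContDiffOn.div contDiffOn_const (T2_norm_smooth (half_pos hy) 2) fun p hp =>
      pow_ne_zero _ (norm_ne_zero_iff.2 (T2_Kc_ne (half_pos hy) hp.1)))
  refine ⟨C, e0, he0, fun ζ hζ => ⟨by simpa [jL] using hC, by simpa [jL] using hC, ?_,
    fun w h e he hs => ?_⟩⟩
  · have := (H1 ζ hζ ζ hζ).1
    rwa [Real.norm_eq_abs, ← abs_neg, ← neg_div] at this
  · obtain ⟨hd, -, hE⟩ := (H1 ζ hζ ζ hζ).2 w h e he hs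
    beta_reduce
    rw [im_Zf_eq hs.1 hd, Real.log_mul (hy.trans_le hζ.1).ne' (Real.exp_pos _).ne', Real.log_exp]
    rw [Real.norm_eq_abs, ← abs_neg] at hE
    convert hE using 2
    simp only [jL, smul_eq_mul]
    ring

theorem TE_U {y R : ℝ} (hy : 0 < y) : TE (Kc y R ×ˢ Ioi (0 : ℝ))
    (fun p w t => Real.log (p.2 * mm w t p.1)) (fun p => jU p.1 p.2) := by
  obtain ⟨C, e0, hC, he0, H1⟩ := T2_int (R := R) hy (fun p : ℂ × ℂ => 4 * p.1.im ^ 2 / ‖p.1‖ ^ 4)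
    (ContDiffOn.div
      (contDiff_const.mul ((Complex.imCLM.contDiff.comp contDiff_fst).pow 2)).contDiffOn
      (T2_norm_smooth (half_pos hy) 4) fun p hp =>
      pow_ne_zero _ (norm_ne_zero_iff.2 (T2_Kc_ne (half_pos hy) hp.1)))
  refine ⟨C, e0, he0, fun p hp => ⟨by simpa [jU] using hC, by simpa [jU] using hC, ?_,
    fun w h e he hs => ?_⟩⟩
  · have := (H1 p.1 hp.1 p.1 hp.1).1
    rwa [Real.norm_eq_abs, ← abs_neg, ← neg_div, ← neg_mul] at this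
  · obtain ⟨hd, -, hE⟩ := (H1 p.1 hp.1 p.1 hp.1).2 w h e he hs
    have hu : 0 < p.2 := hp.2
    beta_reduce
    rw [mm_eq hs.1 hd, Real.log_mul hu.ne' (Real.exp_pos _).ne', Real.log_exp]
    rw [Real.norm_eq_abs, ← abs_neg] at hE
    convert hE using 2
    simp only [jU, smul_eq_mul]
    ring

theorem TE_D {y R : ℝ} (hy : 0 < y) : TE (Kc y R ×ˢ Kc y R)
    (fun p w t => Real.log ‖Zf w t p.1 - conj (Zf w t p.2)‖) (fun p => jD p.1 p.2) := by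
  obtain ⟨C, e0, hC, he0, H1⟩ := T2_int (R := R) hy (fun p : ℂ × ℂ => 2 / (p.1 * conj p.2))
    (T2_div
      (contDiff_fst.mul (Complex.conjCLE.contDiff.comp contDiff_snd)).contDiffOn fun p hp =>
      mul_ne_zero (T2_Kc_ne (half_pos hy) hp.1)
        ((map_ne_zero _).2 (T2_Kc_ne (half_pos hy) hp.2)))
  have ec : ∀ ζ ξ : ℂ, (jD ζ ξ).c = -(2 / (ζ * conj ξ)).re := by
    intro ζ ξ
    have : (2 / (ζ * conj ξ) : ℂ) = ((2 : ℝ) : ℂ) * (1 / (ζ * conj ξ)) := by push_cast; ring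
    rw [this, Complex.re_ofReal_mul]
    simp only [jD]
    ring
  refine ⟨C, e0, he0, fun p hp => ⟨by simpa [jD] using hC, by simpa [jD] using hC, ?_,
    fun w h e he hs => ?_⟩⟩
  · rw [ec, abs_neg]
    exact (Complex.abs_re_le_norm _).trans (H1 p.1 hp.1 p.2 hp.2).1
  · obtain ⟨hd, hd', hE⟩ := (H1 p.1 hp.1 p.2 hp.2).2 w h e he hs
    have hne : p.1 - conj p.2 ≠ 0 := by
      intro h0
      have h1 := congrArg Complex.im h0
      have h2 := hp.1.1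
      have h3 := hp.2.1
      simp at h1
      linarith
    beta_reduce
    rw [pair_eq hs.1 hd hd', norm_mul, Real.log_mul (norm_ne_zero_iff.2 hne)
      (norm_ne_zero_iff.2 (Complex.exp_ne_zero _)), Complex.norm_exp, Real.log_exp, ec]
    have hE' := (Complex.abs_re_le_norm _).trans hE
    rw [← abs_neg] at hE'
    refine le_trans (le_of_eq ?_) hE'
    congr 1
    simp only [jD, Complex.sub_re, Complex.neg_re, Complex.smul_re, smul_eq_mul]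
    ring

theorem T2_norm_pos {ζ : ℂ} (hζ : ζ ∈ H) : 0 < ‖ζ‖ := by
  have h1 : 0 < ζ.im := hζ
  exact h1.trans_le ((le_abs_self _).trans (Complex.abs_im_le_norm ζ))

theorem T2_normsq (ζ : ℂ) : ‖ζ‖ ^ 2 = ζ.re ^ 2 + ζ.im ^ 2 := by
  rw [← Complex.normSq_eq_norm_sq, Complex.normSq_apply]; ring

theorem gen_jA (κ : ℝ) {ζ : ℂ} (hζ : ζ ∈ H) :
    (jA ζ).gen κ = (2 - κ / 2) * (1 - 2 * Sn ζ ^ 2) / ‖ζ‖ ^ 2 := by
  have h0 := (T2_norm_pos hζ).ne'
  have h1 : ζ.re ^ 2 = ‖ζ‖ ^ 2 - ζ.im ^ 2 := by rw [T2_normsq]; ring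
  simp only [Jet.gen, jA, Sn, h1]
  field_simp
  ring

theorem sq_jA_a {ζ : ℂ} (hζ : ζ ∈ H) : (jA ζ).a ^ 2 = (1 - Sn ζ ^ 2) / ‖ζ‖ ^ 2 := by
  have h0 := (T2_norm_pos hζ).ne'
  have h1 : ζ.re ^ 2 = ‖ζ‖ ^ 2 - ζ.im ^ 2 := by rw [T2_normsq]; ring
  simp only [jA, Sn, div_pow, neg_sq, h1]
  field_simp

theorem gen_jL (κ : ℝ) (ζ : ℂ) : (jL ζ).gen κ = -2 / ‖ζ‖ ^ 2 := by
  simp [Jet.gen, jL]

theorem gen_jU (κ : ℝ) {ζ : ℂ} (hζ : ζ ∈ H) (u : ℝ) :
    (jU ζ u).gen κ = -4 * Sn ζ ^ 2 / ‖ζ‖ ^ 2 := by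
  have h0 := (T2_norm_pos hζ).ne'
  simp only [Jet.gen, jU, Sn]
  field_simp
  ring

theorem Sn_pos {ζ : ℂ} (hζ : ζ ∈ H) : 0 < Sn ζ := by
  exact div_pos hζ (T2_norm_pos hζ)

theorem Sn_le_one (ζ : ℂ) : Sn ζ ≤ 1 := by
  exact div_le_one_of_le₀ ((le_abs_self _).trans (Complex.abs_im_le_norm ζ)) (norm_nonneg _)

theorem Sn_zero : Sn 0 = 0 := by
  simp [Sn]

theorem st_deriv_nonneg (x : ℝ) : 0 ≤ deriv st x := by
  exact Real.smoothTransition.monotone.deriv_nonneg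

theorem st_deriv_pos {x : ℝ} (h0 : 0 < x) (h1 : x < 1) : 0 < deriv st x := by
  have hf : ∀ y : ℝ, HasDerivAt expNegInvGlue (y⁻¹ ^ 2 * expNegInvGlue y) y := by
    intro y
    simpa using expNegInvGlue.hasDerivAt_polynomial_eval_inv_mul 1 y
  have hg : HasDerivAt (fun y => expNegInvGlue (1 - y))
      ((1 - x)⁻¹ ^ 2 * expNegInvGlue (1 - x) * (-1)) x :=
    (hf (1 - x)).comp x ((hasDerivAt_id x).const_sub 1)
  have hd := (hf x).fun_div ((hf x).fun_add hg) (Real.smoothTransition.pos_denom x).ne'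
  have e : deriv st x = _ := hd.deriv
  rw [e]
  have a1 := expNegInvGlue.pos_of_pos h0
  have a2 := expNegInvGlue.pos_of_pos (sub_pos.2 h1)
  have a3 : 0 < x⁻¹ ^ 2 := by positivity
  have a4 : 0 < (1 - x)⁻¹ ^ 2 := pow_pos (inv_pos.2 (sub_pos.2 h1)) 2
  refine div_pos ?_ (pow_pos (Real.smoothTransition.pos_denom x) 2)
  nlinarith [mul_pos a3 (mul_pos a1 a2), mul_pos a4 (mul_pos a1 a2)]

theorem st_deriv_eq_zero {x : ℝ} (h : x ≤ 0 ∨ 1 ≤ x) : deriv st x = 0 ∧ deriv (deriv st) x = 0 := by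
  have h1 : deriv st x = 0 := by
    rcases h with h | h
    · refine IsLocalMin.deriv_eq_zero (Eventually.of_forall fun y => ?_)
      rw [show st x = 0 from Real.smoothTransition.zero_of_nonpos h]
      exact Real.smoothTransition.nonneg y
    · refine IsLocalMax.deriv_eq_zero (Eventually.of_forall fun y => ?_)
      rw [show st x = 1 from Real.smoothTransition.one_of_one_le h]
      exact Real.smoothTransition.le_one y
  refine ⟨h1, IsLocalMin.deriv_eq_zero (Eventually.of_forall fun y => ?_)⟩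
  rw [h1]
  exact st_deriv_nonneg y

theorem T2_BC3_iff {k : ℝ → ℝ} :
    BC3 k ↔ ContDiff ℝ 3 k ∧ ∀ n ≤ 3, ∃ C : ℝ, ∀ x, |iteratedDeriv n k x| ≤ C := by
  constructor
  · rintro ⟨h, C, hC⟩
    refine ⟨h, fun n hn => ⟨C, fun x => ?_⟩⟩
    obtain ⟨h0, h1, h2, h3⟩ := hC x
    interval_cases n <;> simpa [iteratedDeriv_succ]
  · rintro ⟨h, hC⟩
    obtain ⟨C0, h0⟩ := hC 0 (by norm_num)
    obtain ⟨C1, h1⟩ := hC 1 (by norm_num)
    obtain ⟨C2, h2⟩ := hC 2 (by norm_num)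
    obtain ⟨C3, h3⟩ := hC 3 (by norm_num)
    simp only [iteratedDeriv_succ, iteratedDeriv_zero] at h0 h1 h2 h3
    refine ⟨h, max (max C0 C1) (max C2 C3), fun x => ⟨?_, ?_, ?_, ?_⟩⟩
    · exact (h0 x).trans ((le_max_left _ _).trans (le_max_left _ _))
    · exact (h1 x).trans ((le_max_right _ _).trans (le_max_left _ _))
    · exact (h2 x).trans ((le_max_left _ _).trans (le_max_right _ _))
    · exact (h3 x).trans ((le_max_right _ _).trans (le_max_right _ _))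

theorem T2_iter_bdd {k : ℝ → ℝ} (n : ℕ) (hk : ContDiff ℝ n k) (hs : HasCompactSupport k) :
    ∃ C : ℝ, ∀ x, |iteratedDeriv n k x| ≤ C := by
  have h1 : ∀ m : ℕ, HasCompactSupport (iteratedDeriv m k) := by
    intro m
    induction m with
    | zero => simpa using hs
    | succ m ih => rw [iteratedDeriv_succ]; exact ih.deriv
  exact (hk.continuous_iteratedDeriv' n).bounded_above_of_compact_support (h1 n)

theorem T2_deriv_st_bdd (n : ℕ) : ∃ C : ℝ, ∀ x, |iteratedDeriv n (deriv st) x| ≤ C := by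
  refine T2_iter_bdd n (ContDiff.deriv' ?_) ?_
  · exact_mod_cast Real.smoothTransition.contDiff (n := ((n + 1 : ℕ) : ℕ∞))
  · refine HasCompactSupport.intro (isCompact_Icc (a := (0 : ℝ)) (b := 1)) fun x hx => ?_
    refine (st_deriv_eq_zero ?_).1
    by_contra hc
    push Not at hc
    exact hx ⟨hc.1.le, hc.2.le⟩

theorem BC3_st : BC3 st := by
  refine T2_BC3_iff.2 ⟨by exact_mod_cast Real.smoothTransition.contDiff (n := ((3 : ℕ) : ℕ∞)),
    fun n _ => ?_⟩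
  rcases n with _ | n
  · refine ⟨1, fun x => ?_⟩
    rw [iteratedDeriv_zero, abs_of_nonneg (Real.smoothTransition.nonneg x)]
    exact Real.smoothTransition.le_one x
  · rw [iteratedDeriv_succ']
    exact T2_deriv_st_bdd n

theorem BC3_deriv_st : BC3 (deriv st) := by
  refine T2_BC3_iff.2 ⟨ContDiff.deriv' ?_, fun n _ => T2_deriv_st_bdd n⟩
  exact_mod_cast Real.smoothTransition.contDiff (n := ((4 : ℕ) : ℕ∞))

theorem BC3.affine {k : ℝ → ℝ} (hk : BC3 k) (a b : ℝ) : BC3 (fun x => k (a * x + b)) := by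
  obtain ⟨h, hC⟩ := T2_BC3_iff.1 hk
  refine T2_BC3_iff.2 ⟨h.comp (by fun_prop), fun n hn => ?_⟩
  obtain ⟨C, hC⟩ := hC n hn
  refine ⟨|a| ^ n * C, fun x => ?_⟩
  have h1 : ContDiff ℝ n (fun z => k (z + b)) :=
    (h.of_le (by exact_mod_cast hn)).comp (by fun_prop)
  rw [iteratedDeriv_comp_const_mul h1 a, iteratedDeriv_comp_add_const]
  beta_reduce
  rw [abs_mul, abs_pow]
  exact mul_le_mul_of_nonneg_left (hC _) (by positivity)

theorem T2_mul {f k : ℝ → ℝ} (hf : ContDiff ℝ 3 f) (hk : BC3 k) (S : Set ℝ)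
    (hS : ∀ n ≤ 3, ∃ C : ℝ, ∀ x ∈ S, |iteratedDeriv n f x| ≤ C)
    (h0 : ∀ x ∉ S, k =ᶠ[𝓝 x] 0) : BC3 (fun x => f x * k x) := by
  obtain ⟨h, hC⟩ := T2_BC3_iff.1 hk
  refine T2_BC3_iff.2 ⟨hf.mul h, fun n hn => ?_⟩
  choose! A hA using hS
  choose! B hB using hC
  refine ⟨∑ i ∈ Finset.range (n + 1), n.choose i * |A i| * |B (n - i)|, fun x => ?_⟩
  by_cases hx : x ∈ S
  · have e := iteratedDeriv_mul (n := n) (x := x) (hf.of_le (by exact_mod_cast hn)).contDiffAt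
      (h.of_le (by exact_mod_cast hn)).contDiffAt
    rw [show (fun x => f x * k x) = f * k from rfl, e]
    refine (Finset.abs_sum_le_sum_abs _ _).trans (Finset.sum_le_sum fun i hi => ?_)
    have hi' := Finset.mem_range.1 hi
    rw [abs_mul, abs_mul, Nat.abs_cast]
    exact mul_le_mul (mul_le_mul_of_nonneg_left ((hA i (by omega) x hx).trans (le_abs_self _))
      (by positivity)) ((hB (n - i) (by omega) x).trans (le_abs_self _)) (abs_nonneg _)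
      (by positivity)
  · have e : (fun x => f x * k x) =ᶠ[𝓝 x] fun _ => 0 := by
      filter_upwards [h0 x hx] with y hy
      simp [hy]
    rw [e.iteratedDeriv_eq n, iteratedDeriv_fun_const_zero, abs_zero]
    positivity

theorem BC3.mul {k l : ℝ → ℝ} (hk : BC3 k) (hl : BC3 l) : BC3 (fun x => k x * l x) := by
  obtain ⟨h, hC⟩ := T2_BC3_iff.1 hk
  refine T2_mul h hl univ (fun n hn => ?_) (fun x hx => absurd (mem_univ x) hx)
  obtain ⟨C, hC⟩ := hC n hn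
  exact ⟨C, fun x _ => hC x⟩

theorem BC3.add {k l : ℝ → ℝ} (hk : BC3 k) (hl : BC3 l) : BC3 (fun x => k x + l x) := by
  obtain ⟨h, hC⟩ := T2_BC3_iff.1 hk
  obtain ⟨h', hC'⟩ := T2_BC3_iff.1 hl
  refine T2_BC3_iff.2 ⟨h.add h', fun n hn => ?_⟩
  obtain ⟨C, hC⟩ := hC n hn
  obtain ⟨C', hC'⟩ := hC' n hn
  refine ⟨C + C', fun x => ?_⟩
  rw [show (fun x => k x + l x) = k + l from rfl, iteratedDeriv_add
    (h.of_le (by exact_mod_cast hn)).contDiffAt (h'.of_le (by exact_mod_cast hn)).contDiffAt]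
  exact (abs_add_le _ _).trans (add_le_add (hC x) (hC' x))

theorem BC3.const_mul {k : ℝ → ℝ} (hk : BC3 k) (c : ℝ) : BC3 (fun x => c * k x) := by
  refine T2_mul contDiff_const hk univ (fun n _ => ⟨|c|, fun x _ => ?_⟩)
    (fun x hx => absurd (mem_univ x) hx)
  rw [iteratedDeriv_const]
  split_ifs <;> simp

theorem T2_cut {k : ℝ → ℝ} {x0 : ℝ} (h0 : ∀ x ≤ x0, k x = 0) : ∀ x ∉ Ici x0, k =ᶠ[𝓝 x] 0 := by
  intro x hx
  filter_upwards [Iio_mem_nhds (not_le.1 hx)] with y hy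
  exact h0 y (le_of_lt hy)

/-- `exp (-b x)` cut off on the left. -/
theorem BC3.exp_mul {k : ℝ → ℝ} (hk : BC3 k) {x0 b : ℝ} (hb : 0 ≤ b) (h0 : ∀ x ≤ x0, k x = 0) :
    BC3 (fun x => Real.exp (-b * x) * k x) := by
  refine T2_mul (by fun_prop) hk (Ici x0) (fun n _ => ⟨b ^ n * Real.exp (-b * x0), fun x hx => ?_⟩)
    (T2_cut h0)
  rw [iteratedDeriv_exp_const_mul]
  beta_reduce
  rw [abs_mul, abs_pow, abs_neg, abs_of_nonneg hb, abs_of_pos (Real.exp_pos _)]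
  refine mul_le_mul_of_nonneg_left (Real.exp_le_exp.2 ?_) (by positivity)
  have : x0 ≤ x := hx
  nlinarith

theorem T2_iter_poly (b c : ℝ) (n : ℕ) : ∃ α β : ℝ,
    iteratedDeriv n (fun x => (x - c) * Real.exp (-b * x)) =
      fun x => (α * x + β) * Real.exp (-b * x) := by
  induction n with
  | zero => exact ⟨1, -c, by funext x; simp [sub_eq_add_neg]⟩
  | succ n ih =>
    obtain ⟨α, β, h⟩ := ih
    refine ⟨-b * α, α - b * β, ?_⟩
    rw [iteratedDeriv_succ, h]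
    funext x
    have h1 : HasDerivAt (fun x => α * x + β) (α * 1) x :=
      ((hasDerivAt_id x).const_mul α).add_const β
    have h2 : HasDerivAt (fun x => Real.exp (-b * x)) (Real.exp (-b * x) * (-b * 1)) x :=
      ((hasDerivAt_id x).const_mul (-b)).exp
    rw [(h1.fun_mul h2).deriv]
    ring

/-- `(x+1) exp (-b x)`-type factors: any `C³` function times a cut-off on the left whose product
with derivatives is bounded on `[x0, ∞)`. -/
theorem BC3.poly_exp_mul {k : ℝ → ℝ} (hk : BC3 k) {x0 b : ℝ} (hb : 0 < b) (h0 : ∀ x ≤ x0, k x = 0)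
    (c : ℝ) : BC3 (fun x => (x - c) * Real.exp (-b * x) * k x) := by
  refine T2_mul (f := fun x => (x - c) * Real.exp (-b * x)) (by fun_prop) hk (Ici x0)
    (fun n _ => ?_) (T2_cut h0)
  obtain ⟨α, β, h⟩ := T2_iter_poly b c n
  refine ⟨(|α| * b⁻¹ + |α * x0 + β|) * Real.exp (-b * x0), fun x hx => ?_⟩
  have hx' : 0 ≤ x - x0 := sub_nonneg.2 hx
  rw [h]
  beta_reduce
  have e1 : Real.exp (-b * x) = Real.exp (-(b * (x - x0))) * Real.exp (-b * x0) := by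
    rw [← Real.exp_add]; congr 1; ring
  have h1 : Real.exp (-(b * (x - x0))) ≤ 1 := Real.exp_le_one_iff.2 (by nlinarith)
  have h2 : (x - x0) * Real.exp (-(b * (x - x0))) ≤ b⁻¹ := by
    have h3 := Real.add_one_le_exp (b * (x - x0))
    rw [Real.exp_neg, mul_inv_le_iff₀ (Real.exp_pos _), inv_mul_eq_div, le_div_iff₀ hb]
    linarith
  have h4 : |α * x + β| ≤ |α| * (x - x0) + |α * x0 + β| := by
    calc |α * x + β| = |α * (x - x0) + (α * x0 + β)| := by congr 1; ring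
      _ ≤ _ := (abs_add_le _ _).trans (by rw [abs_mul, abs_of_nonneg hx'])
  rw [abs_mul, abs_of_pos (Real.exp_pos _), e1, ← mul_assoc]
  refine mul_le_mul_of_nonneg_right ?_ (Real.exp_pos _).le
  have h5 := Real.exp_pos (-(b * (x - x0)))
  calc _ ≤ (|α| * (x - x0) + |α * x0 + β|) * Real.exp (-(b * (x - x0))) :=
        mul_le_mul_of_nonneg_right h4 h5.le
    _ = |α| * ((x - x0) * Real.exp (-(b * (x - x0)))) +
        |α * x0 + β| * Real.exp (-(b * (x - x0))) := by ring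
    _ ≤ _ := add_le_add (mul_le_mul_of_nonneg_left h2 (abs_nonneg _))
        (mul_le_of_le_one_right (abs_nonneg _) h1)

end Crest.Agent.R162
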