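import Crest.Agent.R162.M2
import Crest.Agent.R162.O3
import Crest.Agent.R162.T2
import Crest.Agent.R162.P6
import Crest.Agent.R162.K3
import Crest.Agent.R162.L5
import Crest.Agent.R162.E7b

set_option autoImplicit false
open MeasureTheory ProbabilityTheory Set Filter Topology Metric
open scoped ENNReal NNReal ComplexConjugate

namespace Crest.Agent.R162

/-- Exponential moment of the mass of a fresh ball (block E). -/
theorem exp_moment {κ : ℝ} (hκ : 0 < κ) (hκ8 : κ < 8) {P : Measure Path} (hP : IsDrv κ P) {s1 : ℝ}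
    (hs1 : 0 < s1) : ∃ θ C : ℝ, 0 < θ ∧ 0 < C ∧ ∀ f : ℂ → ℂ, Univ f → ∀ (z0 : ℂ) (R r ε : ℝ),
      0 < ε → 10 * ε ≤ r → r ≤ R → (∀ ζ ∈ H, f ζ ∈ ball z0 R → 4 * r ≤ ups f ζ) →
      ∫⁻ w, ENNReal.ofReal (Real.exp (θ * r ^ (-dd κ) *
        (mass κ s1 ε f w (Ioi 0) (ball z0 R)).toReal)) ∂P ≤
      ENNReal.ofReal (Real.exp (C * (R / r) ^ 2)) :=
  E.exp_moment' hκ hκ8 hP hs1

end Crest.Agent.R162
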