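import Crest.Agent.R162.K1

set_option autoImplicit false
open MeasureTheory ProbabilityTheory Set Filter Topology Metric
open scoped ENNReal NNReal ComplexConjugate

namespace Crest.Agent.R162

theorem lintegral_periodic {F : ℝ → ℝ≥0∞} (hF : Function.Periodic F (2 * Real.pi)) (t : ℝ) :
    ∫⁻ θ in Ioo t (t + 2 * Real.pi), F θ = ∫⁻ θ in Ioo (-Real.pi) Real.pi, F θ := by
  have hT : 0 < 2 * Real.pi := by have := Real.pi_pos; positivity
  have : VAddInvariantMeasure (AddSubgroup.zmultiples (2 * Real.pi)) ℝ volume :=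
    ⟨fun c s _ => measure_preimage_add _ _ _⟩
  have h := IsAddFundamentalDomain.setLIntegral_eq (G := AddSubgroup.zmultiples (2 * Real.pi))
    (isAddFundamentalDomain_Ioc hT t) (isAddFundamentalDomain_Ioc hT (-Real.pi)) F
    hF.map_vadd_zmultiples
  have e : -Real.pi + 2 * Real.pi = Real.pi := by ring
  rw [e] at h
  rw [setLIntegral_congr Ioo_ae_eq_Ioc, setLIntegral_congr Ioo_ae_eq_Ioc, h]

/-- Polar coordinates on an angular window of length at most `2π`. -/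
theorem lintegral_polar_window (x : ℂ) {G : ℂ → ℝ≥0∞} (hG : Measurable G) {θ1 θ2 : ℝ}
    (hθ' : θ2 ≤ θ1 + 2 * Real.pi) :
    ∫⁻ r in Ioi (0 : ℝ), ENNReal.ofReal r * ∫⁻ θ in Ioo θ1 θ2, G (circleMap x r θ) ≤
      ∫⁻ z, G z := by
  rw [lintegral_polar_circles x hG]
  refine lintegral_mono fun r => mul_le_mul_right ?_ _
  rw [← lintegral_periodic (F := fun θ => G (circleMap x r θ)) ((periodic_circleMap x r).comp G) θ1]
  exact lintegral_mono_set (Ioo_subset_Ioo le_rfl hθ')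

theorem exists_le_of_lintegral_lt {E : ℝ → ℝ≥0∞} {r₁ r₂ c : ℝ} (h1 : 0 < r₁) (h12 : r₁ < r₂)
    (hc : 0 ≤ c) (hA : ∫⁻ r in Ioi (0 : ℝ), ENNReal.ofReal r * E r <
      ENNReal.ofReal (c * Real.log (r₂ / r₁))) :
    ∃ r ∈ Ioo r₁ r₂, ENNReal.ofReal (r ^ 2) * E r ≤ ENNReal.ofReal c := by
  by_contra h
  push Not at h
  refine absurd hA (not_lt.2 ?_)
  rw [ENNReal.ofReal_mul hc, ← lintegral_inv_Ioo h1 h12.le,
    ← lintegral_const_mul' _ _ ENNReal.ofReal_ne_top]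
  refine le_trans ?_ (lintegral_mono_set (s := Ioo r₁ r₂) fun x hx => h1.trans hx.1)
  refine setLIntegral_mono' measurableSet_Ioo fun ρ hρ => ?_
  have hρ0 : 0 < ρ := h1.trans hρ.1
  refine (mul_le_mul_left (h ρ hρ).le _).trans (le_of_eq ?_)
  rw [mul_right_comm, ← ENNReal.ofReal_mul (by positivity)]
  congr 2
  field_simp

theorem exists_subinterval {u : ℝ → ℝ} {s0 t0 a b : ℝ} (hst : s0 ≤ t0)
    (hu : ContinuousOn u (Icc s0 t0)) (hab : a ≤ b) (h1 : u s0 ≤ a) (h2 : b ≤ u t0) :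
    ∃ s t, s0 ≤ s ∧ s ≤ t ∧ t ≤ t0 ∧ u s = a ∧ u t = b ∧ ∀ θ ∈ Icc s t, a ≤ u θ ∧ u θ ≤ b := by
  have hc1 : IsCompact (Icc s0 t0 ∩ u ⁻¹' {b}) :=
    isCompact_Icc.of_isClosed_subset (hu.preimage_isClosed_of_isClosed isClosed_Icc
      isClosed_singleton) inter_subset_left
  obtain ⟨t1, ht1, hut1⟩ := intermediate_value_Icc hst hu ⟨h1.trans hab, h2⟩
  obtain ⟨t, ⟨ht, hut⟩, htmin⟩ := hc1.exists_isLeast ⟨t1, ht1, hut1⟩
  have hut' : u t = b := hut
  have hle : ∀ θ ∈ Icc s0 t, u θ ≤ b := by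
    intro θ hθ
    by_contra hlt
    push Not at hlt
    obtain ⟨θ', hθ', hu'⟩ := intermediate_value_Icc hθ.1
      (hu.mono (Icc_subset_Icc le_rfl (hθ.2.trans ht.2))) ⟨h1.trans hab, hlt.le⟩
    have := htmin ⟨⟨hθ'.1, hθ'.2.trans (hθ.2.trans ht.2)⟩, hu'⟩
    have e : θ = t := le_antisymm hθ.2 (this.trans hθ'.2)
    rw [e, hut'] at hlt
    exact lt_irrefl _ hlt
  have hu' : ContinuousOn u (Icc s0 t) := hu.mono (Icc_subset_Icc le_rfl ht.2)
  have hc2 : IsCompact (Icc s0 t ∩ u ⁻¹' {a}) :=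
    isCompact_Icc.of_isClosed_subset (hu'.preimage_isClosed_of_isClosed isClosed_Icc
      isClosed_singleton) inter_subset_left
  obtain ⟨s1, hs1, hus1⟩ := intermediate_value_Icc ht.1 hu' ⟨h1, hut'.symm ▸ hab⟩
  obtain ⟨s, ⟨hs, hus⟩, hsmax⟩ := hc2.exists_isGreatest ⟨s1, hs1, hus1⟩
  have hus' : u s = a := hus
  refine ⟨s, t, hs.1, hs.2, ht.2, hus', hut', fun θ hθ => ⟨?_, hle θ ⟨hs.1.trans hθ.1, hθ.2⟩⟩⟩
  by_contra hlt
  push Not at hlt
  obtain ⟨θ', hθ', hu''⟩ := intermediate_value_Icc hθ.2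
    (hu'.mono (Icc_subset_Icc (hs.1.trans hθ.1) le_rfl)) ⟨hlt.le, hut'.symm ▸ hab⟩
  have := hsmax ⟨⟨(hs.1.trans hθ.1).trans hθ'.1, hθ'.2⟩, hu''⟩
  have e : θ = s := le_antisymm (hθ'.1.trans this) hθ.1
  rw [e, hus'] at hlt
  exact lt_irrefl _ hlt

/-- The logarithm of the modulus changes by at most the integral of `‖φ'‖ / ‖φ‖`. -/
theorem abs_log_sub_le {φ φ' : ℝ → ℂ} {s t : ℝ} (hst : s ≤ t)
    (hd : ∀ θ ∈ Icc s t, HasDerivAt φ (φ' θ) θ) (hc : ContinuousOn φ' (Icc s t))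
    (h0 : ∀ θ ∈ Icc s t, φ θ ≠ 0) :
    ENNReal.ofReal |Real.log ‖φ t‖ - Real.log ‖φ s‖| ≤
      ∫⁻ θ in Ioo s t, ENNReal.ofReal (‖φ' θ‖ / ‖φ θ‖) := by
  have hφc : ContinuousOn φ (Icc s t) := fun θ hθ => (hd θ hθ).continuousAt.continuousWithinAt
  have hn : ∀ θ ∈ Icc s t, ‖φ θ‖ ^ 2 ≠ 0 := fun θ hθ => pow_ne_zero _ (norm_ne_zero_iff.2 (h0 θ hθ))
  have h := enorm_sub_le_lintegral (φ := fun θ => ((Real.log (‖φ θ‖ ^ 2) / 2 : ℝ) : ℂ))
    (φ' := fun θ => (((2 * inner ℝ (φ θ) (φ' θ)) / ‖φ θ‖ ^ 2 / 2 : ℝ) : ℂ)) hst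
    (fun θ hθ => (((hd θ hθ).norm_sq.log (hn θ hθ)).div_const 2).ofReal_comp)
    (Complex.continuous_ofReal.comp_continuousOn
      (((continuousOn_const.mul (hφc.inner hc)).div (hφc.norm.pow 2) hn).div_const 2))
  rw [← Complex.ofReal_sub, Complex.norm_real, Real.norm_eq_abs, Real.log_pow, Real.log_pow] at h
  have e : ((2 : ℕ) : ℝ) * Real.log ‖φ t‖ / 2 - ((2 : ℕ) : ℝ) * Real.log ‖φ s‖ / 2 =
      Real.log ‖φ t‖ - Real.log ‖φ s‖ := by push_cast; ring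
  rw [e] at h
  refine h.trans (setLIntegral_mono' measurableSet_Ioo fun θ hθ => ENNReal.ofReal_le_ofReal ?_)
  have hp : 0 < ‖φ θ‖ := norm_pos_iff.2 (h0 θ (Ioo_subset_Icc_self hθ))
  rw [Complex.norm_real, Real.norm_eq_abs, abs_div, abs_div, abs_mul, abs_two,
    abs_of_pos (pow_pos hp 2), div_div, div_le_div_iff₀ (by positivity) hp]
  have := abs_real_inner_le_norm (φ θ) (φ' θ)
  nlinarith [mul_le_mul_of_nonneg_right this hp.le]

/-- The extremal metric of an annulus. -/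
noncomputable def annM (w0 : ℂ) (a b : ℝ) : ℂ → ℝ≥0∞ :=
  {w | a ≤ ‖w - w0‖ ∧ ‖w - w0‖ ≤ b}.indicator fun w => ENNReal.ofReal (‖w - w0‖⁻¹ ^ 2)

theorem measurable_annM (w0 : ℂ) (a b : ℝ) : Measurable (annM w0 a b) := by
  have hcn : Continuous fun w : ℂ => ‖w - w0‖ := by fun_prop
  refine Measurable.indicator ((hcn.measurable.inv.pow_const 2).ennreal_ofReal) ?_
  exact ((isClosed_le continuous_const hcn).inter (isClosed_le hcn continuous_const)).measurableSet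

theorem lintegral_annM (w0 : ℂ) {a b : ℝ} (ha : 0 < a) (hab : a ≤ b) :
    ∫⁻ w, annM w0 a b w = ENNReal.ofReal (2 * Real.pi * Real.log (b / a)) := by
  have hπ := Real.pi_pos
  rw [lintegral_polar_circles w0 (measurable_annM w0 a b),
    ENNReal.ofReal_mul (by positivity), ← lintegral_inv_Ioo ha hab,
    ← lintegral_const_mul' _ _ ENNReal.ofReal_ne_top, setLIntegral_congr Ioo_ae_eq_Icc,
    ← lintegral_indicator measurableSet_Icc, ← lintegral_indicator measurableSet_Ioi]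
  refine lintegral_congr fun r => ?_
  by_cases hr : r ∈ Ioi (0 : ℝ)
  · have hr0 : 0 < r := hr
    have hn : ∀ θ, ‖circleMap w0 r θ - w0‖ = r := fun θ => by
      rw [circleMap_sub_center, norm_circleMap_zero, abs_of_pos hr0]
    rw [indicator_of_mem hr]
    by_cases hm : r ∈ Icc a b
    · have : ∀ θ, annM w0 a b (circleMap w0 r θ) = ENNReal.ofReal (r⁻¹ ^ 2) := fun θ => by
        rw [annM, indicator_of_mem (by simpa [abs_of_pos hr0] using hm), hn]
      simp only [this, indicator_of_mem hm, lintegral_const, MeasurableSet.univ,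
        Measure.restrict_apply, univ_inter, Real.volume_Ioo]
      rw [← ENNReal.ofReal_mul (by positivity), ← ENNReal.ofReal_mul (by positivity),
        ← ENNReal.ofReal_mul (by positivity)]
      congr 1
      field_simp
      ring
    · have : ∀ θ, annM w0 a b (circleMap w0 r θ) = 0 := fun θ => by
        rw [annM, indicator_of_notMem (by simpa [abs_of_pos hr0] using hm)]
      simp [this, indicator_of_notMem hm]
  · rw [indicator_of_notMem hr, indicator_of_notMem]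
    intro hm
    exact hr (ha.trans_le hm.1)

/-- Length-area. Arcs `θ ↦ x + r e^{iθ}`, `θ ∈ (θ1,θ2)`, `r ∈ (r1,r2)` inside `H`; each arc has a point
with `‖f - w0‖ ≤ a` and one with `‖f - w0‖ ≥ b`. Metric `1/‖w - w0‖` on the annulus `a ≤ ‖w - w0‖ ≤ b`
(area `2π log (b/a)`): `log (b/a) ≤ ∫ ρ(f) ‖f'‖ r dθ`, Cauchy-Schwarz, divide by `r`, integrate,
polar coordinates, `lintegral_area`. -/
theorem length_area {f : ℂ → ℂ} (hf : Univ f) (x w0 : ℂ) {r1 r2 θ1 θ2 a b : ℝ} (hr1 : 0 < r1)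
    (hr : r1 < r2) (hθ : θ1 < θ2) (hθ' : θ2 ≤ θ1 + 2 * Real.pi) (ha : 0 < a) (hab : a < b)
    (hH : ∀ r ∈ Ioo r1 r2, ∀ θ ∈ Ioo θ1 θ2, x + r * Complex.exp (θ * Complex.I) ∈ H)
    (h1 : ∀ r ∈ Ioo r1 r2, ∃ θ ∈ Ioo θ1 θ2, ‖f (x + r * Complex.exp (θ * Complex.I)) - w0‖ ≤ a)
    (h2 : ∀ r ∈ Ioo r1 r2, ∃ θ ∈ Ioo θ1 θ2, b ≤ ‖f (x + r * Complex.exp (θ * Complex.I)) - w0‖) :
    Real.log (b / a) * Real.log (r2 / r1) ≤ 2 * Real.pi * (θ2 - θ1) := by
  by_contra hcon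
  push Not at hcon
  have hπ := Real.pi_pos
  set L := Real.log (b / a) with hL
  set Λ := Real.log (r2 / r1) with hΛ
  have hL0 : 0 < L := Real.log_pos ((one_lt_div ha).2 hab)
  have hΛ0 : 0 < Λ := Real.log_pos ((one_lt_div hr1).2 hr)
  have hW : 0 < θ2 - θ1 := by linarith
  obtain ⟨c, hc1, hc2⟩ : ∃ c, 2 * Real.pi * L / Λ < c ∧ c < L ^ 2 / (θ2 - θ1) := by
    refine exists_between ?_
    rw [div_lt_div_iff₀ hΛ0 hW]
    nlinarith
  have hc0 : 0 < c := lt_trans (by positivity) hc1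
  set G : ℂ → ℝ≥0∞ := H.indicator fun z => annM w0 a b (f z) * ENNReal.ofReal (‖deriv f z‖ ^ 2)
    with hG
  have hGm : Measurable G :=
    (((measurable_annM w0 a b).comp hf.meas).mul
      ((measurable_deriv f).norm.pow_const 2).ennreal_ofReal).indicator measurableSet_H
  have hGi : ∫⁻ z, G z ≤ ENNReal.ofReal (2 * Real.pi * L) := by
    rw [hG, lintegral_indicator measurableSet_H, lintegral_area hf measurableSet_H Subset.rfl,
      ← lintegral_annM w0 ha hab.le]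
    exact setLIntegral_le_lintegral _ _
  obtain ⟨r, hrm, hE⟩ := exists_le_of_lintegral_lt
    (E := fun r => ∫⁻ θ in Ioo θ1 θ2, G (circleMap x r θ)) hr1 hr hc0.le
    (((lintegral_polar_window x hGm hθ').trans hGi).trans_lt (by
      rw [ENNReal.ofReal_lt_ofReal_iff (by positivity)]
      rwa [div_lt_iff₀ hΛ0] at hc1))
  have hr0 : 0 < r := hr1.trans hrm.1
  have hmem : ∀ θ ∈ Ioo θ1 θ2, circleMap x r θ ∈ H := hH r hrm
  set φ : ℝ → ℂ := fun θ => f (circleMap x r θ) - w0 with hφ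
  set φ' : ℝ → ℂ := fun θ => deriv f (circleMap x r θ) * (circleMap 0 r θ * Complex.I) with hφ'
  have hd : ∀ θ ∈ Ioo θ1 θ2, HasDerivAt φ (φ' θ) θ := fun θ hθ =>
    ((hf.diff.differentiableAt (isOpen_H.mem_nhds (hmem θ hθ))).hasDerivAt.comp θ
      (hasDerivAt_circleMap x r θ)).sub_const w0
  have hc' : ContinuousOn φ' (Ioo θ1 θ2) :=
    ContinuousOn.mul ((hf.diff.deriv isOpen_H).continuousOn.comp
      (continuous_circleMap x r).continuousOn hmem)
      ((continuous_circleMap 0 r).mul continuous_const).continuousOn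
  have hφc : ContinuousOn (fun θ => ‖φ θ‖) (Ioo θ1 θ2) := fun θ hθ =>
    (hd θ hθ).continuousAt.norm.continuousWithinAt
  obtain ⟨s, t, hst, hsub, hlog, hin⟩ : ∃ s t, s ≤ t ∧ Icc s t ⊆ Ioo θ1 θ2 ∧
      |Real.log ‖φ t‖ - Real.log ‖φ s‖| = L ∧ ∀ θ ∈ Icc s t, a ≤ ‖φ θ‖ ∧ ‖φ θ‖ ≤ b := by
    obtain ⟨θa, hθa, hφa⟩ := h1 r hrm
    obtain ⟨θb, hθb, hφb⟩ := h2 r hrm
    have eL : Real.log b - Real.log a = L := by
      rw [hL, Real.log_div (ha.trans hab).ne' ha.ne']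
    rcases le_total θa θb with h | h
    · have hI : Icc θa θb ⊆ Ioo θ1 θ2 := Icc_subset_Ioo hθa.1 hθb.2
      obtain ⟨s, t, h3, h4, h5, h6, h7, h8⟩ :=
        exists_subinterval (u := fun θ => ‖φ θ‖) h (hφc.mono hI) hab.le hφa hφb
      refine ⟨s, t, h4, (Icc_subset_Icc h3 h5).trans hI, ?_, h8⟩
      rw [h6, h7, eL, abs_of_pos hL0]
    · have hI : Icc θb θa ⊆ Ioo θ1 θ2 := Icc_subset_Ioo hθb.1 hθa.2
      obtain ⟨s, t, h3, h4, h5, h6, h7, h8⟩ :=
        exists_subinterval (u := fun θ => -‖φ θ‖) (a := -b) (b := -a) h (hφc.mono hI).neg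
          (by linarith) (neg_le_neg hφb) (neg_le_neg hφa)
      refine ⟨s, t, h4, (Icc_subset_Icc h3 h5).trans hI, ?_, fun θ hθ => ?_⟩
      · simp only [neg_inj] at h6 h7
        rw [h6, h7, abs_sub_comm, eL, abs_of_pos hL0]
      · have := h8 θ hθ
        simp only [neg_le_neg_iff] at this
        exact ⟨this.2, this.1⟩
  have h3 := abs_log_sub_le hst (fun θ hθ => hd θ (hsub hθ)) (hc'.mono hsub)
    (fun θ hθ => norm_pos_iff.1 (ha.trans_le (hin θ hθ).1))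
  rw [hlog] at h3
  have hs1 : θ1 < s := (hsub ⟨le_rfl, hst⟩).1
  have ht2 : t < θ2 := (hsub ⟨hst, le_rfl⟩).2
  have h4 := lintegral_le_sqrt (μ := volume.restrict (Ioo s t))
    (g := fun θ => ‖φ' θ‖ / ‖φ θ‖) (w := fun _ => 1) (W := θ2 - θ1) (c := c) hW hc0 (by simp)
    measurable_const (by simp; exact ENNReal.ofReal_le_ofReal (by linarith))
    (by
      refine le_trans ?_ hE
      rw [← lintegral_const_mul' _ _ ENNReal.ofReal_ne_top]
      refine le_trans ?_ (lintegral_mono_set (s := Ioo s t) (Ioo_subset_Ioo hs1.le ht2.le))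
      refine setLIntegral_mono' measurableSet_Ioo fun θ hθ => le_of_eq ?_
      have hθ' := Ioo_subset_Icc_self hθ
      rw [hG, indicator_of_mem (hmem θ (hsub hθ')), annM,
        indicator_of_mem (show f (circleMap x r θ) ∈ {w | a ≤ ‖w - w0‖ ∧ ‖w - w0‖ ≤ b} from hin θ hθ'),
        ← ENNReal.ofReal_mul (by positivity), ← ENNReal.ofReal_mul (by positivity)]
      congr 1
      simp only [hφ', hφ, norm_mul, norm_circleMap_zero, abs_of_pos hr0, Complex.norm_I]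
      ring)
  have h5 := (ENNReal.ofReal_le_ofReal_iff (Real.sqrt_nonneg _)).1 (h3.trans h4)
  rw [lt_div_iff₀ hW] at hc2
  have h6 : Real.sqrt ((θ2 - θ1) * c) < L := by
    rw [Real.sqrt_lt' hL0]; linarith
  linarith

end Crest.Agent.R162
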