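import Crest.Agent.R162.K3

set_option autoImplicit false
open MeasureTheory ProbabilityTheory Set Filter Topology Metric
open scoped ENNReal NNReal ComplexConjugate

namespace Crest.Agent.R162

theorem exists_angle {z : ℂ} {x r : ℝ} (hz : 0 < z.im) (hn : ‖z - x‖ = r) :
    ∃ θ ∈ Ioo 0 Real.pi, (x : ℂ) + r * Complex.exp (θ * Complex.I) = z := by
  have him : 0 < (z - x).im := by simpa using hz
  refine ⟨Complex.arg (z - x), ⟨?_, ?_⟩, ?_⟩
  · rcases (Complex.arg_nonneg_iff.2 him.le).lt_or_eq with h | h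
    · exact h
    · have := (Complex.arg_eq_zero_iff.1 h.symm).2
      linarith
  · exact Complex.arg_lt_pi_iff.2 (Or.inr him.ne')
  · rw [← hn, Complex.norm_mul_exp_arg_mul_I]; ring

theorem halfcircle_mem {x r θ : ℝ} (hr : 0 < r) (hθ : θ ∈ Ioo 0 Real.pi) :
    (x : ℂ) + r * Complex.exp (θ * Complex.I) ∈ H := by
  have := Real.sin_pos_of_pos_of_lt_pi hθ.1 hθ.2
  show 0 < ((x : ℂ) + r * Complex.exp (θ * Complex.I)).im
  simp [Complex.exp_mul_I, Complex.cos_ofReal_re, Complex.sin_ofReal_re, Complex.cos_ofReal_im,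
    Complex.sin_ofReal_im]
  positivity

theorem Univ.isPreconnected_preimage {f : ℂ → ℂ} (hf : Univ f) {O : Set ℂ} (hO : IsPreconnected O)
    (hOH : O ⊆ f '' H) : IsPreconnected (H ∩ f ⁻¹' O) := by
  have h := hO.image (Function.invFunOn f H)
    ((invFunOn_diff isOpen_H hf.diff hf.inj).continuousOn.mono hOH)
  convert h using 1
  ext ξ
  constructor
  · rintro ⟨h1, h2⟩
    exact ⟨f ξ, h2, hf.inj.leftInvOn_invFunOn h1⟩
  · rintro ⟨z, hz, rfl⟩
    exact ⟨Function.invFunOn_mem (hOH hz), by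
      show f _ ∈ O
      rw [Function.invFunOn_eq (hOH hz)]; exact hz⟩

/-- Confinement. If an unbounded connected set `O` of the image stays outside the ball of radius
`C0 * ups` about `f ζ`, its preimage stays outside the half-disc of radius `R im ζ` about `re ζ`.
Otherwise the preimage (connected since `f` is an open injection, unbounded by `BddOn`) meets every
semicircle of radius `r ∈ (2 R y, 4 R y)` about `re ζ`; the top point of such a semicircle is
mapped into the ball of radius `C(R) ups` (`distortion`); `length_area` with `w0 = f ζ`. -/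
theorem confine (R : ℝ) (hR : 1 ≤ R) : ∃ C0 : ℝ, 1 ≤ C0 ∧ ∀ f : ℂ → ℂ, Univ f → BddOn f →
    ∀ ζ ∈ H, ∀ O : Set ℂ, IsPreconnected O → O ⊆ f '' H → ¬ Bornology.IsBounded O →
      Disjoint O (ball (f ζ) (C0 * ups f ζ)) → ∀ ξ ∈ H, f ξ ∈ O → R * ζ.im ≤ ‖ξ - (ζ.re : ℂ)‖ := by
  have hp : 1 ≤ (2 * R) ^ 400 := one_le_pow₀ (by linarith)
  have hE : 1 ≤ Real.exp 100 := Real.one_le_exp (by norm_num)
  have hE' : 1 < Real.exp 100 := Real.one_lt_exp_iff.2 (by norm_num)
  obtain ⟨A, hA⟩ : ∃ A : ℝ, A = (2 * R) ^ 400 := ⟨_, rfl⟩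
  rw [← hA] at hp
  refine ⟨6 * A * Real.exp 100, by nlinarith, fun f hf hb ζ hζ O hO hOH hOb hdis ξ hξ hξO => ?_⟩
  by_contra hlt
  push Not at hlt
  have hy : 0 < ζ.im := hζ
  have hu := hf.ups_pos hζ
  have hO' := hf.isPreconnected_preimage hO hOH
  obtain ⟨ξ', hξ', hfar⟩ : ∃ ξ' ∈ H ∩ f ⁻¹' O, 2 * R * ζ.im ≤ ‖ξ' - (ζ.re : ℂ)‖ := by
    by_contra h
    push Not at h
    obtain ⟨R', hR'⟩ := hb (2 * R * ζ.im + ‖(ζ.re : ℂ)‖)
    refine hOb ((isBounded_closedBall (x := (0 : ℂ)) (r := R')).subset fun z hz => ?_)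
    obtain ⟨η, hη, rfl⟩ := hOH hz
    rw [mem_closedBall_zero_iff]
    refine hR' η hη ?_
    have h1 := h η ⟨hη, hz⟩
    calc ‖η‖ = ‖(η - (ζ.re : ℂ)) + (ζ.re : ℂ)‖ := by ring_nf
      _ ≤ ‖η - (ζ.re : ℂ)‖ + ‖(ζ.re : ℂ)‖ := norm_add_le _ _
      _ ≤ _ := by linarith
  have hRy : 0 < R * ζ.im := by positivity
  have key := length_area hf (ζ.re : ℂ) (f ζ) (r1 := R * ζ.im) (r2 := 2 * R * ζ.im) (θ1 := 0)
    (θ2 := Real.pi) (a := 6 * A * ups f ζ) (b := 6 * A * Real.exp 100 * ups f ζ) hRy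
    (by linarith) Real.pi_pos (by linarith [Real.pi_pos]) (by positivity)
    (by
      have : 0 < 6 * A * ups f ζ := by positivity
      nlinarith)
    (fun r hr θ hθ => halfcircle_mem (hRy.trans hr.1) hθ)
    (fun r hr => by
      have hr0 : 0 < r := hRy.trans hr.1
      refine ⟨Real.pi / 2, ⟨by linarith [Real.pi_pos], by linarith [Real.pi_pos]⟩, ?_⟩
      have e : Complex.exp (((Real.pi / 2 : ℝ) : ℂ) * Complex.I) = Complex.I := by
        push_cast; exact Complex.exp_pi_div_two_mul_I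
      have h1 := (distort_vert hf.diff hf.inj ζ.re hy hr0).2
      rw [Complex.re_add_im] at h1
      rw [e]
      refine h1.trans ?_
      have h2 : max (ζ.im / r) (r / ζ.im) ≤ 2 * R := by
        refine max_le ?_ ?_
        · rw [div_le_iff₀ hr0]; nlinarith [hr.1]
        · rw [div_le_iff₀ hy]; exact hr.2.le
      have h3 : max (ζ.im / r) (r / ζ.im) ^ 400 ≤ A := by
        rw [hA]; exact pow_le_pow_left₀ (le_max_of_le_left (by positivity)) h2 400
      exact mul_le_mul_of_nonneg_right (mul_le_mul_of_nonneg_left h3 (by norm_num)) hu.le)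
    (fun r hr => by
      obtain ⟨η, hη, hηr⟩ := hO'.intermediate_value (a := ξ) (b := ξ') ⟨hξ, hξO⟩ hξ'
        (f := fun z => ‖z - (ζ.re : ℂ)‖) (by fun_prop) (show r ∈ Icc _ _ from
          ⟨(hlt.trans hr.1).le, hr.2.le.trans hfar⟩)
      obtain ⟨θ, hθ, he⟩ := exists_angle hη.1 hηr
      refine ⟨θ, hθ, ?_⟩
      rw [he]
      by_contra h
      push Not at h
      exact disjoint_left.1 hdis hη.2 (by rwa [mem_ball, dist_eq_norm]))
  have e1 : 6 * A * Real.exp 100 * ups f ζ / (6 * A * ups f ζ) = Real.exp 100 := by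
    field_simp
  have e2 : 2 * R * ζ.im / (R * ζ.im) = 2 := by field_simp
  rw [e1, e2, Real.log_exp] at key
  have := Real.log_two_gt_d9
  have := Real.pi_lt_four
  have := Real.pi_pos
  nlinarith

end Crest.Agent.R162
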