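import Crest.Agent.R162.Defs

set_option autoImplicit false
open MeasureTheory ProbabilityTheory Set Filter Topology Metric
open scoped ENNReal NNReal ComplexConjugate

namespace Crest.Agent.R162

theorem h50_ne {z : ℂ} (x : ℝ) (hz : 0 < z.im) : z - (x : ℂ) ≠ 0 := by
  intro h
  have := congrArg Complex.im h
  simp at this
  linarith

theorem h50_le_norm {z : ℂ} (x : ℝ) {y : ℝ} (hz : y ≤ z.im) : y ≤ ‖z - (x : ℂ)‖ := by
  have h1 : (z - (x : ℂ)).im = z.im := by simp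
  have h2 := Complex.abs_im_le_norm (z - (x : ℂ))
  rw [h1] at h2
  exact hz.trans ((le_abs_self _).trans h2)

theorem h50_im_anti {t : ℝ} {g p : ℝ → ℂ}
    (hd : ∀ s ∈ Icc 0 t, HasDerivWithinAt g (2 / p s) (Icc 0 t) s)
    (hp : ∀ s ∈ Icc 0 t, 0 ≤ (p s).im) : AntitoneOn (fun s => (g s).im) (Icc 0 t) := by
  have hd' : ∀ s ∈ Icc 0 t, HasDerivWithinAt (fun s => (g s).im) ((2 / p s).im) (Icc 0 t) s :=
    fun s hs => Complex.imCLM.hasFDerivAt.comp_hasDerivWithinAt s (hd s hs)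
  refine antitoneOn_of_hasDerivWithinAt_nonpos (convex_Icc 0 t)
    (fun s hs => (hd' s hs).continuousWithinAt) (f' := fun s => (2 / p s).im)
    (fun s hs => (hd' s (interior_subset hs)).mono interior_subset) fun s hs => ?_
  have h0 := hp s (interior_subset hs)
  have h1 : (2 / p s).im = -(2 * (p s).im / Complex.normSq (p s)) := by
    rw [Complex.div_im]; simp
  rw [h1, neg_nonpos]
  exact div_nonneg (by linarith) (Complex.normSq_nonneg _)

/-- `‖2/a - 2/b‖ ≤ 2/y² ‖a - b‖` -/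
theorem h50_lip {a b : ℂ} {y : ℝ} (hy : 0 < y) (ha : y ≤ ‖a‖) (hb : y ≤ ‖b‖) :
    ‖2 / a - 2 / b‖ ≤ 2 / y ^ 2 * ‖a - b‖ := by
  have ha0 : a ≠ 0 := norm_pos_iff.1 (hy.trans_le ha)
  have hb0 : b ≠ 0 := norm_pos_iff.1 (hy.trans_le hb)
  have e : 2 / a - 2 / b = 2 * (b - a) / (a * b) := by field_simp
  rw [e, norm_div, norm_mul, norm_mul, norm_sub_rev b a, Complex.norm_two, div_mul_eq_mul_div]
  refine div_le_div_of_nonneg_left (by positivity) (by positivity) ?_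
  rw [sq]
  exact mul_le_mul ha hb hy.le (norm_nonneg _)

theorem h50_gron_fwd {a b K δ : ℝ} {D D' : ℝ → ℂ} (hK : 0 < K) (hδ : 0 ≤ δ)
    (hD : ∀ s ∈ Icc a b, HasDerivWithinAt D (D' s) (Icc a b) s)
    (hb : ∀ s ∈ Icc a b, ‖D' s‖ ≤ K * (‖D s‖ + δ)) {s0 s : ℝ} (h0 : a ≤ s0) (h1 : s0 ≤ s)
    (h2 : s ≤ b) : ‖D s‖ ≤ (‖D s0‖ + δ) * Real.exp (K * (b - a)) := by
  have hsub : Icc s0 b ⊆ Icc a b := Icc_subset_Icc_left h0
  have key := norm_le_gronwallBound_of_norm_deriv_right_le (f := D) (f' := D') (δ := ‖D s0‖)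
    (K := K) (ε := K * δ) (a := s0) (b := b)
    (fun x hx => ((hD x (hsub hx)).continuousWithinAt).mono hsub)
    (fun x hx => (hD x (hsub (Ico_subset_Icc_self hx))).mono_of_mem_nhdsWithin
      (Icc_mem_nhdsGE_of_mem ⟨h0.trans hx.1, hx.2⟩)) le_rfl
    (fun x hx => by have := hb x (hsub (Ico_subset_Icc_self hx)); linarith) s ⟨h1, h2⟩
  rw [gronwallBound_of_K_ne_0 hK.ne'] at key
  simp only at key
  rw [mul_div_cancel_left₀ _ hK.ne'] at key
  have e1 : Real.exp (K * (s - s0)) ≤ Real.exp (K * (b - a)) :=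
    Real.exp_le_exp.2 (mul_le_mul_of_nonneg_left (by linarith) hK.le)
  have e2 : (‖D s0‖ + δ) * Real.exp (K * (s - s0)) ≤ (‖D s0‖ + δ) * Real.exp (K * (b - a)) :=
    mul_le_mul_of_nonneg_left e1 (by positivity)
  nlinarith

theorem h50_gron {a b K δ : ℝ} {D D' : ℝ → ℂ} (hK : 0 < K) (hδ : 0 ≤ δ)
    (hD : ∀ s ∈ Icc a b, HasDerivWithinAt D (D' s) (Icc a b) s)
    (hb : ∀ s ∈ Icc a b, ‖D' s‖ ≤ K * (‖D s‖ + δ)) {s0 s : ℝ} (h0 : s0 ∈ Icc a b)
    (h1 : s ∈ Icc a b) : ‖D s‖ ≤ (‖D s0‖ + δ) * Real.exp (K * (b - a)) := by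
  rcases le_total s0 s with h | h
  · exact h50_gron_fwd hK hδ hD hb h0.1 h h1.2
  · have hm : ∀ u ∈ Icc (-b) (-a), -u ∈ Icc a b := fun u hu =>
      ⟨by linarith [hu.2], by linarith [hu.1]⟩
    have key := h50_gron_fwd (a := -b) (b := -a) (D := fun u => D (-u))
      (D' := fun u => (-1 : ℝ) • D' (-u)) hK hδ
      (fun u hu => (hD (-u) (hm u hu)).scomp u (hasDerivAt_neg' u).hasDerivWithinAt hm)
      (fun u hu => by simpa using hb (-u) (hm u hu)) (s0 := -s0) (s := -s)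
      (by linarith [h0.2]) (by linarith) (by linarith [h1.1])
    simp only [neg_neg] at key
    have e : -a - -b = b - a := by ring
    rwa [e] at key

theorem IsSol.continuousOn {w : Path} {t : ℝ} {ζ : ℂ} {g : ℝ → ℂ} (h : IsSol w t ζ g) :
    ContinuousOn g (Icc 0 t) := by
  exact fun s hs => (h.deriv s hs).continuousWithinAt

/-- `(im g)' = -2 im g / ‖g - w‖² ≤ 0`. -/
theorem IsSol.im_anti {w : Path} {t : ℝ} {ζ : ℂ} {g : ℝ → ℂ} (h : IsSol w t ζ g) :
    AntitoneOn (fun s => (g s).im) (Icc 0 t) := by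
  exact h50_im_anti h.deriv fun s hs => by simpa using (h.pos s hs).le

theorem IsSol.restrict {w : Path} {t : ℝ} {ζ : ℂ} {g : ℝ → ℂ} (h : IsSol w t ζ g) {s : ℝ}
    (hs : s ∈ Icc 0 t) : IsSol w s (g s - w s) g := by
  have hsub : Icc 0 s ⊆ Icc 0 t := Icc_subset_Icc_right hs.2
  exact ⟨fun r hr => h.pos r (hsub hr), by ring, fun r hr => (h.deriv r (hsub hr)).mono hsub⟩

/-- The difference of two solutions solves the linear equation `D' = -2 D / ((g-w)(g'-w))`. -/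
theorem IsSol.sub_eq {w : Path} {t : ℝ} {ζ ζ' : ℂ} {g g' : ℝ → ℂ} (h : IsSol w t ζ g)
    (h' : IsSol w t ζ' g') {s : ℝ} (hs : s ∈ Icc 0 t) :
    g s - g' s = (g 0 - g' 0) *
      Complex.exp (-∫ r in (0 : ℝ)..s, 2 / ((g r - w r) * (g' r - w r))) := by
  set a : ℝ → ℂ := fun r => 2 / ((g r - w r) * (g' r - w r)) with ha
  have hw : Continuous fun r : ℝ => ((w r : ℝ) : ℂ) := Complex.continuous_ofReal.comp w.continuous
  have hac : ContinuousOn a (Icc 0 t) :=
    continuousOn_const.div ((h.continuousOn.sub hw.continuousOn).mul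
      (h'.continuousOn.sub hw.continuousOn))
      fun r hr => mul_ne_zero (h50_ne _ (h.pos r hr)) (h50_ne _ (h'.pos r hr))
  have h0 : (0 : ℝ) ∈ Icc 0 t := ⟨le_rfl, hs.1.trans hs.2⟩
  have hI : ∀ r ∈ Icc 0 t, HasDerivWithinAt (fun u => ∫ x in (0 : ℝ)..u, a x) (a r) (Icc 0 t) r := by
    intro r hr
    have : Fact (r ∈ Icc 0 t) := ⟨hr⟩
    exact intervalIntegral.integral_hasDerivWithinAt_right
      ((hac.mono (uIcc_subset_Icc h0 hr)).intervalIntegrable)
      (hac.stronglyMeasurableAtFilter_nhdsWithin measurableSet_Icc r) (hac r hr)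
  have hF : ∀ r ∈ Icc 0 t, HasDerivWithinAt
      (fun u => (g u - g' u) * Complex.exp (∫ x in (0 : ℝ)..u, a x)) 0 (Icc 0 t) r := by
    intro r hr
    have h1 := ((h.deriv r hr).fun_sub (h'.deriv r hr)).fun_mul (hI r hr).cexp
    refine h1.congr_deriv ?_
    have e1 := h50_ne (w r) (h.pos r hr)
    have e2 := h50_ne (w r) (h'.pos r hr)
    have e3 : a r = 2 / ((g r - w r) * (g' r - w r)) := rfl
    rw [e3]
    field_simp
    ring
  have hc := constant_of_has_deriv_right_zero (fun r hr => (hF r hr).continuousWithinAt)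
    (fun r hr => (hF r (Ico_subset_Icc_self hr)).mono_of_mem_nhdsWithin
      (Icc_mem_nhdsGE_of_mem hr)) s hs
  simp only [intervalIntegral.integral_same, Complex.exp_zero, mul_one] at hc
  rw [← hc, mul_assoc, ← Complex.exp_add, add_neg_cancel, Complex.exp_zero, mul_one]

theorem IsSol.unique {w : Path} {t : ℝ} {ζ : ℂ} {g g' : ℝ → ℂ} (h : IsSol w t ζ g)
    (h' : IsSol w t ζ g') : EqOn g g' (Icc 0 t) := by
  intro s hs
  have ht : t ∈ Icc 0 t := ⟨hs.1.trans hs.2, le_rfl⟩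
  have h1 := h.sub_eq h' ht
  rw [h.last, h'.last, sub_self] at h1
  have h2 : g 0 - g' 0 = 0 := (mul_eq_zero.1 h1.symm).resolve_right (Complex.exp_ne_zero _)
  have h3 := h.sub_eq h' hs
  rw [h2, zero_mul] at h3
  exact sub_eq_zero.1 h3

theorem IsSol.unique_fwd {w : Path} {t : ℝ} {ζ ζ' : ℂ} {g g' : ℝ → ℂ} (h : IsSol w t ζ g)
    (h' : IsSol w t ζ' g') (h0 : g 0 = g' 0) : EqOn g g' (Icc 0 t) := by
  intro s hs
  have h3 := h.sub_eq h' hs
  rw [h0, sub_self, zero_mul] at h3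
  exact sub_eq_zero.1 h3

/-- Picard-Lindelöf for the bounded Lipschitz field `2 / (clamp g - w s)`,
`clamp g = re g + i max (im g) (im ζ)`, solved backwards from time `t`; the imaginary part increases
backwards, so the clamp is never active. -/
theorem exists_sol (w : Path) {t : ℝ} (ht : 0 ≤ t) {ζ : ℂ} (hζ : ζ ∈ H) : ∃ g, IsSol w t ζ g := by
  have hy : 0 < ζ.im := hζ
  set y := ζ.im with hydef
  let cl : ℂ → ℂ := fun z => ⟨z.re, max z.im y⟩
  have hcl : ∀ z, y ≤ (cl z).im := fun z => le_max_right _ _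
  have hlip : ∀ z z', ‖cl z - cl z'‖ ≤ ‖z - z'‖ := by
    intro z z'
    have e1 : |max z.im y - max z'.im y| ≤ |z.im - z'.im| := abs_max_sub_max_le_abs _ _ _
    have e2 := sq_le_sq.2 e1
    rw [Complex.norm_eq_sqrt_sq_add_sq, Complex.norm_eq_sqrt_sq_add_sq]
    refine Real.sqrt_le_sqrt ?_
    simp only [cl, Complex.sub_re, Complex.sub_im]
    linarith
  let f : ℝ → ℂ → ℂ := fun s z => 2 / (cl z - w s)
  have hw : Continuous fun r : ℝ => ((w r : ℝ) : ℂ) := Complex.continuous_ofReal.comp w.continuous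
  have hPL : IsPicardLindelof f (⟨t, ht, le_rfl⟩ : Icc (0 : ℝ) t) (ζ + w t)
      ⟨2 / y * t, by positivity⟩ 0 ⟨2 / y, by positivity⟩ ⟨2 / y ^ 2, by positivity⟩ := by
    refine ⟨fun s _ => ?_, fun z _ => ?_, fun s _ z _ => ?_, ?_⟩
    · refine LipschitzOnWith.of_dist_le_mul fun z _ z' _ => ?_
      rw [dist_eq_norm, dist_eq_norm]
      refine (h50_lip hy (h50_le_norm _ (hcl z)) (h50_le_norm _ (hcl z'))).trans ?_
      rw [sub_sub_sub_cancel_right]
      exact mul_le_mul_of_nonneg_left (hlip z z') (by positivity)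
    · exact continuousOn_const.div (continuousOn_const.sub hw.continuousOn)
        fun s _ => h50_ne _ (hy.trans_le (hcl z))
    · change ‖2 / (cl z - w s)‖ ≤ 2 / y
      rw [norm_div, Complex.norm_two]
      exact div_le_div_of_nonneg_left (by norm_num) hy (h50_le_norm _ (hcl z))
    · change 2 / y * max (t - t) (t - 0) ≤ 2 / y * t - 0
      rw [sub_self, sub_zero, sub_zero, max_eq_right ht]
  obtain ⟨g, hg0, hg⟩ := hPL.exists_eq_forall_mem_Icc_hasDerivWithinAt₀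
  have hg0' : g t = ζ + w t := hg0
  have hanti := h50_im_anti (t := t) (g := g) (p := fun s => cl (g s) - w s) hg
    fun s _ => by simpa using (hy.trans_le (hcl (g s))).le
  have hge : ∀ s ∈ Icc 0 t, y ≤ (g s).im := by
    intro s hs
    have := hanti hs ⟨ht, le_rfl⟩ hs.2
    simp only [hg0'] at this
    simpa using this
  refine ⟨g, fun s hs => hy.trans_le (hge s hs), hg0', fun s hs => ?_⟩
  have e : cl (g s) = g s := by
    apply Complex.ext
    · rfl
    · exact max_eq_left (hge s hs)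
  have := hg s hs
  simp only [f, e] at this
  exact this

theorem bsol_spec (w : Path) {t : ℝ} (ht : 0 ≤ t) {ζ : ℂ} (hζ : ζ ∈ H) :
    IsSol w t ζ (bsol w t ζ) := by
  exact Classical.epsilon_spec (exists_sol w ht hζ)

theorem IsSol.phi_eq {w : Path} {t : ℝ} {ζ : ℂ} {g : ℝ → ℂ} (h : IsSol w t ζ g) (ht : 0 ≤ t) :
    ζ ∈ H ∧ phi w t ζ = g 0 - w 0 := by
  have hζ : ζ ∈ H := by
    have := h.pos t ⟨ht, le_rfl⟩
    rw [h.last] at this
    simpa [H] using this
  refine ⟨hζ, ?_⟩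
  unfold phi
  rw [if_pos ⟨ht, hζ⟩, (bsol_spec w ht hζ).unique h ⟨le_rfl, ht⟩]

/-- Gronwall: stability of solutions on `[0,t]` in the driver, from either end. -/
theorem IsSol.stable {w w' : Path} {t : ℝ} {ζ ζ' : ℂ} {g g' : ℝ → ℂ} (h : IsSol w t ζ g)
    (h' : IsSol w' t ζ' g') {y δ : ℝ} (hy : 0 < y) (h1 : ∀ s ∈ Icc 0 t, y ≤ (g s).im)
    (h2 : ∀ s ∈ Icc 0 t, y ≤ (g' s).im) (hδ : ∀ s ∈ Icc 0 t, |w s - w' s| ≤ δ) {s0 s : ℝ}
    (hs0 : s0 ∈ Icc 0 t) (hs : s ∈ Icc 0 t) :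
    ‖g s - g' s‖ ≤ (‖g s0 - g' s0‖ + δ) * Real.exp (2 * t / y ^ 2) := by
  have hδ0 : 0 ≤ δ := (abs_nonneg _).trans (hδ s hs)
  have key := h50_gron (a := 0) (b := t) (K := 2 / y ^ 2) (δ := δ) (D := fun r => g r - g' r)
    (D' := fun r => 2 / (g r - w r) - 2 / (g' r - w' r)) (by positivity) hδ0
    (fun r hr => (h.deriv r hr).sub (h'.deriv r hr)) (fun r hr => by
      refine (h50_lip hy (h50_le_norm _ (h1 r hr)) (h50_le_norm _ (h2 r hr))).trans
        (mul_le_mul_of_nonneg_left ?_ (by positivity))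
      have e : g r - w r - (g' r - w' r) = (g r - g' r) - ((w r - w' r : ℝ) : ℂ) := by
        push_cast; ring
      rw [e]
      refine (norm_sub_le _ _).trans ?_
      rw [Complex.norm_real, Real.norm_eq_abs]
      linarith [hδ r hr]) hs0 hs
  have e : 2 / y ^ 2 * (t - 0) = 2 * t / y ^ 2 := by ring
  rwa [e] at key

end Crest.Agent.R162
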