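import Crest.Agent.R162.L6

set_option autoImplicit false
open MeasureTheory ProbabilityTheory Set Filter Topology Metric
open scoped ENNReal NNReal ComplexConjugate

namespace Crest.Agent.R162

theorem h54_phi_of {w : Path} {t : ℝ} (ht : 0 ≤ t) {ζ : ℂ} (hζ : ζ ∈ H) :
    phi w t ζ = bsol w t ζ 0 - (w 0 : ℂ) := by
  unfold phi
  rw [if_pos ⟨ht, hζ⟩]

theorem h54_phi_of_not {w : Path} {t : ℝ} {ζ : ℂ} (h : ¬ (0 ≤ t ∧ ζ ∈ H)) : phi w t ζ = ζ := by
  unfold phi
  rw [if_neg h]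

theorem h54_phi_neg (w : Path) {t : ℝ} (ht : ¬ 0 ≤ t) : phi w t = id :=
  funext fun _ => h54_phi_of_not fun h => ht h.1

theorem phi_mapsTo (w : Path) (t : ℝ) : MapsTo (phi w t) H H := by
  intro ζ hζ
  by_cases ht : 0 ≤ t
  · rw [h54_phi_of ht hζ]
    have := (bsol_spec w ht hζ).pos 0 ⟨le_rfl, ht⟩
    simpa [H] using this
  · rw [h54_phi_neg w ht]; exact hζ

theorem im_le_phi (w : Path) (t : ℝ) (ζ : ℂ) : ζ.im ≤ (phi w t ζ).im := by
  by_cases h : 0 ≤ t ∧ ζ ∈ H
  · rw [h54_phi_of h.1 h.2]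
    have hs := bsol_spec w h.1 h.2
    have h1 := hs.im_anti ⟨le_rfl, h.1⟩ ⟨h.1, le_rfl⟩ h.1
    simp only [hs.last] at h1
    simpa using h1
  · rw [h54_phi_of_not h]

theorem phi_zero (w : Path) : phi w 0 = id := by
  funext ζ
  by_cases hζ : ζ ∈ H
  · rw [h54_phi_of le_rfl hζ, (bsol_spec w le_rfl hζ).last]
    simp
  · rw [h54_phi_of_not fun h => hζ h.2]; rfl

theorem univ_phi (w : Path) (t : ℝ) : Univ (phi w t) := by
  by_cases ht : 0 ≤ t
  · refine ⟨fun ζ hζ => (hasDerivAt_phi w ht hζ).differentiableAt.differentiableWithinAt, ?_,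
      measurable_phi.comp (f := fun ζ : ℂ => (w, t, ζ)) (by fun_prop)⟩
    intro ζ hζ ξ hξ h
    rw [h54_phi_of ht hζ, h54_phi_of ht hξ, sub_left_inj] at h
    have h1 := (bsol_spec w ht hζ).unique_fwd (bsol_spec w ht hξ) h ⟨ht, le_rfl⟩
    rw [(bsol_spec w ht hζ).last, (bsol_spec w ht hξ).last] at h1
    exact add_right_cancel h1
  · rw [h54_phi_neg w ht]; exact univ_id

/-- Backwards, the speed is `≤ 2` whenever `‖g - w‖ ≥ 1`. -/
theorem bddOn_phi (w : Path) (t : ℝ) : BddOn (phi w t) := by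
  by_cases ht : 0 ≤ t
  · intro R
    obtain ⟨M, hM⟩ := (isCompact_Icc (a := (0 : ℝ)) (b := t)).exists_bound_of_continuousOn
      w.continuous.continuousOn
    refine ⟨R + M + 1 + 3 * t + M, fun ζ hζ hR => ?_⟩
    obtain ⟨g, hg⟩ : ∃ g, g = bsol w t ζ := ⟨_, rfl⟩
    have hs : IsSol w t ζ g := hg ▸ bsol_spec w ht hζ
    have hR0 : 0 ≤ R := (norm_nonneg _).trans hR
    have hmap : MapsTo (fun s : ℝ => t - s) (Icc 0 t) (Icc 0 t) := fun s hs =>
      ⟨by linarith [hs.2], by linarith [hs.1]⟩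
    have key := image_norm_le_of_norm_deriv_right_lt_deriv_boundary
      (f := fun s => g (t - s)) (a := 0) (b := t)
      (f' := fun s => (-1 : ℝ) • (2 / (g (t - s) - (w (t - s) : ℂ))))
      (hs.continuousOn.comp (by fun_prop) hmap)
      (fun x hx => by
        have h1 : HasDerivWithinAt (fun s : ℝ => t - s) (-1) (Icc 0 t) x :=
          ((hasDerivAt_id x).const_sub t).hasDerivWithinAt
        have h2 := (hs.deriv (t - x) (hmap (Ico_subset_Icc_self hx))).scomp x h1 hmap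
        exact h2.mono_of_mem_nhdsWithin (Icc_mem_nhdsGE_of_mem hx))
      (B := fun s => R + M + 1 + 3 * s) (B' := fun _ => 3)
      (by
        simp only [sub_zero, hs.last]
        have h1 := hM t ⟨ht, le_rfl⟩
        have h2 := norm_add_le ζ (w t : ℂ)
        rw [Complex.norm_real] at h2
        linarith)
      (fun x => by simpa using ((hasDerivAt_id x).const_mul 3).const_add (R + M + 1))
      (fun x hx hB => by
        have h1 := hM (t - x) (hmap (Ico_subset_Icc_self hx))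
        have h2 := norm_sub_norm_le (g (t - x)) (w (t - x) : ℂ)
        rw [Complex.norm_real] at h2
        have h3 : 1 ≤ ‖g (t - x) - (w (t - x) : ℂ)‖ := by
          linarith [hx.1]
        rw [norm_smul, norm_div]
        have h4 : ‖(2 : ℂ)‖ / ‖g (t - x) - (w (t - x) : ℂ)‖ ≤ 2 := by
          rw [div_le_iff₀ (by linarith)]
          simp only [Complex.norm_ofNat]
          linarith
        simp only [norm_neg, norm_one, one_mul]
        linarith)
      (x := t) ⟨ht, le_rfl⟩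
    simp only [sub_self] at key
    rw [h54_phi_of ht hζ, ← hg]
    have h1 := hM 0 ⟨le_rfl, ht⟩
    have h2 := norm_sub_le (g 0) (w 0 : ℂ)
    rw [Complex.norm_real] at h2
    linarith
  · rw [h54_phi_neg w ht]
    exact fun R => ⟨R, fun ζ _ h => h⟩

theorem Univ.cfg {f : ℂ → ℂ} (hf : Univ f) (w : Path) (t : ℝ) : Univ (cfg f w t) := by
  exact hf.comp (univ_phi w t) (phi_mapsTo w t)

theorem BddOn.cfg {f : ℂ → ℂ} (hf : BddOn f) (w : Path) (t : ℝ) : BddOn (cfg f w t) := by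
  intro R
  obtain ⟨R1, h1⟩ := bddOn_phi w t R
  obtain ⟨R2, h2⟩ := hf R1
  exact ⟨R2, fun ζ hζ hR => h2 _ (phi_mapsTo w t hζ) (h1 ζ hζ hR)⟩

theorem cfg_zero (f : ℂ → ℂ) (w : Path) : cfg f w 0 = f := by
  funext ζ
  simp [cfg, phi_zero]

theorem cfg_id (w : Path) (t : ℝ) : cfg id w t = phi w t := by
  rfl

theorem cfg_image (f : ℂ → ℂ) (w : Path) (t : ℝ) : cfg f w t '' H = f '' dom w t := by
  unfold dom
  rw [image_image]
  rfl

theorem dom_subset (w : Path) (t : ℝ) : dom w t ⊆ H := by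
  exact (phi_mapsTo w t).image_subset

theorem isOpen_dom (w : Path) (t : ℝ) : IsOpen (dom w t) := by
  exact (univ_phi w t).isOpen_image isOpen_H subset_rfl

theorem dom_zero (w : Path) : dom w 0 = H := by
  simp [dom, phi_zero]

theorem Zf_mem {w : Path} {t : ℝ} {z : ℂ} (hz : z ∈ dom w t) : Zf w t z ∈ H := by
  unfold Zf
  rw [if_pos hz]
  exact Function.invFunOn_mem hz

theorem phi_Zf {w : Path} {t : ℝ} {z : ℂ} (hz : z ∈ dom w t) : phi w t (Zf w t z) = z := by
  unfold Zf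
  rw [if_pos hz]
  exact Function.invFunOn_eq hz

theorem Zf_phi (w : Path) (t : ℝ) {ζ : ℂ} (hζ : ζ ∈ H) : Zf w t (phi w t ζ) = ζ := by
  unfold Zf
  rw [if_pos (show phi w t ζ ∈ dom w t from ⟨ζ, hζ, rfl⟩)]
  exact (univ_phi w t).inj.leftInvOn_invFunOn hζ

theorem Zf_dead {w : Path} {t : ℝ} {z : ℂ} (hz : z ∉ dom w t) : Zf w t z = 0 := by
  unfold Zf
  rw [if_neg hz]

theorem mm_dead {w : Path} {t : ℝ} {z : ℂ} (hz : z ∉ dom w t) : mm w t z = 0 := by
  simp [mm, Zf_dead hz, ups]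

theorem Zf_mem_iff {w : Path} {t : ℝ} {z : ℂ} : Zf w t z ∈ H ↔ z ∈ dom w t := by
  refine ⟨fun h => ?_, Zf_mem⟩
  by_contra hz
  rw [Zf_dead hz] at h
  simp [H] at h

theorem Zf_zero (w : Path) {z : ℂ} (hz : z ∈ H) : Zf w 0 z = z := by
  have h := Zf_phi w 0 hz
  rwa [phi_zero] at h

theorem mm_zero (w : Path) {z : ℂ} (hz : z ∈ H) : mm w 0 z = 1 := by
  unfold mm
  rw [Zf_zero w hz, phi_zero, ups_id]
  exact div_self (ne_of_gt hz)

theorem mm_pos {w : Path} {t : ℝ} {z : ℂ} (hz : z ∈ dom w t) : 0 < mm w t z := by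
  exact div_pos ((univ_phi w t).ups_pos (Zf_mem hz)) (dom_subset w t hz)

theorem cfg_Zf (f : ℂ → ℂ) {w : Path} {t : ℝ} {z : ℂ} (hz : z ∈ dom w t) :
    cfg f w t (Zf w t z) = f z := by
  unfold cfg
  rw [phi_Zf hz]

theorem ups_cfg {f : ℂ → ℂ} (hf : Univ f) {w : Path} {t : ℝ} {z : ℂ} (hz : z ∈ dom w t) :
    ups (cfg f w t) (Zf w t z) = ups f z * mm w t z := by
  have h := ups_comp hf (univ_phi w t) (phi_mapsTo w t) (Zf_mem hz)
  have hz0 : z.im ≠ 0 := ne_of_gt (dom_subset w t hz)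
  rw [phi_Zf hz] at h
  refine h.trans ?_
  unfold mm
  rw [show ups f z = z.im * ‖deriv f z‖ from rfl]
  field_simp

theorem measurable_cfg {f : ℂ → ℂ} (hf : Univ f) :
    Measurable (fun p : Path × ℝ × ℂ => cfg f p.1 p.2.1 p.2.2) := by
  exact hf.meas.comp measurable_phi

theorem h54_deriv_cfg {f : ℂ → ℂ} (hf : Univ f) (w : Path) (t : ℝ) {ζ : ℂ} (hζ : ζ ∈ H) :
    deriv (cfg f w t) ζ = deriv f (phi w t ζ) * deriv (phi w t) ζ := by
  have h1 := (hf.diff.differentiableAt (isOpen_H.mem_nhds (phi_mapsTo w t hζ))).hasDerivAt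
  have h2 := ((univ_phi w t).diff.differentiableAt (isOpen_H.mem_nhds hζ)).hasDerivAt
  exact (h1.comp ζ h2).deriv

theorem measurable_dcfg {f : ℂ → ℂ} (hf : Univ f) :
    Measurable (fun p : Path × ℝ × ℂ => H.indicator (deriv (cfg f p.1 p.2.1)) p.2.2) := by
  have h := ((measurable_deriv f).comp measurable_phi).mul measurable_dphi
  convert h using 2 with p
  by_cases hp : p.2.2 ∈ H
  · simp only [Pi.mul_apply, indicator_of_mem hp, Function.comp_apply]
    exact h54_deriv_cfg hf _ _ hp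
  · simp [indicator_of_notMem hp]

theorem measurable_ups_cfg {f : ℂ → ℂ} (hf : Univ f) :
    Measurable (fun p : Path × ℝ × ℂ => H.indicator (ups (cfg f p.1 p.2.1)) p.2.2) := by
  have h := (Complex.measurable_im.comp
    (measurable_snd.comp measurable_snd : Measurable fun p : Path × ℝ × ℂ => p.2.2)).mul
    (measurable_dcfg hf).norm
  convert h using 2 with p
  by_cases hp : p.2.2 ∈ H
  · simp only [Pi.mul_apply, indicator_of_mem hp, Function.comp_apply]
    rfl
  · simp [indicator_of_notMem hp]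

/-- Change of variables from current to material coordinates (`lintegral_area` for `phi w t`). -/
theorem lintegral_material {f : ℂ → ℂ} (hf : Univ f) (w : Path) (t : ℝ) (g : ℂ → ℝ≥0∞) :
    ∫⁻ ξ in H, g ξ * ENNReal.ofReal (‖deriv (cfg f w t) ξ‖ ^ 2) =
      ∫⁻ ζ in dom w t, g (Zf w t ζ) * ENNReal.ofReal (‖deriv f ζ‖ ^ 2) := by
  have h := lintegral_area (univ_phi w t) measurableSet_H subset_rfl
    (fun ζ => g (Zf w t ζ) * ENNReal.ofReal (‖deriv f ζ‖ ^ 2))
  refine Eq.trans ?_ h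
  refine setLIntegral_congr_fun measurableSet_H fun ξ hξ => ?_
  rw [Zf_phi w t hξ, h54_deriv_cfg hf w t hξ, norm_mul, mul_pow, ENNReal.ofReal_mul (by positivity),
    mul_assoc]

/-- The same for Bochner integrals (`integral_image_eq_integral_abs_det_fderiv_smul`). -/
theorem integral_material {f : ℂ → ℂ} (hf : Univ f) (w : Path) (t : ℝ) (g : ℂ → ℝ) :
    ∫ ξ in H, g ξ * ‖deriv (cfg f w t) ξ‖ ^ 2 =
      ∫ ζ in dom w t, g (Zf w t ζ) * ‖deriv f ζ‖ ^ 2 := by
  have hu := univ_phi w t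
  have h := integral_image_eq_integral_abs_det_fderiv_smul (volume : Measure ℂ) measurableSet_H
    (f := phi w t)
    (f' := fun z => (ContinuousLinearMap.toSpanSingleton ℂ (deriv (phi w t) z)).restrictScalars ℝ)
    (fun z hz => ((hu.diff.differentiableAt
      (isOpen_H.mem_nhds hz)).hasDerivAt.hasFDerivAt.restrictScalars ℝ).hasFDerivWithinAt) hu.inj
    (fun ζ => g (Zf w t ζ) * ‖deriv f ζ‖ ^ 2)
  refine Eq.trans ?_ h.symm
  refine setIntegral_congr_fun measurableSet_H fun ξ hξ => ?_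
  have hd : |((ContinuousLinearMap.toSpanSingleton ℂ (deriv (phi w t) ξ)).restrictScalars ℝ).det| =
      ‖deriv (phi w t) ξ‖ ^ 2 := by
    simp [ContinuousLinearMap.det, LinearMap.det_restrictScalars, Algebra.norm_complex_eq,
      Complex.normSq_eq_norm_sq]
  rw [hd, Zf_phi w t hξ, h54_deriv_cfg hf w t hξ, norm_mul, mul_pow, smul_eq_mul]
  ring

end Crest.Agent.R162
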