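import Crest.Agent.R162.L3

set_option autoImplicit false
open MeasureTheory ProbabilityTheory Set Filter Topology Metric
open scoped ENNReal NNReal ComplexConjugate

namespace Crest.Agent.R162

theorem mem_dom_of_sol {w : Path} {t : ℝ} {ζ : ℂ} {g : ℝ → ℂ} (h : IsSol w t ζ g) {s : ℝ}
    (hs : s ∈ Icc 0 t) : g 0 - w 0 ∈ dom w s ∧ Zf w s (g 0 - w 0) = g s - w s := by
  obtain ⟨h1, h2⟩ := (h.restrict hs).phi_eq hs.1
  refine ⟨⟨_, h1, h2⟩, ?_⟩
  rw [← h2, Zf_phi w s h1]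

theorem fwd_sol {w : Path} {t : ℝ} (ht : 0 ≤ t) {z : ℂ} (hz : z ∈ dom w t) :
    IsSol w t (Zf w t z) (fun s => Zf w s z + w s) := by
  have h := bsol_spec w ht (Zf_mem hz)
  have h0 : bsol w t (Zf w t z) 0 - w 0 = z := by rw [← (h.phi_eq ht).2, phi_Zf hz]
  have he : ∀ s ∈ Icc 0 t, Zf w s z + w s = bsol w t (Zf w t z) s := by
    intro s hs
    have := (mem_dom_of_sol h hs).2
    rw [h0] at this
    rw [this, sub_add_cancel]
  refine ⟨fun s hs => ?_, rfl, fun s hs => ?_⟩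
  · rw [he s hs]
    exact h.pos s hs
  · rw [he s hs]
    exact (h.deriv s hs).congr he (he s hs)

theorem continuousOn_Zf {w : Path} {t : ℝ} (ht : 0 ≤ t) {z : ℂ} (hz : z ∈ dom w t) :
    ContinuousOn (fun s => Zf w s z) (Icc 0 t) := by
  have h := (fwd_sol ht hz).continuousOn.sub
    (Complex.continuous_ofReal.comp w.continuous).continuousOn
  exact h.congr fun s _ => by simp

private theorem h48_ne {w : Path} {t : ℝ} {z : ℂ} (hz : z ∈ dom w t) {s : ℝ} (hs : s ∈ Icc 0 t) :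
    Zf w s z ≠ 0 := by
  intro h
  have h1 : 0 < (Zf w s z).im := Zf_mem (dom_anti w hs.1 hs.2 hz)
  rw [h] at h1
  exact lt_irrefl _ h1

private theorem h48_deriv {w : Path} {t : ℝ} (ht : 0 ≤ t) {z : ℂ} (hz : z ∈ dom w t) {s : ℝ}
    (hs : s ∈ Icc 0 t) :
    HasDerivWithinAt (fun s => Zf w s z + w s) (2 / Zf w s z) (Icc 0 t) s := by
  have := (fwd_sol ht hz).deriv s hs
  simpa only [add_sub_cancel_right] using this

theorem Zf_eq {w : Path} {t : ℝ} (ht : 0 ≤ t) {z : ℂ} (hz : z ∈ dom w t) :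
    Zf w t z = z - ((w t - w 0 : ℝ) : ℂ) + ∫ s in (0 : ℝ)..t, 2 / Zf w s z := by
  have hc : ContinuousOn (fun s => 2 / Zf w s z) (Icc 0 t) :=
    continuousOn_const.div (continuousOn_Zf ht hz) fun s hs => h48_ne hz hs
  rw [intervalIntegral.integral_eq_sub_of_hasDerivAt_of_le ht (fwd_sol ht hz).continuousOn
    (fun s hs => (h48_deriv ht hz (Ioo_subset_Icc_self hs)).hasDerivAt (Icc_mem_nhds hs.1 hs.2))
    (hc.intervalIntegrable_of_Icc ht), Zf_zero w (dom_subset w t hz)]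
  push_cast
  ring

private theorem h48_lin {t : ℝ} (ht : 0 ≤ t) {D a : ℝ → ℂ} (ha : ContinuousOn a (Icc 0 t))
    (hD : ∀ s ∈ Icc 0 t, HasDerivWithinAt D (-(a s * D s)) (Icc 0 t) s) :
    D t = D 0 * Complex.exp (-∫ s in (0 : ℝ)..t, a s) := by
  let a' : ℝ → ℂ := fun s => a (projIcc 0 t ht s)
  have ha' : Continuous a' := ha.domRestrict.comp continuous_projIcc
  have he : ∀ s ∈ Icc 0 t, a' s = a s := fun s hs => by simp only [a', projIcc_of_mem ht hs]
  have hI : ∫ s in (0 : ℝ)..t, a s = ∫ s in (0 : ℝ)..t, a' s :=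
    intervalIntegral.integral_congr fun s hs => (he s (by rwa [uIcc_of_le ht] at hs)).symm
  have hF : ∀ s ∈ Icc 0 t, HasDerivWithinAt
      (fun s => D s * Complex.exp (∫ r in (0 : ℝ)..s, a' r)) 0 (Icc 0 t) s := by
    intro s hs
    have h1 := ((ha'.integral_hasStrictDerivAt 0 s).hasDerivAt.cexp).hasDerivWithinAt (s := Icc 0 t)
    have h2 := (hD s hs).mul h1
    refine h2.congr_deriv ?_
    rw [he s hs]
    ring
  have hc := constant_of_has_deriv_right_zero (fun s hs => (hF s hs).continuousWithinAt)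
    (fun s hs => (hF s (Ico_subset_Icc_self hs)).mono_of_mem_nhdsWithin
      (Icc_mem_nhdsGE_of_mem hs)) t (right_mem_Icc.2 ht)
  simp only [intervalIntegral.integral_same, Complex.exp_zero, mul_one] at hc
  rw [hI, ← hc, mul_assoc, ← Complex.exp_add, add_neg_cancel, Complex.exp_zero, mul_one]

private theorem h48_pair {w : Path} {t : ℝ} (ht : 0 ≤ t) {ζ ξ : ℂ} (hζ : ζ ∈ dom w t)
    (hξ : ξ ∈ dom w t) : Zf w t ζ - conj (Zf w t ξ) = (ζ - conj ξ) *
      Complex.exp (-∫ s in (0 : ℝ)..t, 2 / (Zf w s ζ * conj (Zf w s ξ))) := by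
  have hne : ∀ s ∈ Icc 0 t, conj (Zf w s ξ) ≠ 0 := fun s hs =>
    (map_ne_zero _).2 (h48_ne hξ hs)
  have hc : ContinuousOn (fun s => 2 / (Zf w s ζ * conj (Zf w s ξ))) (Icc 0 t) :=
    continuousOn_const.div ((continuousOn_Zf ht hζ).mul
      (Complex.continuous_conj.comp_continuousOn (continuousOn_Zf ht hξ)))
      fun s hs => mul_ne_zero (h48_ne hζ hs) (hne s hs)
  have h := h48_lin ht (D := fun s => Zf w s ζ - conj (Zf w s ξ)) hc fun s hs => by
    have h1 := (h48_deriv ht hζ hs).sub (h48_deriv ht hξ hs).star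
    have e1 : ((fun s => Zf w s ζ + w s) - fun s => star (Zf w s ξ + w s)) =
        fun s => Zf w s ζ - conj (Zf w s ξ) := by
      funext r
      simp
    rw [e1] at h1
    refine h1.congr_deriv ?_
    have k1 := h48_ne hζ hs
    have k2 := hne s hs
    simp only [star_div₀, RCLike.star_def, map_ofNat]
    field_simp
    ring
  rwa [Zf_zero w (dom_subset w t hζ), Zf_zero w (dom_subset w t hξ)] at h

theorem im_Zf_eq {w : Path} {t : ℝ} (ht : 0 ≤ t) {z : ℂ} (hz : z ∈ dom w t) :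
    (Zf w t z).im = z.im * Real.exp (-∫ s in (0 : ℝ)..t, 2 / ‖Zf w s z‖ ^ 2) := by
  have h := h48_pair ht hz hz
  have e1 : ∫ s in (0 : ℝ)..t, 2 / (Zf w s z * conj (Zf w s z)) =
      ((∫ s in (0 : ℝ)..t, 2 / ‖Zf w s z‖ ^ 2 : ℝ) : ℂ) := by
    rw [← intervalIntegral.integral_ofReal]
    refine intervalIntegral.integral_congr fun s _ => ?_
    simp only [Complex.mul_conj']
    push_cast
    rfl
  rw [e1, Complex.sub_conj, Complex.sub_conj, ← Complex.ofReal_neg, ← Complex.ofReal_exp,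
    mul_right_comm, ← Complex.ofReal_mul] at h
  have h2 := Complex.ofReal_injective (mul_right_cancel₀ Complex.I_ne_zero h)
  linarith

/-- `hasDerivAt_phi`, `im_Zf_eq` and `-2/‖Z‖² + 2 re (1/Z²) = -4 (im Z)²/‖Z‖⁴`. -/
theorem mm_eq {w : Path} {t : ℝ} (ht : 0 ≤ t) {z : ℂ} (hz : z ∈ dom w t) :
    mm w t z = Real.exp (-∫ s in (0 : ℝ)..t, 4 * (Zf w s z).im ^ 2 / ‖Zf w s z‖ ^ 4) := by
  have hZ := Zf_mem hz
  have hzim : 0 < z.im := dom_subset w t hz
  have hb := (bsol_spec w ht hZ).unique (fwd_sol ht hz)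
  have e1 : ∫ s in (0 : ℝ)..t, 2 / (bsol w t (Zf w t z) s - w s) ^ 2 =
      ∫ s in (0 : ℝ)..t, 2 / Zf w s z ^ 2 := by
    refine intervalIntegral.integral_congr fun s hs => ?_
    rw [uIcc_of_le ht] at hs
    simp only [hb hs, add_sub_cancel_right]
  have hZc := continuousOn_Zf ht hz
  have hc : ContinuousOn (fun s => 2 / Zf w s z ^ 2) (Icc 0 t) :=
    continuousOn_const.div (hZc.pow 2) fun s hs => pow_ne_zero 2 (h48_ne hz hs)
  have hc2 : ContinuousOn (fun s => 2 / ‖Zf w s z‖ ^ 2) (Icc 0 t) :=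
    continuousOn_const.div (hZc.norm.pow 2) fun s hs =>
      pow_ne_zero 2 (norm_ne_zero_iff.2 (h48_ne hz hs))
  have hc3 : ContinuousOn (fun s => (2 / Zf w s z ^ 2).re) (Icc 0 t) :=
    Complex.continuous_re.comp_continuousOn hc
  have e2 : (∫ s in (0 : ℝ)..t, 2 / Zf w s z ^ 2).re = ∫ s in (0 : ℝ)..t, (2 / Zf w s z ^ 2).re :=
    (Complex.reCLM.intervalIntegral_comp_comm (hc.intervalIntegrable_of_Icc ht)).symm
  have e3 : -∫ s in (0 : ℝ)..t, 4 * (Zf w s z).im ^ 2 / ‖Zf w s z‖ ^ 4 =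
      (-∫ s in (0 : ℝ)..t, 2 / ‖Zf w s z‖ ^ 2) + ∫ s in (0 : ℝ)..t, (2 / Zf w s z ^ 2).re := by
    rw [neg_add_eq_sub, ← intervalIntegral.integral_sub (hc3.intervalIntegrable_of_Icc ht)
      (hc2.intervalIntegrable_of_Icc ht), ← intervalIntegral.integral_neg]
    refine intervalIntegral.integral_congr fun s hs => ?_
    rw [uIcc_of_le ht] at hs
    have hn : ‖Zf w s z‖ ≠ 0 := norm_ne_zero_iff.2 (h48_ne hz hs)
    have hsq : ‖Zf w s z‖ ^ 2 = (Zf w s z).re ^ 2 + (Zf w s z).im ^ 2 := by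
      rw [Complex.sq_norm, Complex.normSq_apply]; ring
    have hre : (2 / Zf w s z ^ 2).re =
        2 * ((Zf w s z).re ^ 2 - (Zf w s z).im ^ 2) / ‖Zf w s z‖ ^ 4 := by
      rw [Complex.div_re, Complex.normSq_eq_norm_sq, norm_pow, ← pow_mul]
      simp [sq]
    simp only [hre]
    field_simp
    rw [hsq]
    ring
  rw [mm, ups, (hasDerivAt_phi w ht hZ).deriv, Complex.norm_exp, e1, e2, im_Zf_eq ht hz, e3,
    Real.exp_add]
  field_simp

theorem pair_eq {w : Path} {t : ℝ} (ht : 0 ≤ t) {ζ ξ : ℂ} (hζ : ζ ∈ dom w t) (hξ : ξ ∈ dom w t) :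
    Zf w t ζ - conj (Zf w t ξ) = (ζ - conj ξ) *
      Complex.exp (-∫ s in (0 : ℝ)..t, 2 / (Zf w s ζ * conj (Zf w s ξ))) :=
  h48_pair ht hζ hξ

private theorem h48_rate {w : Path} {t : ℝ} (ht : 0 ≤ t) {z : ℂ} (hz : z ∈ dom w t) :
    ∃ b : ℝ → ℝ, Continuous b ∧ (∀ s, 0 ≤ b s) ∧ ∀ s ∈ Icc 0 t,
      4 * Sn (Zf w s z) ^ 2 / ‖Zf w s z‖ ^ 2 = b s ∧
        mm w s z = Real.exp (-∫ r in (0 : ℝ)..s, b r) := by
  have hZc := continuousOn_Zf ht hz
  have hc : ContinuousOn (fun s => 4 * (Zf w s z).im ^ 2 / ‖Zf w s z‖ ^ 4) (Icc 0 t) :=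
    (continuousOn_const.mul ((Complex.continuous_im.comp_continuousOn hZc).pow 2)).div
      (hZc.norm.pow 4) fun s hs => pow_ne_zero 4 (norm_ne_zero_iff.2 (h48_ne hz hs))
  refine ⟨fun s => 4 * (Zf w (projIcc 0 t ht s) z).im ^ 2 / ‖Zf w (projIcc 0 t ht s) z‖ ^ 4,
    hc.domRestrict.comp continuous_projIcc, fun s => by positivity, fun s hs => ⟨?_, ?_⟩⟩
  · simp only [projIcc_of_mem ht hs, Sn]
    rw [div_pow, ← mul_div_assoc, div_div, ← pow_add]
  · rw [mm_eq hs.1 (dom_anti w hs.1 hs.2 hz)]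
    congr 2
    refine intervalIntegral.integral_congr fun r hr => ?_
    rw [uIcc_of_le hs.1] at hr
    simp only [projIcc_of_mem ht ⟨hr.1, hr.2.trans hs.2⟩]

theorem continuousOn_mm {w : Path} {t : ℝ} (ht : 0 ≤ t) {z : ℂ} (hz : z ∈ dom w t) :
    ContinuousOn (fun s => mm w s z) (Icc 0 t) := by
  obtain ⟨b, hb, -, h⟩ := h48_rate ht hz
  have hc : Continuous fun s => Real.exp (-∫ r in (0 : ℝ)..s, b r) :=
    Real.continuous_exp.comp (continuous_iff_continuousAt.2 fun s =>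
      (hb.integral_hasStrictDerivAt 0 s).hasDerivAt.continuousAt).neg
  exact hc.continuousOn.congr fun s hs => (h s hs).2

private theorem h48_nonneg (w : Path) (t : ℝ) (z : ℂ) : 0 ≤ mm w t z := by
  by_cases hz : z ∈ dom w t
  · exact (mm_pos hz).le
  · rw [mm_dead hz]

theorem mm_anti (w : Path) {s t : ℝ} (hs : 0 ≤ s) (hst : s ≤ t) (z : ℂ) : mm w t z ≤ mm w s z := by
  by_cases hz : z ∈ dom w t
  · obtain ⟨b, hb, hb0, h⟩ := h48_rate (hs.trans hst) hz
    rw [(h s ⟨hs, hst⟩).2, (h t ⟨hs.trans hst, le_rfl⟩).2, Real.exp_le_exp, neg_le_neg_iff,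
      ← intervalIntegral.integral_add_adjacent_intervals (b := s) (c := t)
        (hb.intervalIntegrable _ _) (hb.intervalIntegrable _ _), le_add_iff_nonneg_right]
    exact intervalIntegral.integral_nonneg hst fun r _ => hb0 r
  · rw [mm_dead hz]
    exact h48_nonneg w s z

theorem mm_nonneg (w : Path) (t : ℝ) (z : ℂ) : 0 ≤ mm w t z := h48_nonneg w t z

theorem mm_le_one (w : Path) {t : ℝ} (ht : 0 ≤ t) (z : ℂ) : mm w t z ≤ 1 := by
  by_cases hz : z ∈ dom w t
  · rw [← mm_zero w (dom_subset w t hz)]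
    exact mm_anti w le_rfl ht z
  · rw [mm_dead hz]
    exact zero_le_one

theorem im_Zf_anti (w : Path) {s t : ℝ} (hs : 0 ≤ s) (hst : s ≤ t) (z : ℂ) :
    (Zf w t z).im ≤ (Zf w s z).im := by
  by_cases hz : z ∈ dom w t
  · have := (fwd_sol (hs.trans hst) hz).im_anti ⟨hs, hst⟩ ⟨hs.trans hst, le_rfl⟩ hst
    simpa using this
  · rw [Zf_dead hz]
    by_cases hz' : z ∈ dom w s
    · exact le_of_lt (Zf_mem hz')
    · rw [Zf_dead hz']

theorem im_Zf_le (w : Path) {t : ℝ} (ht : 0 ≤ t) {z : ℂ} (hz : z ∈ H) : (Zf w t z).im ≤ z.im := by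
  have := im_Zf_anti w le_rfl ht z
  rwa [Zf_zero w hz] at this

private theorem h48_lint {w : Path} {t : ℝ} (ht : 0 ≤ t) {z : ℂ} (hz : z ∈ dom w t) {a c : ℝ}
    (ha : 0 ≤ a) (hac : a ≤ c) (hc : c ≤ t) : ∃ I : ℝ, mm w a z = Real.exp I * mm w c z ∧
      ∫⁻ s in Ioc a c, ENNReal.ofReal (4 * Sn (Zf w s z) ^ 2 / ‖Zf w s z‖ ^ 2) =
        ENNReal.ofReal I := by
  obtain ⟨b, hb, hb0, h⟩ := h48_rate ht hz
  refine ⟨∫ r in a..c, b r, ?_, ?_⟩
  · rw [(h a ⟨ha, hac.trans hc⟩).2, (h c ⟨ha.trans hac, hc⟩).2, ← Real.exp_add,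
      ← intervalIntegral.integral_add_adjacent_intervals (a := 0) (b := a) (c := c)
        (hb.intervalIntegrable _ _) (hb.intervalIntegrable _ _)]
    congr 1
    ring
  · rw [intervalIntegral.integral_of_le hac, ofReal_integral_eq_lintegral_ofReal
      (hb.intervalIntegrable a c).1 (Eventually.of_forall hb0)]
    refine setLIntegral_congr_fun measurableSet_Ioc fun s hs => ?_
    simp only [(h s ⟨ha.trans hs.1.le, hs.2.trans hc⟩).1]

/-- Time spent by `u * mm` in `[ε, 2ε]`, measured with the clock `4 S²/‖Z‖²`, is at most `log 2`. -/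
theorem clock_le (w : Path) {z : ℂ} (hz : z ∈ H) {u ε : ℝ} (hu : 0 < u) (hε : 0 < ε) :
    ∫⁻ s in Ioi (0 : ℝ), (Icc ε (2 * ε)).indicator (fun _ => (1 : ℝ≥0∞)) (u * mm w s z) *
      ENNReal.ofReal (4 * Sn (Zf w s z) ^ 2 / ‖Zf w s z‖ ^ 2) ≤ ENNReal.ofReal (Real.log 2) := by
  let T : Set ℝ := {s | 0 < s ∧ u * mm w s z ∈ Icc ε (2 * ε)}
  have hT : ∀ a ∈ T, ∀ c ∈ T, ∀ s, a ≤ s → s ≤ c → s ∈ T := by
    intro a ha c hc s h1 h2
    refine ⟨ha.1.trans_le h1, hc.2.1.trans ?_, le_trans ?_ ha.2.2⟩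
    · exact mul_le_mul_of_nonneg_left (mm_anti w (ha.1.le.trans h1) h2 z) hu.le
    · exact mul_le_mul_of_nonneg_left (mm_anti w ha.1.le h1 z) hu.le
  let ι := {p : ℚ × ℚ // (p.1 : ℝ) ∈ T ∧ (p.2 : ℝ) ∈ T}
  let U : ι → Set ℝ := fun p => Ioc (p.1.1 : ℝ) p.1.2
  have hdir : Directed (· ⊆ ·) U := by
    intro p q
    refine ⟨⟨(min p.1.1 q.1.1, max p.1.2 q.1.2), ?_, ?_⟩, Ioc_subset_Ioc ?_ ?_,
      Ioc_subset_Ioc ?_ ?_⟩
    · rcases min_choice p.1.1 q.1.1 with h | h <;> simp only [h]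
      exacts [p.2.1, q.2.1]
    · rcases max_choice p.1.2 q.1.2 with h | h <;> simp only [h]
      exacts [p.2.2, q.2.2]
    · exact_mod_cast min_le_left _ _
    · exact_mod_cast le_max_left _ _
    · exact_mod_cast min_le_right _ _
    · exact_mod_cast le_max_right _ _
  have hUm : MeasurableSet (⋃ p, U p) := MeasurableSet.iUnion fun p => measurableSet_Ioc
  have hN : ((T ∩ lowerBounds T) ∪ (T ∩ upperBounds T)).Countable := by
    refine Set.Countable.union (Set.Subsingleton.countable ?_) (Set.Subsingleton.countable ?_)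
    · exact fun a ha c hc => le_antisymm (ha.2 hc.1) (hc.2 ha.1)
    · exact fun a ha c hc => le_antisymm (hc.2 ha.1) (ha.2 hc.1)
  calc _ ≤ ∫⁻ s in ⋃ p, U p, ENNReal.ofReal (4 * Sn (Zf w s z) ^ 2 / ‖Zf w s z‖ ^ 2) := by
        rw [← lintegral_indicator measurableSet_Ioi, ← lintegral_indicator hUm]
        refine lintegral_mono_ae ?_
        filter_upwards [hN.ae_notMem volume] with s hs
        by_cases hsT : s ∈ T
        · have h1 : ¬ s ∈ lowerBounds T := fun h => hs (Or.inl ⟨hsT, h⟩)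
          have h2 : ¬ s ∈ upperBounds T := fun h => hs (Or.inr ⟨hsT, h⟩)
          simp only [mem_lowerBounds, mem_upperBounds, not_forall, not_le] at h1 h2
          obtain ⟨a, ha, has⟩ := h1
          obtain ⟨c, hc, hsc⟩ := h2
          obtain ⟨p, hp1, hp2⟩ := exists_rat_btwn has
          obtain ⟨q, hq1, hq2⟩ := exists_rat_btwn hsc
          have hmem : s ∈ ⋃ p, U p := mem_iUnion.2 ⟨⟨(p, q), hT a ha s hsT p hp1.le hp2.le,
            hT s hsT c hc q hq1.le hq2.le⟩, hp2, hq1.le⟩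
          rw [indicator_of_mem hmem, indicator_of_mem (show s ∈ Ioi 0 from hsT.1),
            indicator_of_mem hsT.2, one_mul]
        · by_cases h0 : s ∈ Ioi (0 : ℝ)
          · rw [indicator_of_mem h0, indicator_of_notMem fun h => hsT ⟨h0, h⟩, zero_mul]
            exact zero_le
          · rw [indicator_of_notMem h0]
            exact zero_le
    _ ≤ _ := by
        rw [setLIntegral_iUnion_of_directed _ hdir]
        refine iSup_le fun p => ?_
        obtain ⟨⟨a, c⟩, ha, hc⟩ := p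
        dsimp only at ha hc
        rcases le_or_gt (c : ℝ) a with hac | hac
        · simp only [U, Ioc_eq_empty_of_le hac, Measure.restrict_empty, lintegral_zero_measure,
            zero_le]
        have hpos : 0 < u * mm w c z := hε.trans_le hc.2.1
        have halive : z ∈ dom w c := by
          by_contra hd
          rw [mm_dead hd, mul_zero] at hpos
          exact lt_irrefl _ hpos
        obtain ⟨I, h1, h2⟩ := h48_lint hc.1.le halive ha.1.le hac.le le_rfl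
        simp only [U]
        rw [h2]
        refine ENNReal.ofReal_le_ofReal ((Real.le_log_iff_exp_le two_pos).2 ?_)
        refine le_of_mul_le_mul_right ?_ hpos
        have h3 := ha.2.2
        have h4 := hc.2.1
        rw [h1] at h3
        linarith

/-- ... and at least `log 2` if the level `ε` is reached from above `2ε`. -/
theorem le_clock (w : Path) {z : ℂ} {u ε t : ℝ} (hε : 0 < ε) (hu : 2 * ε ≤ u) (ht : 0 ≤ t)
    (hz : z ∈ dom w t) (h : u * mm w t z ≤ ε) :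
    ENNReal.ofReal (Real.log 2) ≤
      ∫⁻ s in Ioi (0 : ℝ), (Icc ε (2 * ε)).indicator (fun _ => (1 : ℝ≥0∞)) (u * mm w s z) *
        ENNReal.ofReal (4 * Sn (Zf w s z) ^ 2 / ‖Zf w s z‖ ^ 2) := by
  have hu0 : 0 ≤ u := by linarith
  have hc : ContinuousOn (fun s => u * mm w s z) (Icc 0 t) :=
    continuousOn_const.mul (continuousOn_mm ht hz)
  obtain ⟨a, ha, hae⟩ := intermediate_value_Icc' ht hc (show 2 * ε ∈ _ from
    ⟨by linarith, by simpa only [mm_zero w (dom_subset w t hz), mul_one] using hu⟩)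
  dsimp only at hae
  obtain ⟨c, hc', hce⟩ := intermediate_value_Icc' ha.2 (hc.mono (Icc_subset_Icc_left ha.1))
    (show ε ∈ _ from ⟨h, by linarith⟩)
  dsimp only at hce
  obtain ⟨I, h1, h2⟩ := h48_lint ht hz ha.1 hc'.1 hc'.2
  have hI : Real.log 2 = I := by
    rw [h1, mul_left_comm, hce] at hae
    rw [← mul_right_cancel₀ hε.ne' hae, Real.log_exp]
  rw [hI, ← h2]
  refine le_trans (le_of_eq ?_) (lintegral_mono_set (s := Ioc a c) fun s hs => ha.1.trans_lt hs.1)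
  refine setLIntegral_congr_fun measurableSet_Ioc fun s hs => ?_
  have hmem : u * mm w s z ∈ Icc ε (2 * ε) := by
    constructor
    · rw [← hce]
      exact mul_le_mul_of_nonneg_left (mm_anti w (ha.1.trans hs.1.le) hs.2 z) hu0
    · rw [← hae]
      exact mul_le_mul_of_nonneg_left (mm_anti w ha.1 hs.1.le z) hu0
  simp only [indicator_of_mem hmem, one_mul]

end Crest.Agent.R162
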