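import Crest.Agent.R162.K1
import Crest.Agent.R162.L1

set_option autoImplicit false
open MeasureTheory ProbabilityTheory Set Filter Topology Metric
open scoped ENNReal NNReal ComplexConjugate

namespace Crest.Agent.R162

theorem h58_im_le {w : Path} {t : ℝ} {ζ : ℂ} {g : ℝ → ℂ} (h : IsSol w t ζ g) {s : ℝ}
    (hs : s ∈ Icc 0 t) : ζ.im ≤ (g s).im := by
  have h1 := h.im_anti hs (right_mem_Icc.2 (hs.1.trans hs.2)) hs.2
  simp only [h.last, Complex.add_im, Complex.ofReal_im, add_zero] at h1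
  exact h1

theorem h58_le_norm {w : Path} {t : ℝ} {ζ : ℂ} {g : ℝ → ℂ} (h : IsSol w t ζ g) {s : ℝ}
    (hs : s ∈ Icc 0 t) : ζ.im ≤ ‖g s - (w s : ℂ)‖ := by
  refine (h58_im_le h hs).trans ?_
  have h1 : (g s - (w s : ℂ)).im = (g s).im := by simp
  rw [← h1]
  exact (le_abs_self _).trans (Complex.abs_im_le_norm _)

theorem h58_lip {w : Path} {t : ℝ} {ζ : ℂ} {g : ℝ → ℂ} (h : IsSol w t ζ g) {y : ℝ} (hy : 0 < y)
    (hζ : y ≤ ζ.im) {a b : ℝ} (ha : a ∈ Icc 0 t) (hb : b ∈ Icc 0 t) :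
    ‖g a - g b‖ ≤ 2 / y * |a - b| := by
  refine (convex_Icc 0 t).norm_image_sub_le_of_norm_hasDerivWithin_le h.deriv (fun s hs => ?_) hb ha
  rw [norm_div, Complex.norm_two]
  exact div_le_div_of_nonneg_left zero_le_two hy (hζ.trans (h58_le_norm h hs))

theorem h58_close_le {w w' : Path} {t t' T : ℝ} {ζ ζ' : ℂ} {g g' : ℝ → ℂ} (h : IsSol w t ζ g)
    (h' : IsSol w' t' ζ' g') {y δ : ℝ} (hy : 0 < y) (h1 : y ≤ ζ.im) (h2 : y ≤ ζ'.im)
    (htt : t' ≤ t) (hT : t ≤ T) (hδ : ∀ s ∈ Icc 0 T, |w s - w' s| ≤ δ) {s : ℝ}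
    (hs : s ∈ Icc 0 t') :
    ‖g s - g' s‖ ≤
      (2 / y * |t - t'| + ‖ζ - ζ'‖ + |w t - w' t'| + δ) * Real.exp (2 * T / y ^ 2) := by
  have ht' : 0 ≤ t' := hs.1.trans hs.2
  have hm : t' ∈ Icc 0 t := ⟨ht', htt⟩
  have hsub : ∀ r ∈ Icc 0 t', r ∈ Icc 0 t := fun r hr => ⟨hr.1, hr.2.trans htt⟩
  have hδ0 : 0 ≤ δ := (abs_nonneg _).trans (hδ 0 ⟨le_rfl, ht'.trans (htt.trans hT)⟩)
  have key := (h.restrict hm).stable h' hy (fun r hr => h1.trans (h58_im_le h (hsub r hr)))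
    (fun r hr => h2.trans (h58_im_le h' hr))
    (fun r hr => hδ r ⟨hr.1, hr.2.trans (htt.trans hT)⟩) (right_mem_Icc.2 ht') hs
  refine key.trans (mul_le_mul ?_ (Real.exp_le_exp.2 ?_) (Real.exp_pos _).le (by positivity))
  · have e : g t' - g' t' = (g t' - g t) + (ζ - ζ') + ((w t - w' t' : ℝ) : ℂ) := by
      rw [h.last, h'.last]; push_cast; ring
    have h3 := h58_lip h hy h1 hm (right_mem_Icc.2 (ht'.trans htt))
    rw [abs_sub_comm] at h3
    have h4 : ‖g t' - g' t'‖ ≤ ‖g t' - g t‖ + ‖ζ - ζ'‖ + ‖((w t - w' t' : ℝ) : ℂ)‖ := by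
      rw [e]; exact norm_add₃_le
    rw [Complex.norm_real, Real.norm_eq_abs] at h4
    linarith
  · gcongr
    exact htt.trans hT

theorem h58_close {w w' : Path} {t t' T : ℝ} {ζ ζ' : ℂ} {g g' : ℝ → ℂ} (h : IsSol w t ζ g)
    (h' : IsSol w' t' ζ' g') {y δ : ℝ} (hy : 0 < y) (h1 : y ≤ ζ.im) (h2 : y ≤ ζ'.im)
    (hT : t ≤ T) (hT' : t' ≤ T) (hδ : ∀ s ∈ Icc 0 T, |w s - w' s| ≤ δ) {s : ℝ}
    (hs0 : 0 ≤ s) (hs : s ≤ t) (hs' : s ≤ t') :
    ‖g s - g' s‖ ≤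
      (2 / y * |t - t'| + ‖ζ - ζ'‖ + |w t - w' t'| + δ) * Real.exp (2 * T / y ^ 2) := by
  rcases le_total t' t with htt | htt
  · exact h58_close_le h h' hy h1 h2 htt hT hδ ⟨hs0, hs'⟩
  · rw [norm_sub_rev, abs_sub_comm t, norm_sub_rev ζ, abs_sub_comm (w t)]
    exact h58_close_le h' h hy h2 h1 htt hT' (fun r hr => by rw [abs_sub_comm]; exact hδ r hr)
      ⟨hs0, hs⟩

/-- Continuity of the backward solution at a fixed time in all parameters. -/
theorem h58_continuousOn_bsol {s : ℝ} (hs : 0 ≤ s) :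
    ContinuousOn (fun p : Path × ℝ × ℂ => bsol p.1 p.2.1 p.2.2 s)
      {p | s ≤ p.2.1 ∧ p.2.2 ∈ H} := by
  rintro ⟨w0, t0, ζ0⟩ ⟨ht0, hζ0⟩
  have hζ0' : 0 < ζ0.im := hζ0
  have ht0' : s ≤ t0 := ht0
  refine tendsto_iff_norm_sub_tendsto_zero.2 (squeeze_zero' (Eventually.of_forall fun _ =>
    norm_nonneg _) (g := fun p : Path × ℝ × ℂ => (2 / (ζ0.im / 2) * |p.2.1 - t0| + ‖p.2.2 - ζ0‖ +
      |p.1 p.2.1 - w0 t0| +
      dist (p.1.restrict (Icc 0 (t0 + 1))) (w0.restrict (Icc 0 (t0 + 1)))) *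
        Real.exp (2 * (t0 + 1) / (ζ0.im / 2) ^ 2)) ?_ ?_)
  · have e1 : ∀ᶠ p : Path × ℝ × ℂ in 𝓝 (w0, t0, ζ0), p.2.1 < t0 + 1 :=
      (continuous_snd.fst.tendsto _).eventually (gt_mem_nhds (lt_add_one t0))
    have e2 : ∀ᶠ p : Path × ℝ × ℂ in 𝓝 (w0, t0, ζ0), ζ0.im / 2 < p.2.2.im :=
      ((Complex.continuous_im.comp continuous_snd.snd).tendsto _).eventually
        (lt_mem_nhds (show ζ0.im / 2 < ζ0.im by linarith))
    filter_upwards [self_mem_nhdsWithin, nhdsWithin_le_nhds e1, nhdsWithin_le_nhds e2]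
      with p hp h1 h2
    refine h58_close (bsol_spec p.1 (hs.trans hp.1) hp.2) (bsol_spec w0 (hs.trans ht0') hζ0)
      (by linarith) h2.le (by linarith) h1.le (by linarith) (fun r hr => ?_) hs hp.1 ht0'
    rw [← Real.dist_eq]
    exact ContinuousMap.dist_apply_le_dist (f := p.1.restrict (Icc 0 (t0 + 1)))
      (g := w0.restrict (Icc 0 (t0 + 1))) ⟨r, hr⟩
  · refine Tendsto.mono_left ?_ nhdsWithin_le_nhds
    have hc : Continuous fun p : Path × ℝ × ℂ => (2 / (ζ0.im / 2) * |p.2.1 - t0| + ‖p.2.2 - ζ0‖ +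
        |p.1 p.2.1 - w0 t0| +
        dist (p.1.restrict (Icc 0 (t0 + 1))) (w0.restrict (Icc 0 (t0 + 1)))) *
          Real.exp (2 * (t0 + 1) / (ζ0.im / 2) ^ 2) := by
      have h1 : Continuous fun p : Path × ℝ × ℂ => p.1.restrict (Icc 0 (t0 + 1)) :=
        (ContinuousMap.continuous_restrict _).comp continuous_fst
      have h2 : Continuous fun p : Path × ℝ × ℂ => p.1 p.2.1 := by fun_prop
      fun_prop
    have := hc.tendsto (w0, t0, ζ0)
    simpa using this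

/-- `IsSol.stable` (after extending one solution, or rescale time), and the trivial Lipschitz
bound in `t`. -/
theorem continuousOn_phi : ContinuousOn (fun p : Path × ℝ × ℂ => phi p.1 p.2.1 p.2.2)
    {p | 0 ≤ p.2.1 ∧ p.2.2 ∈ H} := by
  have h2 : Continuous fun p : Path × ℝ × ℂ => ((p.1 0 : ℝ) : ℂ) := by fun_prop
  refine ((h58_continuousOn_bsol le_rfl).sub h2.continuousOn).congr fun p hp => ?_
  unfold phi
  exact if_pos hp

theorem h58_measurableSet : MeasurableSet {p : Path × ℝ × ℂ | 0 ≤ p.2.1 ∧ p.2.2 ∈ H} :=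
  (measurableSet_le measurable_const measurable_snd.fst).inter
    (measurable_snd.snd measurableSet_H)

theorem measurable_phi : Measurable (fun p : Path × ℝ × ℂ => phi p.1 p.2.1 p.2.2) := by
  classical
  have h := continuousOn_phi.measurable_piecewise (g := fun p : Path × ℝ × ℂ => p.2.2)
    continuous_snd.snd.continuousOn h58_measurableSet
  convert h using 1
  funext p
  by_cases hp : p ∈ {p : Path × ℝ × ℂ | 0 ≤ p.2.1 ∧ p.2.2 ∈ H}
  · rw [piecewise_eq_of_mem _ _ _ hp]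
  · rw [piecewise_eq_of_notMem _ _ _ hp]
    unfold phi
    exact if_neg hp

/-- The exponent of the difference quotient. -/
noncomputable def h58J (q : Path × ℝ × ℂ × ℂ) : ℂ :=
  ∫ s in (0 : ℝ)..q.2.1, 2 / ((bsol q.1 q.2.1 q.2.2.1 s - q.1 s) * (bsol q.1 q.2.1 q.2.2.2 s - q.1 s))

theorem h58_continuousOn_J :
    ContinuousOn h58J {q | 0 ≤ q.2.1 ∧ q.2.2.1 ∈ H ∧ q.2.2.2 ∈ H} := by
  have hcongr : EqOn h58J (fun q : Path × ℝ × ℂ × ℂ => ∫ s, (Ioc 0 q.2.1).indicator (fun s =>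
      2 / ((bsol q.1 q.2.1 q.2.2.1 s - q.1 s) * (bsol q.1 q.2.1 q.2.2.2 s - q.1 s))) s)
      {q | 0 ≤ q.2.1 ∧ q.2.2.1 ∈ H ∧ q.2.2.2 ∈ H} := by
    intro q hq
    simp only [h58J]
    rw [intervalIntegral.integral_of_le hq.1, integral_indicator measurableSet_Ioc]
  refine ContinuousOn.congr ?_ hcongr
  rintro ⟨w0, t0, ζ0, ξ0⟩ ⟨ht0, hζ0, hξ0⟩
  have hζ0' : 0 < ζ0.im := hζ0
  have hξ0' : 0 < ξ0.im := hξ0
  have ht0' : 0 ≤ t0 := ht0
  have hne : ∀ {w : Path} {t : ℝ} {ζ : ℂ}, 0 ≤ t → ζ ∈ H → ∀ s ∈ Icc 0 t,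
      bsol w t ζ s - (w s : ℂ) ≠ 0 := fun {w t ζ} ht hζ s hs =>
    norm_pos_iff.1 (lt_of_lt_of_le hζ (h58_le_norm (bsol_spec w ht hζ) hs))
  refine continuousWithinAt_of_dominated
    (bound := (Ioc 0 (t0 + 1)).indicator fun _ => 2 / (ζ0.im / 2 * (ξ0.im / 2))) ?_ ?_ ?_ ?_
  · filter_upwards [self_mem_nhdsWithin] with q hq
    rw [aestronglyMeasurable_indicator_iff measurableSet_Ioc]
    refine ContinuousOn.aestronglyMeasurable (ContinuousOn.mono (s := Icc 0 q.2.1) ?_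
      Ioc_subset_Icc_self) measurableSet_Ioc
    have hw : ContinuousOn (fun s => ((q.1 s : ℝ) : ℂ)) (Icc 0 q.2.1) := by fun_prop
    exact continuousOn_const.div (((bsol_spec _ hq.1 hq.2.1).continuousOn.sub hw).mul
      ((bsol_spec _ hq.1 hq.2.2).continuousOn.sub hw))
      fun s hs => mul_ne_zero (hne hq.1 hq.2.1 s hs) (hne hq.1 hq.2.2 s hs)
  · have e1 : ∀ᶠ q : Path × ℝ × ℂ × ℂ in 𝓝 (w0, t0, ζ0, ξ0), q.2.1 < t0 + 1 :=
      (continuous_snd.fst.tendsto _).eventually (gt_mem_nhds (lt_add_one t0))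
    have e2 : ∀ᶠ q : Path × ℝ × ℂ × ℂ in 𝓝 (w0, t0, ζ0, ξ0), ζ0.im / 2 < q.2.2.1.im :=
      ((Complex.continuous_im.comp continuous_snd.snd.fst).tendsto _).eventually
        (lt_mem_nhds (show ζ0.im / 2 < ζ0.im by linarith))
    have e3 : ∀ᶠ q : Path × ℝ × ℂ × ℂ in 𝓝 (w0, t0, ζ0, ξ0), ξ0.im / 2 < q.2.2.2.im :=
      ((Complex.continuous_im.comp continuous_snd.snd.snd).tendsto _).eventually
        (lt_mem_nhds (show ξ0.im / 2 < ξ0.im by linarith))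
    filter_upwards [self_mem_nhdsWithin, nhdsWithin_le_nhds e1, nhdsWithin_le_nhds e2,
      nhdsWithin_le_nhds e3] with q hq h1 h2 h3
    refine Eventually.of_forall fun s => ?_
    by_cases hs : s ∈ Ioc 0 q.2.1
    · rw [indicator_of_mem hs, indicator_of_mem (show s ∈ Ioc 0 (t0 + 1) from
        ⟨hs.1, hs.2.trans h1.le⟩), norm_div, Complex.norm_two, norm_mul]
      refine div_le_div_of_nonneg_left zero_le_two (by positivity) ?_
      exact mul_le_mul (h2.le.trans (h58_le_norm (bsol_spec _ hq.1 hq.2.1) (Ioc_subset_Icc_self hs)))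
        (h3.le.trans (h58_le_norm (bsol_spec _ hq.1 hq.2.2) (Ioc_subset_Icc_self hs)))
        (by positivity) (norm_nonneg _)
    · rw [indicator_of_notMem hs, norm_zero]
      exact indicator_nonneg (fun _ _ => by positivity) _
  · rw [integrable_indicator_iff measurableSet_Ioc]
    exact integrableOn_const (by simp)
  · filter_upwards [Measure.ae_ne volume t0] with s hs
    rcases le_or_gt s 0 with h0 | h0
    · have : ∀ q : Path × ℝ × ℂ × ℂ, s ∉ Ioc 0 q.2.1 := fun q hq => absurd hq.1 (not_lt.2 h0)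
      simp only [indicator_of_notMem (this _)]
      exact continuousWithinAt_const
    rcases lt_or_gt_of_ne hs with h1 | h1
    · have e1 : ∀ᶠ q : Path × ℝ × ℂ × ℂ in 𝓝 (w0, t0, ζ0, ξ0), s < q.2.1 :=
        (continuous_snd.fst.tendsto _).eventually (lt_mem_nhds h1)
      have hb : ∀ π : Path × ℝ × ℂ × ℂ → ℂ, Continuous π →
          (∀ q ∈ {q : Path × ℝ × ℂ × ℂ | 0 ≤ q.2.1 ∧ q.2.2.1 ∈ H ∧ q.2.2.2 ∈ H}, π q ∈ H) →
          ContinuousWithinAt (fun q : Path × ℝ × ℂ × ℂ => bsol q.1 q.2.1 (π q) s - q.1 s)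
            {q | 0 ≤ q.2.1 ∧ q.2.2.1 ∈ H ∧ q.2.2.2 ∈ H} (w0, t0, ζ0, ξ0) := by
        intro π hπ hH
        have hm : Continuous fun q : Path × ℝ × ℂ × ℂ => (q.1, q.2.1, π q) := by fun_prop
        have hw : Continuous fun q : Path × ℝ × ℂ × ℂ => ((q.1 s : ℝ) : ℂ) := by fun_prop
        refine ContinuousWithinAt.sub ?_ hw.continuousWithinAt
        have hc := h58_continuousOn_bsol h0.le (w0, t0, π (w0, t0, ζ0, ξ0))
          ⟨h1.le, hH _ ⟨ht0, hζ0, hξ0⟩⟩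
        refine hc.tendsto.comp (f := fun q : Path × ℝ × ℂ × ℂ => (q.1, q.2.1, π q))
          (tendsto_nhdsWithin_iff.2 ⟨hm.continuousWithinAt.tendsto, ?_⟩)
        filter_upwards [self_mem_nhdsWithin, nhdsWithin_le_nhds e1] with q hq h2
        exact ⟨h2.le, hH q hq⟩
      have hs' : s ∈ Icc 0 t0 := ⟨h0.le, h1.le⟩
      refine ContinuousWithinAt.congr_of_eventuallyEq (continuousWithinAt_const.div
        ((hb _ continuous_snd.snd.fst fun q hq => hq.2.1).mul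
          (hb _ continuous_snd.snd.snd fun q hq => hq.2.2))
        (mul_ne_zero (hne ht0' hζ0 s hs') (hne ht0' hξ0 s hs')) (f := fun _ => (2 : ℂ))) ?_ ?_
      · filter_upwards [nhdsWithin_le_nhds e1] with q hq
        exact indicator_of_mem (show s ∈ Ioc 0 q.2.1 from ⟨h0, hq.le⟩) _
      · exact indicator_of_mem (show s ∈ Ioc 0 t0 from ⟨h0, h1.le⟩) _
    · have e1 : ∀ᶠ q : Path × ℝ × ℂ × ℂ in 𝓝 (w0, t0, ζ0, ξ0), q.2.1 < s :=
        (continuous_snd.fst.tendsto _).eventually (gt_mem_nhds h1)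
      refine ContinuousWithinAt.congr_of_eventuallyEq
        (continuousWithinAt_const (b := (0 : ℂ))) ?_ ?_
      · filter_upwards [nhdsWithin_le_nhds e1] with q hq
        exact indicator_of_notMem (fun h => absurd h.2 (not_le.2 hq)) _
      · exact indicator_of_notMem (fun h => absurd h.2 (not_le.2 h1)) _

theorem h58_phi_sub (w : Path) {t : ℝ} (ht : 0 ≤ t) {ζ ξ : ℂ} (hζ : ζ ∈ H) (hξ : ξ ∈ H) :
    phi w t ξ - phi w t ζ = (ξ - ζ) * Complex.exp (h58J (w, t, ξ, ζ)) := by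
  have h1 := bsol_spec w ht hζ
  have h2 := bsol_spec w ht hξ
  have h := h2.sub_eq h1 (right_mem_Icc.2 ht)
  rw [h1.last, h2.last, add_sub_add_right_eq_sub] at h
  rw [(h1.phi_eq ht).2, (h2.phi_eq ht).2, sub_sub_sub_cancel_right, h, mul_assoc,
    ← Complex.exp_add]
  simp [h58J]

theorem h58_hasDerivAt (w : Path) {t : ℝ} (ht : 0 ≤ t) {ζ : ℂ} (hζ : ζ ∈ H) :
    HasDerivAt (phi w t) (Complex.exp (h58J (w, t, ζ, ζ))) ζ := by
  have hH : ∀ᶠ ξ in 𝓝 ζ, ξ ∈ H := isOpen_H.mem_nhds hζ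
  have hc : Tendsto (fun ξ => Complex.exp (h58J (w, t, ξ, ζ))) (𝓝 ζ)
      (𝓝 (Complex.exp (h58J (w, t, ζ, ζ)))) := by
    refine (Complex.continuous_exp.tendsto _).comp ?_
    have hm : Continuous fun ξ : ℂ => ((w, t, ξ, ζ) : Path × ℝ × ℂ × ℂ) := by fun_prop
    refine (h58_continuousOn_J (w, t, ζ, ζ) ⟨ht, hζ, hζ⟩).tendsto.comp
      (f := fun ξ : ℂ => ((w, t, ξ, ζ) : Path × ℝ × ℂ × ℂ))
      (tendsto_nhdsWithin_iff.2 ⟨hm.tendsto ζ, ?_⟩)
    filter_upwards [hH] with ξ hξ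
    exact ⟨ht, hξ, hζ⟩
  refine hasDerivAt_iff_tendsto_slope.2 ((hc.mono_left nhdsWithin_le_nhds).congr' ?_)
  filter_upwards [self_mem_nhdsWithin, nhdsWithin_le_nhds hH] with ξ hne hξ
  rw [slope_def_field, h58_phi_sub w ht hζ hξ, mul_div_cancel_left₀ _ (sub_ne_zero.2 hne)]

/-- From `IsSol.sub_eq` and continuity in `ζ`. -/
theorem hasDerivAt_phi (w : Path) {t : ℝ} (ht : 0 ≤ t) {ζ : ℂ} (hζ : ζ ∈ H) :
    HasDerivAt (phi w t)
      (Complex.exp (∫ s in (0 : ℝ)..t, 2 / (bsol w t ζ s - w s) ^ 2)) ζ := by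
  have h := h58_hasDerivAt w ht hζ
  simp only [h58J, ← sq] at h
  exact h

/-- E.g. Cauchy's integral formula for the derivative and `continuousOn_phi`. -/
theorem continuousOn_dphi : ContinuousOn (fun p : Path × ℝ × ℂ => deriv (phi p.1 p.2.1) p.2.2)
    {p | 0 ≤ p.2.1 ∧ p.2.2 ∈ H} := by
  have hm : Continuous fun p : Path × ℝ × ℂ => ((p.1, p.2.1, p.2.2, p.2.2) : Path × ℝ × ℂ × ℂ) := by
    fun_prop
  have h := Complex.continuous_exp.comp_continuousOn (h58_continuousOn_J.comp hm.continuousOn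
    (s := {p | 0 ≤ p.2.1 ∧ p.2.2 ∈ H}) fun p hp => ⟨hp.1, hp.2, hp.2⟩)
  exact h.congr fun p hp => (h58_hasDerivAt p.1 hp.1 hp.2).deriv

theorem measurable_dphi :
    Measurable (fun p : Path × ℝ × ℂ => H.indicator (deriv (phi p.1 p.2.1)) p.2.2) := by
  classical
  have h := continuousOn_dphi.measurable_piecewise (g := fun _ : Path × ℝ × ℂ => (1 : ℂ))
    continuousOn_const h58_measurableSet
  have h2 := h.indicator (s := {p : Path × ℝ × ℂ | p.2.2 ∈ H}) (measurable_snd.snd measurableSet_H)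
  convert h2 using 1
  funext p
  by_cases hH : p.2.2 ∈ H
  · rw [indicator_of_mem hH, indicator_of_mem (show p ∈ {p : Path × ℝ × ℂ | p.2.2 ∈ H} from hH)]
    by_cases hp : p ∈ {p : Path × ℝ × ℂ | 0 ≤ p.2.1 ∧ p.2.2 ∈ H}
    · rw [piecewise_eq_of_mem _ _ _ hp]
    · rw [piecewise_eq_of_notMem _ _ _ hp]
      have : phi p.1 p.2.1 = id := by
        funext ζ
        unfold phi
        exact if_neg fun hh => hp ⟨hh.1, hH⟩
      rw [this, deriv_id]
  · rw [indicator_of_notMem hH,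
      indicator_of_notMem (show p ∉ {p : Path × ℝ × ℂ | p.2.2 ∈ H} from hH)]

end Crest.Agent.R162
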