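import Crest.Agent.R162.L5

set_option autoImplicit false
open MeasureTheory ProbabilityTheory Set Filter Topology Metric
open scoped ENNReal NNReal ComplexConjugate

namespace Crest.Agent.R162

theorem track_aux {w : Path} {z : ℂ} (hz : z ∈ H) {S δ q : ℝ} (hq : 0 < q) (hS : 0 ≤ S)
    (hd : z ∈ dom w S) (hw : ∀ s ∈ Icc 0 S, |w s - w 0| ≤ δ)
    (hZ : ∀ s ∈ Icc 0 S, q / 2 ≤ ‖Zf w s z‖) :
    ∀ s ∈ Icc 0 S, ‖(Zf w s z + ((w s - w 0 : ℝ) : ℂ)) ^ 2 - (z ^ 2 + 4 * (s : ℂ))‖ ≤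
      8 * δ / q * s := by
  have hsol := fwd_sol hS hd
  set F : ℝ → ℂ := fun s => (Zf w s z + w s - w 0) ^ 2 - 4 * (s : ℂ) with hF
  have hder : ∀ s ∈ Icc 0 S, HasDerivWithinAt F
      (4 * ((w s - w 0 : ℝ) : ℂ) / Zf w s z) (Icc 0 S) s := by
    intro s hs
    have h1 := ((hsol.deriv s hs).sub_const (w 0 : ℂ)).pow 2
    have h2 : HasDerivWithinAt (fun s : ℝ => 4 * (s : ℂ)) 4 (Icc 0 S) s := by
      have := (Complex.ofRealCLM.hasDerivAt (x := s)).const_mul (4 : ℂ)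
      simpa using this.hasDerivWithinAt
    have h3 := h1.sub h2
    have hne : Zf w s z ≠ 0 := by
      intro h0
      have := hZ s hs
      rw [h0, norm_zero] at this
      linarith
    refine h3.congr_deriv ?_
    simp only [add_sub_cancel_right]
    push_cast
    field_simp
    ring
  have hb : ∀ s ∈ Ico 0 S, ‖4 * ((w s - w 0 : ℝ) : ℂ) / Zf w s z‖ ≤ 8 * δ / q := by
    intro s hs
    have hs' : s ∈ Icc 0 S := Ico_subset_Icc_self hs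
    have h1 := hZ s hs'
    have h2 := hw s hs'
    have hδ : 0 ≤ δ := (abs_nonneg _).trans h2
    rw [norm_div, norm_mul, Complex.norm_real, Real.norm_eq_abs]
    have h4 : ‖(4 : ℂ)‖ = 4 := by simp
    rw [h4]
    calc 4 * |w s - w 0| / ‖Zf w s z‖ ≤ 4 * δ / (q / 2) := by gcongr
      _ = 8 * δ / q := by field_simp; ring
  intro s hs
  have h := norm_image_sub_le_of_norm_deriv_le_segment' hder hb s hs
  have e : F s - F 0 = (Zf w s z + ((w s - w 0 : ℝ) : ℂ)) ^ 2 - (z ^ 2 + 4 * (s : ℂ)) := by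
    simp only [hF, Zf_zero w hz]
    push_cast
    ring
  rw [e, sub_zero] at h
  exact h

/-- With `G = Z + (w s - w 0)`: `(G²)' = 4 + 4 e/(G - e)`, `e = w s - w 0`. -/
theorem track_sq {k τ : ℝ} (hk : 0 < k) (hτ : 0 < τ) : ∃ δ > 0, ∀ (w : Path) (z : ℂ) (t : ℝ),
    z ∈ H → 0 ≤ t → t ≤ 1 / 4 → (∀ s ∈ Icc 0 t, |w s - w 0| ≤ δ) →
    (∀ s ∈ Icc 0 t, k ≤ ‖z ^ 2 + 4 * (s : ℂ)‖) →
    z ∈ dom w t ∧ ∀ s ∈ Icc 0 t, Real.sqrt k / 2 ≤ ‖Zf w s z‖ ∧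
      ‖Zf w s z ^ 2 - (z ^ 2 + 4 * (s : ℂ))‖ ≤ τ * (1 + ‖z‖) := by
  set q : ℝ := Real.sqrt k with hqdef
  have hq : 0 < q := Real.sqrt_pos.2 hk
  have hqq : q ^ 2 = k := Real.sq_sqrt hk.le
  obtain ⟨δ, hδ, d1, d2, d3, d4, d5, d6⟩ : ∃ δ : ℝ, 0 < δ ∧ δ ≤ q / 8 ∧ δ ≤ 1 ∧
      2 * δ / q ≤ 7 * k / 16 ∧ 2 * δ / q ≤ 1 ∧ 2 * δ / q ≤ τ / 2 ∧ 5 * δ ≤ τ / 2 := by
    refine ⟨min (min (q / 8) 1) (min (min (7 * k * q / 32) (q / 2)) (min (τ * q / 4) (τ / 10))),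
      by positivity, ?_, ?_, ?_, ?_, ?_, ?_⟩
    · exact (min_le_left _ _).trans (min_le_left _ _)
    · exact (min_le_left _ _).trans (min_le_right _ _)
    · rw [div_le_iff₀ hq]
      have : min (min (q / 8) 1) (min (min (7 * k * q / 32) (q / 2)) (min (τ * q / 4) (τ / 10))) ≤
        7 * k * q / 32 := (min_le_right _ _).trans ((min_le_left _ _).trans (min_le_left _ _))
      linarith
    · rw [div_le_iff₀ hq]
      have : min (min (q / 8) 1) (min (min (7 * k * q / 32) (q / 2)) (min (τ * q / 4) (τ / 10))) ≤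
        q / 2 := (min_le_right _ _).trans ((min_le_left _ _).trans (min_le_right _ _))
      linarith
    · rw [div_le_iff₀ hq]
      have : min (min (q / 8) 1) (min (min (7 * k * q / 32) (q / 2)) (min (τ * q / 4) (τ / 10))) ≤
        τ * q / 4 := (min_le_right _ _).trans ((min_le_right _ _).trans (min_le_left _ _))
      linarith
    · have : min (min (q / 8) 1) (min (min (7 * k * q / 32) (q / 2)) (min (τ * q / 4) (τ / 10))) ≤
        τ / 10 := (min_le_right _ _).trans ((min_le_right _ _).trans (min_le_right _ _))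
      linarith
  refine ⟨δ, hδ, fun w z t hz ht ht4 hw hk' => ?_⟩
  -- improved lower bound from the a priori one
  have step : ∀ S ∈ Icc 0 t, z ∈ dom w S → (∀ s ∈ Icc 0 S, q / 2 ≤ ‖Zf w s z‖) →
      ‖(Zf w S z + ((w S - w 0 : ℝ) : ℂ)) ^ 2 - (z ^ 2 + 4 * (S : ℂ))‖ ≤ 2 * δ / q ∧
        5 * q / 8 ≤ ‖Zf w S z‖ := by
    intro S hS hd hZ
    have h1 := track_aux hz hq hS.1 hd (fun s hs => hw s ⟨hs.1, hs.2.trans hS.2⟩) hZ S
      ⟨hS.1, le_rfl⟩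
    have h2 : 8 * δ / q * S ≤ 2 * δ / q := by
      calc 8 * δ / q * S ≤ 8 * δ / q * (1 / 4) := by gcongr; exact hS.2.trans ht4
        _ = 2 * δ / q := by ring
    refine ⟨h1.trans h2, ?_⟩
    set G : ℂ := Zf w S z + ((w S - w 0 : ℝ) : ℂ) with hG
    have h3 : k ≤ ‖G‖ ^ 2 + 2 * δ / q := by
      calc k ≤ ‖z ^ 2 + 4 * (S : ℂ)‖ := hk' S hS
        _ = ‖G ^ 2 - (G ^ 2 - (z ^ 2 + 4 * (S : ℂ)))‖ := by congr 1; ring
        _ ≤ ‖G ^ 2‖ + ‖G ^ 2 - (z ^ 2 + 4 * (S : ℂ))‖ := norm_sub_le _ _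
        _ ≤ ‖G‖ ^ 2 + 2 * δ / q := by rw [norm_pow]; linarith
    have h4 : 3 * q / 4 ≤ ‖G‖ := by
      refine (pow_le_pow_iff_left₀ (by positivity) (norm_nonneg _) two_ne_zero).1 ?_
      nlinarith
    have h5 : ‖G‖ ≤ ‖Zf w S z‖ + δ := by
      refine (norm_add_le _ _).trans ?_
      rw [Complex.norm_real, Real.norm_eq_abs]
      linarith [hw S hS]
    linarith
  have low : ∀ S ∈ Icc 0 t, z ∈ dom w S → ∀ s ∈ Icc 0 S, q / 2 ≤ ‖Zf w s z‖ := by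
    intro S hS hd
    have hc : ContinuousOn (fun s => ‖Zf w s z‖) (Icc 0 S) := (continuousOn_Zf hS.1 hd).norm
    have hcl : IsClosed ({s | q / 2 ≤ ‖Zf w s z‖} ∩ Icc 0 S) := by
      rw [inter_comm]
      exact hc.preimage_isClosed_of_isClosed isClosed_Icc (isClosed_Ici (a := q / 2))
    refine hcl.Icc_subset_of_forall_mem_nhdsGT_of_Icc_subset ?_ ?_
    · show q / 2 ≤ ‖Zf w 0 z‖
      rw [Zf_zero w hz]
      have h0 := hk' 0 ⟨le_rfl, ht⟩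
      simp only [Complex.ofReal_zero, mul_zero, add_zero, norm_pow] at h0
      have : q ≤ ‖z‖ := by
        refine (pow_le_pow_iff_left₀ (by positivity) (norm_nonneg _) two_ne_zero).1 ?_
        linarith
      linarith
    · intro u hu hsub
      have hut : u ∈ Icc 0 t := ⟨hu.1, hu.2.le.trans hS.2⟩
      have h1 := (step u hut (dom_anti w hu.1 hu.2.le hd) (fun s hs => hsub hs)).2
      have h2 : ∀ᶠ s in 𝓝[Icc 0 S] u, q / 2 < ‖Zf w s z‖ :=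
        (hc u (Ico_subset_Icc_self hu)).eventually (lt_mem_nhds (by linarith))
      have h3 : 𝓝[>] u ≤ 𝓝[Icc 0 S] u := by
        rw [nhdsWithin_le_iff]
        exact mem_of_superset (Ioo_mem_nhdsGT hu.2) (fun x hx => ⟨hu.1.trans hx.1.le, hx.2.le⟩)
      filter_upwards [h3 h2] with s hs using le_of_lt hs
  have hd : z ∈ dom w t := alive_of_lower w hz ht (half_pos hq)
    (fun s hs hds => low s hs hds s ⟨hs.1, le_rfl⟩)
  refine ⟨hd, fun s hs => ⟨low t ⟨ht, le_rfl⟩ hd s hs, ?_⟩⟩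
  have hds := dom_anti w hs.1 hs.2 hd
  have h1 := (step s hs hds (low s hs hds)).1
  set e : ℂ := ((w s - w 0 : ℝ) : ℂ) with he
  set G : ℂ := Zf w s z + e with hG
  have he' : ‖e‖ ≤ δ := by
    rw [he, Complex.norm_real, Real.norm_eq_abs]; exact hw s hs
  have h2 : ‖G‖ ^ 2 ≤ ‖z‖ ^ 2 + 2 := by
    have h4 : ‖4 * (s : ℂ)‖ ≤ 1 := by
      rw [norm_mul, Complex.norm_real, Real.norm_eq_abs, abs_of_nonneg hs.1]
      have : ‖(4 : ℂ)‖ = 4 := by simp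
      rw [this]; linarith [hs.2]
    calc ‖G‖ ^ 2 = ‖(G ^ 2 - (z ^ 2 + 4 * (s : ℂ))) + (z ^ 2 + 4 * (s : ℂ))‖ := by
          rw [← norm_pow]; congr 1; ring
      _ ≤ ‖G ^ 2 - (z ^ 2 + 4 * (s : ℂ))‖ + (‖z ^ 2‖ + ‖4 * (s : ℂ)‖) :=
          (norm_add_le _ _).trans (by gcongr; exact norm_add_le _ _)
      _ ≤ ‖z‖ ^ 2 + 2 := by rw [norm_pow]; linarith
  have h3 : ‖G‖ ≤ ‖z‖ + 2 := by
    refine (pow_le_pow_iff_left₀ (norm_nonneg _) (by positivity) two_ne_zero).1 ?_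
    nlinarith [norm_nonneg z]
  have h5 : ‖e * (2 * G - e)‖ ≤ δ * (2 * ‖z‖ + 5) := by
    rw [norm_mul]
    have : ‖2 * G - e‖ ≤ 2 * ‖z‖ + 5 := by
      refine (norm_sub_le _ _).trans ?_
      rw [norm_mul]
      have : ‖(2 : ℂ)‖ = 2 := by simp
      rw [this]; linarith
    gcongr
  calc ‖Zf w s z ^ 2 - (z ^ 2 + 4 * (s : ℂ))‖
      = ‖(G ^ 2 - (z ^ 2 + 4 * (s : ℂ))) - e * (2 * G - e)‖ := by
        congr 1; rw [hG]; ring
    _ ≤ 2 * δ / q + δ * (2 * ‖z‖ + 5) := (norm_sub_le _ _).trans (add_le_add h1 h5)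
    _ ≤ τ * (1 + ‖z‖) := by nlinarith [norm_nonneg z]

/-- Points off the vertical slit keep a definite height; `c'` depends on `c` only.
(`‖z² + 4s‖ = ‖z - 2i√s‖ ‖z + 2i√s‖ ≥ c²`, `im_Zf_eq`.) -/
theorem slit_off {c : ℝ} (hc : 0 < c) : ∃ c' > 0, ∃ δ > 0, ∀ (w : Path) (z : ℂ) (t : ℝ),
    c ≤ z.im → ‖z‖ ≤ 1 / c → (∀ r ∈ Icc (0 : ℝ) 1, c ≤ ‖z - r * Complex.I‖) → 0 ≤ t → t ≤ 1 / 4 →
    (∀ s ∈ Icc 0 t, |w s - w 0| ≤ δ) →
    z ∈ dom w t ∧ c' ≤ (Zf w t z).im ∧ ‖Zf w t z‖ ≤ 1 / c + 3 := by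
  obtain ⟨δ, hδ, h⟩ := track_sq (k := c ^ 2) (τ := 1) (by positivity) one_pos
  refine ⟨c * Real.exp (-(2 / c ^ 2)), by positivity, δ, hδ,
    fun w z t him hn hoff ht ht4 hw => ?_⟩
  have hz : z ∈ H := lt_of_lt_of_le hc him
  have hk : ∀ s ∈ Icc 0 t, c ^ 2 ≤ ‖z ^ 2 + 4 * (s : ℂ)‖ := by
    intro s hs
    set r : ℝ := Real.sqrt (4 * s) with hr
    have hr0 : 0 ≤ r := Real.sqrt_nonneg _
    have hrr : r ^ 2 = 4 * s := Real.sq_sqrt (by linarith [hs.1])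
    have hr1 : r ≤ 1 := by
      rw [hr]; exact Real.sqrt_le_one.2 (by linarith [hs.2])
    have e : z ^ 2 + 4 * (s : ℂ) = (z - r * Complex.I) * (z + r * Complex.I) := by
      have : (4 * (s : ℂ)) = (r : ℂ) ^ 2 := by exact_mod_cast hrr.symm
      rw [this]
      linear_combination ((r : ℂ) ^ 2) * Complex.I_sq
    rw [e, norm_mul, sq]
    have h2 : c ≤ ‖z + r * Complex.I‖ := by
      refine le_trans ?_ (Complex.im_le_norm _)
      simp only [Complex.add_im, Complex.mul_im, Complex.ofReal_re, Complex.I_im, mul_one,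
        Complex.ofReal_im, Complex.I_re, mul_zero, add_zero]
      linarith
    exact mul_le_mul (hoff r ⟨hr0, hr1⟩) h2 hc.le (norm_nonneg _)
  obtain ⟨hd, hZ⟩ := h w z t hz ht ht4 hw hk
  rw [Real.sqrt_sq hc.le] at hZ
  refine ⟨hd, ?_, ?_⟩
  · rw [im_Zf_eq ht hd]
    have h1 : ‖∫ s in (0 : ℝ)..t, 2 / ‖Zf w s z‖ ^ 2‖ ≤ 8 / c ^ 2 * |t - 0| := by
      refine intervalIntegral.norm_integral_le_of_norm_le_const fun s hs => ?_
      rw [uIoc_of_le ht] at hs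
      have h2 := (hZ s (Ioc_subset_Icc_self hs)).1
      rw [Real.norm_eq_abs, abs_of_nonneg (by positivity)]
      calc 2 / ‖Zf w s z‖ ^ 2 ≤ 2 / (c / 2) ^ 2 := by gcongr
        _ = 8 / c ^ 2 := by field_simp; ring
    rw [sub_zero, abs_of_nonneg ht, Real.norm_eq_abs] at h1
    have h3 : 8 / c ^ 2 * t ≤ 2 / c ^ 2 := by
      calc 8 / c ^ 2 * t ≤ 8 / c ^ 2 * (1 / 4) := by gcongr
        _ = 2 / c ^ 2 := by ring
    have h4 := (le_abs_self _).trans (h1.trans h3)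
    exact mul_le_mul him (Real.exp_le_exp.2 (by linarith)) (Real.exp_pos _).le (hc.le.trans him)
  · have h1 := (hZ t ⟨ht, le_rfl⟩).2
    have h4 : ‖4 * (t : ℂ)‖ ≤ 1 := by
      rw [norm_mul, Complex.norm_real, Real.norm_eq_abs, abs_of_nonneg ht]
      have : ‖(4 : ℂ)‖ = 4 := by simp
      rw [this]; linarith
    have h2 : ‖Zf w t z‖ ^ 2 ≤ (‖z‖ + 3) ^ 2 := by
      calc ‖Zf w t z‖ ^ 2
          = ‖(Zf w t z ^ 2 - (z ^ 2 + 4 * (t : ℂ))) + (z ^ 2 + 4 * (t : ℂ))‖ := by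
            rw [← norm_pow]; congr 1; ring
        _ ≤ ‖Zf w t z ^ 2 - (z ^ 2 + 4 * (t : ℂ))‖ + (‖z ^ 2‖ + ‖4 * (t : ℂ)‖) :=
            (norm_add_le _ _).trans (by gcongr; exact norm_add_le _ _)
        _ ≤ (‖z‖ + 3) ^ 2 := by rw [norm_pow]; nlinarith [norm_nonneg z]
    have h3 := (pow_le_pow_iff_left₀ (norm_nonneg _) (by positivity) two_ne_zero).1 h2
    linarith

theorem slit_pt {Z : ℂ} {ρ θ : ℝ} (hρ : 0 < ρ) (h0 : 0 ≤ θ) (h1 : θ ≤ 1 / 10)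
    (h : ‖Z - ρ * Complex.I‖ ≤ θ * ρ) :
    |4 * Z.im ^ 2 / ‖Z‖ ^ 4 - 4 / ρ ^ 2| ≤ 40 * θ / ρ ^ 2 := by
  have a1 : (1 - θ) * ρ ≤ Z.im := by
    have := (Complex.abs_im_le_norm (Z - ρ * Complex.I)).trans h
    simp only [Complex.sub_im, Complex.mul_im, Complex.ofReal_re, Complex.I_im, mul_one,
      Complex.ofReal_im, Complex.I_re, mul_zero, add_zero] at this
    linarith [(abs_le.1 this).1]
  have a2 : Z.im ≤ ‖Z‖ := Complex.im_le_norm Z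
  have a3 : ‖Z‖ ≤ (1 + θ) * ρ := by
    calc ‖Z‖ = ‖(Z - ρ * Complex.I) + ρ * Complex.I‖ := by congr 1; ring
      _ ≤ θ * ρ + ‖(ρ : ℂ) * Complex.I‖ := (norm_add_le _ _).trans (by gcongr)
      _ = (1 + θ) * ρ := by
        rw [norm_mul, Complex.norm_I, Complex.norm_real, Real.norm_eq_abs, abs_of_pos hρ]; ring
  have b0 : 0 < 1 - θ := by linarith
  have b1 : 0 < (1 - θ) * ρ := by positivity
  have b2 : 0 < Z.im := b1.trans_le a1
  have b3 : 0 < ‖Z‖ := b2.trans_le a2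
  rw [abs_le]
  constructor
  · have c1 : 4 * ((1 - θ) * ρ) ^ 2 / ((1 + θ) * ρ) ^ 4 ≤ 4 * Z.im ^ 2 / ‖Z‖ ^ 4 := by gcongr
    have c2 : (4 - 40 * θ) / ρ ^ 2 ≤ 4 * ((1 - θ) * ρ) ^ 2 / ((1 + θ) * ρ) ^ 4 := by
      rw [div_le_div_iff₀ (by positivity) (by positivity)]
      have : (4 - 40 * θ) * (1 + θ) ^ 4 ≤ 4 * (1 - θ) ^ 2 := by
        have : 0 ≤ θ ^ 2 := by positivity
        have : 0 ≤ θ ^ 3 := by positivity
        have : 0 ≤ θ ^ 4 := by positivity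
        have : 0 ≤ θ ^ 5 := by positivity
        nlinarith
      calc (4 - 40 * θ) * ((1 + θ) * ρ) ^ 4 = (4 - 40 * θ) * (1 + θ) ^ 4 * ρ ^ 4 := by ring
        _ ≤ 4 * (1 - θ) ^ 2 * ρ ^ 4 := by gcongr
        _ = _ := by ring
    have c3 : (4 - 40 * θ) / ρ ^ 2 = 4 / ρ ^ 2 - 40 * θ / ρ ^ 2 := by ring
    linarith
  · have c1 : 4 * Z.im ^ 2 / ‖Z‖ ^ 4 ≤ 4 / ((1 - θ) * ρ) ^ 2 := by
      calc 4 * Z.im ^ 2 / ‖Z‖ ^ 4 ≤ 4 * ‖Z‖ ^ 2 / ‖Z‖ ^ 4 := by gcongr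
        _ = 4 / ‖Z‖ ^ 2 := by field_simp
        _ ≤ 4 / ((1 - θ) * ρ) ^ 2 := by gcongr; exact a1.trans a2
    have c2 : 4 / ((1 - θ) * ρ) ^ 2 ≤ (4 + 40 * θ) / ρ ^ 2 := by
      rw [div_le_div_iff₀ (by positivity) (by positivity)]
      have : 4 ≤ (4 + 40 * θ) * (1 - θ) ^ 2 := by
        have : 0 ≤ θ ^ 3 := by positivity
        nlinarith
      calc 4 * ρ ^ 2 ≤ (4 + 40 * θ) * (1 - θ) ^ 2 * ρ ^ 2 := by gcongr
        _ = _ := by ring
    have c3 : (4 + 40 * θ) / ρ ^ 2 = 4 / ρ ^ 2 + 40 * θ / ρ ^ 2 := by ring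
    linarith

/-- Points on the vertical slit: exact slit has `Z = i √(y² - 4 r)`, `mm = (y² - 4 r)/y²`. -/
theorem slit_on {s : ℝ} (hs : 0 < s) (hs1 : s ≤ 1 / 2) : ∃ δ > 0, ∀ (w : Path) (z : ℂ) (y : ℝ),
    s ≤ y → y ≤ 1 → ‖z - y * Complex.I‖ ≤ δ →
    (∀ r ∈ Icc 0 ((y ^ 2 - s ^ 2) / 4), |w r - w 0| ≤ δ) →
    z ∈ dom w ((y ^ 2 - s ^ 2) / 4) ∧ ‖Zf w ((y ^ 2 - s ^ 2) / 4) z - s * Complex.I‖ ≤ s / 10 ∧
      s ^ 2 / (2 * y ^ 2) ≤ mm w ((y ^ 2 - s ^ 2) / 4) z ∧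
      mm w ((y ^ 2 - s ^ 2) / 4) z ≤ 2 * s ^ 2 / y ^ 2 := by
  obtain ⟨δ₀, hδ₀, h⟩ := track_sq (k := s ^ 2 / 2) (τ := s ^ 4 / 120) (by positivity)
    (by positivity)
  have hs2 : s ^ 2 ≤ 1 / 4 := by nlinarith
  have hs4 : s ^ 4 ≤ s ^ 2 / 4 := by nlinarith [sq_nonneg s]
  have hs2' : s ^ 2 ≤ s / 2 := by nlinarith
  refine ⟨min δ₀ (s ^ 4 / 120), by positivity, fun w z y hsy hy1 hzy hw => ?_⟩
  set t : ℝ := (y ^ 2 - s ^ 2) / 4 with htdef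
  have hy : 0 < y := hs.trans_le hsy
  have hsy2 : s ^ 2 ≤ y ^ 2 := by gcongr
  have hy2 : y ^ 2 ≤ 1 := by nlinarith
  have ht : 0 ≤ t := by rw [htdef]; linarith
  have ht4 : t ≤ 1 / 4 := by rw [htdef]; nlinarith
  have hη : ‖z - y * Complex.I‖ ≤ s ^ 4 / 120 := hzy.trans (min_le_right _ _)
  have hyI : ‖(y : ℂ) * Complex.I‖ = y := by
    rw [norm_mul, Complex.norm_I, Complex.norm_real, Real.norm_eq_abs, abs_of_pos hy, mul_one]
  have hz : z ∈ H := by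
    have := (Complex.abs_im_le_norm (z - y * Complex.I)).trans hη
    simp only [Complex.sub_im, Complex.mul_im, Complex.ofReal_re, Complex.I_im, mul_one,
      Complex.ofReal_im, Complex.I_re, mul_zero, add_zero] at this
    show 0 < z.im
    linarith [(abs_le.1 this).1]
  have hzn : ‖z‖ ≤ 2 := by
    calc ‖z‖ = ‖(z - y * Complex.I) + y * Complex.I‖ := by congr 1; ring
      _ ≤ s ^ 4 / 120 + ‖(y : ℂ) * Complex.I‖ := (norm_add_le _ _).trans (by gcongr)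
      _ ≤ 2 := by rw [hyI]; linarith
  have hsq : ‖z ^ 2 + (y : ℂ) ^ 2‖ ≤ s ^ 4 / 40 := by
    have e : z ^ 2 + (y : ℂ) ^ 2 = (z - y * Complex.I) * (z + y * Complex.I) := by
      linear_combination ((y : ℂ) ^ 2) * Complex.I_sq
    rw [e, norm_mul]
    have h3 : ‖z + y * Complex.I‖ ≤ 3 := by
      refine (norm_add_le _ _).trans ?_
      rw [hyI]; linarith
    calc _ ≤ s ^ 4 / 120 * 3 := by gcongr
      _ = _ := by ring
  have hρ2 : ∀ r ∈ Icc 0 t, s ^ 2 ≤ y ^ 2 - 4 * r := by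
    intro r hr
    have := hr.2
    rw [htdef] at this
    linarith
  have hk : ∀ r ∈ Icc 0 t, s ^ 2 / 2 ≤ ‖z ^ 2 + 4 * (r : ℂ)‖ := by
    intro r hr
    have h1 := hρ2 r hr
    have h2 : ‖((y ^ 2 - 4 * r : ℝ) : ℂ)‖ = y ^ 2 - 4 * r := by
      rw [Complex.norm_real, Real.norm_eq_abs, abs_of_nonneg (by nlinarith)]
    have h3 : ‖((y ^ 2 - 4 * r : ℝ) : ℂ)‖ ≤ ‖z ^ 2 + (y : ℂ) ^ 2‖ + ‖z ^ 2 + 4 * (r : ℂ)‖ := by
      refine le_trans (le_of_eq ?_) (norm_sub_le _ _)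
      congr 1; push_cast; ring
    linarith [sq_nonneg s]
  obtain ⟨hd, hZ⟩ := h w z t hz ht ht4 (fun r hr => (hw r hr).trans (min_le_left _ _)) hk
  have hnear : ∀ r ∈ Icc 0 t, ‖Zf w r z - Real.sqrt (y ^ 2 - 4 * r) * Complex.I‖ ≤
      s ^ 2 / 20 * Real.sqrt (y ^ 2 - 4 * r) := by
    intro r hr
    set ρ : ℝ := Real.sqrt (y ^ 2 - 4 * r) with hρ
    have h1 := hρ2 r hr
    have hρρ : ρ ^ 2 = y ^ 2 - 4 * r := Real.sq_sqrt (by nlinarith)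
    have hsρ : s ≤ ρ := Real.le_sqrt_of_sq_le h1
    have hρ0 : 0 < ρ := hs.trans_le hsρ
    have h2 : ‖Zf w r z ^ 2 + (ρ : ℂ) ^ 2‖ ≤ s ^ 4 / 20 := by
      have e : Zf w r z ^ 2 + (ρ : ℂ) ^ 2 =
          (Zf w r z ^ 2 - (z ^ 2 + 4 * (r : ℂ))) + (z ^ 2 + (y : ℂ) ^ 2) := by
        have : (ρ : ℂ) ^ 2 = (y : ℂ) ^ 2 - 4 * (r : ℂ) := by exact_mod_cast hρρ
        rw [this]; ring
      rw [e]
      refine (norm_add_le _ _).trans ?_
      have h3 := (hZ r hr).2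
      have h4 : s ^ 4 / 120 * (1 + ‖z‖) ≤ s ^ 4 / 120 * 3 := by gcongr; linarith
      linarith
    have e : Zf w r z ^ 2 + (ρ : ℂ) ^ 2 =
        (Zf w r z - ρ * Complex.I) * (Zf w r z + ρ * Complex.I) := by
      linear_combination ((ρ : ℂ) ^ 2) * Complex.I_sq
    have h3 : ρ ≤ ‖Zf w r z + ρ * Complex.I‖ := by
      refine le_trans ?_ (Complex.im_le_norm _)
      have : 0 < (Zf w r z).im := Zf_mem (dom_anti w hr.1 hr.2 hd)
      simp only [Complex.add_im, Complex.mul_im, Complex.ofReal_re, Complex.I_im, mul_one,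
        Complex.ofReal_im, Complex.I_re, mul_zero, add_zero]
      linarith
    rw [e, norm_mul] at h2
    refine le_of_mul_le_mul_right ?_ hρ0
    calc ‖Zf w r z - ρ * Complex.I‖ * ρ
        ≤ ‖Zf w r z - ρ * Complex.I‖ * ‖Zf w r z + ρ * Complex.I‖ := by gcongr
      _ ≤ s ^ 4 / 20 := h2
      _ = s ^ 2 / 20 * (s * s) := by ring
      _ ≤ s ^ 2 / 20 * (ρ * ρ) := by gcongr
      _ = _ := by ring
  have hlast : Real.sqrt (y ^ 2 - 4 * t) = s := by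
    rw [show y ^ 2 - 4 * t = s ^ 2 by rw [htdef]; ring, Real.sqrt_sq hs.le]
  have hA : ‖Zf w t z - s * Complex.I‖ ≤ s / 10 := by
    have := hnear t ⟨ht, le_rfl⟩
    rw [hlast] at this
    nlinarith
  -- the integral
  have hcZ := continuousOn_Zf ht hd
  have hi1 : IntervalIntegrable (fun r => 4 * (Zf w r z).im ^ 2 / ‖Zf w r z‖ ^ 4) volume 0 t := by
    apply ContinuousOn.intervalIntegrable
    rw [uIcc_of_le ht]
    refine ContinuousOn.div ?_ (hcZ.norm.pow 4) fun r hr => ?_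
    · exact continuousOn_const.mul ((Complex.continuous_im.comp_continuousOn hcZ).pow 2)
    · have := (hZ r hr).1
      have h0 : 0 < Real.sqrt (s ^ 2 / 2) := by positivity
      have : 0 < ‖Zf w r z‖ := by linarith
      positivity
  have hpos : ∀ r ∈ Icc 0 t, 0 < y ^ 2 - 4 * r := fun r hr =>
    lt_of_lt_of_le (by positivity) (hρ2 r hr)
  have hi2 : IntervalIntegrable (fun r : ℝ => 4 / (y ^ 2 - 4 * r)) volume 0 t := by
    apply ContinuousOn.intervalIntegrable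
    rw [uIcc_of_le ht]
    exact continuousOn_const.div (by fun_prop) fun r hr => (hpos r hr).ne'
  have hL : ∫ r in (0 : ℝ)..t, 4 / (y ^ 2 - 4 * r) = Real.log (y ^ 2) - Real.log (s ^ 2) := by
    have hder : ∀ r ∈ uIcc 0 t, HasDerivAt (fun r : ℝ => -Real.log (y ^ 2 - 4 * r))
        (4 / (y ^ 2 - 4 * r)) r := by
      intro r hr
      rw [uIcc_of_le ht] at hr
      have h1 : HasDerivAt (fun r : ℝ => y ^ 2 - 4 * r) (-4) r := by
        simpa using ((hasDerivAt_id r).const_mul (4 : ℝ)).const_sub (y ^ 2)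
      refine (h1.log (hpos r hr).ne').neg.congr_deriv ?_
      ring
    rw [intervalIntegral.integral_eq_sub_of_hasDerivAt hder hi2,
      show y ^ 2 - 4 * t = s ^ 2 by rw [htdef]; ring]
    simp only [mul_zero, sub_zero]
    ring
  have hE : ‖∫ r in (0 : ℝ)..t, (4 * (Zf w r z).im ^ 2 / ‖Zf w r z‖ ^ 4 - 4 / (y ^ 2 - 4 * r))‖ ≤
      2 * |t - 0| := by
    refine intervalIntegral.norm_integral_le_of_norm_le_const fun r hr => ?_
    rw [uIoc_of_le ht] at hr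
    have hr' := Ioc_subset_Icc_self hr
    have h1 := slit_pt (Real.sqrt_pos.2 (hpos r hr')) (by positivity) (by linarith) (hnear r hr')
    rw [Real.sq_sqrt (hpos r hr').le] at h1
    rw [Real.norm_eq_abs]
    refine h1.trans ?_
    rw [div_le_iff₀ (hpos r hr')]
    linarith [hρ2 r hr']
  rw [intervalIntegral.integral_sub hi1 hi2, hL, sub_zero, abs_of_nonneg ht, Real.norm_eq_abs,
    abs_le] at hE
  have hexp : Real.exp (-(Real.log (y ^ 2) - Real.log (s ^ 2))) = s ^ 2 / y ^ 2 := by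
    rw [neg_sub, Real.exp_sub, Real.exp_log (by positivity), Real.exp_log (by positivity)]
  have e1 : 1 / 2 ≤ Real.exp (-(1 / 2)) := by linarith [Real.add_one_le_exp (-(1 / 2) : ℝ)]
  have e2 : Real.exp (1 / 2) ≤ 2 := by
    have h1 : Real.exp (1 / 2) * Real.exp (-(1 / 2)) = 1 := by rw [← Real.exp_add]; simp
    nlinarith [Real.exp_pos (1 / 2 : ℝ)]
  refine ⟨hd, hA, ?_, ?_⟩
  · rw [mm_eq ht hd]
    calc s ^ 2 / (2 * y ^ 2) = s ^ 2 / y ^ 2 * (1 / 2) := by field_simp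
      _ ≤ s ^ 2 / y ^ 2 * Real.exp (-(1 / 2)) := by gcongr
      _ = Real.exp (-(Real.log (y ^ 2) - Real.log (s ^ 2)) + -(1 / 2)) := by
        rw [Real.exp_add, hexp]
      _ ≤ _ := Real.exp_le_exp.2 (by linarith [hE.2])
  · rw [mm_eq ht hd]
    calc _ ≤ Real.exp (-(Real.log (y ^ 2) - Real.log (s ^ 2)) + 1 / 2) :=
          Real.exp_le_exp.2 (by linarith [hE.1])
      _ = s ^ 2 / y ^ 2 * Real.exp (1 / 2) := by rw [Real.exp_add, hexp]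
      _ ≤ s ^ 2 / y ^ 2 * 2 := by gcongr
      _ = _ := by ring

end Crest.Agent.R162
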