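import Crest.Agent.R162.L9Aux

set_option autoImplicit false
open MeasureTheory ProbabilityTheory Set Filter Topology Metric
open scoped ENNReal NNReal ComplexConjugate

namespace Crest.Agent.R162

open Crest.ProbabilityR.Loewner in
/-- `g 0 = id` on `H` (an injective holomorphic map of `H` onto `H` with `g z - z → 0` at infinity:
`im (g z) ≥ im z` by the maximum principle for `exp (i (g z - z))`, the same for the inverse, or
`harnack_ball`-type Schwarz-Pick), survival is monotone in time, so `s ↦ g s z` is an `IsSol`;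
`mem_dom_of_sol` gives `⊇`, and `g t` onto `H` + injectivity of `Zf w t` on `dom` gives `⊆`. -/
theorem dom_eq_surv {w : Path} {γ : ℝ → ℂ} (hγ : IsChordalTrace w γ) (h0 : w 0 = 0) {t : ℝ}
    (ht : 0 ≤ t) : dom w t = survivingDomain γ t := by
  obtain ⟨g, hg, hode, -⟩ := hγ.maps
  have hg0 : ∀ z ∈ H, g 0 z = z := by
    obtain ⟨h1, h2, h3, h4⟩ := hg 0 le_rfl
    rw [h31_surv_zero hγ.start] at h1 h2 h3 h4
    exact fun z hz => h31_eq_id h1 h2 h3 h4 hz
  have key : ∀ z ∈ survivingDomain γ t, z ∈ dom w t ∧ Zf w t z = g t z - w t := by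
    intro z hz
    have hzH : z ∈ H := hz.1.1
    have hsol : IsSol w t (g t z - w t) fun s => g s z :=
      { pos := fun s hs => by
          have h1 := mem_image_of_mem (g s) (h31_surv_anti γ hs.2 hz)
          rw [(hg s hs.1).2.2.1] at h1
          exact h1
        last := (sub_add_cancel _ _).symm
        deriv := fun s hs =>
          (hode z hzH s hs.1 (h31_surv_anti γ hs.2 hz)).mono Icc_subset_Ici_self }
    have h1 := mem_dom_of_sol hsol ⟨ht, le_rfl⟩
    simp only [hg0 z hzH, h0, Complex.ofReal_zero, sub_zero] at h1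
    exact h1
  refine Subset.antisymm (fun z hz => ?_) fun z hz => (key z hz).1
  have h1 : Zf w t z + w t ∈ g t '' survivingDomain γ t := by
    rw [(hg t ht).2.2.1]
    have h2 : 0 < (Zf w t z).im := Zf_mem hz
    change 0 < (Zf w t z + w t).im
    simpa using h2
  obtain ⟨z', hz', e⟩ := h1
  obtain ⟨h2, h3⟩ := key z' hz'
  rw [e, add_sub_cancel_right] at h3
  rw [← phi_Zf hz, ← h3, phi_Zf h2]
  exact hz'

open Crest.ProbabilityR.Loewner in
theorem trace_not_mem {w : Path} {γ : ℝ → ℂ} (hγ : IsChordalTrace w γ) (h0 : w 0 = 0) {s t : ℝ}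
    (hs : s ∈ Icc 0 t) : γ s ∉ dom w t := by
  rw [dom_eq_surv hγ h0 (hs.1.trans hs.2)]
  exact fun h => h.1.2 (mem_image_of_mem γ hs)

open Crest.ProbabilityR.Loewner in
theorem trace_mem_closure {w : Path} {γ : ℝ → ℂ} (hγ : IsChordalTrace w γ) (h0 : w 0 = 0) {t : ℝ}
    (ht : 0 ≤ t) : γ t ∈ closure (dom w t) := by
  rw [dom_eq_surv hγ h0 ht]
  obtain ⟨g, hg, -, hlim⟩ := hγ.maps
  refine mem_closure_of_tendsto (hlim t ht) ?_
  filter_upwards [self_mem_nhdsWithin] with y hy
  have h1 : (w t : ℂ) + y * Complex.I ∈ g t '' survivingDomain γ t := by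
    rw [(hg t ht).2.2.1]
    change 0 < ((w t : ℂ) + y * Complex.I).im
    simpa using hy
  exact Function.invFunOn_mem h1

open Crest.ProbabilityR.Loewner in
/-- A ball about a living point that is not contained in the domain meets the trace. -/
theorem trace_meets {w : Path} {γ : ℝ → ℂ} (hγ : IsChordalTrace w γ) (h0 : w 0 = 0) {t : ℝ}
    (ht : 0 ≤ t) {z : ℂ} (hz : z ∈ dom w t) {ρ : ℝ} (hH : ball z ρ ⊆ H)
    (hn : ¬ ball z ρ ⊆ dom w t) : ∃ s ∈ Icc 0 t, γ s ∈ ball z ρ := by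
  by_contra hcon
  apply hn
  rw [dom_eq_surv hγ h0 ht] at hz ⊢
  have hsub : ball z ρ ⊆ halfPlane \ γ '' Icc 0 t := fun u hu =>
    ⟨hH hu, fun ⟨s, hs, e⟩ => hcon ⟨s, hs, e ▸ hu⟩⟩
  intro u hu
  have hρ : 0 < ρ := pos_of_mem_ball hu
  have h1 := (convex_ball z ρ).isPreconnected.subset_connectedComponentIn (mem_ball_self hρ) hsub hu
  refine ⟨hsub hu, ?_⟩
  rw [← connectedComponentIn_eq h1]
  exact hz.2

open Crest.ProbabilityR.Loewner in
/-- Points near the trace reach a small conformal radius while alive. If `z` lives at `t1` use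
`koebe_cover` for `phi w t1`; otherwise `exists_death`, `koebe_cover`, `ball_dead`, `dom_anti`,
`trace_mem_closure`. -/
theorem trace_hit : ∃ C : ℝ, 1 ≤ C ∧ ∀ (w : Path) (γ : ℝ → ℂ), IsChordalTrace w γ → w 0 = 0 →
    ∀ z ∈ H, ∀ t1 δ : ℝ, 0 ≤ t1 → ‖γ t1 - z‖ < δ →
      ∃ t, 0 ≤ t ∧ z ∈ dom w t ∧ z.im * mm w t z ≤ C * δ := by
  obtain ⟨c, hc0, hc1, hc⟩ := koebe_cover
  refine ⟨2 / c, by rw [le_div_iff₀ hc0]; linarith, fun w γ hγ h0 z hz t1 δ ht1 hδ => ?_⟩
  have hδ0 : 0 < δ := (norm_nonneg _).trans_lt hδ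
  have hball : ∀ t, z ∈ dom w t → 2 / c * δ < z.im * mm w t z → ball z (2 * δ) ⊆ dom w t := by
    intro t hzt hlt
    refine (ball_subset_ball ?_).trans (h31_ball_subset hc hzt)
    have h1 := mul_lt_mul_of_pos_left hlt hc0
    have h2 : c * (2 / c * δ) = 2 * δ := by field_simp
    linarith
  by_contra hcon
  push Not at hcon
  have hγz : γ t1 ∈ ball z δ := by rwa [mem_ball, dist_eq_norm]
  by_cases hzt : z ∈ dom w t1
  · exact trace_not_mem hγ h0 ⟨ht1, le_rfl⟩
      (hball t1 hzt (hcon t1 ht1 hzt) (ball_subset_ball (by linarith) hγz))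
  · obtain ⟨T, hT, hdead, halive, -⟩ := exists_death w hz ht1 hzt
    have h1 := ball_dead w (ρ := 2 * δ) (by linarith) hT.1
      (fun s hs => hball s (halive s hs) (hcon s hs.1 (halive s hs))) hdead
    obtain ⟨u, hu1, hu2⟩ := mem_closure_iff.1 (trace_mem_closure hγ h0 ht1) _ isOpen_ball hγz
    refine h1 u ?_ (dom_anti w hT.1.le hT.2 hu2)
    rwa [mul_div_cancel_left₀ _ two_ne_zero]

end Crest.Agent.R162
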