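import Crest.Agent.R162.L5
import Crest.Agent.R162.K3

/-! Row 162: auxiliary facts for `L9` (Julia's lemma, the surviving domain). -/

set_option autoImplicit false
open MeasureTheory ProbabilityTheory Set Filter Topology Metric
open scoped ENNReal NNReal ComplexConjugate

namespace Crest.Agent.R162

/-- Harnack inequality for holomorphic self-maps of the half-plane. -/
theorem h31_harnack {F : ℂ → ℂ} (hF : DifferentiableOn ℂ F H) (hm : MapsTo F H H) {z p : ℂ}
    (hz : z ∈ H) (hp : p ∈ H) : z.im * p.im * (F p).im ≤ ‖z - conj p‖ ^ 2 * (F z).im := by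
  have hz' : 0 < z.im := hz
  have hp' : 0 < p.im := hp
  obtain ⟨c, hc⟩ : ∃ c : ℂ → ℂ,
      c = fun u => (p.re : ℂ) + (p.im : ℂ) * (Complex.I * ((1 + u) / (1 - u))) := ⟨_, rfl⟩
  have hne : ∀ u ∈ ball (0 : ℂ) 1, 1 - u ≠ 0 := by
    intro u hu h
    rw [sub_eq_zero] at h
    rw [← h] at hu
    simp at hu
  have hcd : DifferentiableOn ℂ c (ball 0 1) := by
    rw [hc]
    refine (differentiableOn_const _).add ((differentiableOn_const _).mul
      ((differentiableOn_const _).mul (DifferentiableOn.div ?_ ?_ hne))) <;> fun_prop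
  have hcH : MapsTo c (ball 0 1) H := by
    intro u hu
    have h1 : 0 < Complex.normSq (1 - u) := Complex.normSq_pos.2 (hne u hu)
    have h2 : u.re ^ 2 + u.im ^ 2 < 1 := by
      have h3 : ‖u‖ < 1 := by simpa using hu
      have h4 : ‖u‖ ^ 2 = u.re ^ 2 + u.im ^ 2 := by
        rw [Complex.sq_norm, Complex.normSq_apply]; ring
      nlinarith [norm_nonneg u]
    have h3 : (c u).im = p.im * ((1 - (u.re ^ 2 + u.im ^ 2)) / Complex.normSq (1 - u)) := by
      rw [hc]
      simp only [Complex.add_im, Complex.ofReal_im, Complex.mul_im, Complex.ofReal_re,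
        Complex.I_re, Complex.I_im, Complex.div_re, Complex.add_re, Complex.one_re,
        Complex.sub_re, Complex.one_im, Complex.sub_im, zero_mul, one_mul, zero_add, add_zero]
      ring
    change 0 < (c u).im
    rw [h3]
    exact mul_pos hp' (div_pos (by linarith) h1)
  have hd : z - conj p ≠ 0 := sub_conj_ne hz' hp'
  have hN : 0 < ‖z - conj p‖ := norm_pos_iff.2 hd
  have hsq := normSq_sub_conj z p
  obtain ⟨t, ht⟩ : ∃ t : ℝ, t = ‖(z - p) / (z - conj p)‖ := ⟨_, rfl⟩
  have ht0 : 0 ≤ t := ht ▸ norm_nonneg _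
  have htN : t * ‖z - conj p‖ = ‖z - p‖ := by rw [ht, norm_div, div_mul_cancel₀ _ hN.ne']
  have hzp := mul_pos hz' hp'
  have ht1 : t < 1 := by
    by_contra h
    have h1 : ‖z - conj p‖ ≤ ‖z - p‖ := by
      rw [← htN]
      nlinarith [not_lt.1 h]
    nlinarith [norm_nonneg (z - p)]
  have hc0 : c 0 = p := by
    rw [hc]
    simp [Complex.re_add_im]
  have hcz : c ((z - p) / (z - conj p)) = z := by
    have hp2 : (p.im : ℂ) ≠ 0 := Complex.ofReal_ne_zero.2 hp'.ne'
    have e1 : p = p.re + p.im * Complex.I := (Complex.re_add_im p).symm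
    have e2 : conj p = p.re - p.im * Complex.I := by
      apply Complex.ext <;> simp
    have e3 : 1 - (z - p) / (z - conj p) = 2 * p.im * Complex.I / (z - conj p) := by
      rw [eq_div_iff hd, sub_mul, div_mul_cancel₀ _ hd]
      linear_combination e1 - e2
    have e4 : 1 + (z - p) / (z - conj p) = 2 * (z - p.re) / (z - conj p) := by
      rw [eq_div_iff hd, add_mul, div_mul_cancel₀ _ hd]
      linear_combination -e1 - e2
    rw [hc]
    simp only
    rw [e3, e4]
    field_simp
    ring
  have key := (pick_harnack (g := fun u => F (c u)) (w := 0) (r := 1) (hF.comp hcd hcH)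
    (fun u hu => hm (hcH hu)) ht1 (z := (z - p) / (z - conj p)) one_pos
    (by rw [sub_zero, mul_one, ht])).2.1
  simp only [hc0, hcz] at key
  have hFz : 0 < (F z).im := hm hz
  have hFp : 0 < (F p).im := hm hp
  have h1 : (1 - t ^ 2) * (F p).im ≤ 4 * (F z).im := by
    have h2 := mul_le_mul_of_nonneg_left key (by linarith : 0 ≤ 1 + t)
    have h3 : (1 + t) * (1 + t) ≤ 4 := by nlinarith
    nlinarith
  have h2 : (1 - t ^ 2) * ‖z - conj p‖ ^ 2 = 4 * z.im * p.im := by
    rw [← htN] at hsq
    linear_combination hsq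
  have h3 := mul_le_mul_of_nonneg_left h1 (sq_nonneg ‖z - conj p‖)
  have h4 : ‖z - conj p‖ ^ 2 * ((1 - t ^ 2) * (F p).im) = 4 * (z.im * p.im * (F p).im) := by
    linear_combination (F p).im * h2
  linarith

theorem h31_div_tendsto {q : ℝ → ℂ}
    (h : Tendsto (fun y : ℝ => q y - y * Complex.I) atTop (𝓝 0)) :
    Tendsto (fun y : ℝ => q y / y) atTop (𝓝 Complex.I) := by
  have h0 : Tendsto (fun y : ℝ => ((y⁻¹ : ℝ) : ℂ)) atTop (𝓝 0) := by
    have h1 := (Complex.continuous_ofReal.tendsto 0).comp tendsto_inv_atTop_zero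
    rwa [Complex.ofReal_zero] at h1
  have h1 := (h.mul h0).add_const Complex.I
  rw [mul_zero, zero_add] at h1
  refine h1.congr' ?_
  filter_upwards [eventually_gt_atTop (0 : ℝ)] with y hy
  have hy' : (y : ℂ) ≠ 0 := Complex.ofReal_ne_zero.2 hy.ne'
  rw [Complex.ofReal_inv]
  field_simp
  ring

/-- Julia's lemma at infinity. -/
theorem h31_julia {F : ℂ → ℂ} (hF : DifferentiableOn ℂ F H) (hm : MapsTo F H H) {p : ℝ → ℂ}
    (hp : ∀ y, 0 < y → p y ∈ H) (h1 : Tendsto (fun y : ℝ => p y - y * Complex.I) atTop (𝓝 0))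
    (h2 : Tendsto (fun y : ℝ => F (p y) - y * Complex.I) atTop (𝓝 0)) {z : ℂ} (hz : z ∈ H) :
    z.im ≤ (F z).im := by
  have ha := h31_div_tendsto h1
  have hb := h31_div_tendsto h2
  have h0 : Tendsto (fun y : ℝ => z / y) atTop (𝓝 0) := by
    have h3 := (Complex.continuous_ofReal.tendsto 0).comp tendsto_inv_atTop_zero
    rw [Complex.ofReal_zero] at h3
    have h4 := h3.const_mul z
    rw [mul_zero] at h4
    refine h4.congr fun y => ?_
    simp [div_eq_mul_inv]
  have hL : Tendsto (fun y : ℝ => z.im * (p y / y).im * (F (p y) / y).im) atTop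
      (𝓝 (z.im * Complex.I.im * Complex.I.im)) :=
    (((Complex.continuous_im.tendsto _).comp ha).const_mul _).mul
      ((Complex.continuous_im.tendsto _).comp hb)
  have hR : Tendsto (fun y : ℝ => ‖z / y - conj (p y / y)‖ ^ 2 * (F z).im) atTop
      (𝓝 (‖0 - conj Complex.I‖ ^ 2 * (F z).im)) :=
    ((h0.sub ((Complex.continuous_conj.tendsto _).comp ha)).norm.pow 2).mul_const _
  have key := le_of_tendsto_of_tendsto hL hR (by
    filter_upwards [eventually_gt_atTop (0 : ℝ)] with y hy
    have h3 := h31_harnack hF hm hz (hp y hy)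
    have e : z / y - conj (p y / y) = (z - conj (p y)) / y := by
      rw [map_div₀, Complex.conj_ofReal, sub_div]
    rw [e, norm_div, Complex.norm_real, Real.norm_of_nonneg hy.le, Complex.div_ofReal_im,
      Complex.div_ofReal_im, div_pow]
    have h4 := div_le_div_of_nonneg_right h3 (sq_nonneg y)
    calc z.im * ((p y).im / y) * ((F (p y)).im / y)
        = z.im * (p y).im * (F (p y)).im / y ^ 2 := by field_simp
      _ ≤ ‖z - conj (p y)‖ ^ 2 * (F z).im / y ^ 2 := h4
      _ = ‖z - conj (p y)‖ ^ 2 / y ^ 2 * (F z).im := by ring)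
  simpa using key

theorem h31_convex_H : Convex ℝ H := convex_halfSpace_im_gt 0

theorem h31_vert_mem {y : ℝ} (hy : 0 < y) : (y : ℂ) * Complex.I ∈ H := by
  change 0 < ((y : ℂ) * Complex.I).im
  simpa using hy

theorem h31_vert_tendsto : Tendsto (fun y : ℝ => (y : ℂ) * Complex.I) atTop
    (Filter.cocompact ℂ ⊓ Filter.principal H) := by
  refine tendsto_inf.2 ⟨?_, tendsto_principal.2 ?_⟩
  · rw [← Metric.cobounded_eq_cocompact, ← tendsto_norm_atTop_iff_cobounded]
    refine tendsto_abs_atTop_atTop.congr fun y => ?_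
    simp
  · filter_upwards [eventually_gt_atTop (0 : ℝ)] with y hy
    exact h31_vert_mem hy

/-- A hydrodynamically normalised conformal automorphism of the half-plane is the identity. -/
theorem h31_eq_id {g : ℂ → ℂ} (hg : DifferentiableOn ℂ g H) (hinj : InjOn g H)
    (him : g '' H = H)
    (hlim : Tendsto (fun z => g z - z) (Filter.cocompact ℂ ⊓ Filter.principal H) (𝓝 0))
    {z : ℂ} (hz : z ∈ H) : g z = z := by
  have hm : MapsTo g H H := fun u hu => him ▸ mem_image_of_mem g hu
  have hv : Tendsto (fun y : ℝ => g (y * Complex.I) - y * Complex.I) atTop (𝓝 0) :=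
    hlim.comp h31_vert_tendsto
  have hf : DifferentiableOn ℂ (Function.invFunOn g H) H := by
    have h := invFunOn_diff isOpen_H hg hinj
    rwa [him] at h
  have hfm : MapsTo (Function.invFunOn g H) H H := fun u hu => by
    rw [← him] at hu
    exact Function.invFunOn_mem hu
  have hfg : ∀ u ∈ H, Function.invFunOn g H (g u) = u := fun u hu => hinj.leftInvOn_invFunOn hu
  have him0 : ∀ u ∈ H, (g u - u).im = 0 := by
    intro u hu
    have h1 := h31_julia hg hm (p := fun y => y * Complex.I) (fun y hy => h31_vert_mem hy)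
      (by simp) hv hu
    have h2 := h31_julia hf hfm (p := fun y => g (y * Complex.I))
      (fun y hy => hm (h31_vert_mem hy)) hv (tendsto_const_nhds.congr' (by
        filter_upwards [eventually_gt_atTop (0 : ℝ)] with y hy
        rw [hfg _ (h31_vert_mem hy), sub_self])) (hm hu)
    rw [hfg u hu] at h2
    rw [Complex.sub_im]
    linarith
  have han : AnalyticOnNhd ℂ (fun u => g u - u) H :=
    (hg.sub differentiableOn_id).analyticOnNhd isOpen_H
  obtain ⟨c, hc⟩ := han.eq_const_of_im_eq_const him0 isOpen_H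
    ⟨⟨z, hz⟩, h31_convex_H.isPreconnected⟩
  have hc0 : c = 0 := by
    refine tendsto_nhds_unique (tendsto_const_nhds.congr' ?_) hv
    filter_upwards [eventually_gt_atTop (0 : ℝ)] with y hy
    exact (hc _ (h31_vert_mem hy)).symm
  exact sub_eq_zero.1 ((hc z hz).trans hc0)

open Crest.ProbabilityR.Loewner in
theorem h31_surv_zero {γ : ℝ → ℂ} (h : γ 0 = 0) : survivingDomain γ 0 = H := by
  have e : halfPlane \ γ '' Icc 0 0 = H := by
    rw [Icc_self, image_singleton, h]
    refine diff_singleton_eq_self ?_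
    change ¬ (0 : ℝ) < (0 : ℂ).im
    simp
  unfold survivingDomain
  rw [e]
  refine Set.ext fun z => ⟨fun hz => hz.1, fun hz => ⟨hz, fun hb => ?_⟩⟩
  rw [h31_convex_H.isPreconnected.connectedComponentIn hz, isBounded_iff_forall_norm_le] at hb
  obtain ⟨C, hC⟩ := hb
  have h1 := hC _ (h31_vert_mem (y := |C| + 1) (by positivity))
  rw [norm_mul, Complex.norm_I, mul_one, Complex.norm_real,
    Real.norm_of_nonneg (by positivity)] at h1
  linarith [le_abs_self C]

open Crest.ProbabilityR.Loewner in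
theorem h31_surv_anti (γ : ℝ → ℂ) {s t : ℝ} (hst : s ≤ t) :
    survivingDomain γ t ⊆ survivingDomain γ s := by
  have hsub : halfPlane \ γ '' Icc 0 t ⊆ halfPlane \ γ '' Icc 0 s :=
    diff_subset_diff_right (image_mono (Icc_subset_Icc_right hst))
  exact fun z hz => ⟨hsub hz.1, fun hb => hz.2 (hb.subset (connectedComponentIn_mono z hsub))⟩

theorem h31_ball_subset {c : ℝ} (hc : ∀ f : ℂ → ℂ, Univ f → ∀ ζ ∈ H,
    ball (f ζ) (c * ups f ζ) ⊆ f '' ball ζ (ζ.im / 2)) {w : Path} {t : ℝ} {z : ℂ}
    (hz : z ∈ dom w t) : ball z (c * (z.im * mm w t z)) ⊆ dom w t := by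
  have hζ := Zf_mem hz
  have h1 := hc _ (univ_phi w t) _ hζ
  have hz0 : 0 < z.im := dom_subset w t hz
  have hζ0 : 0 < (Zf w t z).im := hζ
  have e : z.im * mm w t z = ups (phi w t) (Zf w t z) := by
    unfold mm
    field_simp
  rw [phi_Zf hz] at h1
  rw [e]
  exact h1.trans (image_mono ((ball_subset_ball (by linarith)).trans ball_im_subset))

end Crest.Agent.R162
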