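import Crest.Agent.R162.Defs

/-! Row 162, block L (Loewner ODE), part A: solutions on an interval. -/

set_option autoImplicit false
open MeasureTheory Set Filter Topology Metric
open scoped ENNReal NNReal ComplexConjugate

namespace Crest.Agent.R162

/-- `g` solves Loewner's equation on `[a,b]` inside the half-plane. -/
structure Sol (w : Path) (a b : ℝ) (g : ℝ → ℂ) : Prop where
  pos : ∀ s ∈ Icc a b, 0 < (g s).im
  deriv : ∀ s ∈ Icc a b, HasDerivWithinAt g (2 / (g s - (w s : ℂ))) (Icc a b) s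

theorem IsSol.sol {w : Path} {t : ℝ} {ζ : ℂ} {g : ℝ → ℂ} (h : IsSol w t ζ g) : Sol w 0 t g :=
  ⟨h.pos, h.deriv⟩

theorem Sol.isSol {w : Path} {t : ℝ} {g : ℝ → ℂ} (h : Sol w 0 t g) :
    IsSol w t (g t - (w t : ℂ)) g := ⟨h.pos, by ring, h.deriv⟩

variable {w w' : Path} {a b : ℝ} {g g' : ℝ → ℂ}

theorem Sol.continuousOn (h : Sol w a b g) : ContinuousOn g (Icc a b) :=
  fun s hs => (h.deriv s hs).continuousWithinAt

theorem Sol.mono (h : Sol w a b g) {a' b' : ℝ} (ha : a ≤ a') (hb : b' ≤ b) : Sol w a' b' g :=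
  ⟨fun s hs => h.pos s ⟨ha.trans hs.1, hs.2.trans hb⟩, fun s hs =>
    (h.deriv s ⟨ha.trans hs.1, hs.2.trans hb⟩).mono (Icc_subset_Icc ha hb)⟩

theorem Sol.im_le_norm (h : Sol w a b g) {s : ℝ} (_hs : s ∈ Icc a b) :
    (g s).im ≤ ‖g s - (w s : ℂ)‖ := by
  have := Complex.im_le_norm (g s - (w s : ℂ))
  simpa using this

theorem Sol.ne (h : Sol w a b g) {s : ℝ} (hs : s ∈ Icc a b) : g s - (w s : ℂ) ≠ 0 :=
  norm_pos_iff.1 ((h.pos s hs).trans_le (h.im_le_norm hs))

theorem Sol.continuousOn_Z (h : Sol w a b g) :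
    ContinuousOn (fun s => g s - (w s : ℂ)) (Icc a b) :=
  h.continuousOn.sub (Complex.continuous_ofReal.comp w.continuous).continuousOn

/-- The solution only reads the path on `[a,b]`. -/
theorem Sol.congr_path (h : Sol w a b g) (hw : ∀ s ∈ Icc a b, w s = w' s) : Sol w' a b g :=
  ⟨h.pos, fun s hs => by rw [← hw s hs]; exact h.deriv s hs⟩

theorem Sol.congr (h : Sol w a b g) (hg : ∀ s ∈ Icc a b, g' s = g s) : Sol w a b g' :=
  ⟨fun s hs => by rw [hg s hs]; exact h.pos s hs, fun s hs => by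
    rw [hg s hs]; exact (h.deriv s hs).congr (fun x hx => hg x hx) (hg s hs)⟩

private theorem la_ftc {F F' : ℝ → ℂ} (hc : ContinuousOn F' (Icc a b))
    (hF : ∀ s ∈ Icc a b, HasDerivWithinAt F (F' s) (Icc a b) s) {s s' : ℝ}
    (hs : s ∈ Icc a b) (hs' : s' ∈ Icc a b) : F s' - F s = ∫ r in s..s', F' r := by
  have hsub : uIcc s s' ⊆ Icc a b := uIcc_subset_Icc hs hs'
  symm
  refine intervalIntegral.integral_eq_sub_of_hasDeriv_right
    (fun x hx => ((hF x (hsub hx)).continuousWithinAt).mono hsub) (fun x hx => ?_)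
    ((hc.mono hsub).intervalIntegrable)
  have h1 : a < x := lt_of_le_of_lt (le_min hs.1 hs'.1) hx.1
  have h2 : x < b := lt_of_lt_of_le hx.2 (max_le hs.2 hs'.2)
  exact ((hF x ⟨h1.le, h2.le⟩).hasDerivAt (Icc_mem_nhds h1 h2)).hasDerivWithinAt

/-- Linear equation `D' = -c D` on an interval. -/
theorem linear_ode {D c : ℝ → ℂ} (hc : ContinuousOn c (Icc a b))
    (hD : ∀ s ∈ Icc a b, HasDerivWithinAt D (-(c s) * D s) (Icc a b) s) {s s' : ℝ}
    (hs : s ∈ Icc a b) (hs' : s' ∈ Icc a b) :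
    D s' = D s * Complex.exp (-∫ r in s..s', c r) := by
  have hab : a ≤ b := hs.1.trans hs.2
  set c' : ℝ → ℂ := fun r => c (projIcc a b hab r) with hc'
  have hcc : Continuous c' :=
    (continuousOn_iff_continuous_restrict.mp hc).comp continuous_projIcc
  have hce : ∀ r ∈ Icc a b, c' r = c r := fun r hr => by
    simp only [hc', projIcc_of_mem hab hr]
  have hC : ∀ t, HasDerivAt (fun t => ∫ r in s..t, c' r) (c' t) t := fun t =>
    (hcc.integral_hasStrictDerivAt s t).hasDerivAt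
  have hE : ∀ t ∈ Icc a b, HasDerivWithinAt (fun t => D t * Complex.exp (∫ r in s..t, c' r))
      ((fun _ => (0 : ℂ)) t) (Icc a b) t := by
    intro t ht
    have h1 := (hD t ht).mul (hC t).cexp.hasDerivWithinAt
    refine h1.congr_deriv ?_
    rw [hce t ht]
    ring
  have h0 := la_ftc continuousOn_const hE hs hs'
  rw [intervalIntegral.integral_zero, intervalIntegral.integral_same, Complex.exp_zero, mul_one,
    sub_eq_zero] at h0
  have hI : ∫ r in s..s', c' r = ∫ r in s..s', c r :=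
    intervalIntegral.integral_congr fun r hr => hce r (uIcc_subset_Icc hs hs' hr)
  rw [← h0, hI, mul_assoc, ← Complex.exp_add, add_neg_cancel, Complex.exp_zero, mul_one]

theorem Sol.integral (h : Sol w a b g) {s s' : ℝ} (hs : s ∈ Icc a b) (hs' : s' ∈ Icc a b) :
    g s' - g s = ∫ r in s..s', 2 / (g r - (w r : ℂ)) := by
  exact la_ftc (F' := fun r => 2 / (g r - (w r : ℂ)))
    (continuousOn_const.div h.continuousOn_Z fun r hr => h.ne hr) h.deriv hs hs'

theorem Sol.two_point (h : Sol w a b g) (h' : Sol w a b g') {s s' : ℝ} (hs : s ∈ Icc a b)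
    (hs' : s' ∈ Icc a b) :
    g s' - g' s' = (g s - g' s) *
      Complex.exp (-∫ r in s..s', 2 / ((g r - (w r : ℂ)) * (g' r - (w r : ℂ)))) := by
  refine linear_ode (D := fun r => g r - g' r)
    (c := fun r => 2 / ((g r - (w r : ℂ)) * (g' r - (w r : ℂ))))
    (continuousOn_const.div (h.continuousOn_Z.mul h'.continuousOn_Z)
      fun r hr => mul_ne_zero (h.ne hr) (h'.ne hr)) (fun r hr => ?_) hs hs'
  refine ((h.deriv r hr).sub (h'.deriv r hr)).congr_deriv ?_
  have h1 := h.ne hr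
  have h2 := h'.ne hr
  field_simp
  ring

theorem Sol.two_point_conj (h : Sol w a b g) (h' : Sol w a b g') {s s' : ℝ} (hs : s ∈ Icc a b)
    (hs' : s' ∈ Icc a b) :
    g s' - conj (g' s') = (g s - conj (g' s)) *
      Complex.exp (-∫ r in s..s', 2 / ((g r - (w r : ℂ)) * conj (g' r - (w r : ℂ)))) := by
  have hne : ∀ r ∈ Icc a b, conj (g' r - (w r : ℂ)) ≠ 0 := fun r hr =>
    (map_ne_zero _).mpr (h'.ne hr)
  refine linear_ode (D := fun r => g r - conj (g' r))
    (c := fun r => 2 / ((g r - (w r : ℂ)) * conj (g' r - (w r : ℂ))))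
    (continuousOn_const.div (h.continuousOn_Z.mul
      (Complex.continuous_conj.comp_continuousOn h'.continuousOn_Z))
      fun r hr => mul_ne_zero (h.ne hr) (hne r hr)) (fun r hr => ?_) hs hs'
  have hd : HasDerivWithinAt (fun r => conj (g' r)) (2 / conj (g' r - (w r : ℂ))) (Icc a b) r := by
    have := (h'.deriv r hr).star
    simpa only [Complex.star_def, map_div₀, map_ofNat] using this
  refine ((h.deriv r hr).sub hd).congr_deriv ?_
  have h1 := h.ne hr
  have h2 := hne r hr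
  have h3 : conj (g' r) = conj (g' r - (w r : ℂ)) + (w r : ℂ) := by
    rw [map_sub, Complex.conj_ofReal]; ring
  rw [h3]
  field_simp
  ring

theorem Sol.im_eq (h : Sol w a b g) {s s' : ℝ} (hs : s ∈ Icc a b) (hs' : s' ∈ Icc a b) :
    (g s').im = (g s).im * Real.exp (-∫ r in s..s', 2 / ‖g r - (w r : ℂ)‖ ^ 2) := by
  have h1 := h.two_point_conj h hs hs'
  have h2 : (fun r => 2 / ((g r - (w r : ℂ)) * conj (g r - (w r : ℂ)))) =
      fun r => ((2 / ‖g r - (w r : ℂ)‖ ^ 2 : ℝ) : ℂ) := by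
    funext r
    rw [Complex.mul_conj']
    push_cast
    rfl
  rw [h2, intervalIntegral.integral_ofReal, Complex.sub_conj, Complex.sub_conj,
    ← Complex.ofReal_neg, ← Complex.ofReal_exp] at h1
  have h3 := congrArg Complex.im h1
  simp only [Complex.mul_im, Complex.mul_re, Complex.ofReal_re, Complex.ofReal_im, Complex.I_re,
    Complex.I_im] at h3
  linarith

theorem Sol.unique (h : Sol w a b g) (h' : Sol w a b g') {s : ℝ} (hs : s ∈ Icc a b)
    (he : g s = g' s) {s' : ℝ} (hs' : s' ∈ Icc a b) : g s' = g' s' := by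
  have := h.two_point h' hs hs'
  rw [he, sub_self, zero_mul] at this
  exact sub_eq_zero.1 this

theorem Sol.im_anti (h : Sol w a b g) {s s' : ℝ} (hs : a ≤ s) (hss : s ≤ s') (hs' : s' ≤ b) :
    (g s').im ≤ (g s).im := by
  have h1 : s ∈ Icc a b := ⟨hs, hss.trans hs'⟩
  rw [h.im_eq h1 ⟨hs.trans hss, hs'⟩]
  refine mul_le_of_le_one_right (h.pos s h1).le (Real.exp_le_one_iff.mpr (neg_nonpos.mpr ?_))
  exact intervalIntegral.integral_nonneg hss fun r _ => by positivity

theorem Sol.im_sq_le (h : Sol w a b g) {s s' : ℝ} (hs : a ≤ s) (hss : s ≤ s') (hs' : s' ≤ b) :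
    (g s).im ^ 2 ≤ (g s').im ^ 2 + 4 * (s' - s) := by
  have hd : ∀ r ∈ Icc a b, HasDerivWithinAt (fun r => (g r).im ^ 2 + 4 * r)
      (2 * (g r).im * (2 / (g r - (w r : ℂ))).im + 4) (Icc a b) r := by
    intro r hr
    have h1 : HasDerivWithinAt (fun r => (g r).im) ((2 / (g r - (w r : ℂ))).im) (Icc a b) r :=
      Complex.imCLM.hasFDerivAt.comp_hasDerivWithinAt r (h.deriv r hr)
    have h2 := (h1.pow 2).add ((hasDerivWithinAt_id r (Icc a b)).const_mul 4)
    refine h2.congr_deriv ?_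
    simp
  have hm : MonotoneOn (fun r => (g r).im ^ 2 + 4 * r) (Icc a b) := by
    refine monotoneOn_of_hasDerivWithinAt_nonneg (convex_Icc a b)
      (fun r hr => (hd r hr).continuousWithinAt)
      (fun r hr => (hd r (interior_subset hr)).mono interior_subset) fun r hr => ?_
    have hr' := interior_subset hr
    have hz := h.ne hr'
    have hn : 0 < Complex.normSq (g r - (w r : ℂ)) := Complex.normSq_pos.mpr hz
    have him : (2 / (g r - (w r : ℂ))).im = -(2 * (g r).im) / Complex.normSq (g r - (w r : ℂ)) := by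
      rw [Complex.div_im]
      simp
      ring
    have hle : (g r).im ^ 2 ≤ Complex.normSq (g r - (w r : ℂ)) := by
      rw [Complex.normSq_apply]
      simp only [Complex.sub_im, Complex.ofReal_im, sub_zero]
      nlinarith [mul_self_nonneg (g r - (w r : ℂ)).re]
    rw [him]
    have : 2 * (g r).im * (-(2 * (g r).im) / Complex.normSq (g r - (w r : ℂ))) + 4 =
        4 * (Complex.normSq (g r - (w r : ℂ)) - (g r).im ^ 2) /
          Complex.normSq (g r - (w r : ℂ)) := by
      field_simp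
      ring
    rw [this]
    exact div_nonneg (by linarith) hn.le
  have := hm ⟨hs, hss.trans hs'⟩ ⟨hs.trans hss, hs'⟩ hss
  simp only at this
  linarith

theorem Sol.norm_sub_le (h : Sol w a b g) {s s' : ℝ} (hs : a ≤ s) (hss : s ≤ s') (hs' : s' ≤ b) :
    ‖g s' - g s‖ ≤ 2 * (s' - s) / (g s').im := by
  have h1 : s ∈ Icc a b := ⟨hs, hss.trans hs'⟩
  have h2 : s' ∈ Icc a b := ⟨hs.trans hss, hs'⟩
  rw [h.integral h1 h2]
  have h3 := intervalIntegral.norm_integral_le_of_norm_le_const (a := s) (b := s')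
    (C := 2 / (g s').im) (f := fun r => 2 / (g r - (w r : ℂ))) fun r hr => by
      rw [uIoc_of_le hss] at hr
      have hr' : r ∈ Icc a b := ⟨hs.trans hr.1.le, hr.2.trans hs'⟩
      rw [norm_div, Complex.norm_ofNat]
      exact div_le_div_of_nonneg_left (by norm_num) (h.pos s' h2)
        ((h.im_anti hr'.1 hr.2 hs').trans (h.im_le_norm hr'))
  rw [abs_of_nonneg (sub_nonneg.mpr hss)] at h3
  refine h3.trans_eq ?_
  ring

end Crest.Agent.R162
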