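import Crest.Agent.R162.K1
import Mathlib.Analysis.Complex.OpenMapping

/-! Row 162, block L: Schwarz–Pick on the half-plane; normalised automorphisms are the identity. -/

set_option autoImplicit false
open MeasureTheory Set Filter Topology Metric
open scoped ENNReal NNReal ComplexConjugate

namespace Crest.Agent.R162

private theorem helper47_one_sub_ne {u : ℂ} (hu : u ∈ ball (0 : ℂ) 1) : (1 : ℂ) - u ≠ 0 := by
  intro h
  have h1 : u = 1 := by linear_combination -h
  rw [h1] at hu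
  simp at hu

private theorem helper47_cayley_im {b u : ℂ} (hb : 0 < b.im) (hu : u ∈ ball (0 : ℂ) 1) :
    0 < ((b - conj b * u) / (1 - u)).im := by
  have hne := helper47_one_sub_ne hu
  have hN : 0 < Complex.normSq (1 - u) := Complex.normSq_pos.2 hne
  have hu1 : ‖u‖ < 1 := by simpa using hu
  have hu2 : u.re * u.re + u.im * u.im < 1 := by
    have := Complex.normSq_eq_norm_sq u
    rw [Complex.normSq_apply] at this
    nlinarith [norm_nonneg u]
  have key : ((b - conj b * u) / (1 - u)).im =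
      b.im * (1 - (u.re * u.re + u.im * u.im)) / Complex.normSq (1 - u) := by
    rw [Complex.div_im, ← sub_div]
    congr 1
    simp
    ring
  rw [key]
  exact div_pos (mul_pos hb (by linarith)) hN

/-- Schwarz–Pick for self-maps of the half-plane (Cayley maps and Schwarz's lemma). -/
theorem schwarz_pick_H {φ : ℂ → ℂ} (hφ : DifferentiableOn ℂ φ H) (hm : MapsTo φ H H) {a b : ℂ}
    (ha : a ∈ H) (hb : b ∈ H) : ‖φ a - φ b‖ ^ 2 / ((φ a).im * (φ b).im) ≤
      ‖a - b‖ ^ 2 / (a.im * b.im) := by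
  have ha' : 0 < a.im := ha
  have hb' : 0 < b.im := hb
  have hA : 0 < (φ a).im := hm ha
  have hB : 0 < (φ b).im := hm hb
  set ψ : ℂ → ℂ := fun u => (b - conj b * u) / (1 - u) with hψ
  have hψm : MapsTo ψ (ball (0 : ℂ) 1) H := fun u hu => helper47_cayley_im hb' hu
  have hψd : DifferentiableOn ℂ ψ (ball (0 : ℂ) 1) := by
    refine DifferentiableOn.div ?_ ?_ fun u hu => helper47_one_sub_ne hu
    · fun_prop
    · fun_prop
  have hg : DifferentiableOn ℂ (φ ∘ ψ) (ball (0 : ℂ) 1) := hφ.comp hψd hψm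
  have hgH : ∀ u ∈ ball (0 : ℂ) 1, 0 < ((φ ∘ ψ) u).im := fun u hu => hm (hψm hu)
  have hne : a - conj b ≠ 0 := sub_conj_ne ha' hb'
  have hnp : 0 < ‖a - conj b‖ := norm_pos_iff.2 hne
  have hP : 0 < a.im * b.im := mul_pos ha' hb'
  have hQ : 0 < (φ a).im * (φ b).im := mul_pos hA hB
  have hlt : ‖a - b‖ < ‖a - conj b‖ := by
    have h := normSq_sub_conj a b
    nlinarith [norm_nonneg (a - b), norm_nonneg (a - conj b)]
  set u0 : ℂ := (a - b) / (a - conj b) with hu0
  have hu0n : ‖u0‖ = ‖a - b‖ / ‖a - conj b‖ := by rw [hu0, norm_div]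
  have hu0m : u0 ∈ ball (0 : ℂ) 1 := by
    rw [mem_ball, dist_zero_right, hu0n, div_lt_one hnp]
    exact hlt
  have hbb : b - conj b ≠ 0 := sub_conj_ne hb' hb'
  have hψ0 : ψ 0 = b := by simp [hψ]
  have hψa : ψ u0 = a := by
    have h1 : (1 : ℂ) - u0 = (b - conj b) / (a - conj b) := by
      rw [hu0]; field_simp; ring
    have h2 : b - conj b * u0 = a * (b - conj b) / (a - conj b) := by
      rw [hu0]; field_simp; ring
    simp only [hψ]
    rw [h1, h2]
    field_simp
  have h := pick_dist hg hgH hu0m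
  simp only [Function.comp_apply, hψ0, hψa, sub_zero, div_one] at h
  rw [hu0n, div_mul_eq_mul_div, le_div_iff₀ hnp] at h
  have h2 : (‖φ a - φ b‖ * ‖a - conj b‖) ^ 2 ≤ (‖a - b‖ * ‖φ a - conj (φ b)‖) ^ 2 :=
    pow_le_pow_left₀ (by positivity) h 2
  rw [mul_pow, mul_pow, normSq_sub_conj, normSq_sub_conj] at h2
  rw [div_le_div_iff₀ hQ hP]
  nlinarith

private theorem helper47_tendsto_yI :
    Tendsto (fun y : ℝ => (y : ℂ) * Complex.I) atTop (cocompact ℂ ⊓ 𝓟 H) := by
  refine tendsto_inf.2 ⟨?_, tendsto_principal.2 ?_⟩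
  · rw [← cobounded_eq_cocompact, ← tendsto_norm_atTop_iff_cobounded]
    refine (tendsto_congr fun y => ?_).2 tendsto_abs_atTop_atTop
    simp
  · filter_upwards [eventually_gt_atTop (0 : ℝ)] with y hy
    show 0 < ((y : ℂ) * Complex.I).im
    simpa using hy

private theorem helper47_im_eq {φ : ℂ → ℂ} (hφ : DifferentiableOn ℂ φ H) (hi : InjOn φ H)
    (hs : φ '' H = H) (hl : Tendsto (fun z => φ z - z) (cocompact ℂ ⊓ 𝓟 H) (𝓝 0)) {a : ℂ}
    (ha : a ∈ H) : (φ a).im = a.im := by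
  have hm : MapsTo φ H H := fun z hz => hs ▸ mem_image_of_mem φ hz
  have hχd : DifferentiableOn ℂ (Function.invFunOn φ H) H := by
    have := invFunOn_diff isOpen_H hφ hi
    rwa [hs] at this
  have hχm : MapsTo (Function.invFunOn φ H) H H := by
    intro z hz
    rw [← hs] at hz
    obtain ⟨x, hx, rfl⟩ := hz
    rw [hi.leftInvOn_invFunOn hx]
    exact hx
  have heq : ∀ b ∈ H, ‖φ a - φ b‖ ^ 2 * (a.im * b.im) = ‖a - b‖ ^ 2 * ((φ a).im * (φ b).im) := by
    intro b hb
    have h1 := schwarz_pick_H hφ hm ha hb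
    have h2 := schwarz_pick_H hχd hχm (hm ha) (hm hb)
    rw [hi.leftInvOn_invFunOn ha, hi.leftInvOn_invFunOn hb] at h2
    have h3 := le_antisymm h1 h2
    have hP : 0 < a.im * b.im := mul_pos ha hb
    have hQ : 0 < (φ a).im * (φ b).im := mul_pos (hm ha) (hm hb)
    rwa [div_eq_div_iff hQ.ne' hP.ne'] at h3
  set e : ℝ → ℂ := fun y => φ ((y : ℂ) * Complex.I) - (y : ℂ) * Complex.I with he
  have het : Tendsto e atTop (𝓝 0) := hl.comp helper47_tendsto_yI
  have hinv : Tendsto (fun y : ℝ => ((y : ℂ))⁻¹) atTop (𝓝 0) := by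
    have := (Complex.continuous_ofReal.tendsto 0).comp (tendsto_inv_atTop_zero (𝕜 := ℝ))
    simpa [Function.comp_def] using this
  have hinvR : Tendsto (fun y : ℝ => y⁻¹) atTop (𝓝 0) := tendsto_inv_atTop_zero
  -- left side divided by `y ^ 3`
  have hL : Tendsto (fun y : ℝ => ‖(φ a - e y) * (y : ℂ)⁻¹ - Complex.I‖ ^ 2 * a.im) atTop
      (𝓝 (‖(φ a - 0) * 0 - Complex.I‖ ^ 2 * a.im)) :=
    (((((tendsto_const_nhds.sub het).mul hinv).sub tendsto_const_nhds).norm).pow 2).mul_const _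
  have hR : Tendsto (fun y : ℝ => ‖a * (y : ℂ)⁻¹ - Complex.I‖ ^ 2 *
      ((φ a).im * (1 + (e y).im * y⁻¹))) atTop
      (𝓝 (‖a * 0 - Complex.I‖ ^ 2 * ((φ a).im * (1 + (0 : ℂ).im * 0)))) :=
    ((((tendsto_const_nhds.mul hinv).sub tendsto_const_nhds).norm).pow 2).mul
      (tendsto_const_nhds.mul (tendsto_const_nhds.add
        (((Complex.continuous_im.tendsto 0).comp het).mul hinvR)))
  have hLR : (fun y : ℝ => ‖(φ a - e y) * (y : ℂ)⁻¹ - Complex.I‖ ^ 2 * a.im) =ᶠ[atTop]
      (fun y : ℝ => ‖a * (y : ℂ)⁻¹ - Complex.I‖ ^ 2 * ((φ a).im * (1 + (e y).im * y⁻¹))) := by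
    filter_upwards [eventually_gt_atTop (0 : ℝ)] with y hy
    have hyH : (y : ℂ) * Complex.I ∈ H := by
      show 0 < ((y : ℂ) * Complex.I).im
      simpa using hy
    have h := heq _ hyH
    have hy' : (y : ℂ) ≠ 0 := by exact_mod_cast hy.ne'
    have h1 : (φ a - e y) * (y : ℂ)⁻¹ - Complex.I = (φ a - φ ((y : ℂ) * Complex.I)) * (y : ℂ)⁻¹ := by
      simp only [he]; field_simp; ring
    have h2 : a * (y : ℂ)⁻¹ - Complex.I = (a - (y : ℂ) * Complex.I) * (y : ℂ)⁻¹ := by
      field_simp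
    have h3 : 1 + (e y).im * y⁻¹ = (φ ((y : ℂ) * Complex.I)).im * y⁻¹ := by
      simp only [he]
      simp
      field_simp
      ring
    have h4 : ‖((y : ℂ))⁻¹‖ = y⁻¹ := by simp [abs_of_pos hy]
    have h5 : ((y : ℂ) * Complex.I).im = y := by simp
    rw [h5] at h
    rw [h1, h2, h3, norm_mul, norm_mul, h4, mul_pow, mul_pow]
    field_simp
    linear_combination h
  have := tendsto_nhds_unique (hL.congr' hLR) hR
  simpa using this.symm

/-- A conformal automorphism of the half-plane with `φ z - z → 0` is the identity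
(equality in `schwarz_pick_H` via the inverse map, `b = i y`, `y → ∞` gives `im φ = im`). -/
theorem eq_id_of_aut {φ : ℂ → ℂ} (hφ : DifferentiableOn ℂ φ H) (hi : InjOn φ H) (hs : φ '' H = H)
    (hl : Tendsto (fun z => φ z - z) (cocompact ℂ ⊓ 𝓟 H) (𝓝 0)) {a : ℂ} (ha : a ∈ H) :
    φ a = a := by
  have hd : DifferentiableOn ℂ (fun z => φ z - z) H := hφ.sub differentiableOn_id
  have han : AnalyticOnNhd ℂ (fun z => φ z - z) H := hd.analyticOnNhd isOpen_H
  have hconn : IsConnected H :=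
    ⟨⟨a, ha⟩, (convex_halfSpace_im_gt 0).isPreconnected⟩
  obtain ⟨c, hc⟩ := han.eq_const_of_im_eq_const (c₀ := 0)
    (fun x hx => by simp [helper47_im_eq hφ hi hs hl hx]) isOpen_H hconn
  have h1 : Tendsto (fun y : ℝ => φ ((y : ℂ) * Complex.I) - (y : ℂ) * Complex.I) atTop (𝓝 0) :=
    hl.comp helper47_tendsto_yI
  have h2 : Tendsto (fun y : ℝ => φ ((y : ℂ) * Complex.I) - (y : ℂ) * Complex.I) atTop (𝓝 c) := by
    refine tendsto_const_nhds.congr' ?_
    filter_upwards [eventually_gt_atTop (0 : ℝ)] with y hy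
    have hyH : (y : ℂ) * Complex.I ∈ H := by
      show 0 < ((y : ℂ) * Complex.I).im
      simpa using hy
    exact (hc _ hyH).symm
  have h3 : c = 0 := tendsto_nhds_unique h2 h1
  have h4 := hc a ha
  rw [h3] at h4
  exact sub_eq_zero.1 h4

end Crest.Agent.R162
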