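import Crest.Agent.R162.O2

set_option autoImplicit false
open MeasureTheory ProbabilityTheory Set Filter Topology Metric
open scoped ENNReal NNReal ComplexConjugate

namespace Crest.Agent.R162

theorem O2b_ofReal_int {α : Type*} [MeasurableSpace α] (μ : Measure α) (f : α → ℝ) :
    ENNReal.ofReal (∫ x, f x ∂μ) ≤ ∫⁻ x, ENNReal.ofReal (f x) ∂μ := by
  by_cases hf : Integrable f μ
  · have h1 : ∫ x, f x ∂μ ≤ ∫ x, max (f x) 0 ∂μ :=
      integral_mono hf hf.pos_part fun x => le_max_left _ _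
    refine (ENNReal.ofReal_le_ofReal h1).trans (le_of_eq ?_)
    rw [ofReal_integral_eq_lintegral_ofReal hf.pos_part (ae_of_all _ fun x => le_max_right _ _)]
    refine lintegral_congr fun x => ?_
    rcases le_total (f x) 0 with h | h
    · rw [max_eq_right h, ENNReal.ofReal_zero, ENNReal.ofReal_of_nonpos h]
    · rw [max_eq_left h]
  · rw [integral_undef hf]
    simp

theorem O2b_deriv_exp_mul (c : ℝ) {χ : ℝ → ℝ} (hχ : Differentiable ℝ χ) :
    deriv (fun x => Real.exp (c * x) * χ x) =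
      fun x => Real.exp (c * x) * (c * χ x + deriv χ x) := by
  funext x
  have h1 : HasDerivAt (fun x => Real.exp (c * x)) (Real.exp (c * x) * c) x := by
    simpa using ((hasDerivAt_id x).const_mul c).exp
  have h2 : HasDerivAt (fun x => Real.exp (c * x) * χ x)
      (Real.exp (c * x) * c * χ x + Real.exp (c * x) * deriv χ x) x := h1.mul (hχ x).hasDerivAt
  rw [h2.deriv]
  ring

theorem O2b_deriv2_exp_mul (c : ℝ) {χ : ℝ → ℝ} (hχ : ContDiff ℝ 3 χ) :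
    deriv (deriv (fun x => Real.exp (c * x) * χ x)) =
      fun x => Real.exp (c * x) * (c ^ 2 * χ x + 2 * c * deriv χ x + deriv (deriv χ) x) := by
  have h1 : Differentiable ℝ χ := hχ.differentiable (by norm_num)
  have h2 : Differentiable ℝ (deriv χ) :=
    (show ContDiff ℝ (2 + 1) χ from hχ).deriv'.differentiable (by norm_num)
  rw [O2b_deriv_exp_mul c h1, O2b_deriv_exp_mul c ((h1.const_mul c).fun_add h2)]
  funext x
  have h3 : HasDerivAt (fun x => c * χ x + deriv χ x) (c * deriv χ x + deriv (deriv χ) x) x :=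
    ((h1 x).hasDerivAt.const_mul c).add (h2 x).hasDerivAt
  rw [h3.deriv]
  ring

theorem O2b_exp_Sn (e : ℝ) {ζ : ℂ} (hζ : ζ ∈ H) :
    Sn ζ ^ e = Real.exp (-e * Real.log ‖ζ‖) * Real.exp (e * Real.log ζ.im) := by
  have h1 : 0 < ζ.im := hζ
  have h2 : 0 < ‖ζ‖ := h1.trans_le ((le_abs_self _).trans (Complex.abs_im_le_norm ζ))
  rw [Real.rpow_def_of_pos (Sn_pos hζ), ← Real.exp_add, Sn, Real.log_div h1.ne' h2.ne']
  congr 1
  ring

theorem O2b_pat (e : ℝ) (χ1 χ2 k : ℝ → ℝ) {ζ : ℂ} (hζ : ζ ∈ H) (u : ℝ) :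
    pat (fun x => Real.exp (-e * x) * χ1 x) (fun x => Real.exp (e * x) * χ2 x) k ζ u =
      χ1 (Real.log ‖ζ‖) * χ2 (Real.log ζ.im) * atom k e 0 ζ u := by
  rw [pat, indicator_of_mem hζ, atom, O2b_exp_Sn e hζ, Real.rpow_zero]
  ring

theorem O2b_lpat (κ e : ℝ) {χ1 χ2 : ℝ → ℝ} (h1 : ContDiff ℝ 3 χ1) (h2 : ContDiff ℝ 3 χ2)
    (k : ℝ → ℝ) {ζ : ℂ} (hζ : ζ ∈ H) (u : ℝ) :
    lpat κ (fun x => Real.exp (-e * x) * χ1 x) (fun x => Real.exp (e * x) * χ2 x) k ζ u =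
      χ1 (Real.log ‖ζ‖) * χ2 (Real.log ζ.im) * latom κ k e 0 ζ u +
        atom k e 0 ζ u / ‖ζ‖ ^ 2 * (χ2 (Real.log ζ.im) *
          (deriv χ1 (Real.log ‖ζ‖) * ((2 - κ / 2) * (1 - 2 * Sn ζ ^ 2)) +
            κ / 2 * (-2 * e * deriv χ1 (Real.log ‖ζ‖) + deriv (deriv χ1) (Real.log ‖ζ‖)) *
              (1 - Sn ζ ^ 2)) - 2 * χ1 (Real.log ‖ζ‖) * deriv χ2 (Real.log ζ.im)) := by
  rw [lpat, indicator_of_mem hζ, O2b_deriv2_exp_mul _ h1,
    O2b_deriv_exp_mul _ (h1.differentiable (by norm_num)),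
    O2b_deriv_exp_mul _ (h2.differentiable (by norm_num)), atom, latom, O2b_exp_Sn e hζ,
    Real.rpow_zero, zero_sub (2 : ℝ), Real.rpow_neg (norm_nonneg _), Real.rpow_two]
  ring

theorem O2b_atom_nonneg {k : ℝ → ℝ} (hk0 : ∀ x, 0 ≤ k x) (e : ℝ) {ζ : ℂ} (hζ : ζ ∈ H) (u : ℝ) :
    0 ≤ atom k e 0 ζ u :=
  mul_nonneg (mul_nonneg (hk0 _) (Real.rpow_nonneg (Sn_pos hζ).le _))
    (Real.rpow_nonneg (norm_nonneg _) _)

/-- The cut-off functions. -/
theorem O2b_cut {κ : ℝ} (hκ : 0 < κ) {k : ℝ → ℝ} (hk : BC3 k) (hk0 : ∀ x, 0 ≤ k x) {e : ℝ}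
    (he : 0 < e) (h : ∀ ζ ∈ H, ∀ u > 0, latom κ k e 0 ζ u ≤ 0) :
    ∃ C : ℝ, 0 ≤ C ∧ ∀ n : ℝ, ∃ k1 k2 : ℝ → ℝ, PatOK k1 k2 k ∧ ∀ ζ ∈ H, ∀ u > 0,
      pat k1 k2 k ζ u ≤ atom k e 0 ζ u ∧
      (Real.log ‖ζ‖ ≤ n ∧ 1 - n ≤ Real.log ζ.im → pat k1 k2 k ζ u = atom k e 0 ζ u ∧
        lpat κ k1 k2 k ζ u = latom κ k e 0 ζ u) ∧
      -lpat κ k1 k2 k ζ u ≤ -latom κ k e 0 ζ u + C * (atom k e 0 ζ u / ‖ζ‖ ^ 2) := by
  obtain ⟨hst, M, hM⟩ := BC3_st
  have hM0 : 0 ≤ M := (abs_nonneg _).trans (hM 0).1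
  refine ⟨M * |2 - κ / 2| + κ / 2 * (2 * e * M + M) + 2 * M, by positivity, fun n => ?_⟩
  have c1 : ContDiff ℝ 3 fun x => st (n + 1 - x) := hst.comp (by fun_prop)
  have c2 : ContDiff ℝ 3 fun x => st (x + n) := hst.comp (by fun_prop)
  have d1 : deriv (fun x => st (n + 1 - x)) = fun x => -deriv st (n + 1 - x) :=
    funext fun x => deriv_comp_const_sub st (n + 1) x
  have d11 : ∀ x, deriv (deriv (fun x => st (n + 1 - x))) x = deriv (deriv st) (n + 1 - x) := by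
    intro x
    rw [d1, deriv.fun_neg, deriv_comp_const_sub (deriv st) (n + 1) x, neg_neg]
  have d2 : ∀ x, deriv (fun x => st (x + n)) x = deriv st (x + n) :=
    fun x => deriv_comp_add_const st n x
  refine ⟨fun x => Real.exp (-e * x) * st (n + 1 - x), fun x => Real.exp (e * x) * st (x + n),
    ⟨ContDiff.mul (by fun_prop) c1, ContDiff.mul (by fun_prop) c2,
      ⟨n + 1, fun x hx => by rw [st, Real.smoothTransition.zero_of_nonpos (by linarith), mul_zero]⟩,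
      ⟨-n, fun x hx => by rw [st, Real.smoothTransition.zero_of_nonpos (by linarith), mul_zero]⟩,
      hk⟩, fun ζ hζ u hu => ?_⟩
  rw [O2b_pat e _ _ k hζ, O2b_lpat κ e c1 c2 k hζ, d11, d1, d2]
  have a0 := O2b_atom_nonneg hk0 e hζ u
  have l0 := h ζ hζ u hu
  obtain ⟨A, hA⟩ : ∃ A, A = n + 1 - Real.log ‖ζ‖ := ⟨_, rfl⟩
  obtain ⟨L, hL⟩ : ∃ L, L = Real.log ζ.im + n := ⟨_, rfl⟩
  simp only [← hA, ← hL]
  have p1 : 0 ≤ st A := Real.smoothTransition.nonneg A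
  have p2 : st A ≤ 1 := Real.smoothTransition.le_one A
  have p3 : 0 ≤ st L := Real.smoothTransition.nonneg L
  have p4 : st L ≤ 1 := Real.smoothTransition.le_one L
  have p5 : st A * st L ≤ 1 := mul_le_one₀ p2 p3 p4
  have p6 : 0 ≤ st A * st L := mul_nonneg p1 p3
  refine ⟨mul_le_of_le_one_left a0 p5, fun hK => ?_, ?_⟩
  · have hA1 : 1 ≤ A := by linarith [hK.1]
    have hL1 : 1 ≤ L := by linarith [hK.2]
    have e1 : st A = 1 := Real.smoothTransition.one_of_one_le hA1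
    have e2 : st L = 1 := Real.smoothTransition.one_of_one_le hL1
    rw [e1, e2, (st_deriv_eq_zero (Or.inr hA1)).1, (st_deriv_eq_zero (Or.inr hA1)).2,
      (st_deriv_eq_zero (Or.inr hL1)).1]
    constructor <;> ring
  · have s0 := Sn_pos hζ
    have s1 := Sn_le_one ζ
    have s2 : Sn ζ ^ 2 ≤ 1 := pow_le_one₀ s0.le s1
    have s3 : 0 ≤ Sn ζ ^ 2 := sq_nonneg _
    have b1 : |-deriv st A * ((2 - κ / 2) * (1 - 2 * Sn ζ ^ 2))| ≤ M * |2 - κ / 2| := by
      rw [abs_mul, abs_mul, abs_neg]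
      refine mul_le_mul (hM A).2.1 (mul_le_of_le_one_right (abs_nonneg _) ?_) (by positivity) hM0
      rw [abs_le]
      constructor <;> linarith
    have b2 : |κ / 2 * (-2 * e * -deriv st A + deriv (deriv st) A) * (1 - Sn ζ ^ 2)| ≤
        κ / 2 * (2 * e * M + M) := by
      rw [abs_mul, abs_mul, abs_of_pos (half_pos hκ), abs_of_nonneg (sub_nonneg.2 s2)]
      refine (mul_le_of_le_one_right (by positivity) (by linarith)).trans
        (mul_le_mul_of_nonneg_left ((abs_add_le _ _).trans (add_le_add ?_ (hM A).2.2.1))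
          (half_pos hκ).le)
      rw [abs_mul, abs_neg, abs_mul, abs_of_pos he, abs_neg, abs_two]
      exact mul_le_mul_of_nonneg_left (hM A).2.1 (by positivity)
    have b3 : |2 * st A * deriv st L| ≤ 2 * M := by
      rw [abs_mul, abs_mul, abs_two, abs_of_nonneg p1, mul_assoc]
      refine mul_le_mul_of_nonneg_left ?_ zero_le_two
      exact (mul_le_of_le_one_left (abs_nonneg _) p2).trans (hM L).2.1
    have b4 : |st L * (-deriv st A * ((2 - κ / 2) * (1 - 2 * Sn ζ ^ 2)) +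
        κ / 2 * (-2 * e * -deriv st A + deriv (deriv st) A) * (1 - Sn ζ ^ 2))| ≤
        M * |2 - κ / 2| + κ / 2 * (2 * e * M + M) := by
      rw [abs_mul, abs_of_nonneg p3]
      exact (mul_le_of_le_one_left (abs_nonneg _) p4).trans
        ((abs_add_le _ _).trans (add_le_add b1 b2))
    have q0 : 0 ≤ atom k e 0 ζ u / ‖ζ‖ ^ 2 := div_nonneg a0 (sq_nonneg _)
    have b5 := mul_le_mul_of_nonneg_left
      (show -(st L * (-deriv st A * ((2 - κ / 2) * (1 - 2 * Sn ζ ^ 2)) +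
        κ / 2 * (-2 * e * -deriv st A + deriv (deriv st) A) * (1 - Sn ζ ^ 2)) -
        2 * st A * deriv st L) ≤ M * |2 - κ / 2| + κ / 2 * (2 * e * M + M) + 2 * M by
        linarith [(abs_le.1 b4).1, (abs_le.1 b3).2]) q0
    have b6 := mul_le_of_le_one_left (neg_nonneg.2 l0) p5
    linarith

/-- The reverse inequality: the loss `E ∫ 2 χ₁' atom/‖Z‖²` tends to `0` with `y0` by dominated
convergence. -/
theorem exc_rev {κ : ℝ} (hκ : 0 < κ) {P : Measure Path} (hP : IsDrv κ P) {k : ℝ → ℝ} (hk : BC3 k)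
    (hk0 : ∀ x, 0 ≤ k x) {e : ℝ} (he : 0 < e) (h : ∀ ζ ∈ H, ∀ u > 0, latom κ k e 0 ζ u ≤ 0)
    {ζ : ℂ} (hζ : ζ ∈ H) {u T : ℝ} (hu : 0 < u) (hT : 0 ≤ T)
    (hfin : ∫⁻ w, (∫⁻ s in Ioc 0 T,
      ENNReal.ofReal (atom k e 0 (Zf w s ζ) (u * mm w s ζ) / ‖Zf w s ζ‖ ^ 2)) ∂P < ⊤) :
    ENNReal.ofReal (atom k e 0 ζ u) ≤
      ∫⁻ w, ENNReal.ofReal (atom k e 0 (Zf w T ζ) (u * mm w T ζ)) ∂P +
      ∫⁻ w, (∫⁻ s in Ioc 0 T, ENNReal.ofReal (-latom κ k e 0 (Zf w s ζ) (u * mm w s ζ))) ∂P := by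
  have := hP.prob
  obtain ⟨C, hC, hcut⟩ := O2b_cut hκ hk hk0 he h
  obtain ⟨K, hK⟩ : ∃ K : ℕ → Set ℂ,
    K = fun n : ℕ => {ξ : ℂ | Real.log ‖ξ‖ ≤ n ∧ 1 - (n : ℝ) ≤ Real.log ξ.im} := ⟨_, rfl⟩
  have hKm : ∀ n, MeasurableSet (K n) := fun n => by
    rw [hK]
    exact (measurableSet_le (measurable_norm.log) measurable_const).inter
      (measurableSet_le measurable_const (Complex.measurable_im.log))
  have hKev : ∀ ξ : ℂ, ∀ᶠ n in atTop, ξ ∈ K n := fun ξ => by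
    filter_upwards [tendsto_natCast_atTop_atTop.eventually_ge_atTop (Real.log ‖ξ‖),
      tendsto_natCast_atTop_atTop.eventually_ge_atTop (1 - Real.log ξ.im)] with n h1 h2
    rw [hK]
    exact ⟨h1, by linarith⟩
  have hZ : Measurable fun p : Path × ℝ => Zf p.1 p.2 ζ :=
    measurable_Zf.comp (f := fun p : Path × ℝ => (p.1, p.2, ζ)) (by fun_prop)
  have hU : Measurable fun p : Path × ℝ => u * mm p.1 p.2 ζ :=
    (measurable_mm.comp (f := fun p : Path × ℝ => (p.1, p.2, ζ)) (by fun_prop)).const_mul u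
  obtain ⟨G, hG⟩ : ∃ G : Path × ℝ → ℝ≥0∞, G = fun p => ENNReal.ofReal C *
    ENNReal.ofReal (atom k e 0 (Zf p.1 p.2 ζ) (u * mm p.1 p.2 ζ) / ‖Zf p.1 p.2 ζ‖ ^ 2) := ⟨_, rfl⟩
  have hm0 : Measurable fun p : Path × ℝ =>
      ENNReal.ofReal (atom k e 0 (Zf p.1 p.2 ζ) (u * mm p.1 p.2 ζ) / ‖Zf p.1 p.2 ζ‖ ^ 2) :=
    (((measurable_atom hk e 0).comp (hZ.prodMk hU)).div (hZ.norm.pow_const 2)).ennreal_ofReal
  have hGm : Measurable G := by
    rw [hG]
    exact hm0.const_mul _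
  obtain ⟨b, hb⟩ : ∃ b : ℕ → Path × ℝ → ℝ≥0∞,
    b = fun n => ((fun p : Path × ℝ => Zf p.1 p.2 ζ) ⁻¹' (K n)ᶜ).indicator G := ⟨_, rfl⟩
  have hbm : ∀ n, Measurable (b n) := fun n => by
    rw [hb]
    exact hGm.indicator (hZ (hKm n).compl)
  have hlim : Tendsto (fun n => ∫⁻ p, b n p ∂(P.prod (volume.restrict (Ioc 0 T)))) atTop (𝓝 0) := by
    have h1 := tendsto_lintegral_of_dominated_convergence
      (μ := P.prod (volume.restrict (Ioc 0 T))) (F := b) (f := fun _ => 0) G hbm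
      (fun n => ae_of_all _ fun p => by rw [hb]; exact indicator_le_self _ _ p)
      (by
        rw [hG, lintegral_const_mul _ hm0, lintegral_prod _ hm0.aemeasurable]
        exact ENNReal.mul_ne_top ENNReal.ofReal_ne_top hfin.ne)
      (ae_of_all _ fun p => by
        refine tendsto_const_nhds.congr' ?_
        filter_upwards [hKev (Zf p.1 p.2 ζ)] with n hn
        rw [hb]
        exact (indicator_of_notMem
          (show p ∉ (fun p : Path × ℝ => Zf p.1 p.2 ζ) ⁻¹' (K n)ᶜ from fun h' => h' hn) G).symm)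
    simpa using h1
  have key : ∀ n : ℕ, ζ ∈ K n → ENNReal.ofReal (atom k e 0 ζ u) ≤
      ∫⁻ w, ENNReal.ofReal (atom k e 0 (Zf w T ζ) (u * mm w T ζ)) ∂P +
      ∫⁻ w, (∫⁻ s in Ioc 0 T, ENNReal.ofReal (-latom κ k e 0 (Zf w s ζ) (u * mm w s ζ))) ∂P +
      ∫⁻ p, b n p ∂(P.prod (volume.restrict (Ioc 0 T))) := by
    intro n hn
    obtain ⟨k1, k2, hok, hpt⟩ := hcut n
    have hd := dynkin hκ hP hok hζ hu hT
    rw [hK] at hn
    rw [((hpt ζ hζ u hu).2.1 hn).1] at hd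
    have e1 : atom k e 0 ζ u = ∫ w, pat k1 k2 k (Zf w T ζ) (u * mm w T ζ) ∂P +
        ∫ w, (∫ s in Ioc 0 T, -lpat κ k1 k2 k (Zf w s ζ) (u * mm w s ζ)) ∂P := by
      simp only [integral_neg]
      linarith
    rw [e1, add_assoc]
    refine ENNReal.ofReal_add_le.trans (add_le_add ((O2b_ofReal_int _ _).trans
      (lintegral_mono fun w => ?_)) ((O2b_ofReal_int _ _).trans ?_))
    · by_cases hw : Zf w T ζ ∈ H
      · exact ENNReal.ofReal_le_ofReal
          (hpt _ hw _ (mul_pos hu (mm_pos (Zf_mem_iff.1 hw)))).1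
      · simp [pat, indicator_of_notMem hw]
    · rw [lintegral_prod _ (hbm n).aemeasurable,
        ← lintegral_add_right _ (hbm n).lintegral_prod_right']
      refine lintegral_mono fun w => (O2b_ofReal_int _ _).trans ?_
      rw [← lintegral_add_right _
        (show Measurable fun s => b n (w, s) from (hbm n).comp measurable_prodMk_left)]
      refine lintegral_mono fun s => ?_
      by_cases hw : Zf w s ζ ∈ H
      · have h2 := hpt _ hw _ (mul_pos hu (mm_pos (Zf_mem_iff.1 hw)))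
        by_cases hKn : Zf w s ζ ∈ K n
        · rw [hK] at hKn
          simp only [(h2.2.1 hKn).2]
          exact le_self_add
        · refine (ENNReal.ofReal_le_ofReal h2.2.2).trans (ENNReal.ofReal_add_le.trans
            (add_le_add le_rfl (le_of_eq ?_)))
          rw [ENNReal.ofReal_mul hC, hb]
          simp only
          rw [indicator_of_mem (show (w, s) ∈ (fun p : Path × ℝ => Zf p.1 p.2 ζ) ⁻¹' (K n)ᶜ from hKn),
            hG]
      · simp [lpat, indicator_of_notMem hw]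
  have h3 := ge_of_tendsto (hlim.const_add
    (∫⁻ w, ENNReal.ofReal (atom k e 0 (Zf w T ζ) (u * mm w T ζ)) ∂P +
      ∫⁻ w, (∫⁻ s in Ioc 0 T, ENNReal.ofReal (-latom κ k e 0 (Zf w s ζ) (u * mm w s ζ))) ∂P))
    ((hKev ζ).mono key)
  simpa using h3

end Crest.Agent.R162
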