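import Crest.Agent.R162.O3
import Crest.Agent.R162.O2b

set_option autoImplicit false
open MeasureTheory ProbabilityTheory Set Filter Topology Metric
open scoped ENNReal NNReal ComplexConjugate

namespace Crest.Agent.R162

private theorem h67_meas {α : Type*} [MeasurableSpace α] {F : ℂ × ℝ → α} (hF : Measurable F)
    (ζ : ℂ) (u : ℝ) :
    Measurable (fun p : Path × ℝ => F (Zf p.1 p.2 ζ, u * mm p.1 p.2 ζ)) := by
  have h1 : Measurable (fun p : Path × ℝ => ((p.1, p.2, ζ) : Path × ℝ × ℂ)) := by fun_prop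
  exact hF.comp ((measurable_Zf.comp h1).prodMk ((measurable_mm.comp h1).const_mul u))

private theorem h67_cases (w : Path) (s : ℝ) (ζ : ℂ) {u : ℝ} (hu : 0 < u) :
    (Zf w s ζ ∈ H ∧ 0 < u * mm w s ζ) ∨ Zf w s ζ = 0 := by
  by_cases h : ζ ∈ dom w s
  · exact Or.inl ⟨Zf_mem h, mul_pos hu (mm_pos h)⟩
  · exact Or.inr (Zf_dead h)

private theorem h67_atom_zero (k : ℝ → ℝ) {e : ℝ} (he : 0 < e) (β u : ℝ) : atom k e β 0 u = 0 := by
  rw [atom, Sn_zero, Real.zero_rpow he.ne', mul_zero, zero_mul]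

private theorem h67_latom_zero (κ : ℝ) (k : ℝ → ℝ) {e : ℝ} (he : 0 < e) (β u : ℝ) :
    latom κ k e β 0 u = 0 := by
  rw [latom, Sn_zero, Real.zero_rpow he.ne', mul_zero, zero_mul]

private theorem h67_log2 : 0 < Real.log 2 := Real.log_pos one_lt_two

private theorem h67_hasDerivAt_j (c x : ℝ) :
    HasDerivAt (fun x => st ((x - c) / Real.log 2))
      (deriv st ((x - c) / Real.log 2) / Real.log 2) x := by
  have h1 : HasDerivAt (fun x => (x - c) / Real.log 2) (1 / Real.log 2) x :=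
    ((hasDerivAt_id x).sub_const c).div_const _
  have h2 : HasDerivAt st (deriv st ((x - c) / Real.log 2)) ((x - c) / Real.log 2) :=
    ((BC3_st.1.differentiable (by norm_num)) _).hasDerivAt
  have h3 := h2.comp x h1
  rw [mul_one_div] at h3
  exact h3

private theorem h67_BC3_j (c : ℝ) : BC3 (fun x => st ((x - c) / Real.log 2)) := by
  have h := BC3_st.affine (1 / Real.log 2) (-c / Real.log 2)
  convert h using 3 with x
  ring

private theorem h67_kG_nonneg (κ ε x : ℝ) : 0 ≤ kG κ ε x :=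
  mul_nonneg (Real.exp_pos _).le (Real.smoothTransition.nonneg _)

private theorem h67_deriv_kG (κ ε x : ℝ) : (dd κ - 2) * kG κ ε x ≤ deriv (kG κ ε) x := by
  have h1 : HasDerivAt (fun x => Real.exp ((dd κ - 2) * x))
      (Real.exp ((dd κ - 2) * x) * (dd κ - 2)) x := by
    simpa using ((hasDerivAt_id x).const_mul (dd κ - 2)).exp
  have h2 := (h1.mul (h67_hasDerivAt_j (Real.log ε) x)).deriv
  have h3 : deriv (kG κ ε) x = _ := h2
  rw [h3, kG]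
  have h4 := mul_nonneg (Real.exp_pos ((dd κ - 2) * x)).le
    (div_nonneg (st_deriv_nonneg ((x - Real.log ε) / Real.log 2)) h67_log2.le)
  linarith

private theorem h67_kG_le {κ : ℝ} (hκ8 : κ < 8) (ε x : ℝ) :
    kG κ ε x ≤ Real.exp ((dd κ - 2) * Real.log ε) * st ((x - Real.log ε) / Real.log 2) := by
  rw [kG]
  rcases le_total x (Real.log ε) with h | h
  · rw [show st ((x - Real.log ε) / Real.log 2) = 0 from Real.smoothTransition.zero_of_nonpos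
      (div_nonpos_of_nonpos_of_nonneg (by linarith) h67_log2.le), mul_zero, mul_zero]
  · refine mul_le_mul_of_nonneg_right (Real.exp_le_exp.2 ?_) (Real.smoothTransition.nonneg _)
    have : dd κ - 2 ≤ 0 := by unfold dd; linarith
    nlinarith

private theorem h67_norm_rpow {ζ : ℂ} (hζ : ζ ∈ H) (β : ℝ) :
    ‖ζ‖ ^ (β - 2) = ‖ζ‖ ^ β / ‖ζ‖ ^ 2 := by
  have h : 0 < ‖ζ‖ := lt_of_lt_of_le (show 0 < ζ.im from hζ) (Complex.im_le_norm ζ)
  rw [Real.rpow_sub h, Real.rpow_two]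

private theorem h67_kaa {κ : ℝ} (hκ : 0 < κ) : κ * aa κ = 8 - κ := by
  unfold aa
  field_simp

/-- `exc` for `Υ^(d-2) [S^c + C' S^a (log (Υ/ε) + 1)] j`, `j` switched off on `[ε/2, ε]`
(`L (G log Υ) = -4 G` in the clock `S²/‖ζ‖²`); its negative generator dominates
`c' Υ^(d-2) S^c j/‖ζ‖²`. -/
theorem occ_fin {κ : ℝ} (hκ : 0 < κ) (hκ8 : κ < 8) {P : Measure Path} (hP : IsDrv κ P) {ζ : ℂ}
    (hζ : ζ ∈ H) {u ε T : ℝ} (hu : 0 < u) (hε : 0 < ε) (hT : 0 ≤ T) :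
    ∫⁻ w, (∫⁻ s in Ioc 0 T, ENNReal.ofReal
      (atom (kG κ ε) (aa κ) 0 (Zf w s ζ) (u * mm w s ζ) / ‖Zf w s ζ‖ ^ 2)) ∂P < ⊤ := by
  obtain ⟨hc0, hca, hc1⟩ := cO_pos hκ hκ8
  have hka := h67_kaa hκ
  have ha := aa_pos hκ hκ8
  obtain ⟨j, hj⟩ : ∃ j : ℝ → ℝ, j = fun x => st ((x - Real.log ε) / Real.log 2) := ⟨_, rfl⟩
  have hj0 : ∀ x, 0 ≤ j x := fun x => hj ▸ Real.smoothTransition.nonneg _
  have hj1 : ∀ x, 0 ≤ deriv j x := fun x => by
    rw [hj, (h67_hasDerivAt_j _ x).deriv]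
    exact div_nonneg (st_deriv_nonneg _) h67_log2.le
  obtain ⟨m, hm, hm1, hm2⟩ : ∃ m : ℝ, 0 < m ∧ m ≤ κ / 2 * cO κ * (aa κ - cO κ) ∧
      m ≤ κ / 2 * cO κ :=
    ⟨min _ _, lt_min (by have := sub_pos.2 hca; positivity) (by positivity), min_le_left _ _,
      min_le_right _ _⟩
  have key : ∀ ξ ∈ H, ∀ v : ℝ, m * (j (Real.log v) * Sn ξ ^ cO κ / ‖ξ‖ ^ 2) ≤
      -latom κ j (cO κ) 0 ξ v := by
    intro ξ hξ v
    have hS0 := Sn_pos hξ
    have hS1 := Sn_le_one ξ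
    have hS2 : Sn ξ ^ 2 ≤ 1 := pow_le_one₀ hS0.le hS1
    have hΛ : (0 - cO κ) * (2 - κ / 2) * (1 - 2 * Sn ξ ^ 2) +
        κ / 2 * (0 - cO κ) ^ 2 * (1 - Sn ξ ^ 2) - 2 * cO κ ≤ -m := by
      have h1 : (0 - cO κ) * (2 - κ / 2) * (1 - 2 * Sn ξ ^ 2) +
          κ / 2 * (0 - cO κ) ^ 2 * (1 - Sn ξ ^ 2) - 2 * cO κ =
          -(κ / 2 * cO κ * (aa κ - cO κ)) * (1 - Sn ξ ^ 2) - κ / 2 * cO κ * Sn ξ ^ 2 := by
        linear_combination (cO κ / 2 * (1 - Sn ξ ^ 2)) * hka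
      rw [h1]
      nlinarith [sq_nonneg (Sn ξ)]
    rw [latom, h67_norm_rpow hξ, Real.rpow_zero]
    have h2 : j (Real.log v) * ((0 - cO κ) * (2 - κ / 2) * (1 - 2 * Sn ξ ^ 2) +
        κ / 2 * (0 - cO κ) ^ 2 * (1 - Sn ξ ^ 2) - 2 * cO κ) -
        4 * Sn ξ ^ 2 * deriv j (Real.log v) ≤ -m * j (Real.log v) := by
      have h3 := mul_le_mul_of_nonneg_left hΛ (hj0 (Real.log v))
      have h4 := mul_nonneg (sq_nonneg (Sn ξ)) (hj1 (Real.log v))
      linarith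
    have h3 : 0 ≤ 1 / ‖ξ‖ ^ 2 * Sn ξ ^ cO κ := by positivity
    have h4 := mul_le_mul_of_nonneg_left h2 h3
    calc m * (j (Real.log v) * Sn ξ ^ cO κ / ‖ξ‖ ^ 2)
        = -(1 / ‖ξ‖ ^ 2 * Sn ξ ^ cO κ * (-m * j (Real.log v))) := by ring
      _ ≤ _ := neg_le_neg h4
  have hok : AtomOK ![j] ![cO κ] ![0] :=
    ⟨fun i => by fin_cases i; simpa [hj] using h67_BC3_j (Real.log ε),
      fun i => by fin_cases i; simpa using hc0, fun i => by fin_cases i; simp,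
      fun i => by fin_cases i; simp⟩
  have has : ∀ ξ v, asum ![j] ![cO κ] ![0] ξ v = atom j (cO κ) 0 ξ v := fun ξ v => by
    simp [asum]
  have hls : ∀ ξ v, lsum κ ![j] ![cO κ] ![0] ξ v = latom κ j (cO κ) 0 ξ v := fun ξ v => by
    simp [lsum]
  have hexc := exc hκ hP hok (fun ξ hξ v _ => by
    rw [has, hls]
    have h1 := key ξ hξ v
    have h2 := hj0 (Real.log v)
    have h3 := (Sn_pos hξ).le
    have h4 : 0 ≤ m * (j (Real.log v) * Sn ξ ^ cO κ / ‖ξ‖ ^ 2) := by positivity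
    exact ⟨by unfold atom; positivity, by linarith⟩) hζ hu hT
  simp only [hls] at hexc
  have hfin := (le_add_self.trans hexc).trans_lt ENNReal.ofReal_lt_top
  obtain ⟨K, hK⟩ : ∃ K : ℝ, K = Real.exp ((dd κ - 2) * Real.log ε) / m := ⟨_, rfl⟩
  have hK0 : 0 ≤ K := by rw [hK]; positivity
  have hpt : ∀ (w : Path) (s : ℝ), ENNReal.ofReal
      (atom (kG κ ε) (aa κ) 0 (Zf w s ζ) (u * mm w s ζ) / ‖Zf w s ζ‖ ^ 2) ≤
      ENNReal.ofReal K * ENNReal.ofReal (-latom κ j (cO κ) 0 (Zf w s ζ) (u * mm w s ζ)) := by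
    intro w s
    rcases h67_cases w s ζ hu with ⟨h1, _⟩ | h1
    · rw [← ENNReal.ofReal_mul hK0]
      refine ENNReal.ofReal_le_ofReal (le_trans ?_ (mul_le_mul_of_nonneg_left (key _ h1 _) hK0))
      rw [← mul_assoc, hK, div_mul_cancel₀ _ hm.ne', ← mul_div_assoc, atom, Real.rpow_zero, mul_one,
        ← mul_assoc]
      refine div_le_div_of_nonneg_right (mul_le_mul ?_ ?_ (Real.rpow_nonneg (Sn_pos h1).le _) ?_)
        (sq_nonneg _)
      · rw [hj]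
        exact h67_kG_le hκ8 ε _
      · exact Real.rpow_le_rpow_of_exponent_ge (Sn_pos h1) (Sn_le_one _) hca.le
      · exact mul_nonneg (Real.exp_pos _).le (hj0 _)
    · rw [h1, h67_atom_zero _ ha, zero_div, ENNReal.ofReal_zero]
      exact zero_le
  refine lt_of_le_of_lt (lintegral_mono fun w => lintegral_mono fun s => hpt w s) ?_
  simp only [lintegral_const_mul' _ _ ENNReal.ofReal_ne_top]
  exact ENNReal.mul_lt_top ENNReal.ofReal_lt_top hfin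

private theorem h67_Le {κ a t q : ℝ} (hka : κ * a = 8 - κ) (ht : 0 ≤ t) (hβ : κ * t ≤ 1)
    (hq : q ≤ 1) :
    (κ * t - (a + κ * t - 2 * t)) * (2 - κ / 2) * (1 - 2 * q) +
      κ / 2 * (κ * t - (a + κ * t - 2 * t)) ^ 2 * (1 - q) - 2 * (a + κ * t - 2 * t) +
      4 * (2 - (1 + κ / 8)) * q ≤ -(κ * t) := by
  have h1 : (κ * t - (a + κ * t - 2 * t)) * (2 - κ / 2) * (1 - 2 * q) +
      κ / 2 * (κ * t - (a + κ * t - 2 * t)) ^ 2 * (1 - q) - 2 * (a + κ * t - 2 * t) +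
      4 * (2 - (1 + κ / 8)) * q = -(κ * t) - t * (8 - 2 * (κ * t)) * (1 - q) := by
    linear_combination ((a / 2 - 2 * t) * (1 - q) - q / 2) * hka
  rw [h1]
  have h2 : 0 ≤ t * (8 - 2 * (κ * t)) * (1 - q) :=
    mul_nonneg (mul_nonneg ht (by linarith)) (by linarith)
  linarith

private theorem h67_Lc {κ a c β q : ℝ} (hκ : 0 < κ) (hκ8 : κ < 8) (hka : κ * a = 8 - κ)
    (hc : 0 < c) (hβ0 : 0 < β) (hβ1 : β < 1) (hβ : 4 * β ≤ κ / 2 * c * (a - c)) (hq0 : 0 ≤ q)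
    (hq : q ≤ 1) :
    (β - c) * (2 - κ / 2) * (1 - 2 * q) + κ / 2 * (β - c) ^ 2 * (1 - q) - 2 * c +
      4 * (2 - (1 + κ / 8)) * q ≤
      -(κ / 2 * c * (a - c) / 2) + (κ / 2 * c * (a - c) + 10) * q := by
  obtain ⟨A, hA⟩ : ∃ A : ℝ, A = κ / 2 * c * (a - c) := ⟨_, rfl⟩
  have h1 : (β - c) * (2 - κ / 2) * (1 - 2 * q) + κ / 2 * (β - c) ^ 2 * (1 - q) - 2 * c +
      4 * (2 - (1 + κ / 8)) * q =
      (-(κ / 2 * c * (a - c)) + β * (2 - κ / 2) + κ / 2 * (β ^ 2 - 2 * β * c)) * (1 - q) +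
        (4 - κ / 2 - κ / 2 * c + β * (κ / 2 - 2)) * q := by
    linear_combination (c / 2 * (1 - q)) * hka
  rw [h1]
  rw [← hA] at hβ ⊢
  have h2 : -A + β * (2 - κ / 2) + κ / 2 * (β ^ 2 - 2 * β * c) ≤ -(A / 2) := by
    have h3 : β ^ 2 - 2 * β * c ≤ β := by nlinarith [mul_pos hβ0 hc]
    have h4 : κ / 2 * (β ^ 2 - 2 * β * c) ≤ κ / 2 * β :=
      mul_le_mul_of_nonneg_left h3 (by positivity)
    linarith
  have h3 : 4 - κ / 2 - κ / 2 * c + β * (κ / 2 - 2) ≤ 10 := by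
    have h4 : β * κ ≤ 1 * 8 := mul_le_mul hβ1.le hκ8.le hκ.le zero_le_one
    have h5 := mul_pos hκ hc
    linarith
  have h4 := mul_le_mul_of_nonneg_right h2 (show 0 ≤ 1 - q by linarith)
  have h5 := mul_le_mul_of_nonneg_right h3 hq0
  have h6 : 0 ≤ A * q := mul_nonneg (by linarith) hq0
  linarith

private theorem h67_comb {A β e c σ η S X Y : ℝ} (hA : 0 < A) (hβ : 0 < β) (he : 0 < e)
    (hc : 0 < c) (hσ : 0 < σ) (hσ1 : (A + 10) * σ = A / 4) (hη : 0 < η)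
    (hη1 : η * (A + 10) = β / 2 * σ ^ e) (hS0 : 0 < S) (hS1 : S ≤ 1) (hX : X ≤ -β)
    (hY : Y ≤ -(A / 2) + (A + 10) * S ^ 2) :
    S ^ e * X + η * S ^ c * Y ≤ -min (β / 2) (A / 4) * (S ^ e + η * S ^ c) := by
  have hS2 : S ^ 2 ≤ S := by nlinarith
  have hSe : 0 < S ^ e := Real.rpow_pos_of_pos hS0 _
  have hSc : 0 < S ^ c := Real.rpow_pos_of_pos hS0 _
  have hSc1 : S ^ c ≤ 1 := Real.rpow_le_one hS0.le hS1 hc.le
  have h1 := mul_le_mul_of_nonneg_left hX hSe.le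
  have h2 := mul_le_mul_of_nonneg_left hY (mul_pos hη hSc).le
  have hm1 := mul_le_mul_of_nonneg_right (min_le_left (β / 2) (A / 4)) hSe.le
  have hm2 := mul_le_mul_of_nonneg_right (min_le_right (β / 2) (A / 4)) (mul_pos hη hSc).le
  have h3 : η * S ^ c * (-(A / 4) + (A + 10) * S ^ 2) ≤ β / 2 * S ^ e := by
    rcases le_total S σ with h | h
    · have h3 : (A + 10) * S ^ 2 ≤ (A + 10) * σ :=
        mul_le_mul_of_nonneg_left (hS2.trans h) (by linarith)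
      have h4 : -(A / 4) + (A + 10) * S ^ 2 ≤ 0 := by linarith
      have h5 := mul_nonpos_of_nonneg_of_nonpos (mul_pos hη hSc).le h4
      have h6 : 0 ≤ β / 2 * S ^ e := by positivity
      linarith
    · have h4 : σ ^ e ≤ S ^ e := Real.rpow_le_rpow hσ.le h he.le
      have h3 : (A + 10) * S ^ 2 ≤ (A + 10) * 1 :=
        mul_le_mul_of_nonneg_left (hS2.trans hS1) (by linarith)
      have h5 : -(A / 4) + (A + 10) * S ^ 2 ≤ A + 10 := by linarith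
      have h6 := mul_le_mul_of_nonneg_left h5 (mul_pos hη hSc).le
      have h7 : η * S ^ c * (A + 10) ≤ η * 1 * (A + 10) := by gcongr
      have h8 := mul_le_mul_of_nonneg_left h4 (show 0 ≤ β / 2 by positivity)
      linarith
  linarith

/-- Exponents for the transience estimate. `Λ e β S` is affine in `S²`; at `S = 1` it is
`(κ/2)(a - e) + β (κ/2 - 2)`, at `S = 0` it is `p (2 - κ/2) + (κ/2) p² - 2 e`, `p = β - e`. Take
`e = a + β (1 - 4/κ) + β²`-like (value at `S = 0` is `-16 β/κ + O(β²)`), `β` small, then `η` small. -/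
theorem exists_transient {κ : ℝ} (hκ : 0 < κ) (hκ8 : κ < 8) :
    ∃ β e η c : ℝ, 0 < β ∧ β < 1 ∧ 0 < e ∧ 0 < η ∧ 0 < c ∧ ∀ S : ℝ, 0 < S → S ≤ 1 →
      S ^ e * ((β - e) * (2 - κ / 2) * (1 - 2 * S ^ 2) + κ / 2 * (β - e) ^ 2 * (1 - S ^ 2) - 2 * e +
          4 * (2 - dd κ) * S ^ 2) +
        η * S ^ cO κ * ((β - cO κ) * (2 - κ / 2) * (1 - 2 * S ^ 2) +
          κ / 2 * (β - cO κ) ^ 2 * (1 - S ^ 2) - 2 * cO κ + 4 * (2 - dd κ) * S ^ 2) ≤
      -c * (S ^ e + η * S ^ cO κ) := by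
  obtain ⟨hc0, hca, hc1⟩ := cO_pos hκ hκ8
  have hka := h67_kaa hκ
  have ha := aa_pos hκ hκ8
  have hA0 : 0 < κ / 2 * cO κ * (aa κ - cO κ) := by have := sub_pos.2 hca; positivity
  obtain ⟨t, ht, ht1, ht2, ht3⟩ : ∃ t : ℝ, 0 < t ∧ t ≤ 1 / 8 ∧ t ≤ aa κ / 4 ∧
      t ≤ κ / 2 * cO κ * (aa κ - cO κ) / 100 :=
    ⟨min (1 / 8) (min (aa κ / 4) _), lt_min (by norm_num) (lt_min (by positivity)
      (by positivity)), min_le_left _ _, (min_le_right _ _).trans (min_le_left _ _),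
      (min_le_right _ _).trans (min_le_right _ _)⟩
  have hβ0 : 0 < κ * t := by positivity
  have hβ8 : κ * t < 8 * t := mul_lt_mul_of_pos_right hκ8 ht
  have hβ1 : κ * t < 1 := by linarith
  have he0 : 0 < aa κ + κ * t - 2 * t := by linarith
  obtain ⟨σ, hσ, hσ1⟩ : ∃ σ : ℝ, 0 < σ ∧
      (κ / 2 * cO κ * (aa κ - cO κ) + 10) * σ = κ / 2 * cO κ * (aa κ - cO κ) / 4 :=
    ⟨κ / 2 * cO κ * (aa κ - cO κ) / 4 / (κ / 2 * cO κ * (aa κ - cO κ) + 10), by positivity,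
      mul_div_cancel₀ _ (by positivity)⟩
  have hσe : 0 < σ ^ (aa κ + κ * t - 2 * t) := Real.rpow_pos_of_pos hσ _
  obtain ⟨η, hη, hη1⟩ : ∃ η : ℝ, 0 < η ∧
      η * (κ / 2 * cO κ * (aa κ - cO κ) + 10) = κ * t / 2 * σ ^ (aa κ + κ * t - 2 * t) :=
    ⟨κ * t / 2 * σ ^ (aa κ + κ * t - 2 * t) / (κ / 2 * cO κ * (aa κ - cO κ) + 10), by positivity,
      div_mul_cancel₀ _ (by positivity)⟩
  refine ⟨κ * t, aa κ + κ * t - 2 * t, η, min (κ * t / 2) (κ / 2 * cO κ * (aa κ - cO κ) / 4), hβ0,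
    hβ1, he0, hη, lt_min (by positivity) (by positivity), fun S hS0 hS1 => ?_⟩
  have hS2 : S ^ 2 ≤ 1 := pow_le_one₀ hS0.le hS1
  exact h67_comb hA0 hβ0 he0 hc0 hσ hσ1 hη hη1 hS0 hS1 (h67_Le hka ht.le hβ1.le hS2)
    (h67_Lc hκ hκ8 hka hc0 hβ0 hβ1 (by linarith) (sq_nonneg S) hS2)

private theorem h67_exc1 {κ : ℝ} (hκ : 0 < κ) {P : Measure Path} (hP : IsDrv κ P) {k : ℝ → ℝ}
    (hk : BC3 k) (hk0 : ∀ x, 0 ≤ k x) {e : ℝ} (he : 0 < e)
    (h : ∀ ζ ∈ H, ∀ u > 0, latom κ k e 0 ζ u ≤ 0) {ζ : ℂ} (hζ : ζ ∈ H) {u T : ℝ} (hu : 0 < u)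
    (hT : 0 ≤ T) :
    ∫⁻ w, ENNReal.ofReal (atom k e 0 (Zf w T ζ) (u * mm w T ζ)) ∂P ≤
      ENNReal.ofReal (atom k e 0 ζ u) := by
  have hok : AtomOK ![k] ![e] ![0] :=
    ⟨fun i => by fin_cases i; simpa using hk,
      fun i => by fin_cases i; simpa using he, fun i => by fin_cases i; simp,
      fun i => by fin_cases i; simp⟩
  have has : ∀ ξ v, asum ![k] ![e] ![0] ξ v = atom k e 0 ξ v := fun ξ v => by
    simp [asum]
  have hls : ∀ ξ v, lsum κ ![k] ![e] ![0] ξ v = latom κ k e 0 ξ v := fun ξ v => by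
    simp [lsum]
  have hexc := exc hκ hP hok (fun ξ hξ v hv => by
    rw [has, hls]
    have h2 := hk0 (Real.log v)
    have h3 := (Sn_pos hξ).le
    exact ⟨by unfold atom; positivity, h ξ hξ v hv⟩) hζ hu hT
  simp only [has] at hexc
  exact le_self_add.trans hexc

private theorem h67_latom_kG_nonpos {κ : ℝ} (hκ : 0 < κ) (hκ8 : κ < 8) (ε : ℝ) :
    ∀ ζ ∈ H, ∀ u > 0, latom κ (kG κ ε) (aa κ) 0 ζ u ≤ 0 := by
  intro ζ hζ u hu
  rw [latom_kG hκ hκ8 ε hζ hu, neg_nonpos]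
  have h1 := st_deriv_nonneg ((Real.log u - Real.log ε) / Real.log 2)
  have h2 := h67_log2
  have h3 := Sn_pos hζ
  have h4 : 0 < u := hu
  positivity

private theorem h67_mono {κ : ℝ} (hκ : 0 < κ) (hκ8 : κ < 8) {P : Measure Path} (hP : IsDrv κ P)
    (ζ : ℂ) {u s T : ℝ} (ε : ℝ) (hu : 0 < u) (hs : 0 ≤ s) (hT : s ≤ T) :
    ∫⁻ w, ENNReal.ofReal (atom (kG κ ε) (aa κ) 0 (Zf w T ζ) (u * mm w T ζ)) ∂P ≤
      ∫⁻ w, ENNReal.ofReal (atom (kG κ ε) (aa κ) 0 (Zf w s ζ) (u * mm w s ζ)) ∂P := by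
  obtain ⟨t, rfl⟩ : ∃ t, T = s + t := ⟨T - s, by ring⟩
  have ht : 0 ≤ t := by linarith
  have hm : Measurable fun w : Path =>
      ENNReal.ofReal (atom (kG κ ε) (aa κ) 0 (Zf w (s + t) ζ) (u * mm w (s + t) ζ)) :=
    ((h67_meas (measurable_atom (BC3_kG hκ hκ8 ε) (aa κ) 0) ζ u).comp
      (measurable_id.prodMk measurable_const)).ennreal_ofReal
  rw [hP.lintegral_markov hs hm]
  refine lintegral_mono fun w => ?_
  simp only [Zf_concat_add _ _ hs ht, mm_concat_add _ _ hs ht, ← mul_assoc]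
  rcases h67_cases w s ζ hu with ⟨h1, h2⟩ | h1
  · exact h67_exc1 hκ hP (BC3_kG hκ hκ8 ε) (h67_kG_nonneg κ ε) (aa_pos hκ hκ8)
      (h67_latom_kG_nonpos hκ hκ8 ε) h1 h2 ht
  · have h0 : ∀ w' : Path, Zf w' t 0 = 0 := fun w' =>
      Zf_dead fun h => by simpa [H] using dom_subset w' t h
    simp only [h1, h0, h67_atom_zero _ (aa_pos hκ hκ8), ENNReal.ofReal_zero, lintegral_zero,
      le_refl]

private theorem h67_near_I {ζ : ℂ} (h : ‖ζ - Complex.I‖ ≤ 1 / 2) :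
    1 / 2 ≤ ζ.im ∧ ‖ζ‖ ≤ 3 / 2 := by
  constructor
  · have h1 := (Complex.abs_im_le_norm (ζ - Complex.I)).trans h
    rw [abs_le] at h1
    simp only [Complex.sub_im, Complex.I_im] at h1
    linarith [h1.1]
  · have h1 := norm_add_le (ζ - Complex.I) Complex.I
    rw [sub_add_cancel, Complex.norm_I] at h1
    linarith

private theorem h67_exp_log (κ : ℝ) {u : ℝ} (hu : 0 < u) :
    Real.exp ((dd κ - 2) * Real.log u) = u ^ (dd κ - 2) := by
  rw [Real.rpow_def_of_pos hu, mul_comm]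

private theorem h67_split {N R r β : ℝ} (hN : 0 < N) (hR : 0 < R) (hr : 0 < r) (hβ : 0 < β)
    (hβ1 : β < 1) (h : R ^ β * r = 1) : 1 ≤ r * (R ^ 2 * (N ^ β / N ^ 2) + N ^ β) := by
  have h1 : 0 < N ^ β := Real.rpow_pos_of_pos hN _
  rcases le_total N R with hNR | hNR
  · have h2 : R ^ (β - 2) ≤ N ^ (β - 2) := Real.rpow_le_rpow_of_nonpos hN hNR (by linarith)
    rw [Real.rpow_sub hR, Real.rpow_sub hN, Real.rpow_two, Real.rpow_two,
      div_le_iff₀ (by positivity)] at h2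
    have h3 := mul_le_mul_of_nonneg_left h2 hr.le
    have h4 := mul_pos hr h1
    linarith
  · have h2 : R ^ β ≤ N ^ β := Real.rpow_le_rpow hR.le hNR hβ.le
    have h3 := mul_le_mul_of_nonneg_left h2 hr.le
    have h4 : 0 ≤ r * (R ^ 2 * (N ^ β / N ^ 2)) := by positivity
    linarith

/-- `Ψ = kG ‖ζ‖^β (S^e + η S^c) ≥ η ‖ζ‖^β atom`. `exc` gives `E Ψ_t ≤ Ψ_0` and
`c E ∫₀ᵀ Ψ/‖Z‖² ≤ Ψ_0`; `t ↦ E atom (state t)` is non-increasing (`exc` + Markov), and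
`atom ≤ T^(1-β/2) Ψ/(η ‖Z‖²) + T^(-β/2) Ψ/η` (cases `‖Z‖ ≤ √T` or not). -/
theorem tail_G {κ : ℝ} (hκ : 0 < κ) (hκ8 : κ < 8) {P : Measure Path} (hP : IsDrv κ P) {δ : ℝ}
    (hδ : 0 < δ) : ∃ T : ℝ, 0 < T ∧ ∀ ζ : ℂ, ‖ζ - Complex.I‖ ≤ 1 / 2 → ∀ u > 0, ∀ ε > 0,
      ∫⁻ w, ENNReal.ofReal (atom (kG κ ε) (aa κ) 0 (Zf w T ζ) (u * mm w T ζ)) ∂P ≤
      ENNReal.ofReal (δ * u ^ (dd κ - 2)) := by
  obtain ⟨β, e, η, c, hβ, hβ1, he, hη, hc, htr⟩ := exists_transient hκ hκ8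
  obtain ⟨hc0, hca, hc1⟩ := cO_pos hκ hκ8
  have ha := aa_pos hκ hκ8
  have := hP.prob
  obtain ⟨r, hr, hrδ⟩ : ∃ r : ℝ, 0 < r ∧ r * ((1 / (η * c) + 1 / η) * (2 * (1 + η))) = δ :=
    ⟨δ / ((1 / (η * c) + 1 / η) * (2 * (1 + η))), by positivity, div_mul_cancel₀ _ (by positivity)⟩
  obtain ⟨R, hR, hRβ⟩ : ∃ R : ℝ, 0 < R ∧ R ^ β * r = 1 :=
    ⟨r⁻¹ ^ β⁻¹, by positivity, by
      rw [Real.rpow_inv_rpow (by positivity) hβ.ne', inv_mul_cancel₀ hr.ne']⟩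
  refine ⟨R ^ 2, by positivity, fun ζ hζI u hu ε hε => ?_⟩
  obtain ⟨hζ1, hζ2⟩ := h67_near_I hζI
  have hζ : ζ ∈ H := show 0 < ζ.im by linarith
  have hkG := BC3_kG hκ hκ8 ε
  have hok : AtomOK ![kG κ ε, fun x => η * kG κ ε x] ![e, cO κ] ![β, β] :=
    ⟨fun i => by
      fin_cases i
      · simpa using hkG
      · simpa using hkG.const_mul η,
      fun i => by fin_cases i <;> simpa, fun i => by fin_cases i <;> simpa using hβ.le,
      fun i => by fin_cases i <;> simpa using hβ1.trans one_lt_two⟩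
  obtain ⟨A, hA⟩ : ∃ A : ℂ → ℝ → ℝ, A = asum ![kG κ ε, fun x => η * kG κ ε x] ![e, cO κ] ![β, β] :=
    ⟨_, rfl⟩
  obtain ⟨L, hL⟩ : ∃ L : ℂ → ℝ → ℝ,
      L = lsum κ ![kG κ ε, fun x => η * kG κ ε x] ![e, cO κ] ![β, β] := ⟨_, rfl⟩
  have has : ∀ ξ v, A ξ v = kG κ ε (Real.log v) * (Sn ξ ^ e + η * Sn ξ ^ cO κ) * ‖ξ‖ ^ β := by
    intro ξ v
    simp only [hA, asum, Fin.sum_univ_two, Matrix.cons_val_zero, Matrix.cons_val_one, atom]
    ring
  have hls : ∀ ξ v, L ξ v = latom κ (kG κ ε) e β ξ v + latom κ (fun x => η * kG κ ε x) (cO κ) β ξ v := by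
    intro ξ v
    simp only [hL, lsum, Fin.sum_univ_two, Matrix.cons_val_zero, Matrix.cons_val_one]
  have hA0 : ∀ ξ ∈ H, ∀ v, 0 ≤ A ξ v := by
    intro ξ hξ v
    rw [has]
    have h1 := h67_kG_nonneg κ ε (Real.log v)
    have h2 := Sn_pos hξ
    positivity
  have key : ∀ ξ ∈ H, ∀ v, c * (A ξ v / ‖ξ‖ ^ 2) ≤ -L ξ v := by
    intro ξ hξ v
    have hS0 := Sn_pos hξ
    have h1 := htr (Sn ξ) hS0 (Sn_le_one ξ)
    have h2 := h67_deriv_kG κ ε (Real.log v)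
    have h3 := h67_kG_nonneg κ ε (Real.log v)
    rw [has, hls, latom, latom, h67_norm_rpow hξ, deriv_const_mul_field']
    have hN : 0 ≤ ‖ξ‖ ^ β / ‖ξ‖ ^ 2 := by positivity
    have h4 := mul_le_mul_of_nonneg_left h1 (mul_nonneg hN h3)
    have h5 : 0 ≤ ‖ξ‖ ^ β / ‖ξ‖ ^ 2 * (4 * Sn ξ ^ 2 * (Sn ξ ^ e + η * Sn ξ ^ cO κ)) := by
      positivity
    have h6 := mul_le_mul_of_nonneg_left h2 h5
    rw [mul_div_assoc]
    linarith
  have hexc : ∀ T : ℝ, 0 ≤ T → ∫⁻ w, ENNReal.ofReal (A (Zf w T ζ) (u * mm w T ζ)) ∂P +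
      ∫⁻ w, (∫⁻ s in Ioc 0 T, ENNReal.ofReal (-L (Zf w s ζ) (u * mm w s ζ))) ∂P ≤
      ENNReal.ofReal (A ζ u) := by
    intro T hT
    have h := exc hκ hP hok (fun ξ hξ v _ => by
      rw [← hA, ← hL]
      have h1 := key ξ hξ v
      have h2 := hA0 ξ hξ v
      have h3 : 0 ≤ c * (A ξ v / ‖ξ‖ ^ 2) := by positivity
      exact ⟨h2, by linarith⟩) hζ hu hT
    rwa [← hA, ← hL] at h
  have hmL : Measurable fun p : Path × ℝ =>
      ENNReal.ofReal (-L (Zf p.1 p.2 ζ) (u * mm p.1 p.2 ζ)) := by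
    simp only [hls]
    exact ((h67_meas (measurable_latom κ hkG e β) ζ u).add
      (h67_meas (measurable_latom κ (hkG.const_mul η) (cO κ) β) ζ u)).neg.ennreal_ofReal
  obtain ⟨K₁, hK₁⟩ : ∃ K : ℝ, K = r * R ^ 2 / (η * c) := ⟨_, rfl⟩
  obtain ⟨K₂, hK₂⟩ : ∃ K : ℝ, K = r / η := ⟨_, rfl⟩
  have hK₁0 : 0 ≤ K₁ := by rw [hK₁]; positivity
  have hK₂0 : 0 ≤ K₂ := by rw [hK₂]; positivity
  have hpt : ∀ (w : Path) (s : ℝ),
      ENNReal.ofReal (atom (kG κ ε) (aa κ) 0 (Zf w s ζ) (u * mm w s ζ)) ≤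
      ENNReal.ofReal K₁ * ENNReal.ofReal (-L (Zf w s ζ) (u * mm w s ζ)) +
        ENNReal.ofReal K₂ * ENNReal.ofReal (A (Zf w s ζ) (u * mm w s ζ)) := by
    intro w s
    rcases h67_cases w s ζ hu with ⟨h1, _⟩ | h1
    · rw [← ENNReal.ofReal_mul hK₁0, ← ENNReal.ofReal_mul hK₂0]
      refine le_trans (ENNReal.ofReal_le_ofReal ?_) ENNReal.ofReal_add_le
      generalize Zf w s ζ = ξ at h1
      generalize u * mm w s ζ = v
      have hN : 0 < ‖ξ‖ := lt_of_lt_of_le (show 0 < ξ.im from h1) (Complex.im_le_norm ξ)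
      have hS0 := Sn_pos h1
      have h2 := h67_split hN hR hr hβ hβ1 hRβ
      have h3 := h67_kG_nonneg κ ε (Real.log v)
      have h4 : Sn ξ ^ aa κ ≤ Sn ξ ^ cO κ :=
        Real.rpow_le_rpow_of_exponent_ge hS0 (Sn_le_one _) hca.le
      have h5 := mul_le_mul_of_nonneg_left (key ξ h1 v) hK₁0
      have h6 : K₁ * (c * (A ξ v / ‖ξ‖ ^ 2)) + K₂ * A ξ v =
          kG κ ε (Real.log v) * (Sn ξ ^ e / η + Sn ξ ^ cO κ) *
            (r * (R ^ 2 * (‖ξ‖ ^ β / ‖ξ‖ ^ 2) + ‖ξ‖ ^ β)) := by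
        rw [has, hK₁, hK₂]
        field_simp
      have h7 : 0 ≤ kG κ ε (Real.log v) * (Sn ξ ^ e / η + Sn ξ ^ cO κ) := by positivity
      have h8 := mul_le_mul_of_nonneg_left h2 h7
      have h9 := mul_le_mul_of_nonneg_left h4 h3
      have h10 : 0 ≤ kG κ ε (Real.log v) * (Sn ξ ^ e / η) := by positivity
      rw [atom, Real.rpow_zero]
      linarith
    · rw [h1, h67_atom_zero _ ha, ENNReal.ofReal_zero]
      exact zero_le
  have hT0 : (0 : ℝ) < R ^ 2 := by positivity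
  have hstep : ∀ s ∈ Ioc (0 : ℝ) (R ^ 2),
      ∫⁻ w, ENNReal.ofReal (atom (kG κ ε) (aa κ) 0 (Zf w (R ^ 2) ζ) (u * mm w (R ^ 2) ζ)) ∂P ≤
      ENNReal.ofReal K₁ * ∫⁻ w, ENNReal.ofReal (-L (Zf w s ζ) (u * mm w s ζ)) ∂P +
        ENNReal.ofReal K₂ * ENNReal.ofReal (A ζ u) := by
    intro s hs
    refine (h67_mono hκ hκ8 hP ζ ε hu hs.1.le hs.2).trans
      ((lintegral_mono fun w => hpt w s).trans ?_)
    have hm : Measurable fun w : Path => ENNReal.ofReal (-L (Zf w s ζ) (u * mm w s ζ)) :=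
      hmL.comp (measurable_id.prodMk measurable_const)
    rw [lintegral_add_left (hm.const_mul _),
      lintegral_const_mul' _ _ ENNReal.ofReal_ne_top, lintegral_const_mul' _ _ ENNReal.ofReal_ne_top]
    gcongr
    exact le_self_add.trans (hexc s hs.1.le)
  have h1 := setLIntegral_mono' (μ := volume) measurableSet_Ioc hstep
  rw [setLIntegral_const, lintegral_add_right _ measurable_const, setLIntegral_const,
    lintegral_const_mul' _ _ ENNReal.ofReal_ne_top, Real.volume_Ioc, sub_zero,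
    ← lintegral_lintegral_swap hmL.aemeasurable] at h1
  have h2 := le_add_self.trans (hexc _ hT0.le)
  have hAu : A ζ u ≤ 2 * (1 + η) * u ^ (dd κ - 2) := by
    rw [has]
    have h3 : kG κ ε (Real.log u) ≤ u ^ (dd κ - 2) := by
      rw [kG, h67_exp_log κ hu]
      exact mul_le_of_le_one_right (by positivity) (Real.smoothTransition.le_one _)
    have h4 : Sn ζ ^ e ≤ 1 := Real.rpow_le_one (Sn_pos hζ).le (Sn_le_one _) he.le
    have h5 : Sn ζ ^ cO κ ≤ 1 := Real.rpow_le_one (Sn_pos hζ).le (Sn_le_one _) hc0.le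
    have h6 : ‖ζ‖ ^ β ≤ 2 := by
      calc ‖ζ‖ ^ β ≤ (2 : ℝ) ^ β := Real.rpow_le_rpow (norm_nonneg _) (by linarith) hβ.le
        _ ≤ 2 ^ (1 : ℝ) := Real.rpow_le_rpow_of_exponent_le one_le_two hβ1.le
        _ = 2 := Real.rpow_one 2
    have h7 := Sn_pos hζ
    calc _ ≤ u ^ (dd κ - 2) * (1 + η * 1) * 2 := by gcongr
      _ = _ := by ring
  rw [← ENNReal.mul_le_mul_iff_left (ENNReal.ofReal_pos.2 hT0).ne' ENNReal.ofReal_ne_top]
  refine h1.trans ?_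
  calc _ ≤ ENNReal.ofReal K₁ * ENNReal.ofReal (2 * (1 + η) * u ^ (dd κ - 2)) +
        ENNReal.ofReal K₂ * ENNReal.ofReal (2 * (1 + η) * u ^ (dd κ - 2)) *
          ENNReal.ofReal (R ^ 2) := by
        gcongr
        exact h2.trans (ENNReal.ofReal_le_ofReal hAu)
    _ = ENNReal.ofReal (δ * u ^ (dd κ - 2)) * ENNReal.ofReal (R ^ 2) := by
        rw [← ENNReal.ofReal_mul hK₁0, ← ENNReal.ofReal_mul hK₂0,
          ← ENNReal.ofReal_mul (by positivity), ← ENNReal.ofReal_mul (by positivity),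
          ← ENNReal.ofReal_add (by positivity) (by positivity)]
        congr 1
        rw [hK₁, hK₂, ← hrδ]
        ring

/-- `exc_rev` for `kG κ ε`, `latom_kG`, `tail_G`, and `occ` for the part `S < s1`. -/
theorem first_moment {κ : ℝ} (hκ : 0 < κ) (hκ8 : κ < 8) {P : Measure Path} (hP : IsDrv κ P) :
    ∃ s1 T c : ℝ, 0 < s1 ∧ s1 ≤ 1 ∧ 0 < T ∧ 0 < c ∧ ∀ ζ : ℂ, ‖ζ - Complex.I‖ ≤ 1 / 2 →
      ∀ u > 0, ∀ ε > 0, 2 * ε ≤ u →
      ENNReal.ofReal (c * u ^ (dd κ - 2)) ≤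
        ∫⁻ w, (∫⁻ s in Ioc (0 : ℝ) T, cr κ s1 ε (Zf w s ζ) (u * mm w s ζ)) ∂P := by
  obtain ⟨hc0, hca, hc1⟩ := cO_pos hκ hκ8
  have ha := aa_pos hκ hκ8
  obtain ⟨hd1, hd2⟩ := dd_mem hκ hκ8
  obtain ⟨C, hC, hocc⟩ := occ hκ hκ8 hP
  obtain ⟨M, hM⟩ := BC3_st.2
  obtain ⟨K, hK, hKM⟩ : ∃ K : ℝ, 0 < K ∧ ∀ x, 4 * (deriv st x / Real.log 2) ≤ K := by
    have h1 : 0 ≤ M := (abs_nonneg _).trans (hM 0).1
    have h2 := h67_log2
    refine ⟨4 * ((M + 1) / Real.log 2), by positivity, fun x => ?_⟩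
    have h3 := (le_abs_self _).trans (hM x).2.1
    gcongr
    linarith
  obtain ⟨g, hg, hgS⟩ : ∃ g : ℝ, 0 < g ∧ g * 3 = (1 / 3) ^ aa κ :=
    ⟨(1 / 3) ^ aa κ / 3, by positivity, div_mul_cancel₀ _ (by norm_num)⟩
  obtain ⟨T, hT, htail⟩ := tail_G hκ hκ8 hP hg
  obtain ⟨s1, hs0, hs1, hs2⟩ : ∃ s1 : ℝ, 0 < s1 ∧ s1 ≤ 1 ∧ s1 * (2 * C * K) ≤ g :=
    ⟨min 1 (g / (2 * C * K)), lt_min one_pos (by positivity), min_le_left _ _,
      (le_div_iff₀ (by positivity)).1 (min_le_right _ _)⟩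
  refine ⟨s1, T, g / K, hs0, hs1, hT, by positivity, fun ζ hζI u hu ε hε hεu => ?_⟩
  obtain ⟨hζ1, hζ2⟩ := h67_near_I hζI
  have hζ : ζ ∈ H := show 0 < ζ.im by linarith
  have hu0 : 0 < u := hu
  have hε0 : 0 < ε := hε
  have hrev := exc_rev hκ hP (BC3_kG hκ hκ8 ε) (h67_kG_nonneg κ ε) ha
    (h67_latom_kG_nonpos hκ hκ8 ε) hζ hu hT.le (occ_fin hκ hκ8 hP hζ hu hε hT.le)
  obtain ⟨K', hK'⟩ : ∃ K' : ℝ, K' = K * s1 * ε ^ (dd κ - 2) := ⟨_, rfl⟩
  have hK'0 : 0 ≤ K' := by rw [hK']; positivity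
  -- pointwise bound of the generator
  have hpt : ∀ (w : Path) (s : ℝ),
      ENNReal.ofReal (-latom κ (kG κ ε) (aa κ) 0 (Zf w s ζ) (u * mm w s ζ)) ≤
      ENNReal.ofReal K * cr κ s1 ε (Zf w s ζ) (u * mm w s ζ) + ENNReal.ofReal K' *
        ((Icc ε (2 * ε)).indicator (fun _ => (1 : ℝ≥0∞)) (u * mm w s ζ) *
          ENNReal.ofReal (Sn (Zf w s ζ) ^ cO κ / ‖Zf w s ζ‖ ^ 2)) := by
    intro w s
    rcases h67_cases w s ζ hu with ⟨h1, h2⟩ | h1
    · generalize Zf w s ζ = ξ at h1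
      generalize u * mm w s ζ = v at h2
      have hS0 := Sn_pos h1
      have hS1 := Sn_le_one ξ
      rw [latom_kG hκ hκ8 ε h1 h2, neg_neg]
      by_cases hv : v ∈ Icc ε (2 * ε)
      · have h3 : v ^ (dd κ - 2) ≤ ε ^ (dd κ - 2) :=
          Real.rpow_le_rpow_of_nonpos hε0 hv.1 (by linarith)
        have h4 := hKM ((Real.log v - Real.log ε) / Real.log 2)
        have h5 : 4 * Sn ξ ^ (aa κ + 2) * v ^ (dd κ - 2) *
            (deriv st ((Real.log v - Real.log ε) / Real.log 2) / Real.log 2) ≤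
            K * (Sn ξ ^ (aa κ + 2) * ε ^ (dd κ - 2)) := by
          calc _ = 4 * (deriv st ((Real.log v - Real.log ε) / Real.log 2) / Real.log 2) *
                (Sn ξ ^ (aa κ + 2) * v ^ (dd κ - 2)) := by ring
            _ ≤ _ := by gcongr
        rcases le_or_gt s1 (Sn ξ) with hs | hs
        · refine le_trans ?_ le_self_add
          rw [cr, if_pos ⟨h1, hv.1, hv.2, hs⟩, ← ENNReal.ofReal_mul hK.le, ← mul_div_assoc K]
          refine ENNReal.ofReal_le_ofReal (div_le_div_of_nonneg_right (h5.trans ?_) (sq_nonneg _))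
          have h6 : Sn ξ ^ (aa κ + 2) ≤ 1 := Real.rpow_le_one hS0.le hS1 (by linarith)
          exact mul_le_mul_of_nonneg_left (mul_le_of_le_one_left (by positivity) h6) hK.le
        · refine le_trans ?_ le_add_self
          rw [indicator_of_mem hv, one_mul, ← ENNReal.ofReal_mul hK'0, ← mul_div_assoc K']
          refine ENNReal.ofReal_le_ofReal (div_le_div_of_nonneg_right (h5.trans ?_) (sq_nonneg _))
          have h6 : Sn ξ ^ (aa κ + 2) ≤ Sn ξ ^ (cO κ + 1) :=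
            Real.rpow_le_rpow_of_exponent_ge hS0 hS1 (by linarith)
          rw [Real.rpow_add_one hS0.ne'] at h6
          have h7 : Sn ξ ^ cO κ * Sn ξ ≤ Sn ξ ^ cO κ * s1 :=
            mul_le_mul_of_nonneg_left hs.le (by positivity)
          calc K * (Sn ξ ^ (aa κ + 2) * ε ^ (dd κ - 2))
              ≤ K * (Sn ξ ^ cO κ * s1 * ε ^ (dd κ - 2)) := by
                gcongr
                exact h6.trans h7
            _ = _ := by rw [hK']; ring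
      · have h3 : deriv st ((Real.log v - Real.log ε) / Real.log 2) = 0 := by
          refine (st_deriv_eq_zero ?_).1
          rw [mem_Icc, not_and_or, not_le, not_le] at hv
          rcases hv with hv | hv
          · exact Or.inl (div_nonpos_of_nonpos_of_nonneg
              (sub_nonpos.2 (Real.log_le_log h2 hv.le)) h67_log2.le)
          · refine Or.inr ((one_le_div h67_log2).2 ?_)
            have h4 := Real.log_le_log (by positivity) hv.le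
            rw [Real.log_mul two_ne_zero hε0.ne'] at h4
            linarith
        rw [h3, zero_div, mul_zero, zero_div, ENNReal.ofReal_zero]
        exact zero_le
    · rw [h1, h67_latom_zero _ _ ha, neg_zero, ENNReal.ofReal_zero]
      exact zero_le
  have hmc := h67_meas (measurable_cr κ s1 ε) ζ u
  have h1 : ∫⁻ w, (∫⁻ s in Ioc 0 T,
      ENNReal.ofReal (-latom κ (kG κ ε) (aa κ) 0 (Zf w s ζ) (u * mm w s ζ))) ∂P ≤
      ENNReal.ofReal K * ∫⁻ w, (∫⁻ s in Ioc (0 : ℝ) T, cr κ s1 ε (Zf w s ζ) (u * mm w s ζ)) ∂P +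
        ENNReal.ofReal (g * u ^ (dd κ - 2)) := by
    refine (lintegral_mono fun w => lintegral_mono fun s => hpt w s).trans ?_
    have h2 : ∀ w : Path, Measurable fun s : ℝ => cr κ s1 ε (Zf w s ζ) (u * mm w s ζ) := fun w =>
      hmc.comp (measurable_const.prodMk measurable_id)
    have h3 : Measurable fun w : Path =>
        ∫⁻ s in Ioc (0 : ℝ) T, cr κ s1 ε (Zf w s ζ) (u * mm w s ζ) := hmc.lintegral_prod_right'
    simp only [lintegral_add_left ((h2 _).const_mul _), lintegral_add_left (h3.const_mul _),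
      lintegral_const_mul' _ _ ENNReal.ofReal_ne_top]
    gcongr
    calc _ ≤ ENNReal.ofReal K' * ENNReal.ofReal
          (C * (ε / u) ^ (2 - dd κ) * (Sn ζ ^ aa κ + ε / u * Sn ζ ^ cO κ)) := by
          gcongr
          exact (lintegral_mono fun w => lintegral_mono_set Ioc_subset_Ioi_self).trans
            (hocc ζ hζ u hu ε hε)
      _ ≤ _ := by
          rw [← ENNReal.ofReal_mul hK'0]
          refine ENNReal.ofReal_le_ofReal ?_
          have h4 : Sn ζ ^ aa κ ≤ 1 := Real.rpow_le_one (Sn_pos hζ).le (Sn_le_one _) ha.le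
          have h5 : Sn ζ ^ cO κ ≤ 1 := Real.rpow_le_one (Sn_pos hζ).le (Sn_le_one _) hc0.le
          have h6 : ε / u ≤ 1 := (div_le_one hu0).2 (by linarith)
          have h7 := Sn_pos hζ
          have h8 : ε ^ (dd κ - 2) * (ε / u) ^ (2 - dd κ) = u ^ (dd κ - 2) := by
            rw [Real.div_rpow hε0.le hu0.le, ← mul_div_assoc, ← Real.rpow_add hε0,
              show dd κ - 2 + (2 - dd κ) = 0 by ring, Real.rpow_zero, one_div,
              ← Real.rpow_neg hu0.le, neg_sub]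
          calc _ ≤ K' * (C * (ε / u) ^ (2 - dd κ) * (1 + 1 * 1)) := by gcongr
            _ = s1 * (2 * C * K) * (ε ^ (dd κ - 2) * (ε / u) ^ (2 - dd κ)) := by
                rw [hK']; ring
            _ ≤ _ := by rw [h8]; gcongr
  have h2 : g * u ^ (dd κ - 2) + g * u ^ (dd κ - 2) + g * u ^ (dd κ - 2) ≤
      atom (kG κ ε) (aa κ) 0 ζ u := by
    have h3 : st ((Real.log u - Real.log ε) / Real.log 2) = 1 := by
      refine Real.smoothTransition.one_of_one_le ((one_le_div h67_log2).2 ?_)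
      have h4 := Real.log_le_log (by positivity) hεu
      rw [Real.log_mul two_ne_zero hε0.ne'] at h4
      linarith
    have h4 : (1 / 3 : ℝ) ≤ Sn ζ := by
      have h5 : 0 < ‖ζ‖ := lt_of_lt_of_le (show 0 < ζ.im from hζ) (Complex.im_le_norm ζ)
      rw [Sn, le_div_iff₀ h5]
      linarith
    have h5 : (1 / 3 : ℝ) ^ aa κ ≤ Sn ζ ^ aa κ := Real.rpow_le_rpow (by norm_num) h4 ha.le
    rw [atom, kG, h3, h67_exp_log κ hu0, Real.rpow_zero, mul_one, mul_one]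
    have h6 := mul_le_mul_of_nonneg_left h5 (Real.rpow_nonneg hu0.le (dd κ - 2))
    rw [← hgS] at h6
    linarith
  have hgu : 0 ≤ g * u ^ (dd κ - 2) := by positivity
  have h3 := (ENNReal.ofReal_le_ofReal h2).trans
    (hrev.trans (add_le_add (htail ζ hζI u hu ε hε) h1))
  rw [ENNReal.ofReal_add (add_nonneg hgu hgu) hgu, ENNReal.ofReal_add hgu hgu, ← add_assoc,
    ENNReal.add_le_add_iff_right ENNReal.ofReal_ne_top,
    ENNReal.add_le_add_iff_left ENNReal.ofReal_ne_top] at h3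
  rw [← ENNReal.mul_le_mul_iff_right (ENNReal.ofReal_pos.2 hK).ne' ENNReal.ofReal_ne_top,
    ← ENNReal.ofReal_mul hK.le, ← mul_assoc, mul_div_cancel₀ _ hK.ne']
  exact h3

end Crest.Agent.R162
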