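import Crest.Agent.R162.P3

set_option autoImplicit false
open MeasureTheory ProbabilityTheory Set Filter Topology Metric
open scoped ENNReal NNReal ComplexConjugate

namespace Crest.Agent.R162

theorem P5_meas_inc (a b : ℝ) : Measurable (fun w : Path => w a - w b) :=
  (measurable_eval a).sub (measurable_eval b)

theorem IsDrv.integral_inc {κ : ℝ} (hκ : 0 ≤ κ) {P : Measure Path} (hP : IsDrv κ P) {h : ℝ}
    (hh : 0 ≤ h) : Integrable (fun w : Path => w h - w 0) P ∧
      Integrable (fun w : Path => (w h - w 0) ^ 2) P ∧ ∫ w : Path, (w h - w 0) ∂P = 0 ∧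
      ∫ w : Path, (w h - w 0) ^ 2 ∂P = κ * h := by
  have hm := P5_meas_inc h 0
  have hg := hP.gauss h hh
  have hkh : 0 ≤ κ * h := mul_nonneg hκ hh
  have h2 : MemLp id 2 (gaussianReal 0 (κ * h).toNNReal) := memLp_id_gaussianReal' 2 (by simp)
  have hi1 : Integrable (fun x : ℝ => x) (gaussianReal 0 (κ * h).toNNReal) :=
    h2.integrable (by norm_num)
  have hi2 : Integrable (fun x : ℝ => x ^ 2) (gaussianReal 0 (κ * h).toNNReal) := h2.integrable_sq
  have e1 : ∫ x : ℝ, x ∂(gaussianReal 0 (κ * h).toNNReal) = 0 := integral_id_gaussianReal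
  have e2 : ∫ x : ℝ, x ^ 2 ∂(gaussianReal 0 (κ * h).toNNReal) = κ * h := by
    have := variance_of_integral_eq_zero (X := fun x : ℝ => x)
      (μ := gaussianReal 0 (κ * h).toNNReal) measurable_id.aemeasurable e1
    rw [← this, variance_fun_id_gaussianReal, Real.coe_toNNReal _ hkh]
  rw [← hg] at hi1 hi2 e1 e2
  refine ⟨?_, ?_, ?_, ?_⟩
  · exact (integrable_map_measure (by fun_prop) hm.aemeasurable).1 hi1
  · exact (integrable_map_measure (by fun_prop) hm.aemeasurable).1 hi2
  · rw [integral_map hm.aemeasurable (by fun_prop)] at e1; exact e1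
  · rw [integral_map hm.aemeasurable (by fun_prop)] at e2; exact e2

/-- Fourth moments of centred Gaussians. -/
theorem P5_gauss_four : ∃ c : ℝ, 0 < c ∧ ∀ v : ℝ, 0 ≤ v →
    ∫⁻ x, ENNReal.ofReal (x ^ 4) ∂(gaussianReal 0 v.toNNReal) ≤ ENNReal.ofReal (c * v ^ 2) := by
  have h4 : MemLp id (4 : ℕ) (gaussianReal 0 1) := memLp_id_gaussianReal' _ (by simp)
  have hi : Integrable (fun x : ℝ => x ^ 4) (gaussianReal 0 1) := by
    have := h4.integrable_norm_pow (by norm_num)
    refine this.congr (Eventually.of_forall fun x => ?_)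
    simp only [id, Real.norm_eq_abs]
    exact (by decide : Even 4).pow_abs x
  set m : ℝ := ∫ x : ℝ, x ^ 4 ∂(gaussianReal 0 1) with hm
  have hm0 : 0 ≤ m := integral_nonneg fun x => by positivity
  have hl : ∫⁻ x, ENNReal.ofReal (x ^ 4) ∂(gaussianReal 0 1) = ENNReal.ofReal m :=
    (ofReal_integral_eq_lintegral_ofReal hi (Eventually.of_forall fun x => by positivity)).symm
  refine ⟨m + 1, by linarith, fun v hv => ?_⟩
  have hmap : gaussianReal 0 v.toNNReal = (gaussianReal 0 1).map (fun x => √v * x) := by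
    rw [gaussianReal_map_const_mul]
    congr 1
    · simp
    · ext
      simp [Real.sq_sqrt hv, Real.coe_toNNReal _ hv]
  rw [hmap, lintegral_map (by fun_prop) (by fun_prop)]
  have : ∀ x : ℝ, ENNReal.ofReal ((√v * x) ^ 4) = ENNReal.ofReal (v ^ 2) * ENNReal.ofReal (x ^ 4) := by
    intro x
    rw [← ENNReal.ofReal_mul (by positivity)]
    congr 1
    have : √v ^ 4 = v ^ 2 := by
      rw [show (4 : ℕ) = 2 * 2 from rfl, pow_mul, Real.sq_sqrt hv]
    rw [mul_pow, this]
  simp_rw [this]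
  rw [lintegral_const_mul _ (by fun_prop), hl, ← ENNReal.ofReal_mul (by positivity)]
  apply ENNReal.ofReal_le_ofReal
  nlinarith [sq_nonneg v]

/-- Increments have the law of the initial increment. -/
theorem IsDrv.lintegral_inc {κ : ℝ} {P : Measure Path} (hP : IsDrv κ P) {s t : ℝ} (hs : 0 ≤ s)
    (ht : 0 ≤ t) {G : ℝ → ℝ≥0∞} (hG : Measurable G) :
    ∫⁻ w, G (w (s + t) - w s) ∂P = ∫⁻ x, G x ∂(gaussianReal 0 (κ * t).toNNReal) := by
  haveI := hP.prob
  rw [hP.lintegral_markov hs (F := fun w => G (w (s + t) - w s)) (hG.comp (P5_meas_inc _ _))]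
  have : ∀ w w' : Path, concat s w w' (s + t) - concat s w w' s = w' t - w' 0 := by
    intro w w'
    simp only [concat, ContinuousMap.coe_mk]
    rw [min_eq_right (by linarith), min_self, add_sub_cancel_left, sub_self, max_eq_left ht,
      max_self]
    ring
  simp_rw [this]
  rw [lintegral_const, measure_univ, mul_one, ← hP.gauss t ht,
    lintegral_map hG (P5_meas_inc _ _)]

/-- Deterministic chaining. -/
theorem P5_chain (w : Path) {h z : ℝ} (hh : 0 < h) (hz : 0 ≤ z)
    (hinc : ∀ m k : ℕ, k < 2 ^ m →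
      |w (k * (h / 2 ^ m) + h / 2 ^ m) - w (k * (h / 2 ^ m))| ≤ z * (9 / 10) ^ m) :
    osc w h ≤ 10 * z := by
  have key : ∀ n : ℕ, ∀ k : ℕ, k ≤ 2 ^ n →
      |w (k * (h / 2 ^ n)) - w 0| ≤ 10 * z - 9 * z * (9 / 10) ^ n := by
    intro n
    induction n with
    | zero =>
      intro k hk
      have := hinc 0 0 (by norm_num)
      interval_cases k
      · simp only [Nat.cast_zero, zero_mul, sub_self, abs_zero, pow_zero, mul_one]; linarith
      · simp only [Nat.cast_zero, zero_mul, pow_zero, div_one, zero_add, mul_one, Nat.cast_one,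
          one_mul] at this ⊢
        linarith
    | succ n ih =>
      intro k hk
      have hp : 0 ≤ z * (9 / 10) ^ n := by positivity
      obtain ⟨j, rfl | rfl⟩ := Nat.even_or_odd' k
      · have := ih j (by rw [pow_succ] at hk; omega)
        have e : ((2 * j : ℕ) : ℝ) * (h / 2 ^ (n + 1)) = j * (h / 2 ^ n) := by
          push_cast; field_simp; ring
        rw [e, pow_succ]
        linarith
      · have h1 := ih j (by rw [pow_succ] at hk; omega)
        have h2 := hinc (n + 1) (2 * j) (by omega)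
        have e : ((2 * j : ℕ) : ℝ) * (h / 2 ^ (n + 1)) = j * (h / 2 ^ n) := by
          push_cast; field_simp; ring
        have e' : ((2 * j + 1 : ℕ) : ℝ) * (h / 2 ^ (n + 1)) =
            j * (h / 2 ^ n) + h / 2 ^ (n + 1) := by
          push_cast; field_simp; ring
        rw [e] at h2
        rw [e']
        have := abs_sub_le (w (j * (h / 2 ^ n) + h / 2 ^ (n + 1))) (w (j * (h / 2 ^ n))) (w 0)
        rw [pow_succ (9 / 10 : ℝ)] at h2 ⊢
        linarith
  refine osc_le w hh.le fun s hs => ?_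
  have hlim : Tendsto (fun n : ℕ => (⌊s / h * 2 ^ n⌋₊ : ℝ) * (h / 2 ^ n)) atTop (𝓝 s) := by
    have h2 : Tendsto (fun n : ℕ => (2 : ℝ) ^ n) atTop atTop :=
      tendsto_pow_atTop_atTop_of_one_lt (by norm_num)
    have h3 := (tendsto_nat_floor_mul_div_atTop (a := s / h) (div_nonneg hs.1 hh.le)).comp h2
    have h4 := h3.mul_const h
    rw [div_mul_cancel₀ _ hh.ne'] at h4
    refine h4.congr fun n => ?_
    simp only [Function.comp]
    ring
  have hc : Tendsto (fun n : ℕ => |w ((⌊s / h * 2 ^ n⌋₊ : ℝ) * (h / 2 ^ n)) - w 0|) atTop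
      (𝓝 |w s - w 0|) :=
    (((w.continuous.tendsto s).comp hlim).sub_const _).abs
  refine le_of_tendsto' hc fun n => ?_
  have hk : ⌊s / h * 2 ^ n⌋₊ ≤ 2 ^ n := by
    apply Nat.floor_le_of_le
    have : s / h ≤ 1 := (div_le_one hh).2 hs.2
    push_cast
    nlinarith [pow_pos (by norm_num : (0 : ℝ) < 2) n]
  have := key n _ hk
  have hp : 0 ≤ z * (9 / 10) ^ n := by positivity
  linarith

/-- Dyadic chaining: `osc w 1 ≤ 2 ∑ₙ maxₖ |increment of level n|`, the `L⁴` norm of the maximum at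
level `n` is `≤ C 2^(-n/4)` (increments are Gaussian by `markov` and `gauss`); then scaling. -/
theorem IsDrv.osc_four {κ : ℝ} (hκ : 0 < κ) {P : Measure Path} (hP : IsDrv κ P) :
    ∃ C : ℝ, 0 < C ∧ ∀ h : ℝ, 0 < h →
      ∫⁻ w, ENNReal.ofReal (osc w h ^ 4) ∂P ≤ ENNReal.ofReal (C * h ^ 2) := by
  obtain ⟨c, hc, hc4⟩ := P5_gauss_four
  refine ⟨10 ^ 4 * (c * κ ^ 2 * 5), by positivity, fun h hh => ?_⟩
  set F : ℕ → ℕ → Path → ℝ≥0∞ := fun m k w => ENNReal.ofReal (((10 / 9 : ℝ) ^ 4) ^ m) *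
    ENNReal.ofReal ((w (k * (h / 2 ^ m) + h / 2 ^ m) - w (k * (h / 2 ^ m))) ^ 4) with hF
  have hFm : ∀ m k, Measurable (F m k) := fun m k =>
    (((P5_meas_inc _ _).pow_const 4).ennreal_ofReal).const_mul _
  set Z : Path → ℝ≥0∞ := fun w => ∑' m, ∑ k ∈ Finset.range (2 ^ m), F m k w with hZ
  have hpt : ∀ w, ENNReal.ofReal (osc w h ^ 4) ≤ ENNReal.ofReal (10 ^ 4) * Z w := by
    intro w
    by_cases ht : Z w = ⊤
    · rw [ht, ENNReal.mul_top (by simp)]; exact le_top
    set z : ℝ := √(√(Z w).toReal) with hz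
    have hz0 : 0 ≤ z := Real.sqrt_nonneg _
    have hz4 : z ^ 4 = (Z w).toReal := by
      rw [show (4 : ℕ) = 2 * 2 from rfl, pow_mul, hz, Real.sq_sqrt (Real.sqrt_nonneg _),
        Real.sq_sqrt ENNReal.toReal_nonneg]
    have hch := P5_chain w hh hz0 (fun m k hk => by
      have h1 : F m k w ≤ Z w := by
        refine le_trans ?_ (ENNReal.le_tsum m)
        exact Finset.single_le_sum (f := fun k => F m k w) (fun _ _ => zero_le)
          (Finset.mem_range.2 hk)
      have h2 : ((10 / 9 : ℝ) ^ 4) ^ m *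
          (w (k * (h / 2 ^ m) + h / 2 ^ m) - w (k * (h / 2 ^ m))) ^ 4 ≤ z ^ 4 := by
        rw [hz4]
        have := ENNReal.toReal_mono ht h1
        simp only [hF] at this
        rwa [← ENNReal.ofReal_mul (by positivity), ENNReal.toReal_ofReal (by positivity)] at this
      refine le_of_pow_le_pow_left₀ (n := 4) (by norm_num) (by positivity) ?_
      rw [(by decide : Even 4).pow_abs, mul_pow]
      have h3 : ((10 / 9 : ℝ) ^ 4) ^ m * ((9 / 10 : ℝ) ^ m) ^ 4 = 1 := by
        rw [← pow_mul, ← pow_mul, mul_comm m 4, ← mul_pow]; norm_num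
      have h4 : (0 : ℝ) ≤ ((9 / 10 : ℝ) ^ m) ^ 4 := by positivity
      have h5 := mul_le_mul_of_nonneg_right h2 h4
      rw [mul_right_comm, h3, one_mul] at h5
      exact h5)
    have h6 : osc w h ^ 4 ≤ 10 ^ 4 * (Z w).toReal := by
      rw [← hz4, ← mul_pow]
      exact pow_le_pow_left₀ (osc_nonneg w h) hch 4
    calc ENNReal.ofReal (osc w h ^ 4) ≤ ENNReal.ofReal (10 ^ 4 * (Z w).toReal) :=
          ENNReal.ofReal_le_ofReal h6
      _ = ENNReal.ofReal (10 ^ 4) * Z w := by
          rw [ENNReal.ofReal_mul (by positivity), ENNReal.ofReal_toReal ht]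
  have hZm : Measurable Z :=
    Measurable.ennreal_tsum fun m => Finset.measurable_fun_sum _ fun k _ => hFm m k
  have hterm : ∀ m : ℕ, ∫⁻ w, ∑ k ∈ Finset.range (2 ^ m), F m k w ∂P ≤
      ENNReal.ofReal (c * κ ^ 2 * h ^ 2 * (4 / 5) ^ m) := by
    intro m
    rw [lintegral_finset_sum _ fun k _ => hFm m k]
    have h1 : ∀ k ∈ Finset.range (2 ^ m), ∫⁻ w, F m k w ∂P ≤
        ENNReal.ofReal (((10 / 9 : ℝ) ^ 4) ^ m * (c * (κ * (h / 2 ^ m)) ^ 2)) := by
      intro k _
      simp only [hF]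
      rw [lintegral_const_mul _ (((P5_meas_inc _ _).pow_const 4).ennreal_ofReal),
        ENNReal.ofReal_mul (by positivity)]
      gcongr
      rw [hP.lintegral_inc (s := k * (h / 2 ^ m)) (t := h / 2 ^ m) (by positivity) (by positivity)
        (G := fun x => ENNReal.ofReal (x ^ 4)) (by fun_prop)]
      exact hc4 _ (by positivity)
    refine (Finset.sum_le_sum h1).trans ?_
    rw [Finset.sum_const, Finset.card_range, nsmul_eq_mul, ← ENNReal.ofReal_natCast,
      ← ENNReal.ofReal_mul (by positivity)]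
    apply ENNReal.ofReal_le_ofReal
    have e : ((2 ^ m : ℕ) : ℝ) * (((10 / 9 : ℝ) ^ 4) ^ m * (c * (κ * (h / 2 ^ m)) ^ 2)) =
        c * κ ^ 2 * h ^ 2 * ((10 / 9 : ℝ) ^ 4 / 2) ^ m := by
      rw [div_pow ((10 / 9 : ℝ) ^ 4)]
      push_cast; field_simp
    rw [e]
    exact mul_le_mul_of_nonneg_left (pow_le_pow_left₀ (by positivity) (by norm_num) m)
      (by positivity)
  have hZi : ∫⁻ w, Z w ∂P ≤ ENNReal.ofReal (c * κ ^ 2 * h ^ 2 * 5) := by
    simp only [hZ]
    rw [lintegral_tsum fun m => (Finset.measurable_fun_sum _ fun k _ => hFm m k).aemeasurable]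
    refine (ENNReal.tsum_le_tsum hterm).trans ?_
    have hs : Summable fun m : ℕ => c * κ ^ 2 * h ^ 2 * (4 / 5 : ℝ) ^ m :=
      (summable_geometric_of_lt_one (by norm_num) (by norm_num)).mul_left _
    rw [← ENNReal.ofReal_tsum_of_nonneg (fun m => by positivity) hs, tsum_mul_left,
      tsum_geometric_of_lt_one (by norm_num) (by norm_num)]
    apply le_of_eq
    congr 1
    norm_num
  calc ∫⁻ w, ENNReal.ofReal (osc w h ^ 4) ∂P ≤ ∫⁻ w, ENNReal.ofReal (10 ^ 4) * Z w ∂P :=
        lintegral_mono hpt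
    _ = ENNReal.ofReal (10 ^ 4) * ∫⁻ w, Z w ∂P := lintegral_const_mul _ hZm
    _ ≤ ENNReal.ofReal (10 ^ 4) * ENNReal.ofReal (c * κ ^ 2 * h ^ 2 * 5) := by gcongr
    _ = ENNReal.ofReal (10 ^ 4 * (c * κ ^ 2 * 5) * h ^ 2) := by
        rw [← ENNReal.ofReal_mul (by positivity)]; congr 1; ring

theorem IsDrv.osc_tail {κ : ℝ} (hκ : 0 < κ) {P : Measure Path} (hP : IsDrv κ P) :
    ∃ C : ℝ, 0 < C ∧ ∀ h A : ℝ, 0 < h → 0 < A →
      P {w | A < osc w h} ≤ ENNReal.ofReal (C * h ^ 2 / A ^ 4) := by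
  obtain ⟨C, hC, h4⟩ := hP.osc_four hκ
  refine ⟨C, hC, fun h A hh hA => ?_⟩
  have hA4 : 0 < A ^ 4 := by positivity
  have h1 : P {w | A < osc w h} ≤ P {w | ENNReal.ofReal (A ^ 4) ≤ ENNReal.ofReal (osc w h ^ 4)} := by
    refine measure_mono fun w hw => ?_
    exact ENNReal.ofReal_le_ofReal (pow_le_pow_left₀ hA.le (le_of_lt hw) 4)
  refine h1.trans ?_
  refine (meas_ge_le_lintegral_div ((measurable_osc h).pow_const 4).ennreal_ofReal.aemeasurable
    (by simpa using hA4) ENNReal.ofReal_ne_top).trans ?_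
  rw [ENNReal.ofReal_div_of_pos hA4]
  gcongr
  exact h4 h hh

/-- Gaussian windows. -/
theorem P5_window {κ : ℝ} (hκ : 0 < κ) : ∃ c : ℝ, 0 < c ∧ ∀ e m : ℝ, 0 < e → |m| ≤ 2 * e →
    ENNReal.ofReal c ≤ gaussianReal 0 (κ * e ^ 2).toNNReal (Icc (m - e) (m + e)) := by
  refine ⟨2 * ((√(2 * Real.pi * κ))⁻¹ * Real.exp (-(9 / (2 * κ)))), by positivity, fun e m he hm => ?_⟩
  have hv : 0 < κ * e ^ 2 := by positivity
  have hv' : (κ * e ^ 2).toNNReal ≠ 0 := by simpa using hv
  rw [gaussianReal_apply _ hv']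
  have h1 : ∀ x ∈ Icc (m - e) (m + e),
      ENNReal.ofReal ((√(2 * Real.pi * κ) * e)⁻¹ * Real.exp (-(9 / (2 * κ)))) ≤
        gaussianPDF 0 (κ * e ^ 2).toNNReal x := by
    intro x hx
    apply ENNReal.ofReal_le_ofReal
    rw [gaussianPDFReal, Real.coe_toNNReal _ hv.le]
    have e1 : √(2 * Real.pi * (κ * e ^ 2)) = √(2 * Real.pi * κ) * e := by
      rw [show 2 * Real.pi * (κ * e ^ 2) = (2 * Real.pi * κ) * e ^ 2 by ring,
        Real.sqrt_mul (by positivity), Real.sqrt_sq he.le]
    rw [e1]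
    gcongr
    rw [sub_zero, neg_div, neg_le_neg_iff, div_le_div_iff₀ (by positivity) (by positivity)]
    have hm' := abs_le.1 hm
    have hx2 : x ^ 2 ≤ (3 * e) ^ 2 := sq_le_sq' (by linarith [hx.1]) (by linarith [hx.2])
    nlinarith
  refine le_trans ?_ (setLIntegral_mono' measurableSet_Icc h1)
  rw [setLIntegral_const, Real.volume_Icc, ← ENNReal.ofReal_mul (by positivity)]
  apply le_of_eq
  congr 1
  field_simp
  ring

/-- One step of the support theorem. -/
theorem IsDrv.P5_step {κ : ℝ} (hκ : 0 < κ) {P : Measure Path} (hP : IsDrv κ P) {δ : ℝ}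
    (hδ : 0 < δ) : ∃ p e0 : ℝ, 0 < p ∧ 0 < e0 ∧ ∀ e m : ℝ, 0 < e → e ≤ e0 → |m| ≤ 2 * e →
      ENNReal.ofReal p ≤
        P {w | |w (e ^ 2) - w 0 - m| ≤ e ∧ ∀ s ∈ Icc 0 (e ^ 2), |w s - w 0| ≤ δ} := by
  obtain ⟨c, hc, hw⟩ := P5_window hκ
  obtain ⟨C, hC, ht⟩ := hP.osc_tail hκ
  refine ⟨c / 2, min 1 (c * δ ^ 4 / (2 * C)), by positivity, by positivity,
    fun e m he he0 hm => ?_⟩
  have he1 : e ≤ 1 := he0.trans (min_le_left _ _)
  have he2 : e ≤ c * δ ^ 4 / (2 * C) := he0.trans (min_le_right _ _)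
  have h1 : ENNReal.ofReal c ≤ P {w | |w (e ^ 2) - w 0 - m| ≤ e} := by
    refine (hw e m he hm).trans (le_of_eq ?_)
    rw [← hP.gauss (e ^ 2) (by positivity),
      Measure.map_apply (P5_meas_inc _ _) measurableSet_Icc]
    congr 1
    ext w
    simp only [mem_preimage, mem_Icc, mem_setOf_eq, abs_le]
    constructor <;> rintro ⟨h1, h2⟩ <;> constructor <;> linarith
  have h2 : P {w | δ < osc w (e ^ 2)} ≤ ENNReal.ofReal (c / 2) := by
    refine (ht _ δ (by positivity) hδ).trans (ENNReal.ofReal_le_ofReal ?_)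
    rw [div_le_iff₀ (by positivity)]
    rw [le_div_iff₀ (by positivity)] at he2
    have : (e ^ 2) ^ 2 ≤ e := by
      have : e ^ 3 ≤ 1 := pow_le_one₀ he.le he1
      nlinarith
    nlinarith
  have h3 : {w : Path | |w (e ^ 2) - w 0 - m| ≤ e} ⊆
      {w | |w (e ^ 2) - w 0 - m| ≤ e ∧ ∀ s ∈ Icc 0 (e ^ 2), |w s - w 0| ≤ δ} ∪
        {w | δ < osc w (e ^ 2)} := by
    intro w hw
    by_cases hδ' : δ < osc w (e ^ 2)
    · exact Or.inr hδ'
    · exact Or.inl ⟨hw, fun s hs => (le_osc w hs).trans (not_lt.1 hδ')⟩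
  have h4 := h1.trans ((measure_mono h3).trans ((measure_union_le _ _).trans
    (add_le_add le_rfl h2)))
  have h5 : ENNReal.ofReal c = ENNReal.ofReal (c / 2) + ENNReal.ofReal (c / 2) := by
    rw [← ENNReal.ofReal_add (by positivity) (by positivity)]; congr 1; ring
  rw [h5] at h4
  exact (ENNReal.add_le_add_iff_right ENNReal.ofReal_ne_top).1 h4

/-- Support theorem, uniform over `L`-Lipschitz targets: steps of length `η ≪ δ²`; keep the
deviation at grid times below `√η` (Gaussian window of probability `≥ c₁`) and the oscillation in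
each step below `δ/2` (`osc_tail`); induct with `le_measure_of_section`. -/
theorem IsDrv.support {κ : ℝ} (hκ : 0 < κ) {P : Measure Path} (hP : IsDrv κ P) {T L δ : ℝ}
    (hT : 0 < T) (hL : 0 ≤ L) (hδ : 0 < δ) : ∃ c : ℝ, 0 < c ∧ ∀ g : ℝ → ℝ, g 0 = 0 →
      (∀ s t, |g s - g t| ≤ L * |s - t|) →
      ENNReal.ofReal c ≤ P {w | ∀ s ∈ Icc 0 T, |w s - w 0 - g s| ≤ δ} := by
  haveI := hP.prob
  obtain ⟨p, e0, hp, he0, hstep⟩ := hP.P5_step hκ (δ := δ / 2) (by positivity)
  set e : ℝ := min e0 (min (δ / 4) (1 / (L + 1))) with he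
  have hepos : 0 < e := by positivity
  have he1 : e ≤ e0 := min_le_left _ _
  have he2 : e ≤ δ / 4 := (min_le_right _ _).trans (min_le_left _ _)
  have he3 : L * e ≤ 1 := by
    have : e ≤ 1 / (L + 1) := (min_le_right _ _).trans (min_le_right _ _)
    rw [le_div_iff₀ (by positivity)] at this
    nlinarith
  obtain ⟨N, hN⟩ := exists_nat_ge (T / e ^ 2)
  refine ⟨p ^ N, by positivity, fun g hg0 hg => ?_⟩
  set E : ℕ → Set Path := fun k => {w | ∀ s ∈ Icc 0 (k * e ^ 2), |w s - w 0 - g s| ≤ δ} ∩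
    {w | |w (k * e ^ 2) - w 0 - g (k * e ^ 2)| ≤ e} with hE
  have hEm : ∀ k, MeasurableSet (E k) := fun k =>
    (isClosed_tube g 0 _ δ).measurableSet.inter
      (measurableSet_le (((P5_meas_inc _ _).sub_const _).abs) measurable_const)
  have key : ∀ k : ℕ, ENNReal.ofReal (p ^ k) ≤ P (E k) := by
    intro k
    induction k with
    | zero =>
      have : E 0 = univ := by
        refine eq_univ_of_forall fun w => ⟨fun s hs => ?_, ?_⟩
        · have : s = 0 := le_antisymm (by simpa using hs.2) hs.1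
          simp [this, hg0, hδ.le]
        · simp [hg0, hepos.le]
      simp [this]
    | succ k ih =>
      have hk0 : (0 : ℝ) ≤ k * e ^ 2 := by positivity
      have hsec := hP.le_measure_of_section (s := k * e ^ 2) hk0 (hEm (k + 1)) (hEm k)
        (p := ENNReal.ofReal p) (fun w hw => by
          obtain ⟨hw1, hw2⟩ := hw
          simp only [mem_setOf_eq] at hw1 hw2
          have hΔ : ∀ s ∈ Icc (0 : ℝ) (e ^ 2), |g (k * e ^ 2 + s) - g (k * e ^ 2)| ≤ e := by
            intro s hs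
            refine (hg _ _).trans ?_
            rw [add_sub_cancel_left, abs_of_nonneg hs.1]
            have : L * s ≤ L * e ^ 2 := mul_le_mul_of_nonneg_left hs.2 hL
            nlinarith
          have hw2' := abs_le.1 hw2
          have hΔ1 := abs_le.1 (hΔ (e ^ 2) ⟨by positivity, le_rfl⟩)
          refine (hstep e (g (k * e ^ 2 + e ^ 2) - g (k * e ^ 2) -
            (w (k * e ^ 2) - w 0 - g (k * e ^ 2))) hepos he1
            (abs_le.2 ⟨by linarith, by linarith⟩)).trans (measure_mono ?_)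
          rintro w' ⟨h1, h2⟩
          have hc0 : concat (k * e ^ 2) w w' 0 = w 0 := by
            simp only [concat, ContinuousMap.coe_mk]
            rw [min_eq_left hk0, max_eq_right (by linarith)]; ring
          have hc1 : ∀ s, s ≤ k * e ^ 2 → concat (k * e ^ 2) w w' s = w s := by
            intro s hs
            simp only [concat, ContinuousMap.coe_mk]
            rw [min_eq_left hs, max_eq_right (by linarith)]; ring
          have hc2 : ∀ s, 0 ≤ s → concat (k * e ^ 2) w w' (k * e ^ 2 + s) =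
              w (k * e ^ 2) + (w' s - w' 0) := by
            intro s hs
            simp only [concat, ContinuousMap.coe_mk]
            rw [min_eq_right (by linarith), add_sub_cancel_left, max_eq_left hs]
          have hcast : ((k + 1 : ℕ) : ℝ) * e ^ 2 = k * e ^ 2 + e ^ 2 := by push_cast; ring
          refine ⟨fun s hs => ?_, ?_⟩
          · rw [hc0]
            by_cases hsk : s ≤ k * e ^ 2
            · rw [hc1 s hsk]; exact hw1 s ⟨hs.1, hsk⟩
            · have hs' : s - k * e ^ 2 ∈ Icc (0 : ℝ) (e ^ 2) := by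
                rw [hcast] at hs
                exact ⟨by linarith, by linarith [hs.2]⟩
              have e1 := hc2 _ hs'.1
              have e2 := abs_le.1 (hΔ _ hs')
              have e3 := abs_le.1 (h2 _ hs')
              rw [add_sub_cancel] at e1 e2
              rw [e1]
              exact abs_le.2 ⟨by linarith, by linarith⟩
          · simp only [mem_setOf_eq]
            rw [hc0, hcast, hc2 _ (by positivity)]
            have h1' := abs_le.1 h1
            exact abs_le.2 ⟨by linarith, by linarith⟩)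
      refine le_trans ?_ hsec
      rw [pow_succ, ENNReal.ofReal_mul (by positivity)]
      gcongr
  refine (key N).trans (measure_mono fun w hw s hs => hw.1 s ⟨hs.1, hs.2.trans ?_⟩)
  rwa [div_le_iff₀ (by positivity)] at hN

end Crest.Agent.R162
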