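import Crest.Agent.R162.EXP
import Crest.Agent.R162.O4
import Crest.Agent.R162.P5
import Crest.Agent.R162.K1

set_option autoImplicit false
open MeasureTheory ProbabilityTheory Set Filter Topology Metric
open scoped ENNReal NNReal ComplexConjugate

namespace Crest.Agent.R162

/-- Paley-Zygmund type estimate from an exponential moment. -/
private theorem helper40_pz {Ω : Type*} [MeasurableSpace Ω] (P : Measure Ω) [IsProbabilityMeasure P]
    {X : Ω → ℝ≥0∞} (hX : Measurable X) (hfin : ∀ w, X w ≠ ⊤) {Bad : Set Ω}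
    (hB : MeasurableSet Bad) {a θ K M δ : ℝ} (ha : 0 < a) (hθ : 0 < θ) (hK : 0 ≤ K) (hM : 0 < M)
    (hδ : 0 ≤ δ) (h1 : ENNReal.ofReal (4 * a) ≤ ∫⁻ w, X w ∂P)
    (h2 : ∫⁻ w, ENNReal.ofReal (Real.exp (θ * (X w).toReal)) ∂P ≤ ENNReal.ofReal K)
    (h3 : P Bad ≤ ENNReal.ofReal δ) (h4 : 2 / (θ ^ 2 * M) * K ≤ a) (h5 : M * δ ≤ a) :
    ENNReal.ofReal (a / M) ≤ P {w | w ∉ Bad ∧ ENNReal.ofReal a ≤ X w} := by
  set G : Set Ω := {w | w ∉ Bad ∧ ENNReal.ofReal a ≤ X w} with hG
  have hGm : MeasurableSet G := hB.compl.inter (measurableSet_le measurable_const hX)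
  have hpt : ∀ w, X w ≤ ENNReal.ofReal a + G.indicator (fun _ => ENNReal.ofReal M) w +
      Bad.indicator (fun _ => ENNReal.ofReal M) w +
      ENNReal.ofReal (2 / (θ ^ 2 * M)) * ENNReal.ofReal (Real.exp (θ * (X w).toReal)) := by
    intro w
    rcases le_total (X w) (ENNReal.ofReal M) with hw | hw
    · refine le_trans ?_ le_self_add
      by_cases hb : w ∈ Bad
      · rw [indicator_of_mem hb]
        exact hw.trans le_add_self
      refine le_trans ?_ le_self_add
      rcases le_total (ENNReal.ofReal a) (X w) with h | h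
      · rw [indicator_of_mem (show w ∈ G from ⟨hb, h⟩)]
        exact hw.trans le_add_self
      · exact h.trans le_self_add
    · refine le_trans ?_ le_add_self
      rw [← ENNReal.ofReal_mul (by positivity), ← ENNReal.ofReal_toReal (hfin w),
        ENNReal.toReal_ofReal ENNReal.toReal_nonneg]
      refine ENNReal.ofReal_le_ofReal ?_
      have hx : M ≤ (X w).toReal := (ENNReal.ofReal_le_iff_le_toReal (hfin w)).1 hw
      generalize (X w).toReal = x at hx
      have hx0 : 0 ≤ θ * x := mul_nonneg hθ.le (hM.le.trans hx)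
      have he := Real.quadratic_le_exp_of_nonneg hx0
      rw [div_mul_eq_mul_div, le_div_iff₀ (by positivity)]
      have h6 : x * (θ ^ 2 * M) ≤ x * (θ ^ 2 * x) :=
        mul_le_mul_of_nonneg_left (mul_le_mul_of_nonneg_left hx (sq_nonneg _)) (hM.le.trans hx)
      nlinarith
  have hint := lintegral_mono (μ := P) hpt
  have m1 : Measurable fun w => ENNReal.ofReal a + G.indicator (fun _ => ENNReal.ofReal M) w :=
    (measurable_const.indicator hGm).const_add _
  have m2 : Measurable fun w => ENNReal.ofReal a + G.indicator (fun _ => ENNReal.ofReal M) w +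
      Bad.indicator (fun _ => ENNReal.ofReal M) w := m1.add (measurable_const.indicator hB)
  rw [lintegral_add_left m2, lintegral_add_left m1, lintegral_add_left measurable_const, lintegral_const, measure_univ, mul_one,
    lintegral_indicator_const hGm, lintegral_indicator_const hB,
    lintegral_const_mul' _ _ ENNReal.ofReal_ne_top] at hint
  have h7 : ENNReal.ofReal M * P Bad ≤ ENNReal.ofReal a :=
    (mul_le_mul_right h3 _).trans (by
      rw [← ENNReal.ofReal_mul hM.le]; exact ENNReal.ofReal_le_ofReal h5)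
  have h8 : ENNReal.ofReal (2 / (θ ^ 2 * M)) *
      ∫⁻ w, ENNReal.ofReal (Real.exp (θ * (X w).toReal)) ∂P ≤ ENNReal.ofReal a :=
    (mul_le_mul_right h2 _).trans (by
      rw [← ENNReal.ofReal_mul (by positivity)]; exact ENNReal.ofReal_le_ofReal h4)
  have h9 := h1.trans (hint.trans (add_le_add (add_le_add le_rfl h7) h8))
  rw [← ENNReal.ofReal_toReal (measure_ne_top P G)] at h9 ⊢
  rw [← ENNReal.ofReal_mul hM.le, ← ENNReal.ofReal_add ha.le (by positivity),
    ← ENNReal.ofReal_add (by positivity) ha.le, ← ENNReal.ofReal_add (by positivity) ha.le,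
    ENNReal.ofReal_le_ofReal_iff (by positivity)] at h9
  refine ENNReal.ofReal_le_ofReal ?_
  rw [div_le_iff₀ hM]
  linarith

private theorem helper40_mem {ζ : ℂ} (h : ζ ∈ ball Complex.I (1 / 2)) :
    1 / 2 < ζ.im ∧ Qh Complex.I ζ ≤ 13 := by
  have h1 : ‖ζ - Complex.I‖ < 1 / 2 := mem_ball_iff_norm.1 h
  have h2 := (Complex.abs_im_le_norm (ζ - Complex.I)).trans_lt h1
  have h3 : 1 / 2 < ζ.im := by
    have := (abs_lt.1 h2).1
    simp only [Complex.sub_im, Complex.I_im] at this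
    linarith
  refine ⟨h3, ?_⟩
  have h4 : ‖Complex.I - conj ζ‖ ≤ 5 / 2 := by
    have e : Complex.I - conj ζ = 2 * Complex.I - conj (ζ - Complex.I) := by
      simp only [map_sub, Complex.conj_I]
      ring
    rw [e]
    refine (norm_sub_le _ _).trans ?_
    rw [Complex.norm_conj, norm_mul, Complex.norm_I, Complex.norm_two]
    linarith
  unfold Qh
  rw [Complex.I_im, one_mul, div_le_iff₀ (by linarith)]
  have := pow_le_pow_left₀ (norm_nonneg _) h4 2
  linarith

private theorem helper40_core {κ : ℝ} (hκ : 0 < κ) (hκ8 : κ < 8) {P : Measure Path}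
    (hP : IsDrv κ P) {c0 : ℝ} (hc0 : 0 < c0) :
    ∃ s1 T A c ε0 : ℝ, 0 < s1 ∧ 0 < T ∧ 0 < A ∧ 0 < c ∧ 0 < ε0 ∧
      ∀ f : ℂ → ℂ, Univ f → ∀ ε : ℝ, 0 < ε → ε ≤ ε0 * ups f Complex.I →
      ball (f Complex.I) (c0 * ups f Complex.I) ⊆ f '' ball Complex.I (1 / 2) →
      ENNReal.ofReal c ≤ P {w | osc w T ≤ A ∧ ENNReal.ofReal (c * ups f Complex.I ^ dd κ) ≤
        mass κ s1 ε f w (Ioc 0 T) (ball (f Complex.I) (c0 * ups f Complex.I))} := by
  have := hP.prob
  obtain ⟨s1, T, c1, hs1, -, hT, hc1, hfm⟩ := first_moment hκ hκ8 hP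
  obtain ⟨θ, C2, hθ, -, hex⟩ := exp_moment hκ hκ8 hP hs1
  obtain ⟨C3, hC3, hosc⟩ := hP.osc_tail hκ
  obtain ⟨C, p0, hC, -, hdis⟩ := distortion
  set D : ℝ := C * 13 ^ p0 with hD
  have hD0 : 0 < D := by positivity
  set ρ : ℝ := min c0 (1 / (4 * D)) with hρ
  have hρ0 : 0 < ρ := lt_min hc0 (by positivity)
  set a0 : ℝ := c1 * D ^ (dd κ - 2) * (Real.pi * c0 ^ 2) / 4 with ha0
  have ha00 : 0 < a0 := by have := Real.pi_pos; positivity
  set θ' : ℝ := θ * ρ ^ (-dd κ) with hθ'
  have hθ'0 : 0 < θ' := by positivity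
  set K : ℝ := Real.exp (C2 * (c0 / ρ) ^ 2) with hK
  have hK0 : 0 < K := Real.exp_pos _
  set M0 : ℝ := 2 * K / (θ' ^ 2 * a0) with hM0
  have hM00 : 0 < M0 := by positivity
  set A : ℝ := M0 * (C3 * T ^ 2) / a0 + 1 with hA
  have hA1 : 1 ≤ A := le_add_of_nonneg_left (by positivity)
  refine ⟨s1, T, A, min a0 (a0 / M0), ρ / 10, hs1, hT, by linarith, lt_min ha00 (by positivity),
    by positivity, fun f hf ε hε hεu hcov => ?_⟩
  have hI : Complex.I ∈ H := by simp [H]
  set u := ups f Complex.I with hu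
  have hu0 : 0 < u := hf.ups_pos hI
  set B := ball (f Complex.I) (c0 * u) with hB
  set v := u ^ dd κ with hv
  have hv0 : 0 < v := Real.rpow_pos_of_pos hu0 _
  have hin : ∀ ζ ∈ H, f ζ ∈ B → ζ ∈ ball Complex.I (1 / 2) ∧ 4 * (ρ * u) ≤ ups f ζ ∧
      ups f ζ ≤ D * u := by
    intro ζ hζ hfζ
    obtain ⟨ξ, hξ, e⟩ := hcov hfζ
    have hξH : ξ ∈ H := lt_trans (by norm_num) (helper40_mem hξ).1
    obtain rfl := hf.inj hξH hζ e
    have hQ := (helper40_mem hξ).2
    have hQ0 : 0 ≤ Qh Complex.I ξ := le_trans (by norm_num) (four_le_Qh hI hζ)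
    have hq : C * Qh Complex.I ξ ^ p0 ≤ D :=
      mul_le_mul_of_nonneg_left (pow_le_pow_left₀ hQ0 hQ p0) (by linarith)
    have h1 := (hdis f hf _ hI _ hζ).1
    have h2 := (hdis f hf _ hζ _ hI).1
    rw [Qh_comm] at h2
    have hp := hf.ups_pos hζ
    refine ⟨hξ, ?_, h1.trans (mul_le_mul_of_nonneg_right hq hu0.le)⟩
    have h3 : u ≤ D * ups f ξ := h2.trans (mul_le_mul_of_nonneg_right hq hp.le)
    have h4 : ρ * (4 * D) ≤ 1 := (le_div_iff₀ (by positivity)).1 (min_le_right _ _)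
    calc 4 * (ρ * u) ≤ 4 * (ρ * (D * ups f ξ)) := by gcongr
      _ = ρ * (4 * D) * ups f ξ := by ring
      _ ≤ 1 * ups f ξ := by gcongr
      _ = ups f ξ := one_mul _
  have hBm : MeasurableSet B := measurableSet_ball
  have hfinI : ∀ w, mass κ s1 ε f w (Ioi 0) B ≠ ⊤ := fun w =>
    ne_top_of_le_ne_top (ENNReal.mul_ne_top ENNReal.ofReal_ne_top measure_ball_lt_top.ne)
      (mass_le_vol hf κ hs1 hε w hBm)
  have hle : ∀ w, mass κ s1 ε f w (Ioc 0 T) B ≤ mass κ s1 ε f w (Ioi 0) B := fun w =>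
    mass_mono κ s1 ε f w Ioc_subset_Ioi_self subset_rfl
  -- first moment
  have h1 : ENNReal.ofReal (4 * (a0 * v)) ≤ ∫⁻ w, mass κ s1 ε f w (Ioc 0 T) B ∂P := by
    have hm1 : Measurable fun q : (Path × ℂ) × ℝ =>
        cr κ s1 ε (Zf q.1.1 q.2 q.1.2) (ups f q.1.2 * mm q.1.1 q.2 q.1.2) := by
      have hw : Measurable fun q : (Path × ℂ) × ℝ => ((q.1.1, q.2, q.1.2) : Path × ℝ × ℂ) := by
        fun_prop
      have hum : Measurable (ups f) := Complex.measurable_im.mul (measurable_deriv f).norm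
      exact (measurable_cr κ s1 ε).comp ((measurable_Zf.comp hw).prodMk
        ((hum.comp measurable_fst.snd).mul (measurable_mm.comp hw)))
    have hm2 : Measurable fun q : Path × ℂ =>
        ∫⁻ s in Ioc (0 : ℝ) T, cr κ s1 ε (Zf q.1 s q.2) (ups f q.2 * mm q.1 s q.2) :=
      hm1.lintegral_prod_right'
    have hm3 : Measurable fun q : Path × ℂ => B.indicator (fun _ => (1 : ℝ≥0∞)) (f q.2) :=
      (measurable_const.indicator hBm).comp (hf.meas.comp measurable_snd)
    have hm4 : Measurable fun q : Path × ℂ => ENNReal.ofReal (‖deriv f q.2‖ ^ 2) :=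
      (((measurable_deriv f).comp measurable_snd).norm.pow_const 2).ennreal_ofReal
    simp only [mass_material hf κ s1 ε _ measurableSet_Ioc hBm]
    rw [lintegral_lintegral_swap ((hm3.mul hm2).mul hm4).aemeasurable]
    have e1 : 4 * (a0 * v) = c1 * (D * u) ^ (dd κ - 2) * (Real.pi * (c0 * u) ^ 2) := by
      rw [ha0, hv, Real.mul_rpow hD0.le hu0.le, Real.rpow_sub hu0, Real.rpow_two]
      field_simp
    have e2 : volume B = ENNReal.ofReal (Real.pi * (c0 * u) ^ 2) := by
      rw [hB, Complex.volume_ball, mul_comm, ENNReal.ofReal_mul Real.pi_pos.le,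
        ← NNReal.coe_real_pi, ENNReal.ofReal_coe_nnreal, ENNReal.ofReal_pow (by positivity)]
    have e3 : ∫⁻ ζ in H, B.indicator (fun _ => ENNReal.ofReal (c1 * (D * u) ^ (dd κ - 2))) (f ζ) *
        ENNReal.ofReal (‖deriv f ζ‖ ^ 2) = ENNReal.ofReal (4 * (a0 * v)) := by
      rw [lintegral_area hf measurableSet_H subset_rfl, lintegral_indicator_const hBm,
        Measure.restrict_apply hBm, inter_eq_left.2, e2, ← ENNReal.ofReal_mul (by positivity), e1]
      intro z hz
      obtain ⟨ξ, hξ, e⟩ := hcov hz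
      exact ⟨ξ, lt_trans (by norm_num) (helper40_mem hξ).1, e⟩
    rw [← e3]
    refine setLIntegral_mono' measurableSet_H fun ζ hζ => ?_
    by_cases hz : f ζ ∈ B
    · obtain ⟨hb, hlo, hhi⟩ := hin ζ hζ hz
      have hp := hf.ups_pos hζ
      simp only [indicator_of_mem hz, one_mul]
      rw [lintegral_mul_const' _ _ ENNReal.ofReal_ne_top]
      refine mul_le_mul_left (le_trans (ENNReal.ofReal_le_ofReal ?_)
        (hfm ζ (mem_ball_iff_norm.1 hb).le _ hp ε hε ?_)) _
      · refine mul_le_mul_of_nonneg_left (Real.rpow_le_rpow_of_nonpos hp hhi ?_) hc1.le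
        unfold dd
        linarith
      · have : 0 ≤ ρ * u := by positivity
        linarith
    · simp [indicator_of_notMem hz]
  -- exponential moment
  have h2 : ∫⁻ w, ENNReal.ofReal (Real.exp (θ' / v * (mass κ s1 ε f w (Ioc 0 T) B).toReal)) ∂P ≤
      ENNReal.ofReal K := by
    have h := hex f hf (f Complex.I) (c0 * u) (ρ * u) ε hε (by linarith)
      (mul_le_mul_of_nonneg_right (min_le_left _ _) hu0.le) fun ζ hζ hz => (hin ζ hζ hz).2.1
    rw [mul_div_mul_right _ _ hu0.ne'] at h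
    refine le_trans (lintegral_mono fun w => ENNReal.ofReal_le_ofReal (Real.exp_le_exp.2 ?_)) h
    have e : θ * (ρ * u) ^ (-dd κ) = θ' / v := by
      rw [hθ', hv, Real.mul_rpow hρ0.le hu0.le, Real.rpow_neg hu0.le]
      ring
    rw [e]
    exact mul_le_mul_of_nonneg_left (ENNReal.toReal_mono (hfinI w) (hle w)) (by positivity)
  have hpz := helper40_pz P (measurable_mass hf κ s1 ε hBm (Ioc 0 T))
    (fun w => ne_top_of_le_ne_top (hfinI w) (hle w))
    (Bad := {w | A < osc w T}) (measurableSet_lt measurable_const (measurable_osc T))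
    (a := a0 * v) (M := M0 * v) (by positivity) (by positivity) hK0.le (by positivity)
    (by positivity) h1 h2 (hosc T A hT (by linarith)) (le_of_eq (by rw [hM0]; field_simp)) (by
      have h5 : A ≤ A ^ 4 := le_self_pow₀ hA1 (by norm_num)
      have h6 : M0 * (C3 * T ^ 2) ≤ a0 * A ^ 4 := by
        have : M0 * (C3 * T ^ 2) / a0 ≤ A ^ 4 := by linarith
        rwa [div_le_iff₀ ha00, mul_comm (A ^ 4)] at this
      rw [mul_right_comm, ← mul_div_assoc]
      refine mul_le_mul_of_nonneg_right ?_ hv0.le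
      rwa [div_le_iff₀ (by positivity)])
  rw [mul_div_mul_right _ _ hv0.ne'] at hpz
  refine (ENNReal.ofReal_le_ofReal (min_le_right _ _)).trans (hpz.trans (measure_mono ?_))
  rintro w ⟨hw1, hw2⟩
  exact ⟨not_lt.1 hw1, (ENNReal.ofReal_le_ofReal
    (mul_le_mul_of_nonneg_right (min_le_left _ _) hv0.le)).trans hw2⟩

/-- Mass lemma. Reduce to `y = 1` (`Univ.dilate`, `ups_dilate`, `mass_scale_Ioc`, `osc_scale`,
`IsDrv.measure_scale`). `u = ups f I`, `B = ball (f I) (c0 u) ⊆ f '' ball I (1/2)` (`koebe_cover`), on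
which `ups ≍ u` (`distortion`). First moment `≥ c' u^d`: `mass_material`, Tonelli, `first_moment`,
`lintegral_area`. Second moment `≤ C u^(2d)`: `exp_moment` (`mass_le_vol` for finiteness). Then
`E[X; osc > A] ≤ (E X² P(osc > A))^(1/2)` (`osc_tail`), `E[X; X < c' u^d/4] ≤ c' u^d/4`, and
Cauchy-Schwarz. -/
theorem mass_lemma {κ : ℝ} (hκ : 0 < κ) (hκ8 : κ < 8) {P : Measure Path} (hP : IsDrv κ P) :
    ∃ s1 T A c c0 ε0 : ℝ, 0 < s1 ∧ 0 < T ∧ 0 < A ∧ 0 < c ∧ 0 < c0 ∧ 0 < ε0 ∧
      ∀ f : ℂ → ℂ, Univ f → ∀ y : ℝ, 0 < y → ∀ ε : ℝ, 0 < ε → ε ≤ ε0 * ups f (y * Complex.I) →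
      ball (f (y * Complex.I)) (2 * c0 * ups f (y * Complex.I)) ⊆ f '' ball (y * Complex.I) (y / 2) ∧
      ENNReal.ofReal c ≤ P {w | osc w (y ^ 2 * T) ≤ A * y ∧
        ENNReal.ofReal (c * ups f (y * Complex.I) ^ dd κ) ≤ mass κ s1 ε f w (Ioc 0 (y ^ 2 * T))
          (ball (f (y * Complex.I)) (c0 * ups f (y * Complex.I)))} := by
  obtain ⟨ck, hck, -, hkoe⟩ := koebe_cover
  obtain ⟨s1, T, A, c, ε0, hs1, hT, hA, hc, hε0, hcore⟩ := helper40_core hκ hκ8 hP (half_pos hck)
  refine ⟨s1, T, A, c, ck / 2, ε0, hs1, hT, hA, hc, half_pos hck, hε0, fun f hf y hy ε hε hεu => ?_⟩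
  have hI : Complex.I ∈ H := by simp [H]
  constructor
  · have h := hkoe f hf (y * Complex.I) (by simpa [H] using hy)
    rw [show 2 * (ck / 2) = ck by ring]
    simpa using h
  · have hg := hf.dilate hy
    have hu := ups_dilate hf hy hI
    have h := hcore _ hg ε hε (by rwa [hu]) (by
      have h1 := hkoe _ hg _ hI
      rw [Complex.I_im] at h1
      refine (ball_subset_ball ?_).trans h1
      exact mul_le_mul_of_nonneg_right (half_le_self hck.le) (hg.ups_pos hI).le)
    rw [hu] at h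
    rw [hP.measure_scale hy (by
      exact (measurableSet_le (measurable_osc _) measurable_const).inter
        (measurableSet_le measurable_const (measurable_mass hf κ s1 ε measurableSet_ball _)))]
    refine h.trans (measure_mono ?_)
    rintro w ⟨hw1, hw2⟩
    refine ⟨?_, ?_⟩
    · rw [osc_scale w hy, mul_comm]
      exact mul_le_mul_of_nonneg_right hw1 hy.le
    · rw [mass_scale_Ioc hf κ s1 ε w hy T measurableSet_ball]
      exact hw2

end Crest.Agent.R162
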