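import Crest.Agent.R162.ODefs
import Crest.Agent.R162.T2
import Crest.Agent.R162.P6
import Crest.Agent.R162.L7

set_option autoImplicit false
open MeasureTheory ProbabilityTheory Set Filter Topology Metric
open scoped ENNReal NNReal ComplexConjugate

namespace Crest.Agent.R162

theorem h93_mul_le {x y a b : ℝ} (hx : |x| ≤ a) (hy : |y| ≤ b) : |x * y| ≤ a * b := by
  rw [abs_mul]; exact mul_le_mul hx hy (abs_nonneg _) ((abs_nonneg _).trans hx)

theorem h93_deriv_ge {k : ℝ → ℝ} {A0 x : ℝ} (h : ∀ x, A0 ≤ x → k x = 0) (hx : A0 < x) :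
    k x = 0 ∧ deriv k x = 0 ∧ deriv (deriv k) x = 0 := by
  have h1 : ∀ y, A0 < y → deriv k y = 0 := by
    intro y hy
    have : k =ᶠ[𝓝 y] fun _ => (0 : ℝ) := by
      filter_upwards [Ioi_mem_nhds hy] with z hz using h z (le_of_lt hz)
    rw [this.deriv_eq]; simp
  refine ⟨h x hx.le, h1 x hx, ?_⟩
  have : deriv k =ᶠ[𝓝 x] fun _ => (0 : ℝ) := by
    filter_upwards [Ioi_mem_nhds hx] with z hz using h1 z hz
  rw [this.deriv_eq]; simp

theorem h93_deriv_le {k : ℝ → ℝ} {L0 x : ℝ} (h : ∀ x, x ≤ L0 → k x = 0) (hx : x < L0) :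
    k x = 0 ∧ deriv k x = 0 := by
  refine ⟨h x hx.le, ?_⟩
  have : k =ᶠ[𝓝 x] fun _ => (0 : ℝ) := by
    filter_upwards [Iio_mem_nhds hx] with z hz using h z (le_of_lt hz)
  rw [this.deriv_eq]; simp

/-- The support constants of an admissible triple. -/
theorem h93_supp {k1 k2 k3 : ℝ → ℝ} (hk : PatOK k1 k2 k3) : ∃ y0 R0 : ℝ, 0 < y0 ∧ 0 < R0 ∧
    (∀ ζ : ℂ, 0 < ζ.im → ζ.im ≤ y0 →
      k2 (Real.log ζ.im) = 0 ∧ deriv k2 (Real.log ζ.im) = 0) ∧
    (∀ ζ : ℂ, R0 ≤ ‖ζ‖ → k1 (Real.log ‖ζ‖) = 0 ∧ deriv k1 (Real.log ‖ζ‖) = 0 ∧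
      deriv (deriv k1) (Real.log ‖ζ‖) = 0) := by
  obtain ⟨A0, hA⟩ := hk.z1
  obtain ⟨L0, hL⟩ := hk.z2
  refine ⟨Real.exp (L0 - 1), Real.exp (A0 + 1), Real.exp_pos _, Real.exp_pos _, ?_, ?_⟩
  · intro ζ h0 h1
    apply h93_deriv_le hL
    have := Real.log_le_log h0 h1
    rw [Real.log_exp] at this
    linarith
  · intro ζ h1
    apply h93_deriv_ge hA
    have := Real.log_le_log (Real.exp_pos _) h1
    rw [Real.log_exp] at this
    linarith

theorem h93_bound {k : ℝ → ℝ} (hk : Continuous k) (a b : ℝ) :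
    ∃ M : ℝ, 0 ≤ M ∧ ∀ x, a ≤ x → x ≤ b → |k x| ≤ M := by
  obtain ⟨M, hM⟩ := (isCompact_Icc (a := a) (b := b)).exists_bound_of_continuousOn hk.continuousOn
  refine ⟨max M 0, le_max_right _ _, fun x h1 h2 => ?_⟩
  have := hM x ⟨h1, h2⟩
  rw [Real.norm_eq_abs] at this
  exact this.trans (le_max_left _ _)

theorem h93_cont1 {k : ℝ → ℝ} (hk : ContDiff ℝ 3 k) :
    Continuous k ∧ Continuous (deriv k) ∧ Continuous (deriv (deriv k)) := by
  have h1 : ContDiff ℝ 2 (deriv k) := by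
    have : ContDiff ℝ (2 + 1) k := by
      have e : (2 + 1 : WithTop ℕ∞) = 3 := by norm_num
      rw [e]; exact hk
    exact this.deriv'
  exact ⟨hk.continuous, h1.continuous, h1.continuous_deriv (by norm_num)⟩

theorem h93_pat_zero {k1 k2 k3 : ℝ → ℝ} {y0 R0 : ℝ}
    (h2 : ∀ ζ : ℂ, 0 < ζ.im → ζ.im ≤ y0 →
      k2 (Real.log ζ.im) = 0 ∧ deriv k2 (Real.log ζ.im) = 0)
    (h1 : ∀ ζ : ℂ, R0 ≤ ‖ζ‖ → k1 (Real.log ‖ζ‖) = 0 ∧ deriv k1 (Real.log ‖ζ‖) = 0 ∧
      deriv (deriv k1) (Real.log ‖ζ‖) = 0) (κ : ℝ) {ζ : ℂ} (h : ζ.im ≤ y0 ∨ R0 ≤ ‖ζ‖) (u : ℝ) :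
    pat k1 k2 k3 ζ u = 0 ∧ lpat κ k1 k2 k3 ζ u = 0 := by
  unfold pat lpat
  by_cases hz : ζ ∈ H
  · rw [indicator_of_mem hz, indicator_of_mem hz]
    rcases h with h | h
    · obtain ⟨a, b⟩ := h2 ζ hz h
      rw [a, b]; simp
    · obtain ⟨a, b, c⟩ := h1 ζ h
      rw [a, b, c]; simp
  · rw [indicator_of_notMem hz, indicator_of_notMem hz]; exact ⟨rfl, rfl⟩

theorem h93_measH : MeasurableSet {p : ℂ × ℝ | p.1 ∈ H} :=
  measurableSet_lt measurable_const (Complex.measurable_im.comp measurable_fst)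

theorem h93_log_bd {y R : ℝ} (hy : 0 < y) {ζ : ℂ} (h1 : y ≤ ζ.im) (h2 : ‖ζ‖ ≤ R) :
    (Real.log y ≤ Real.log ‖ζ‖ ∧ Real.log ‖ζ‖ ≤ Real.log R) ∧
      (Real.log y ≤ Real.log ζ.im ∧ Real.log ζ.im ≤ Real.log R) := by
  have h3 : ζ.im ≤ ‖ζ‖ := Complex.im_le_norm ζ
  refine ⟨⟨Real.log_le_log hy (by linarith), Real.log_le_log (by linarith) h2⟩,
    ⟨Real.log_le_log hy h1, Real.log_le_log (by linarith) (by linarith)⟩⟩

theorem pat_bdd (κ : ℝ) {k1 k2 k3 : ℝ → ℝ} (hk : PatOK k1 k2 k3) :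
    ∃ M : ℝ, ∀ ζ u, |pat k1 k2 k3 ζ u| ≤ M ∧ |lpat κ k1 k2 k3 ζ u| ≤ M := by
  obtain ⟨y0, R0, hy0, hR0, h2, h1⟩ := h93_supp hk
  obtain ⟨c10, c11, c12⟩ := h93_cont1 hk.c1
  obtain ⟨c20, c21, -⟩ := h93_cont1 hk.c2
  obtain ⟨M0, hM0, b0⟩ := h93_bound c10 (Real.log y0) (Real.log R0)
  obtain ⟨M1, hM1, b1⟩ := h93_bound c11 (Real.log y0) (Real.log R0)
  obtain ⟨M2, hM2, b2⟩ := h93_bound c12 (Real.log y0) (Real.log R0)
  obtain ⟨N0, hN0, d0⟩ := h93_bound c20 (Real.log y0) (Real.log R0)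
  obtain ⟨N1, hN1, d1⟩ := h93_bound c21 (Real.log y0) (Real.log R0)
  obtain ⟨-, C, hC⟩ := hk.b3
  have hC0 : 0 ≤ C := (abs_nonneg _).trans (hC 0).1
  refine ⟨max (M0 * N0 * C) (((M1 * (|2 - κ / 2| * 1) + |κ / 2| * M2 * 1) * N0 * C +
    2 * M0 * N1 * C + 4 * 1 * M0 * N0 * C) / y0 ^ 2), fun ζ u => ?_⟩
  by_cases hoff : ζ.im ≤ y0 ∨ R0 ≤ ‖ζ‖
  · obtain ⟨a, b⟩ := h93_pat_zero (k3 := k3) h2 h1 κ hoff u
    rw [a, b, abs_zero]
    exact ⟨le_max_of_le_left (by positivity), le_max_of_le_left (by positivity)⟩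
  · push Not at hoff
    obtain ⟨ha, hb⟩ := hoff
    have hz : ζ ∈ H := lt_trans hy0 ha
    obtain ⟨⟨e1, e2⟩, ⟨e3, e4⟩⟩ := h93_log_bd hy0 ha.le hb.le
    have s0 := Sn_pos hz
    have s1 := Sn_le_one ζ
    have s2 : Sn ζ ^ 2 ≤ 1 := by nlinarith
    have s3 : 0 ≤ Sn ζ ^ 2 := by positivity
    have s4 : |1 - 2 * Sn ζ ^ 2| ≤ 1 := by rw [abs_le]; constructor <;> linarith
    have s5 : |1 - Sn ζ ^ 2| ≤ 1 := by rw [abs_le]; constructor <;> linarith
    have s6 : |Sn ζ ^ 2| ≤ 1 := by rw [abs_le]; constructor <;> linarith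
    have B0 := b0 _ e1 e2
    have B1 := b1 _ e1 e2
    have B2 := b2 _ e1 e2
    have D0 := d0 _ e3 e4
    have D1 := d1 _ e3 e4
    have E0 := (hC (Real.log u)).1
    have E1 := (hC (Real.log u)).2.1
    unfold pat lpat
    rw [indicator_of_mem hz, indicator_of_mem hz]
    constructor
    · exact le_max_of_le_left (h93_mul_le (h93_mul_le B0 D0) E0)
    · refine le_max_of_le_right ?_
      rw [abs_div, abs_of_nonneg (by positivity : (0 : ℝ) ≤ ‖ζ‖ ^ 2)]
      have hn : y0 ^ 2 ≤ ‖ζ‖ ^ 2 := by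
        have h3 : ζ.im ≤ ‖ζ‖ := Complex.im_le_norm ζ
        exact pow_le_pow_left₀ hy0.le (by linarith) 2
      refine div_le_div₀ (by positivity) ?_ (by positivity) hn
      have t1 := h93_mul_le (h93_mul_le ((abs_add_le _ _).trans (add_le_add
        (h93_mul_le B1 (h93_mul_le (le_refl |2 - κ / 2|) s4))
        (h93_mul_le (h93_mul_le (le_refl |κ / 2|) B2) s5))) D0) E0
      have t2 := h93_mul_le (h93_mul_le (h93_mul_le (show |(2 : ℝ)| ≤ 2 by norm_num) B0) D1) E0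
      have t3 := h93_mul_le (h93_mul_le (h93_mul_le
        (h93_mul_le (show |(4 : ℝ)| ≤ 4 by norm_num) s6) B0) D0) E1
      refine (abs_sub _ _).trans (add_le_add ((abs_sub _ _).trans (add_le_add t1 t2)) t3)

theorem measurable_pat {k1 k2 k3 : ℝ → ℝ} (hk : PatOK k1 k2 k3) :
    Measurable (fun p : ℂ × ℝ => pat k1 k2 k3 p.1 p.2) := by
  have e : (fun p : ℂ × ℝ => pat k1 k2 k3 p.1 p.2) = {p : ℂ × ℝ | p.1 ∈ H}.indicator
      (fun p => k1 (Real.log ‖p.1‖) * k2 (Real.log p.1.im) * k3 (Real.log p.2)) := by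
    funext p
    unfold pat
    by_cases hp : p.1 ∈ H
    · rw [indicator_of_mem hp, indicator_of_mem (show p ∈ {p : ℂ × ℝ | p.1 ∈ H} from hp)]
    · rw [indicator_of_notMem hp, indicator_of_notMem (show p ∉ {p : ℂ × ℝ | p.1 ∈ H} from hp)]
  rw [e]
  have m1 := hk.c1.continuous.measurable
  have m2 := hk.c2.continuous.measurable
  have m3 := hk.b3.1.continuous.measurable
  have a1 : Measurable (fun p : ℂ × ℝ => Real.log ‖p.1‖) := measurable_fst.norm.log
  have a2 : Measurable (fun p : ℂ × ℝ => Real.log p.1.im) :=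
    (Complex.measurable_im.comp measurable_fst).log
  have a3 : Measurable (fun p : ℂ × ℝ => Real.log p.2) := measurable_snd.log
  exact (((m1.comp a1).mul (m2.comp a2)).mul (m3.comp a3)).indicator h93_measH

theorem measurable_lpat (κ : ℝ) {k1 k2 k3 : ℝ → ℝ} (hk : PatOK k1 k2 k3) :
    Measurable (fun p : ℂ × ℝ => lpat κ k1 k2 k3 p.1 p.2) := by
  have e : (fun p : ℂ × ℝ => lpat κ k1 k2 k3 p.1 p.2) = {p : ℂ × ℝ | p.1 ∈ H}.indicator
      (fun p => ((deriv k1 (Real.log ‖p.1‖) * ((2 - κ / 2) * (1 - 2 * Sn p.1 ^ 2)) +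
        κ / 2 * deriv (deriv k1) (Real.log ‖p.1‖) * (1 - Sn p.1 ^ 2)) *
          k2 (Real.log p.1.im) * k3 (Real.log p.2) -
      2 * k1 (Real.log ‖p.1‖) * deriv k2 (Real.log p.1.im) * k3 (Real.log p.2) -
      4 * Sn p.1 ^ 2 * k1 (Real.log ‖p.1‖) * k2 (Real.log p.1.im) * deriv k3 (Real.log p.2)) /
        ‖p.1‖ ^ 2) := by
    funext p
    unfold lpat
    by_cases hp : p.1 ∈ H
    · rw [indicator_of_mem hp, indicator_of_mem (show p ∈ {p : ℂ × ℝ | p.1 ∈ H} from hp)]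
    · rw [indicator_of_notMem hp, indicator_of_notMem (show p ∉ {p : ℂ × ℝ | p.1 ∈ H} from hp)]
  rw [e]
  have a1 : Measurable (fun p : ℂ × ℝ => Real.log ‖p.1‖) := measurable_fst.norm.log
  have a2 : Measurable (fun p : ℂ × ℝ => Real.log p.1.im) :=
    (Complex.measurable_im.comp measurable_fst).log
  have a3 : Measurable (fun p : ℂ × ℝ => Real.log p.2) := measurable_snd.log
  have m1 := hk.c1.continuous.measurable.comp a1
  have m2 := hk.c2.continuous.measurable.comp a2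
  have m3 := hk.b3.1.continuous.measurable.comp a3
  have n1 := (measurable_deriv k1).comp a1
  have n11 := (measurable_deriv (deriv k1)).comp a1
  have n2 := (measurable_deriv k2).comp a2
  have n3 := (measurable_deriv k3).comp a3
  have sS : Measurable (fun p : ℂ × ℝ => Sn p.1) :=
    (Complex.measurable_im.comp measurable_fst).div measurable_fst.norm
  have s2 : Measurable (fun p : ℂ × ℝ => Sn p.1 ^ 2) := sS.pow_const 2
  refine Measurable.indicator ?_ h93_measH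
  refine Measurable.div (Measurable.sub (Measurable.sub ?_ ?_) ?_) (measurable_fst.norm.pow_const 2)
  · exact (((n1.mul ((measurable_const.sub (s2.const_mul 2)).const_mul _)).add
      ((n11.const_mul _).mul (measurable_const.sub s2))).mul m2).mul m3
  · exact ((m1.const_mul 2).mul n2).mul m3
  · exact (((s2.const_mul 4).mul m1).mul m2).mul n3

/-- On `Kc (y0/2) (R0+2)` use `TE_A`, `TE_L`, `TE_U`, `TE.comp_bdd`, `TE.comp_BC3`, `TE.mul`; off it both
sides vanish for small `e` (`im_Zf_le`, `alive_far`); `TE.union`. -/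
theorem TE_pat (κ : ℝ) {k1 k2 k3 : ℝ → ℝ} (hk : PatOK k1 k2 k3) :
    ∃ J : ℂ × ℝ → Jet, TE (H ×ˢ Ioi (0 : ℝ))
      (fun p w t => pat k1 k2 k3 (Zf w t p.1) (p.2 * mm w t p.1)) J ∧
      ∀ p ∈ H ×ˢ Ioi (0 : ℝ), (J p).v = pat k1 k2 k3 p.1 p.2 ∧
        (J p).gen κ = lpat κ k1 k2 k3 p.1 p.2 := by
  obtain ⟨y0, R0, hy0, hR0, h2, h1⟩ := h93_supp hk
  refine ⟨fun p => (((jA p.1).comp k1).mul ((jL p.1).comp k2)).mul ((jU p.1 p.2).comp k3), ?_, ?_⟩
  · -- the main region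
    have hmain : TE (Kc y0 (R0 + 2) ×ˢ Ioi (0 : ℝ))
        (fun p w t => pat k1 k2 k3 (Zf w t p.1) (p.2 * mm w t p.1))
        (fun p => (((jA p.1).comp k1).mul ((jL p.1).comp k2)).mul ((jU p.1 p.2).comp k3)) := by
      have hb : ∀ p ∈ Kc y0 (R0 + 2) ×ˢ Ioi (0 : ℝ),
          (Real.log y0 ≤ Real.log ‖p.1‖ ∧ Real.log ‖p.1‖ ≤ Real.log (R0 + 2)) ∧
          (Real.log y0 ≤ Real.log p.1.im ∧ Real.log p.1.im ≤ Real.log (R0 + 2)) :=
        fun p hp => h93_log_bd hy0 hp.1.1 hp.1.2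
      have hm : MapsTo (Prod.fst : ℂ × ℝ → ℂ) (Kc y0 (R0 + 2) ×ˢ Ioi (0 : ℝ)) (Kc y0 (R0 + 2)) :=
        fun p hp => hp.1
      have tA := ((TE_A (R := R0 + 2) hy0).reindex Prod.fst hm).comp_bdd hk.c1
        (M := |Real.log y0| + |Real.log (R0 + 2)|) (by
          intro p hp
          obtain ⟨⟨a, b⟩, -⟩ := hb p hp
          show |Real.log ‖p.1‖| ≤ _
          rw [abs_le]
          constructor
          · linarith [neg_abs_le (Real.log y0), abs_nonneg (Real.log (R0 + 2))]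
          · linarith [le_abs_self (Real.log (R0 + 2)), abs_nonneg (Real.log y0)])
      have tL := ((TE_L (R := R0 + 2) hy0).reindex Prod.fst hm).comp_bdd hk.c2
        (M := |Real.log y0| + |Real.log (R0 + 2)|) (by
          intro p hp
          obtain ⟨-, ⟨a, b⟩⟩ := hb p hp
          show |Real.log p.1.im| ≤ _
          rw [abs_le]
          constructor
          · linarith [neg_abs_le (Real.log y0), abs_nonneg (Real.log (R0 + 2))]
          · linarith [le_abs_self (Real.log (R0 + 2)), abs_nonneg (Real.log y0)])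
      have tU := (TE_U (R := R0 + 2) hy0).comp_BC3 hk.b3
      obtain ⟨M0, hM0, b0⟩ := h93_bound hk.c1.continuous (Real.log y0) (Real.log (R0 + 2))
      obtain ⟨N0, hN0, d0⟩ := h93_bound hk.c2.continuous (Real.log y0) (Real.log (R0 + 2))
      obtain ⟨-, C, hC⟩ := hk.b3
      have t12 := tA.mul tL (M := max M0 N0) (by
        intro p hp
        obtain ⟨⟨a, b⟩, ⟨c, d⟩⟩ := hb p hp
        exact ⟨le_max_of_le_left (b0 _ a b), le_max_of_le_right (d0 _ c d)⟩)
      have t123 := t12.mul tU (M := max (M0 * N0) C) (by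
        intro p hp
        obtain ⟨⟨a, b⟩, ⟨c, d⟩⟩ := hb p hp
        exact ⟨le_max_of_le_left (h93_mul_le (b0 _ a b) (d0 _ c d)),
          le_max_of_le_right (hC _).1⟩)
      obtain ⟨e0, he0, hal⟩ := alive_small (R := R0 + 2) hy0
      refine t123.congr (fun _ _ => rfl) he0 ?_
      intro p hp w t e he hs
      have hd := (hal p.1 hp.1 w t e he hs t ⟨hs.1, le_rfl⟩).1
      unfold pat
      rw [indicator_of_mem (Zf_mem hd)]
    have hoff : TE {p : ℂ × ℝ | p.1 ∈ H ∧ (p.1.im ≤ y0 ∨ R0 + 2 ≤ ‖p.1‖)}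
        (fun p w t => pat k1 k2 k3 (Zf w t p.1) (p.2 * mm w t p.1))
        (fun p => (((jA p.1).comp k1).mul ((jL p.1).comp k2)).mul ((jU p.1 p.2).comp k3)) := by
      refine (TE.const _ (fun _ => (0 : ℝ))).congr ?_ (e1 := 1 / 3) (by norm_num) ?_
      · rintro p ⟨hp, h | h⟩
        · obtain ⟨a, b⟩ := h2 p.1 hp h
          simp only [Jet.mul, Jet.comp, Jet.const, jA, jL, jU, a, b]
          simp
        · obtain ⟨a, b, c⟩ := h1 p.1 (by linarith)
          simp only [Jet.mul, Jet.comp, Jet.const, jA, jL, jU, a, b, c]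
          simp
      · rintro p ⟨hp, h | h⟩ w t e he hs
        · exact (h93_pat_zero h2 h1 0 (Or.inl ((im_Zf_le w hs.1 hp).trans h)) _).1
        · have hst : Real.sqrt t ≤ e := by
            rw [Real.sqrt_le_left hs.2.2.1.le]; exact hs.2.1
          have hf := (alive_far w hp hs.1 hs.2.2.2 (by linarith)).2.1
          have h3 : ‖p.1‖ ≤ ‖Zf w t p.1‖ + ‖Zf w t p.1 - p.1‖ := by
            calc ‖p.1‖ = ‖Zf w t p.1 - (Zf w t p.1 - p.1)‖ := by congr 1; ring
              _ ≤ _ := norm_sub_le _ _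
          exact (h93_pat_zero h2 h1 0 (Or.inr (by linarith)) _).1
    refine (hmain.union hoff).mono ?_
    rintro p ⟨hp, hu⟩
    by_cases h : p.1.im ≤ y0 ∨ R0 + 2 ≤ ‖p.1‖
    · exact Or.inr ⟨hp, h⟩
    · push Not at h
      exact Or.inl ⟨⟨h.1.le, h.2.le⟩, hu⟩
  · rintro p ⟨hp, -⟩
    constructor
    · unfold pat
      rw [indicator_of_mem hp]
      rfl
    · unfold lpat
      rw [indicator_of_mem hp, Jet.gen_mul, Jet.gen_mul, Jet.gen_comp, Jet.gen_comp, Jet.gen_comp,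
        gen_jA κ hp, sq_jA_a hp, gen_jL, gen_jU κ hp]
      simp only [Jet.mul, Jet.comp, jA, jL, jU]
      ring

theorem h93_cont_pat {k1 k2 k3 : ℝ → ℝ} (hk : PatOK k1 k2 k3) :
    ContinuousOn (fun p : ℂ × ℝ => pat k1 k2 k3 p.1 p.2) (H ×ˢ Ioi 0) := by
  have h : ContinuousOn (fun p : ℂ × ℝ =>
      k1 (Real.log ‖p.1‖) * k2 (Real.log p.1.im) * k3 (Real.log p.2)) (H ×ˢ Ioi 0) := by
    have a1 : ContinuousOn (fun p : ℂ × ℝ => Real.log ‖p.1‖) (H ×ˢ Ioi 0) := by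
      refine ContinuousOn.log (by fun_prop) ?_
      rintro p ⟨hp, -⟩
      have h0 : 0 < p.1.im := hp
      have h3 : p.1.im ≤ ‖p.1‖ := Complex.im_le_norm _
      exact ne_of_gt (by linarith)
    have a2 : ContinuousOn (fun p : ℂ × ℝ => Real.log p.1.im) (H ×ˢ Ioi 0) := by
      refine ContinuousOn.log (by fun_prop) ?_
      rintro p ⟨hp, -⟩
      exact ne_of_gt hp
    have a3 : ContinuousOn (fun p : ℂ × ℝ => Real.log p.2) (H ×ˢ Ioi 0) := by
      refine ContinuousOn.log (by fun_prop) ?_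
      rintro p ⟨-, hp⟩
      exact ne_of_gt hp
    exact ((hk.c1.continuous.comp_continuousOn a1).mul
      (hk.c2.continuous.comp_continuousOn a2)).mul (hk.b3.1.continuous.comp_continuousOn a3)
  refine h.congr ?_
  rintro p ⟨hp, -⟩
  show pat k1 k2 k3 p.1 p.2 = _
  unfold pat
  rw [indicator_of_mem hp]

theorem h93_meas_state {F : ℂ → ℝ → ℝ} (hF : Measurable (fun p : ℂ × ℝ => F p.1 p.2)) (ζ : ℂ)
    (u : ℝ) : Measurable (fun q : Path × ℝ => F (Zf q.1 q.2 ζ) (u * mm q.1 q.2 ζ)) := by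
  have hq : Measurable (fun q : Path × ℝ => ((q.1, q.2, ζ) : Path × ℝ × ℂ)) :=
    measurable_fst.prodMk (measurable_snd.prodMk measurable_const)
  exact hF.comp ((measurable_Zf.comp hq).prodMk ((measurable_mm.comp hq).const_mul u))

theorem h93_deriv_of_bound {φ : ℝ → ℝ} {s d C : ℝ}
    (h : ∀ t : ℝ, 0 < t → t ≤ 1 → |φ (s + t) - φ s - d * t| ≤ C * t ^ (3 / 2 : ℝ)) :
    HasDerivWithinAt φ d (Ioi s) s := by
  rw [hasDerivWithinAt_iff_isLittleO]
  refine Asymptotics.IsLittleO.of_bound fun c hc => ?_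
  have hC : 0 < |C| + 1 := by positivity
  have hδ : 0 < min 1 ((c / (|C| + 1)) ^ 2) := lt_min one_pos (by positivity)
  filter_upwards [Ioo_mem_nhdsGT (show s < s + min 1 ((c / (|C| + 1)) ^ 2) by linarith)]
    with x hx
  have h0 : 0 < x - s := by linarith [hx.1]
  have h1 : x - s ≤ 1 := by linarith [hx.2, min_le_left 1 ((c / (|C| + 1)) ^ 2)]
  have h2 : x - s ≤ (c / (|C| + 1)) ^ 2 := by
    linarith [hx.2, min_le_right 1 ((c / (|C| + 1)) ^ 2)]
  have h3 := h (x - s) h0 h1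
  rw [show s + (x - s) = x by ring, p6_rpow h0] at h3
  have h4 : √(x - s) ≤ c / (|C| + 1) := by
    rw [Real.sqrt_le_left (by positivity)]; exact h2
  have h5 : √(x - s) ^ 3 = √(x - s) * (x - s) := by
    rw [pow_succ', Real.sq_sqrt h0.le]
  rw [Real.norm_eq_abs, Real.norm_eq_abs, smul_eq_mul, abs_of_pos h0, mul_comm (x - s) d]
  refine h3.trans ?_
  rw [h5]
  have h6 : C * √(x - s) ≤ c := by
    calc C * √(x - s) ≤ (|C| + 1) * √(x - s) :=
          mul_le_mul_of_nonneg_right (by linarith [le_abs_self C]) (Real.sqrt_nonneg _)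
      _ ≤ (|C| + 1) * (c / (|C| + 1)) := mul_le_mul_of_nonneg_left h4 hC.le
      _ = c := by field_simp
  calc C * (√(x - s) * (x - s)) = (C * √(x - s)) * (x - s) := by ring
    _ ≤ c * (x - s) := mul_le_mul_of_nonneg_right h6 h0.le

theorem h93_sec {F : Path → ℝ → ℝ} (mF : Measurable (fun q : Path × ℝ => F q.1 q.2)) (s : ℝ) :
    Measurable (fun w => F w s) :=
  mF.comp (measurable_id.prodMk measurable_const)

/-- Abstract form of the argument. -/
theorem h93_abs {κ : ℝ} {P : Measure Path} (hP : IsDrv κ P) {F G : Path → ℝ → ℝ} {M C T : ℝ}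
    (hT : 0 ≤ T) (mF : Measurable (fun q : Path × ℝ => F q.1 q.2))
    (mG : Measurable (fun q : Path × ℝ => G q.1 q.2)) (bF : ∀ w s, |F w s| ≤ M)
    (bG : ∀ w s, |G w s| ≤ M) (hc : ∀ w, ContinuousOn (F w) (Ici 0))
    (hb : ∀ s : ℝ, 0 ≤ s → ∀ t : ℝ, 0 < t → t ≤ 1 → ∀ w,
      |(∫ w', F (concat s w w') (s + t) ∂P) - F w s - G w s * t| ≤ C * t ^ (3 / 2 : ℝ)) :
    ∫ w, F w T ∂P = ∫ w, F w 0 ∂P + ∫ w, (∫ s in Ioc 0 T, G w s) ∂P := by
  have := hP.prob
  have mFs := h93_sec mF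
  have mGs := h93_sec mG
  have iF : ∀ s, Integrable (fun w => F w s) P := fun s =>
    Integrable.of_bound (mFs s).aestronglyMeasurable M (Eventually.of_forall fun w => bF _ _)
  have iG : ∀ s, Integrable (fun w => G w s) P := fun s =>
    Integrable.of_bound (mGs s).aestronglyMeasurable M (Eventually.of_forall fun w => bG _ _)
  have key : ∀ s : ℝ, 0 ≤ s → ∀ t : ℝ, 0 < t → t ≤ 1 →
      |∫ w, F w (s + t) ∂P - ∫ w, F w s ∂P - (∫ w, G w s ∂P) * t| ≤ C * t ^ (3 / 2 : ℝ) := by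
    intro s hs t ht ht1
    rw [hP.integral_markov hs (iF (s + t))]
    have mI : StronglyMeasurable (fun w => ∫ w', F (concat s w w') (s + t) ∂P) := by
      have : Measurable (fun p : Path × Path => F (concat s p.1 p.2) (s + t)) :=
        (mFs (s + t)).comp (measurable_concat s)
      exact this.stronglyMeasurable.integral_prod_right'
    have iI : Integrable (fun w => ∫ w', F (concat s w w') (s + t) ∂P) P := by
      refine Integrable.of_bound mI.aestronglyMeasurable M (Eventually.of_forall fun w => ?_)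
      have := norm_integral_le_of_norm_le_const (μ := P)
        (f := fun w' => F (concat s w w') (s + t)) (C := M)
        (Eventually.of_forall fun w' => bF _ _)
      simpa using this
    have iD : Integrable (fun w => (∫ w', F (concat s w w') (s + t) ∂P) - F w s) P :=
      iI.sub (iF s)
    rw [← integral_mul_const, ← integral_sub iI (iF s), ← integral_sub iD ((iG s).mul_const t)]
    have := norm_integral_le_of_norm_le_const (μ := P)
      (f := fun w => (∫ w', F (concat s w w') (s + t) ∂P) - F w s - G w s * t)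
      (C := C * t ^ (3 / 2 : ℝ)) (Eventually.of_forall (hb s hs t ht ht1))
    simpa using this
  have hcont : ContinuousOn (fun s => ∫ w, F w s ∂P) (Icc 0 T) := by
    refine continuousOn_of_dominated (bound := fun _ => M)
      (fun s _ => (mFs s).aestronglyMeasurable)
      (fun s _ => Eventually.of_forall fun w => bF _ _) (integrable_const M)
      (Eventually.of_forall fun w => (hc w).mono Icc_subset_Ici_self)
  have iGG : Integrable (Function.uncurry G) (P.prod (volume.restrict (Ioc 0 T))) :=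
    Integrable.of_bound mG.aestronglyMeasurable M (Eventually.of_forall fun q => bG _ _)
  have hint : IntervalIntegrable (fun s => ∫ w, G w s ∂P) volume 0 T := by
    rw [intervalIntegrable_iff_integrableOn_Ioc_of_le hT]
    exact iGG.integral_prod_right
  have ftc := intervalIntegral.integral_eq_sub_of_hasDeriv_right_of_le hT hcont
    (fun s hs => h93_deriv_of_bound (key s hs.1.le)) hint
  rw [intervalIntegral.integral_of_le hT] at ftc
  have sw := integral_integral_swap iGG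
  rw [sw, ftc]
  ring

/-- Dynkin's formula. `φ t = E pat (state t)` satisfies
`|φ (t+h) - φ t - h E lpat (state t)| ≤ C h^(3/2)` (`integral_markov`, `Zf_concat_add`,
`mm_concat_add`, `TE.expect`); `φ` and `t ↦ E lpat (state t)` are continuous (`state_cont`, dominated
convergence); `integral_eq_sub_of_hasDeriv_right`; Fubini. -/
theorem dynkin {κ : ℝ} (hκ : 0 < κ) {P : Measure Path} (hP : IsDrv κ P) {k1 k2 k3 : ℝ → ℝ}
    (hk : PatOK k1 k2 k3) {ζ : ℂ} (hζ : ζ ∈ H) {u T : ℝ} (hu : 0 < u) (hT : 0 ≤ T) :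
    ∫ w, pat k1 k2 k3 (Zf w T ζ) (u * mm w T ζ) ∂P = pat k1 k2 k3 ζ u +
      ∫ w, (∫ s in Ioc 0 T, lpat κ k1 k2 k3 (Zf w s ζ) (u * mm w s ζ)) ∂P := by
  have := hP.prob
  obtain ⟨M, hM⟩ := pat_bdd κ hk
  obtain ⟨J, hTE, hJ⟩ := TE_pat κ hk
  obtain ⟨y0, R0, hy0, -, h2, h1⟩ := h93_supp hk
  have hm : ∀ p ∈ H ×ˢ Ioi (0 : ℝ), ∀ t : ℝ, Measurable (fun w : Path =>
      pat k1 k2 k3 (Zf w t p.1) (p.2 * mm w t p.1)) := fun p _ t =>
    h93_sec (F := fun w t => pat k1 k2 k3 (Zf w t p.1) (p.2 * mm w t p.1))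
      (h93_meas_state (measurable_pat hk) p.1 p.2) t
  obtain ⟨C, hC⟩ := hTE.expect hκ hP (M := M)
    (fun p hp => ⟨by rw [(hJ p hp).1]; exact (hM _ _).1, fun w t _ => (hM _ _).1⟩) hm
  have main := h93_abs (C := C) hP (F := fun w s => pat k1 k2 k3 (Zf w s ζ) (u * mm w s ζ))
    (G := fun w s => lpat κ k1 k2 k3 (Zf w s ζ) (u * mm w s ζ)) hT
    (h93_meas_state (measurable_pat hk) ζ u) (h93_meas_state (measurable_lpat κ hk) ζ u)
    (fun w s => (hM _ _).1) (fun w s => (hM _ _).2)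
    (fun w => state_cont (pat k1 k2 k3) (h93_cont_pat hk) hy0
      (fun z v hz => (h93_pat_zero h2 h1 κ (Or.inl hz) v).1) w hζ hu)
    (by
      intro s hs t ht ht1 w
      have hC0 : 0 ≤ C * t ^ (3 / 2 : ℝ) := (abs_nonneg _).trans (hC (ζ, u) ⟨hζ, hu⟩ t ht ht1)
      have e1 : ∀ w', pat k1 k2 k3 (Zf (concat s w w') (s + t) ζ)
            (u * mm (concat s w w') (s + t) ζ) =
          pat k1 k2 k3 (Zf w' t (Zf w s ζ)) (u * mm w s ζ * mm w' t (Zf w s ζ)) := by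
        intro w'
        rw [Zf_concat_add w w' hs ht.le, mm_concat_add w w' hs ht.le, mul_assoc]
      simp only [e1]
      by_cases hd : ζ ∈ dom w s
      · have hp : (Zf w s ζ, u * mm w s ζ) ∈ H ×ˢ Ioi (0 : ℝ) :=
          ⟨Zf_mem hd, mul_pos hu (mm_pos hd)⟩
        have := hC _ hp t ht ht1
        rw [(hJ _ hp).1, (hJ _ hp).2] at this
        exact this
      · have z0 : (0 : ℂ) ∉ H := by
          intro h; exact lt_irrefl (0 : ℝ) h
        have z1 : ∀ v, pat k1 k2 k3 0 v = 0 ∧ lpat κ k1 k2 k3 0 v = 0 := fun v =>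
          h93_pat_zero h2 h1 κ (Or.inl (by simpa using hy0.le)) v
        have z2 : ∀ w' : Path, Zf w' t 0 = 0 := fun w' =>
          Zf_dead (fun h => z0 (dom_subset _ _ h))
        simp only [Zf_dead hd, z2, (z1 _).1, (z1 _).2]
        simpa using hC0)
  simp only [Zf_zero _ hζ, mm_zero _ hζ, mul_one] at main
  simpa using main

end Crest.Agent.R162
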