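import Crest.Agent.R162.P3

set_option autoImplicit false
open MeasureTheory ProbabilityTheory Set Filter Topology Metric
open scoped ENNReal NNReal ComplexConjugate

namespace Crest.Agent.R162

theorem P4_ft_le {C : Path → ℝ → Prop} {w : Path} {t : ℝ} (ht : 0 ≤ t) (h : C w t) :
    ft C w ≤ ENNReal.ofReal t :=
  iInf₂_le (f := fun (t : ℝ) (_ : 0 ≤ t ∧ C w t) => ENNReal.ofReal t) t ⟨ht, h⟩

theorem P4_ft_lt_iff {C : Path → ℝ → Prop} {w : Path} {a : ℝ≥0∞} :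
    ft C w < a ↔ ∃ t, 0 ≤ t ∧ C w t ∧ ENNReal.ofReal t < a := by
  unfold ft
  simp only [iInf_lt_iff]
  exact ⟨fun ⟨t, h, h'⟩ => ⟨t, h.1, h.2, h'⟩, fun ⟨t, h1, h2, h'⟩ => ⟨t, ⟨h1, h2⟩, h'⟩⟩

theorem P4_measurable_ft {C : Path → ℝ → Prop} (hm : ∀ t, MeasurableSet {w | C w t})
    (hopen : ∀ (w : Path) (t : ℝ), 0 ≤ t → C w t → ∀ᶠ s in 𝓝[>] t, C w s) :
    Measurable (ft C) := by
  refine measurable_of_Iio fun a => ?_
  have h : ft C ⁻¹' Iio a =
      ⋃ q : ℚ, ⋃ (_ : 0 ≤ (q : ℝ) ∧ ENNReal.ofReal (q : ℝ) < a), {w | C w q} := by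
    ext w
    simp only [mem_preimage, mem_Iio, mem_iUnion, Set.mem_ofPred_eq, P4_ft_lt_iff]
    constructor
    · rintro ⟨t, ht, hC, ha⟩
      have h1 : ∀ᶠ s in 𝓝[>] t, ENNReal.ofReal s < a :=
        nhdsWithin_le_nhds (ENNReal.continuous_ofReal.continuousAt.eventually (Iio_mem_nhds ha))
      obtain ⟨u, hu, hsub⟩ := (mem_nhdsGT_iff_exists_Ioo_subset).1 ((hopen w t ht hC).and h1)
      obtain ⟨q, hq1, hq2⟩ := exists_rat_btwn (show t < u from hu)
      have h2 := hsub ⟨hq1, hq2⟩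
      exact ⟨q, ⟨ht.trans hq1.le, h2.2⟩, h2.1⟩
    · rintro ⟨q, ⟨h1, h2⟩, h3⟩
      exact ⟨q, h1, h3, h2⟩
  rw [h]
  exact MeasurableSet.iUnion fun q => MeasurableSet.iUnion fun _ => hm q

theorem P4_ft_loc {C : Path → ℝ → Prop}
    (hloc : ∀ (w w' : Path) (t : ℝ), 0 ≤ t → (∀ s, s ≤ t → w s = w' s) → C w t → C w' t)
    {w w' : Path} {t : ℝ} (h : ft C w < ENNReal.ofReal t) (he : ∀ s, s ≤ t → w s = w' s) :
    ft C w' ≤ ft C w := by
  by_contra hlt
  obtain ⟨s, hs, hC, h1⟩ := P4_ft_lt_iff.1 (lt_min (not_le.1 hlt) h)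
  have h2 : s ≤ t := by
    by_contra h3
    exact absurd (ENNReal.ofReal_le_ofReal (not_le.1 h3).le) (not_le.2 (lt_min_iff.1 h1).2)
  exact absurd (P4_ft_le hs (hloc w w' s hs (fun r hr => he r (hr.trans h2)) hC))
    (not_le.2 (lt_min_iff.1 h1).1)

theorem IsOpt.P4_lt_iff {τ : Path → ℝ≥0∞} (hτ : IsOpt τ) {w w' : Path} {t : ℝ} (ht : 0 ≤ t)
    (he : ∀ s, s ≤ t → w s = w' s) : τ w < ENNReal.ofReal t ↔ τ w' < ENNReal.ofReal t :=
  ⟨fun h => (hτ.loc w w' t ht h he).symm ▸ h,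
    fun h => (hτ.loc w' w t ht h fun s hs => (he s hs).symm).symm ▸ h⟩

theorem IsOpt.min {σ τ : Path → ℝ≥0∞} (hσ : IsOpt σ) (hτ : IsOpt τ) :
    IsOpt (fun w => min (σ w) (τ w)) := by
  refine ⟨hσ.meas.min hτ.meas, fun w w' t ht h he => ?_⟩
  have he' : ∀ s, s ≤ t → w' s = w s := fun s hs => (he s hs).symm
  by_cases h1 : σ w < ENNReal.ofReal t <;> by_cases h2 : τ w < ENNReal.ofReal t
  · rw [hσ.loc w w' t ht h1 he, hτ.loc w w' t ht h2 he]
  · have h3 := mt (hτ.P4_lt_iff ht he).2 h2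
    rw [hσ.loc w w' t ht h1 he, min_eq_left (h1.le.trans (not_lt.1 h3)),
      min_eq_left (h1.le.trans (not_lt.1 h2))]
  · have h3 := mt (hσ.P4_lt_iff ht he).2 h1
    rw [hτ.loc w w' t ht h2 he, min_eq_right (h2.le.trans (not_lt.1 h3)),
      min_eq_right (h2.le.trans (not_lt.1 h1))]
  · rcases min_lt_iff.1 h with h3 | h3
    · exact absurd h3 h1
    · exact absurd h3 h2

/-- First times of adapted, measurable conditions that persist at some rational times just after. -/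
theorem isOpt_ft {C : Path → ℝ → Prop} (hm : ∀ t, MeasurableSet {w | C w t})
    (hloc : ∀ (w w' : Path) (t : ℝ), 0 ≤ t → (∀ s, s ≤ t → w s = w' s) → C w t → C w' t)
    (hopen : ∀ (w : Path) (t : ℝ), 0 ≤ t → C w t → ∀ᶠ s in 𝓝[>] t, C w s) : IsOpt (ft C) := by
  refine ⟨P4_measurable_ft hm hopen, fun w w' t _ h he => ?_⟩
  have h1 := P4_ft_loc hloc h he
  exact le_antisymm h1 (P4_ft_loc hloc (h1.trans_lt h) fun s hs => (he s hs).symm)

theorem ft_le {C : Path → ℝ → Prop} {w : Path} {t : ℝ} (ht : 0 ≤ t) (h : C w t) :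
    ft C w ≤ ENNReal.ofReal t := by
  exact P4_ft_le ht h

theorem ft_lt_top_iff {C : Path → ℝ → Prop} {w : Path} : ft C w < ⊤ ↔ ∃ t, 0 ≤ t ∧ C w t := by
  rw [P4_ft_lt_iff]
  exact ⟨fun ⟨t, h1, h2, _⟩ => ⟨t, h1, h2⟩, fun ⟨t, h1, h2⟩ => ⟨t, h1, h2, ENNReal.ofReal_lt_top⟩⟩

theorem not_of_lt_ft {C : Path → ℝ → Prop} {w : Path} {t : ℝ} (ht : 0 ≤ t)
    (h : ENNReal.ofReal t < ft C w) : ¬ C w t := by
  exact fun hC => absurd (ft_le ht hC) (not_le.2 h)

theorem ft_approx {C : Path → ℝ → Prop} {w : Path} (h : ft C w < ⊤) {δ : ℝ} (hδ : 0 < δ) :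
    ∃ t, (ft C w).toReal ≤ t ∧ t < (ft C w).toReal + δ ∧ C w t := by
  have h0 : 0 ≤ (ft C w).toReal := ENNReal.toReal_nonneg
  have h1 : ft C w < ENNReal.ofReal ((ft C w).toReal + δ) := by
    rw [ENNReal.lt_ofReal_iff_toReal_lt h.ne]
    linarith
  obtain ⟨t, ht, hC, h2⟩ := P4_ft_lt_iff.1 h1
  refine ⟨t, ?_, (ENNReal.ofReal_lt_ofReal_iff (by linarith)).1 h2, hC⟩
  exact ENNReal.toReal_le_of_le_ofReal ht (ft_le ht hC)

theorem measurableSet_exists_time {C : Path → ℝ → Prop} (hm : ∀ t, MeasurableSet {w | C w t})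
    (hopen : ∀ (w : Path) (t : ℝ), 0 ≤ t → C w t → ∀ᶠ s in 𝓝[>] t, C w s) :
    MeasurableSet {w | ∃ t, 0 ≤ t ∧ C w t} := by
  have h : {w | ∃ t, 0 ≤ t ∧ C w t} = ft C ⁻¹' Iio ⊤ := by
    ext w
    exact ft_lt_top_iff.symm
  rw [h]
  exact P4_measurable_ft hm hopen measurableSet_Iio

/-- Optional stopping on the grid of mesh `h`. -/
theorem IsDrv.P4_grid {κ : ℝ} {P : Measure Path} (hP : IsDrv κ P) {τ : Path → ℝ≥0∞}
    (hτ : IsOpt τ) (M : Path → ℝ → ℝ≥0∞) (hm : Measurable (fun p : Path × ℝ => M p.1 p.2))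
    (hsup : ∀ (w : Path) (s t : ℝ), 0 ≤ s → 0 ≤ t →
      ∫⁻ w', M (concat s w w') (s + t) ∂P ≤ M w s) {h : ℝ} (hh : 0 < h) :
    ∫⁻ w in {w | τ w < ⊤}, M w (((⌊(τ w).toReal / h⌋₊ : ℝ) + 1) * h) ∂P ≤ ∫⁻ w, M w 0 ∂P := by
  obtain ⟨A, hA⟩ : ∃ A : ℕ → Set Path, A = fun K : ℕ => {w | τ w < ENNReal.ofReal (K * h)} :=
    ⟨_, rfl⟩
  obtain ⟨G, hG⟩ : ∃ G : Path → ℝ≥0∞,
    G = fun w => M w (((⌊(τ w).toReal / h⌋₊ : ℝ) + 1) * h) := ⟨_, rfl⟩
  have hmem : ∀ K w, w ∈ A K ↔ τ w < ENNReal.ofReal (K * h) := fun K w => by rw [hA]; rfl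
  have hAm : ∀ K, MeasurableSet (A K) := fun K => by
    rw [hA]; exact hτ.meas measurableSet_Iio
  have hmono : Monotone A := fun K L hKL w hw => by
    rw [hmem] at hw ⊢
    exact hw.trans_le (ENNReal.ofReal_le_ofReal
      (mul_le_mul_of_nonneg_right (by exact_mod_cast hKL) hh.le))
  have hMt : ∀ t : ℝ, Measurable fun w => M w t := fun t =>
    hm.comp (f := fun w : Path => (w, t)) (by fun_prop)
  have step : ∀ K : ℕ, ∫⁻ w in (A K)ᶜ, M w (((K + 1 : ℕ) : ℝ) * h) ∂P ≤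
      ∫⁻ w in (A K)ᶜ, M w (K * h) ∂P := by
    intro K
    have hs : 0 ≤ (K : ℝ) * h := by positivity
    rw [← lintegral_indicator (hAm K).compl, ← lintegral_indicator (hAm K).compl,
      hP.lintegral_markov hs ((hMt _).indicator (hAm K).compl)]
    refine lintegral_mono fun w => ?_
    have hiff : ∀ w', concat (K * h) w w' ∈ (A K)ᶜ ↔ w ∈ (A K)ᶜ := fun w' => by
      simp only [mem_compl_iff, hmem]
      exact not_congr (hτ.P4_lt_iff hs fun s hs' => concat_le _ w w' hs')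
    by_cases hw : w ∈ (A K)ᶜ
    · simp only [indicator_of_mem hw, indicator_of_mem ((hiff _).2 hw)]
      have e : ((K + 1 : ℕ) : ℝ) * h = K * h + h := by push_cast; ring
      rw [e]
      exact hsup w _ _ hs hh.le
    · simp only [indicator_of_notMem hw, indicator_of_notMem (mt (hiff _).1 hw)]
      simp
  have ind : ∀ K : ℕ, ∫⁻ w in A K, G w ∂P + ∫⁻ w in (A K)ᶜ, M w (K * h) ∂P ≤ ∫⁻ w, M w 0 ∂P := by
    intro K
    induction K with
    | zero =>
      have h0 : A 0 = ∅ := by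
        ext w
        simp [hmem]
      simp [h0]
    | succ K ih =>
      refine le_trans ?_ ih
      have hsub : A K ⊆ A (K + 1) := hmono (Nat.le_succ K)
      have e1 := lintegral_inter_add_sdiff (μ := P) G (A (K + 1)) (hAm K)
      rw [inter_eq_self_of_subset_right hsub] at e1
      have e2 := lintegral_inter_add_sdiff (μ := P) (fun w => M w (((K + 1 : ℕ) : ℝ) * h)) (A K)ᶜ
        (hAm (K + 1))
      have s1 : (A K)ᶜ ∩ A (K + 1) = A (K + 1) \ A K := by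
        ext w; simp [and_comm]
      have s2 : (A K)ᶜ \ A (K + 1) = (A (K + 1))ᶜ := by
        ext w
        simp only [Set.mem_sdiff, mem_compl_iff]
        exact ⟨fun h => h.2, fun h => ⟨fun h' => h (hsub h'), h⟩⟩
      rw [s1, s2] at e2
      have e3 : ∫⁻ w in A (K + 1) \ A K, G w ∂P =
          ∫⁻ w in A (K + 1) \ A K, M w (((K + 1 : ℕ) : ℝ) * h) ∂P := by
        refine setLIntegral_congr_fun ((hAm _).diff (hAm _)) fun w hw => ?_
        have h1 := (hmem _ _).1 hw.1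
        have h2 := not_lt.1 (mt (hmem _ _).2 hw.2)
        have hne : τ w ≠ ⊤ := (h1.trans ENNReal.ofReal_lt_top).ne
        rw [ENNReal.lt_ofReal_iff_toReal_lt hne] at h1
        rw [ENNReal.ofReal_le_iff_le_toReal hne] at h2
        have h3 : ⌊(τ w).toReal / h⌋₊ = K := by
          rw [Nat.floor_eq_iff (div_nonneg ENNReal.toReal_nonneg hh.le), le_div_iff₀ hh,
            div_lt_iff₀ hh]
          exact ⟨h2, by simpa using h1⟩
        rw [hG]
        simp only [h3]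
        push_cast
        rfl
      rw [← e1, e3, add_assoc, e2]
      exact add_le_add le_rfl (step K)
  have hU : {w | τ w < ⊤} = ⋃ K, A K := by
    ext w
    simp only [Set.mem_ofPred_eq, mem_iUnion, hmem]
    refine ⟨fun hw => ?_, fun ⟨K, hK⟩ => hK.trans ENNReal.ofReal_lt_top⟩
    obtain ⟨K, hK⟩ := exists_nat_gt ((τ w).toReal / h)
    refine ⟨K, ?_⟩
    rw [ENNReal.lt_ofReal_iff_toReal_lt hw.ne]
    exact (div_lt_iff₀ hh).1 hK
  rw [← hG, hU, setLIntegral_iUnion_of_directed G hmono.directed_le]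
  exact iSup_le fun K => le_trans le_self_add (ind K)

/-- Optional stopping for nonnegative right-continuous supermartingales. For the dyadic
approximations `τ_n` (truncated at `T`) this is a finite backward induction with
`lintegral_markov`; then Fatou and monotone convergence. -/
theorem IsDrv.opt_stop {κ : ℝ} {P : Measure Path} (hP : IsDrv κ P) {τ : Path → ℝ≥0∞}
    (hτ : IsOpt τ) (M : Path → ℝ → ℝ≥0∞) (hm : Measurable (fun p : Path × ℝ => M p.1 p.2))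
    (hloc : ∀ (w w' : Path) (t : ℝ), 0 ≤ t → (∀ s, s ≤ t → w s = w' s) → M w t = M w' t)
    (hrc : ∀ (w : Path) (t : ℝ), 0 ≤ t → ContinuousWithinAt (M w) (Ici t) t)
    (hsup : ∀ (w : Path) (s t : ℝ), 0 ≤ s → 0 ≤ t →
      ∫⁻ w', M (concat s w w') (s + t) ∂P ≤ M w s) :
    ∫⁻ w in {w | τ w < ⊤}, M w (τ w).toReal ∂P ≤ ∫⁻ w, M w 0 ∂P := by
  obtain ⟨r, hr⟩ : ∃ r : ℕ → Path → ℝ, r = fun (n : ℕ) w =>
    ((⌊(τ w).toReal / (1 / ((n : ℝ) + 1))⌋₊ : ℝ) + 1) * (1 / ((n : ℝ) + 1)) := ⟨_, rfl⟩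
  have hrm : ∀ n, Measurable (r n) := fun n => by
    rw [hr]
    refine (Measurable.add_const ?_ _).mul_const _
    exact measurable_from_top.comp (Nat.measurable_floor.comp
      (hτ.meas.ennreal_toReal.div_const _))
  have hlim : ∀ w, Tendsto (fun n => M w (r n w)) atTop (𝓝 (M w (τ w).toReal)) := by
    intro w
    obtain ⟨x, hx⟩ : ∃ x, x = (τ w).toReal := ⟨_, rfl⟩
    have hx0 : 0 ≤ x := hx ▸ ENNReal.toReal_nonneg
    have hb : ∀ n : ℕ, x ≤ r n w ∧ r n w ≤ x + 1 / ((n : ℝ) + 1) := fun n => by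
      have hh : (0 : ℝ) < 1 / ((n : ℝ) + 1) := by positivity
      rw [hr]
      simp only [← hx]
      have h1 := Nat.lt_floor_add_one (x / (1 / ((n : ℝ) + 1)))
      have h2 := Nat.floor_le (div_nonneg hx0 hh.le)
      rw [div_lt_iff₀ hh] at h1
      rw [le_div_iff₀ hh] at h2
      exact ⟨h1.le, by linarith⟩
    rw [← hx]
    refine (hrc w x hx0).tendsto.comp (tendsto_nhdsWithin_iff.2 ⟨?_, Eventually.of_forall fun n =>
      (hb n).1⟩)
    have h3 : Tendsto (fun n : ℕ => x + 1 / ((n : ℝ) + 1)) atTop (𝓝 x) := by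
      simpa using tendsto_one_div_add_atTop_nhds_zero_nat.const_add x
    exact tendsto_of_tendsto_of_tendsto_of_le_of_le tendsto_const_nhds h3 (fun n => (hb n).1)
      fun n => (hb n).2
  calc ∫⁻ w in {w | τ w < ⊤}, M w (τ w).toReal ∂P
      = ∫⁻ w in {w | τ w < ⊤}, liminf (fun n => M w (r n w)) atTop ∂P :=
        lintegral_congr fun w => (hlim w).liminf_eq.symm
    _ ≤ liminf (fun n => ∫⁻ w in {w | τ w < ⊤}, M w (r n w) ∂P) atTop :=
        lintegral_liminf_le fun n => hm.comp (measurable_id.prodMk (hrm n))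
    _ ≤ ∫⁻ w, M w 0 ∂P := by
        refine liminf_le_of_frequently_le' (Frequently.of_forall fun n => ?_)
        rw [hr]
        exact hP.P4_grid hτ M hm hsup (by positivity)

end Crest.Agent.R162
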