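import Crest.Agent.R162.O1
import Crest.Agent.R162.P4

set_option autoImplicit false
open MeasureTheory ProbabilityTheory Set Filter Topology Metric
open scoped ENNReal NNReal ComplexConjugate

namespace Crest.Agent.R162

theorem O2_meas_Sn : Measurable Sn :=
  Complex.measurable_im.div measurable_norm

theorem measurable_atom {k : ℝ → ℝ} (hk : BC3 k) (e β : ℝ) :
    Measurable (fun p : ℂ × ℝ => atom k e β p.1 p.2) := by
  have hS : Measurable fun p : ℂ × ℝ => Sn p.1 := O2_meas_Sn.comp measurable_fst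
  exact ((hk.1.continuous.measurable.comp measurable_snd.log).mul (hS.pow_const e)).mul
    (measurable_fst.norm.pow_const β)

theorem measurable_latom (κ : ℝ) {k : ℝ → ℝ} (hk : BC3 k) (e β : ℝ) :
    Measurable (fun p : ℂ × ℝ => latom κ k e β p.1 p.2) := by
  have hS : Measurable fun p : ℂ × ℝ => Sn p.1 := O2_meas_Sn.comp measurable_fst
  have h1 : Measurable fun p : ℂ × ℝ => k (Real.log p.2) :=
    hk.1.continuous.measurable.comp measurable_snd.log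
  have h2 : Measurable fun p : ℂ × ℝ => deriv k (Real.log p.2) :=
    (measurable_deriv k).comp measurable_snd.log
  have h3 : Measurable fun p : ℂ × ℝ => Sn p.1 ^ 2 := hS.pow_const 2
  exact ((measurable_fst.norm.pow_const (β - 2)).mul (hS.pow_const e)).mul
    ((h1.mul (((((h3.const_mul 2).const_sub 1).const_mul _).add
      ((h3.const_sub 1).const_mul _)).sub_const _)).sub ((h3.const_mul 4).mul h2))

theorem O2_meas_asum {n : ℕ} {k : Fin n → ℝ → ℝ} {e β : Fin n → ℝ} (hk : AtomOK k e β) :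
    Measurable (fun p : ℂ × ℝ => asum k e β p.1 p.2) :=
  Finset.measurable_sum _ fun i _ => measurable_atom (hk.b i) (e i) (β i)

theorem O2_meas_lsum (κ : ℝ) {n : ℕ} {k : Fin n → ℝ → ℝ} {e β : Fin n → ℝ} (hk : AtomOK k e β) :
    Measurable (fun p : ℂ × ℝ => lsum κ k e β p.1 p.2) :=
  Finset.measurable_sum _ fun i _ => measurable_latom κ (hk.b i) (e i) (β i)

theorem O2_asum_zero {n : ℕ} {k : Fin n → ℝ → ℝ} {e β : Fin n → ℝ} (hk : AtomOK k e β) (u : ℝ) :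
    asum k e β 0 u = 0 :=
  Finset.sum_eq_zero fun i _ => by
    rw [atom, Sn_zero, Real.zero_rpow (hk.e_pos i).ne']
    ring

theorem O2_lsum_zero (κ : ℝ) {n : ℕ} {k : Fin n → ℝ → ℝ} {e β : Fin n → ℝ} (hk : AtomOK k e β)
    (u : ℝ) : lsum κ k e β 0 u = 0 :=
  Finset.sum_eq_zero fun i _ => by
    rw [latom, Sn_zero, Real.zero_rpow (hk.e_pos i).ne']
    ring

theorem O2_deriv_exp_mul (c : ℝ) {χ : ℝ → ℝ} (hχ : Differentiable ℝ χ) :
    deriv (fun x => Real.exp (c * x) * χ x) =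
      fun x => Real.exp (c * x) * (c * χ x + deriv χ x) := by
  funext x
  have h1 : HasDerivAt (fun x => Real.exp (c * x)) (Real.exp (c * x) * c) x := by
    simpa using ((hasDerivAt_id x).const_mul c).exp
  have h2 : HasDerivAt (fun x => Real.exp (c * x) * χ x)
      (Real.exp (c * x) * c * χ x + Real.exp (c * x) * deriv χ x) x := h1.mul (hχ x).hasDerivAt
  rw [h2.deriv]
  ring

theorem O2_deriv2_exp_mul (c : ℝ) {χ : ℝ → ℝ} (hχ : ContDiff ℝ 3 χ) :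
    deriv (deriv (fun x => Real.exp (c * x) * χ x)) =
      fun x => Real.exp (c * x) * (c ^ 2 * χ x + 2 * c * deriv χ x + deriv (deriv χ) x) := by
  have h1 : Differentiable ℝ χ := hχ.differentiable (by norm_num)
  have h2 : Differentiable ℝ (deriv χ) :=
    (show ContDiff ℝ (2 + 1) χ from hχ).deriv'.differentiable (by norm_num)
  rw [O2_deriv_exp_mul c h1, O2_deriv_exp_mul c ((h1.const_mul c).fun_add h2)]
  funext x
  have h3 : HasDerivAt (fun x => c * χ x + deriv χ x) (c * deriv χ x + deriv (deriv χ) x) x :=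
    ((h1 x).hasDerivAt.const_mul c).add (h2 x).hasDerivAt
  rw [h3.deriv]
  ring

theorem O2_exp_Sn (e β : ℝ) {ζ : ℂ} (hζ : ζ ∈ H) :
    Sn ζ ^ e * ‖ζ‖ ^ β =
      Real.exp ((β - e) * Real.log ‖ζ‖) * Real.exp (e * Real.log ζ.im) := by
  have h1 : 0 < ζ.im := hζ
  have h2 : 0 < ‖ζ‖ := T2_norm_pos hζ
  rw [Real.rpow_def_of_pos (Sn_pos hζ), Real.rpow_def_of_pos h2, ← Real.exp_add, ← Real.exp_add,
    Sn, Real.log_div h1.ne' h2.ne']
  congr 1
  ring

theorem O2_pat (e β : ℝ) (χ1 χ2 k : ℝ → ℝ) {ζ : ℂ} (hζ : ζ ∈ H) (u : ℝ) :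
    pat (fun x => Real.exp ((β - e) * x) * χ1 x) (fun x => Real.exp (e * x) * χ2 x) k ζ u =
      χ1 (Real.log ‖ζ‖) * χ2 (Real.log ζ.im) * atom k e β ζ u := by
  rw [pat, indicator_of_mem hζ, atom, mul_assoc (k _), O2_exp_Sn e β hζ]
  ring

theorem O2_lpat (κ e β : ℝ) {χ1 χ2 : ℝ → ℝ} (h1 : ContDiff ℝ 3 χ1) (h2 : ContDiff ℝ 3 χ2)
    (k : ℝ → ℝ) {ζ : ℂ} (hζ : ζ ∈ H) (u : ℝ) :
    lpat κ (fun x => Real.exp ((β - e) * x) * χ1 x) (fun x => Real.exp (e * x) * χ2 x) k ζ u =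
      χ1 (Real.log ‖ζ‖) * χ2 (Real.log ζ.im) * latom κ k e β ζ u -
        2 * χ1 (Real.log ‖ζ‖) * deriv χ2 (Real.log ζ.im) / ‖ζ‖ ^ 2 * atom k e β ζ u +
        atom k e β ζ u / ‖ζ‖ ^ 2 * (χ2 (Real.log ζ.im) *
          (deriv χ1 (Real.log ‖ζ‖) * ((2 - κ / 2) * (1 - 2 * Sn ζ ^ 2)) +
            κ / 2 * (2 * (β - e) * deriv χ1 (Real.log ‖ζ‖) + deriv (deriv χ1) (Real.log ‖ζ‖)) *
              (1 - Sn ζ ^ 2))) := by
  have h0 : 0 < ‖ζ‖ := T2_norm_pos hζ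
  have h3 : ‖ζ‖ ^ (β - 2) * Sn ζ ^ e = Sn ζ ^ e * ‖ζ‖ ^ β / ‖ζ‖ ^ 2 := by
    rw [Real.rpow_sub h0, Real.rpow_two]
    ring
  rw [lpat, indicator_of_mem hζ, O2_deriv2_exp_mul _ h1,
    O2_deriv_exp_mul _ (h1.differentiable (by norm_num)),
    O2_deriv_exp_mul _ (h2.differentiable (by norm_num)), atom, latom, h3, mul_assoc (k _),
    O2_exp_Sn e β hζ]
  ring

/-- The error term of one atom. -/
theorem O2_err {κ : ℝ} (hκ : 0 < κ) {k : ℝ → ℝ} (hk : BC3 k) {e β : ℝ} (he : 0 < e) (hβ : β < 2) :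
    ∃ C : ℝ, 0 ≤ C ∧ ∀ (N L : ℝ) (ζ : ℂ), ζ ∈ H → ∀ u : ℝ,
      atom k e β ζ u / ‖ζ‖ ^ 2 * (st L *
          (-deriv st (N + 1 - Real.log ‖ζ‖) * ((2 - κ / 2) * (1 - 2 * Sn ζ ^ 2)) +
            κ / 2 * (2 * (β - e) * -deriv st (N + 1 - Real.log ‖ζ‖) +
              deriv (deriv st) (N + 1 - Real.log ‖ζ‖)) * (1 - Sn ζ ^ 2))) ≤
        C * Real.exp ((β - 2) * N) := by
  obtain ⟨hst, M, hM⟩ := BC3_st
  obtain ⟨-, B, hB⟩ := hk
  have hM0 : 0 ≤ M := (abs_nonneg _).trans (hM 0).1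
  have hB0 : 0 ≤ B := (abs_nonneg _).trans (hB 0).1
  refine ⟨B * (M * |2 - κ / 2| + κ / 2 * (2 * |β - e| * M + M)), by positivity,
    fun N L ζ hζ u => ?_⟩
  obtain ⟨A, hA⟩ : ∃ A, A = N + 1 - Real.log ‖ζ‖ := ⟨_, rfl⟩
  rw [← hA]
  rcases le_total 1 A with hA1 | hA1
  · rw [(st_deriv_eq_zero (Or.inr hA1)).1, (st_deriv_eq_zero (Or.inr hA1)).2]
    simp only [neg_zero, zero_mul, mul_zero, add_zero]
    positivity
  have h0 : 0 < ‖ζ‖ := T2_norm_pos hζ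
  have p3 : 0 ≤ st L := Real.smoothTransition.nonneg L
  have p4 : st L ≤ 1 := Real.smoothTransition.le_one L
  have s0 := Sn_pos hζ
  have s1 := Sn_le_one ζ
  have s2 : Sn ζ ^ 2 ≤ 1 := pow_le_one₀ s0.le s1
  have s3 : 0 ≤ Sn ζ ^ 2 := sq_nonneg _
  have b1 : |-deriv st A * ((2 - κ / 2) * (1 - 2 * Sn ζ ^ 2))| ≤ M * |2 - κ / 2| := by
    rw [abs_mul, abs_mul, abs_neg]
    refine mul_le_mul (hM A).2.1 (mul_le_of_le_one_right (abs_nonneg _) ?_) (by positivity) hM0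
    rw [abs_le]
    constructor <;> linarith
  have b2 : |κ / 2 * (2 * (β - e) * -deriv st A + deriv (deriv st) A) * (1 - Sn ζ ^ 2)| ≤
      κ / 2 * (2 * |β - e| * M + M) := by
    rw [abs_mul, abs_mul, abs_of_pos (half_pos hκ), abs_of_nonneg (sub_nonneg.2 s2)]
    refine (mul_le_of_le_one_right (by positivity) (by linarith)).trans
      (mul_le_mul_of_nonneg_left ((abs_add_le _ _).trans (add_le_add ?_ (hM A).2.2.1))
        (half_pos hκ).le)
    rw [abs_mul, abs_neg, abs_mul, abs_two]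
    exact mul_le_mul_of_nonneg_left (hM A).2.1 (by positivity)
  have b4 : |st L * (-deriv st A * ((2 - κ / 2) * (1 - 2 * Sn ζ ^ 2)) +
      κ / 2 * (2 * (β - e) * -deriv st A + deriv (deriv st) A) * (1 - Sn ζ ^ 2))| ≤
      M * |2 - κ / 2| + κ / 2 * (2 * |β - e| * M + M) := by
    rw [abs_mul, abs_of_nonneg p3]
    exact (mul_le_of_le_one_left (abs_nonneg _) p4).trans
      ((abs_add_le _ _).trans (add_le_add b1 b2))
  have b5 : |atom k e β ζ u / ‖ζ‖ ^ 2| ≤ B * Real.exp ((β - 2) * N) := by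
    have e1 : atom k e β ζ u / ‖ζ‖ ^ 2 =
        k (Real.log u) * (Sn ζ ^ e * Real.exp ((β - 2) * Real.log ‖ζ‖)) := by
      rw [atom, mul_comm (β - 2), ← Real.rpow_def_of_pos h0, Real.rpow_sub h0, Real.rpow_two]
      ring
    have e2 : Sn ζ ^ e ≤ 1 := Real.rpow_le_one s0.le s1 he.le
    have e3 : 0 ≤ Sn ζ ^ e := Real.rpow_nonneg s0.le _
    have e4 : Real.exp ((β - 2) * Real.log ‖ζ‖) ≤ Real.exp ((β - 2) * N) :=
      Real.exp_le_exp.2 (mul_le_mul_of_nonpos_left (by linarith) (by linarith))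
    rw [e1, abs_mul, abs_of_nonneg (mul_nonneg e3 (Real.exp_pos _).le)]
    exact mul_le_mul (hB _).1 ((mul_le_of_le_one_left (Real.exp_pos _).le e2).trans e4)
      (by positivity) hB0
  refine (le_abs_self _).trans ?_
  rw [abs_mul]
  refine (mul_le_mul b5 b4 (abs_nonneg _) (by positivity)).trans (le_of_eq ?_)
  ring

/-- The cut-off functions. -/
theorem O2_cut {κ : ℝ} (hκ : 0 < κ) {n : ℕ} {k : Fin n → ℝ → ℝ} {e β : Fin n → ℝ}
    (hk : AtomOK k e β)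
    (h : ∀ ζ ∈ H, ∀ u > 0, 0 ≤ asum k e β ζ u ∧ lsum κ k e β ζ u ≤ 0) :
    ∃ δ : ℕ → ℝ, (∀ N, 0 ≤ δ N) ∧ Tendsto δ atTop (𝓝 0) ∧ ∀ N : ℕ,
      ∃ k1 k2 : Fin n → ℝ → ℝ, (∀ i, PatOK (k1 i) (k2 i) (k i)) ∧ ∀ ζ ∈ H, ∀ u > 0,
        0 ≤ ∑ i, pat (k1 i) (k2 i) (k i) ζ u ∧ ∑ i, pat (k1 i) (k2 i) (k i) ζ u ≤ asum k e β ζ u ∧
        ∑ i, lpat κ (k1 i) (k2 i) (k i) ζ u ≤ δ N ∧
        (Real.log ‖ζ‖ ≤ N ∧ 1 - (N : ℝ) ≤ Real.log ζ.im →
          ∑ i, pat (k1 i) (k2 i) (k i) ζ u = asum k e β ζ u ∧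
          ∑ i, lpat κ (k1 i) (k2 i) (k i) ζ u = lsum κ k e β ζ u) := by
  choose C hC0 hC using fun i => O2_err hκ (hk.b i) (hk.e_pos i) (hk.β_lt i)
  have hst := BC3_st.1
  refine ⟨fun N => ∑ i, C i * Real.exp ((β i - 2) * N),
    fun N => Finset.sum_nonneg fun i _ => mul_nonneg (hC0 i) (Real.exp_pos _).le, ?_, fun N => ?_⟩
  · have h1 : Tendsto (fun N : ℕ => ∑ i, C i * Real.exp ((β i - 2) * N)) atTop
        (𝓝 (∑ i, C i * 0)) := by
      refine tendsto_finset_sum _ fun i _ => Tendsto.const_mul _ ?_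
      exact Real.tendsto_exp_atBot.comp
        (tendsto_natCast_atTop_atTop.const_mul_atTop_of_neg (by linarith [hk.β_lt i]))
    simpa using h1
  have c1 : ContDiff ℝ 3 fun x => st ((N : ℝ) + 1 - x) := hst.comp (by fun_prop)
  have c2 : ContDiff ℝ 3 fun x => st (x + (N : ℝ)) := hst.comp (by fun_prop)
  have d1 : deriv (fun x => st ((N : ℝ) + 1 - x)) = fun x => -deriv st ((N : ℝ) + 1 - x) :=
    funext fun x => deriv_comp_const_sub st ((N : ℝ) + 1) x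
  have d11 : ∀ x, deriv (deriv (fun x => st ((N : ℝ) + 1 - x))) x =
      deriv (deriv st) ((N : ℝ) + 1 - x) := by
    intro x
    rw [d1, deriv.fun_neg, deriv_comp_const_sub (deriv st) ((N : ℝ) + 1) x, neg_neg]
  have d2 : ∀ x, deriv (fun x => st (x + (N : ℝ))) x = deriv st (x + (N : ℝ)) :=
    fun x => deriv_comp_add_const st (N : ℝ) x
  refine ⟨fun i x => Real.exp ((β i - e i) * x) * st ((N : ℝ) + 1 - x),
    fun i x => Real.exp (e i * x) * st (x + (N : ℝ)), fun i =>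
    ⟨ContDiff.mul (by fun_prop) c1, ContDiff.mul (by fun_prop) c2,
      ⟨N + 1, fun x hx => mul_eq_zero_of_right _
        (Real.smoothTransition.zero_of_nonpos (by linarith))⟩,
      ⟨-N, fun x hx => mul_eq_zero_of_right _
        (Real.smoothTransition.zero_of_nonpos (by linarith))⟩,
      hk.b i⟩, fun ζ hζ u hu => ?_⟩
  simp only [O2_pat _ _ _ _ _ hζ, O2_lpat κ _ _ c1 c2 _ hζ, d11, d2]
  simp only [d1]
  rw [Finset.sum_add_distrib, Finset.sum_sub_distrib, ← Finset.mul_sum, ← Finset.mul_sum,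
    ← Finset.mul_sum]
  obtain ⟨a0, l0⟩ := h ζ hζ u hu
  have hE := Finset.sum_le_sum (s := Finset.univ)
    fun i _ => hC i N (Real.log ζ.im + N) ζ hζ u
  obtain ⟨A, hA⟩ : ∃ A, A = (N : ℝ) + 1 - Real.log ‖ζ‖ := ⟨_, rfl⟩
  obtain ⟨L, hL⟩ : ∃ L, L = Real.log ζ.im + (N : ℝ) := ⟨_, rfl⟩
  simp only [← hA, ← hL] at hE ⊢
  rw [show ∑ i, atom (k i) (e i) (β i) ζ u = asum k e β ζ u from rfl,
    show ∑ i, latom κ (k i) (e i) (β i) ζ u = lsum κ k e β ζ u from rfl]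
  have p1 : 0 ≤ st A := Real.smoothTransition.nonneg A
  have p2 : st A ≤ 1 := Real.smoothTransition.le_one A
  have p3 : 0 ≤ st L := Real.smoothTransition.nonneg L
  have p4 : st L ≤ 1 := Real.smoothTransition.le_one L
  have p5 : st A * st L ≤ 1 := mul_le_one₀ p2 p3 p4
  have p6 : 0 ≤ st A * st L := mul_nonneg p1 p3
  refine ⟨mul_nonneg p6 a0, mul_le_of_le_one_left a0 p5, ?_, fun hK => ?_⟩
  · have q1 : st A * st L * lsum κ k e β ζ u ≤ 0 := mul_nonpos_of_nonneg_of_nonpos p6 l0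
    have q2 : 0 ≤ 2 * st A * deriv st L / ‖ζ‖ ^ 2 * asum k e β ζ u :=
      mul_nonneg (div_nonneg (mul_nonneg (mul_nonneg zero_le_two p1) (st_deriv_nonneg L))
        (sq_nonneg _)) a0
    linarith
  · have hA1 : 1 ≤ A := by linarith [hK.1]
    have hL1 : 1 ≤ L := by linarith [hK.2]
    have e1 : st A = 1 := Real.smoothTransition.one_of_one_le hA1
    have e2 : st L = 1 := Real.smoothTransition.one_of_one_le hL1
    rw [e1, e2, (st_deriv_eq_zero (Or.inr hA1)).1, (st_deriv_eq_zero (Or.inr hA1)).2,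
      (st_deriv_eq_zero (Or.inr hL1)).1]
    simp

/-- The exhausting sets. -/
def O2K (N : ℕ) : Set ℂ := {ξ : ℂ | Real.log ‖ξ‖ ≤ N ∧ 1 - (N : ℝ) ≤ Real.log ξ.im}

theorem O2_ind_tendsto {α : Type*} [MeasurableSpace α] (μ : Measure α) {g : α → ℝ≥0∞}
    (hg : Measurable g) {Z : α → ℂ} (hZ : Measurable Z) :
    Tendsto (fun N : ℕ => ∫⁻ x, (Z ⁻¹' O2K N).indicator g x ∂μ) atTop (𝓝 (∫⁻ x, g x ∂μ)) := by
  have hKm : ∀ N, MeasurableSet (O2K N) := fun N =>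
    (measurableSet_le (measurable_norm.log) measurable_const).inter
      (measurableSet_le measurable_const (Complex.measurable_im.log))
  refine lintegral_tendsto_of_tendsto_of_monotone
    (fun N => (hg.indicator (hZ (hKm N))).aemeasurable) (ae_of_all _ fun x => ?_)
    (ae_of_all _ fun x => ?_)
  · intro N M hNM
    have h1 : (N : ℝ) ≤ M := by exact_mod_cast hNM
    refine indicator_le_indicator_of_subset (fun y hy => ?_) (fun _ => zero_le) x
    exact ⟨hy.1.trans h1, by linarith [hy.2]⟩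
  · refine tendsto_const_nhds.congr' ?_
    filter_upwards [tendsto_natCast_atTop_atTop.eventually_ge_atTop (Real.log ‖Z x‖),
      tendsto_natCast_atTop_atTop.eventually_ge_atTop (1 - Real.log (Z x).im)] with N h1 h2
    exact (indicator_of_mem (show x ∈ Z ⁻¹' O2K N from ⟨h1, by linarith⟩) g).symm

/-- Excessive functions. Multiply by `st (L - log y0) * st (log R + 1 - A)`: each atom becomes a `pat`
with `k1 = exp ((β-e) A) st (..)`, `k2 = exp (e L) st (..)`; the generator of the product is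
`χχ lsum - 2 χ₁' χ₂ asum/‖ζ‖² + O(R^(β-2))`; `dynkin`, Fatou as `y0 → 0`, `R → ∞`. -/
theorem exc {κ : ℝ} (hκ : 0 < κ) {P : Measure Path} (hP : IsDrv κ P) {n : ℕ}
    {k : Fin n → ℝ → ℝ} {e β : Fin n → ℝ} (hk : AtomOK k e β)
    (h : ∀ ζ ∈ H, ∀ u > 0, 0 ≤ asum k e β ζ u ∧ lsum κ k e β ζ u ≤ 0) {ζ : ℂ} (hζ : ζ ∈ H)
    {u T : ℝ} (hu : 0 < u) (hT : 0 ≤ T) :
    ∫⁻ w, ENNReal.ofReal (asum k e β (Zf w T ζ) (u * mm w T ζ)) ∂P +
      ∫⁻ w, (∫⁻ s in Ioc 0 T, ENNReal.ofReal (-lsum κ k e β (Zf w s ζ) (u * mm w s ζ))) ∂P ≤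
      ENNReal.ofReal (asum k e β ζ u) := by
  have := hP.prob
  obtain ⟨δ, hδ0, hδ, hcut⟩ := O2_cut hκ hk h
  have hZ : Measurable fun p : Path × ℝ => Zf p.1 p.2 ζ :=
    measurable_Zf.comp (f := fun p : Path × ℝ => (p.1, p.2, ζ)) (by fun_prop)
  have hU : Measurable fun p : Path × ℝ => u * mm p.1 p.2 ζ :=
    (measurable_mm.comp (f := fun p : Path × ℝ => (p.1, p.2, ζ)) (by fun_prop)).const_mul u
  have hS : Measurable fun p : Path × ℝ => (Zf p.1 p.2 ζ, u * mm p.1 p.2 ζ) := hZ.prodMk hU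
  have hZT : Measurable fun w : Path => Zf w T ζ := hZ.comp (measurable_prodMk_right (y := T))
  have hST : Measurable fun w : Path => (Zf w T ζ, u * mm w T ζ) :=
    hS.comp (measurable_prodMk_right (y := T))
  have hga : Measurable fun w : Path => ENNReal.ofReal (asum k e β (Zf w T ζ) (u * mm w T ζ)) :=
    ((O2_meas_asum hk).comp hST).ennreal_ofReal
  have hgb : Measurable fun p : Path × ℝ =>
      ENNReal.ofReal (-lsum κ k e β (Zf p.1 p.2 ζ) (u * mm p.1 p.2 ζ)) :=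
    ((O2_meas_lsum κ hk).comp hS).neg.ennreal_ofReal
  obtain ⟨μ, hμ⟩ : ∃ μ : Measure (Path × ℝ), μ = P.prod (volume.restrict (Ioc 0 T)) := ⟨_, rfl⟩
  have : IsFiniteMeasure μ := by rw [hμ]; infer_instance
  rw [← lintegral_prod _ hgb.aemeasurable, ← hμ]
  have hl := (O2_ind_tendsto P hga hZT).add (O2_ind_tendsto μ hgb hZ)
  have hr : Tendsto (fun N => ENNReal.ofReal (asum k e β ζ u + μ.real univ * δ N)) atTop
      (𝓝 (ENNReal.ofReal (asum k e β ζ u))) := by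
    have h1 := (hδ.const_mul (μ.real univ)).const_add (asum k e β ζ u)
    rw [mul_zero, add_zero] at h1
    exact ENNReal.tendsto_ofReal h1
  refine le_of_tendsto_of_tendsto' hl hr fun N => ?_
  obtain ⟨k1, k2, hok, hpt⟩ := hcut N
  have hi1 : ∀ i, Integrable (fun w => pat (k1 i) (k2 i) (k i) (Zf w T ζ) (u * mm w T ζ)) P := by
    intro i
    obtain ⟨M, hM⟩ := pat_bdd κ (hok i)
    exact Integrable.of_bound ((measurable_pat (hok i)).comp hST).aestronglyMeasurable M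
      (ae_of_all _ fun w => (hM _ _).1)
  have hi2 : ∀ i, Integrable (fun p : Path × ℝ =>
      lpat κ (k1 i) (k2 i) (k i) (Zf p.1 p.2 ζ) (u * mm p.1 p.2 ζ)) μ := by
    intro i
    obtain ⟨M, hM⟩ := pat_bdd κ (hok i)
    exact Integrable.of_bound ((measurable_lpat κ (hok i)).comp hS).aestronglyMeasurable M
      (ae_of_all _ fun w => (hM _ _).2)
  have hd : ∀ i, ∫ w, pat (k1 i) (k2 i) (k i) (Zf w T ζ) (u * mm w T ζ) ∂P =
      pat (k1 i) (k2 i) (k i) ζ u +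
      ∫ p, lpat κ (k1 i) (k2 i) (k i) (Zf p.1 p.2 ζ) (u * mm p.1 p.2 ζ) ∂μ := by
    intro i
    have h2 := hi2 i
    rw [hμ] at h2 ⊢
    rw [integral_prod _ h2]
    exact dynkin hκ hP (hok i) hζ hu hT
  have hI1 := integrable_finset_sum Finset.univ fun i _ => hi1 i
  have hI2 := integrable_finset_sum Finset.univ fun i _ => hi2 i
  have hD : ∫ w, ∑ i, pat (k1 i) (k2 i) (k i) (Zf w T ζ) (u * mm w T ζ) ∂P =
      ∑ i, pat (k1 i) (k2 i) (k i) ζ u +
      ∫ p, ∑ i, lpat κ (k1 i) (k2 i) (k i) (Zf p.1 p.2 ζ) (u * mm p.1 p.2 ζ) ∂μ := by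
    rw [integral_finset_sum _ fun i _ => hi1 i, integral_finset_sum _ fun i _ => hi2 i,
      ← Finset.sum_add_distrib]
    exact Finset.sum_congr rfl fun i _ => hd i
  have n1 : ∀ w : Path, 0 ≤ ∑ i, pat (k1 i) (k2 i) (k i) (Zf w T ζ) (u * mm w T ζ) := by
    intro w
    by_cases hw : Zf w T ζ ∈ H
    · exact (hpt _ hw _ (mul_pos hu (mm_pos (Zf_mem_iff.1 hw)))).1
    · simp [pat, indicator_of_notMem hw]
  have n2 : ∀ p : Path × ℝ,
      0 ≤ δ N - ∑ i, lpat κ (k1 i) (k2 i) (k i) (Zf p.1 p.2 ζ) (u * mm p.1 p.2 ζ) := by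
    intro p
    by_cases hw : Zf p.1 p.2 ζ ∈ H
    · exact sub_nonneg.2 (hpt _ hw _ (mul_pos hu (mm_pos (Zf_mem_iff.1 hw)))).2.2.1
    · simpa [lpat, indicator_of_notMem hw] using hδ0 N
  have hI3 : Integrable (fun p : Path × ℝ =>
      δ N - ∑ i, lpat κ (k1 i) (k2 i) (k i) (Zf p.1 p.2 ζ) (u * mm p.1 p.2 ζ)) μ :=
    (integrable_const _).sub hI2
  have u1 : ∫⁻ w, ((fun w : Path => Zf w T ζ) ⁻¹' O2K N).indicator
      (fun w : Path => ENNReal.ofReal (asum k e β (Zf w T ζ) (u * mm w T ζ))) w ∂P ≤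
      ENNReal.ofReal (∫ w, ∑ i, pat (k1 i) (k2 i) (k i) (Zf w T ζ) (u * mm w T ζ) ∂P) := by
    rw [ofReal_integral_eq_lintegral_ofReal hI1 (ae_of_all _ n1)]
    refine lintegral_mono fun w => indicator_apply_le' (fun hK => ?_) fun _ => zero_le
    by_cases hw : Zf w T ζ ∈ H
    · rw [((hpt _ hw _ (mul_pos hu (mm_pos (Zf_mem_iff.1 hw)))).2.2.2 hK).1]
    · rw [Zf_dead (fun h' => hw (Zf_mem h')), O2_asum_zero hk, ENNReal.ofReal_zero]
      exact zero_le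
  have u2 : ∫⁻ p, ((fun p : Path × ℝ => Zf p.1 p.2 ζ) ⁻¹' O2K N).indicator
      (fun p : Path × ℝ =>
        ENNReal.ofReal (-lsum κ k e β (Zf p.1 p.2 ζ) (u * mm p.1 p.2 ζ))) p ∂μ ≤
      ENNReal.ofReal (∫ p, (δ N -
        ∑ i, lpat κ (k1 i) (k2 i) (k i) (Zf p.1 p.2 ζ) (u * mm p.1 p.2 ζ)) ∂μ) := by
    rw [ofReal_integral_eq_lintegral_ofReal hI3 (ae_of_all _ n2)]
    refine lintegral_mono fun p => indicator_apply_le' (fun hK => ?_) fun _ => zero_le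
    by_cases hw : Zf p.1 p.2 ζ ∈ H
    · rw [((hpt _ hw _ (mul_pos hu (mm_pos (Zf_mem_iff.1 hw)))).2.2.2 hK).2]
      exact ENNReal.ofReal_le_ofReal (by linarith [hδ0 N])
    · rw [Zf_dead (fun h' => hw (Zf_mem h')), O2_lsum_zero κ hk, neg_zero, ENNReal.ofReal_zero]
      exact zero_le
  refine (add_le_add u1 u2).trans ?_
  rw [← ENNReal.ofReal_add (integral_nonneg n1) (integral_nonneg n2), hD,
    integral_sub (integrable_const _) hI2, integral_const, smul_eq_mul]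
  exact ENNReal.ofReal_le_ofReal (by linarith [(hpt ζ hζ u hu).2.1])

theorem exc_Ioi {κ : ℝ} (hκ : 0 < κ) {P : Measure Path} (hP : IsDrv κ P) {n : ℕ}
    {k : Fin n → ℝ → ℝ} {e β : Fin n → ℝ} (hk : AtomOK k e β)
    (h : ∀ ζ ∈ H, ∀ u > 0, 0 ≤ asum k e β ζ u ∧ lsum κ k e β ζ u ≤ 0) {ζ : ℂ} (hζ : ζ ∈ H)
    {u : ℝ} (hu : 0 < u) :
    ∫⁻ w, (∫⁻ s in Ioi 0, ENNReal.ofReal (-lsum κ k e β (Zf w s ζ) (u * mm w s ζ))) ∂P ≤
      ENNReal.ofReal (asum k e β ζ u) := by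
  have hZ : Measurable fun p : Path × ℝ => Zf p.1 p.2 ζ :=
    measurable_Zf.comp (f := fun p : Path × ℝ => (p.1, p.2, ζ)) (by fun_prop)
  have hU : Measurable fun p : Path × ℝ => u * mm p.1 p.2 ζ :=
    (measurable_mm.comp (f := fun p : Path × ℝ => (p.1, p.2, ζ)) (by fun_prop)).const_mul u
  have hgb : Measurable fun p : Path × ℝ =>
      ENNReal.ofReal (-lsum κ k e β (Zf p.1 p.2 ζ) (u * mm p.1 p.2 ζ)) :=
    ((O2_meas_lsum κ hk).comp (hZ.prodMk hU)).neg.ennreal_ofReal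
  have hI : Ioi (0 : ℝ) = ⋃ N : ℕ, Ioc (0 : ℝ) N := by
    ext s
    simp only [mem_Ioi, mem_iUnion, mem_Ioc]
    exact ⟨fun hs => (exists_nat_ge s).imp fun N hN => ⟨hs, hN⟩, fun ⟨_, hN⟩ => hN.1⟩
  have hmono : Monotone fun N : ℕ => Ioc (0 : ℝ) N := fun N M hNM =>
    Ioc_subset_Ioc_right (by exact_mod_cast hNM)
  simp only [hI, setLIntegral_iUnion_of_directed _ hmono.directed_le]
  rw [lintegral_iSup (f := fun (N : ℕ) (w : Path) => ∫⁻ s in Ioc (0 : ℝ) N,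
      ENNReal.ofReal (-lsum κ k e β (Zf w s ζ) (u * mm w s ζ)))
    (fun N => hgb.lintegral_prod_right') (fun N M hNM w => lintegral_mono_set (hmono hNM))]
  exact iSup_le fun N => le_add_self.trans (exc hκ hP hk h hζ hu (Nat.cast_nonneg N))

theorem O2_cont_asum {n : ℕ} {k : Fin n → ℝ → ℝ} {e β : Fin n → ℝ} (hk : AtomOK k e β) :
    ContinuousOn (fun p : ℂ × ℝ => asum k e β p.1 p.2) (H ×ˢ Ioi 0) := by
  refine continuousOn_finset_sum _ fun i _ => ?_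
  have h1 : ContinuousOn (fun p : ℂ × ℝ => k i (Real.log p.2)) (H ×ˢ Ioi 0) :=
    (hk.b i).1.continuous.comp_continuousOn
      (continuous_snd.continuousOn.log fun p hp => (ne_of_gt hp.2))
  have h2 : ContinuousOn (fun p : ℂ × ℝ => Sn p.1) (H ×ˢ Ioi 0) :=
    (Complex.continuous_im.comp continuous_fst).continuousOn.div continuous_fst.norm.continuousOn
      fun p hp => (T2_norm_pos hp.1).ne'
  exact (h1.mul (h2.rpow_const fun p _ => Or.inr (hk.e_pos i).le)).mul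
    (continuous_fst.norm.continuousOn.rpow_const fun p _ => Or.inr (hk.β_nonneg i))

/-- `IsDrv.opt_stop` with `M w t = ofReal (asum (state t))`, `state_right_cont`, `exc`. -/
theorem exc_stop {κ : ℝ} (hκ : 0 < κ) {P : Measure Path} (hP : IsDrv κ P) {n : ℕ}
    {k : Fin n → ℝ → ℝ} {e β : Fin n → ℝ} (hk : AtomOK k e β)
    (h : ∀ ζ ∈ H, ∀ u > 0, 0 ≤ asum k e β ζ u ∧ lsum κ k e β ζ u ≤ 0) {ζ : ℂ} (hζ : ζ ∈ H)
    {u : ℝ} (hu : 0 < u) {τ : Path → ℝ≥0∞} (hτ : IsOpt τ) :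
    ∫⁻ w in {w | τ w < ⊤},
      ENNReal.ofReal (asum k e β (Zf w (τ w).toReal ζ) (u * mm w (τ w).toReal ζ)) ∂P ≤
      ENNReal.ofReal (asum k e β ζ u) := by
  have := hP.prob
  have hZ : Measurable fun p : Path × ℝ => Zf p.1 p.2 ζ :=
    measurable_Zf.comp (f := fun p : Path × ℝ => (p.1, p.2, ζ)) (by fun_prop)
  have hU : Measurable fun p : Path × ℝ => u * mm p.1 p.2 ζ :=
    (measurable_mm.comp (f := fun p : Path × ℝ => (p.1, p.2, ζ)) (by fun_prop)).const_mul u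
  have h1 := hP.opt_stop hτ (fun w t => ENNReal.ofReal (asum k e β (Zf w t ζ) (u * mm w t ζ)))
    ((O2_meas_asum hk).comp (hZ.prodMk hU)).ennreal_ofReal
    (fun w w' t _ he => by
      obtain ⟨-, -, h3, h4⟩ := phi_congr_le le_rfl he
      simp only [h3, h4])
    (fun w t ht => state_right_cont (fun ξ v => ENNReal.ofReal (asum k e β ξ v))
      (ENNReal.continuous_ofReal.comp_continuousOn (O2_cont_asum hk)) w ζ hu ht)
    (fun w s t hs ht => by
      simp only [Zf_concat_add w _ hs ht, mm_concat_add w _ hs ht, ← mul_assoc]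
      by_cases hw : Zf w s ζ ∈ H
      · exact le_self_add.trans (exc hκ hP hk h hw (mul_pos hu (mm_pos (Zf_mem_iff.1 hw))) ht)
      · have h0 : ∀ w' : Path, Zf w' t (Zf w s ζ) = 0 := fun w' =>
          Zf_dead fun h' => hw (dom_subset _ _ h')
        simp [h0, O2_asum_zero hk])
  simpa [Zf_zero _ hζ, mm_zero _ hζ] using h1

end Crest.Agent.R162
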