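import Crest.Agent.R162.Defs

set_option autoImplicit false
open MeasureTheory ProbabilityTheory Set Filter Topology Metric
open scoped ENNReal NNReal ComplexConjugate

namespace Crest.Agent.R162

/-- Product functions of `(log ‖ζ‖, log im ζ, log u)`. -/
noncomputable def pat (k1 k2 k3 : ℝ → ℝ) (ζ : ℂ) (u : ℝ) : ℝ :=
  H.indicator (fun ζ => k1 (Real.log ‖ζ‖) * k2 (Real.log ζ.im) * k3 (Real.log u)) ζ

/-- The generator applied to `pat`. -/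
noncomputable def lpat (κ : ℝ) (k1 k2 k3 : ℝ → ℝ) (ζ : ℂ) (u : ℝ) : ℝ :=
  H.indicator (fun ζ =>
    ((deriv k1 (Real.log ‖ζ‖) * ((2 - κ / 2) * (1 - 2 * Sn ζ ^ 2)) +
        κ / 2 * deriv (deriv k1) (Real.log ‖ζ‖) * (1 - Sn ζ ^ 2)) *
          k2 (Real.log ζ.im) * k3 (Real.log u) -
      2 * k1 (Real.log ‖ζ‖) * deriv k2 (Real.log ζ.im) * k3 (Real.log u) -
      4 * Sn ζ ^ 2 * k1 (Real.log ‖ζ‖) * k2 (Real.log ζ.im) * deriv k3 (Real.log u)) / ‖ζ‖ ^ 2) ζ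

/-- Admissible triples: compact support in the half-plane, bounded in `log u`. -/
structure PatOK (k1 k2 k3 : ℝ → ℝ) : Prop where
  c1 : ContDiff ℝ 3 k1
  c2 : ContDiff ℝ 3 k2
  z1 : ∃ A0 : ℝ, ∀ x, A0 ≤ x → k1 x = 0
  z2 : ∃ L0 : ℝ, ∀ x, x ≤ L0 → k2 x = 0
  b3 : BC3 k3

noncomputable def asum {n : ℕ} (k : Fin n → ℝ → ℝ) (e β : Fin n → ℝ) (ζ : ℂ) (u : ℝ) : ℝ :=
  ∑ i, atom (k i) (e i) (β i) ζ u

noncomputable def lsum (κ : ℝ) {n : ℕ} (k : Fin n → ℝ → ℝ) (e β : Fin n → ℝ) (ζ : ℂ) (u : ℝ) : ℝ :=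
  ∑ i, latom κ (k i) (e i) (β i) ζ u

/-- Admissible families of atoms. -/
structure AtomOK {n : ℕ} (k : Fin n → ℝ → ℝ) (e β : Fin n → ℝ) : Prop where
  b : ∀ i, BC3 (k i)
  e_pos : ∀ i, 0 < e i
  β_nonneg : ∀ i, 0 ≤ β i
  β_lt : ∀ i, β i < 2

/-- `Υ^(d-2)` switched off on `[ε, 2ε]`, in the variable `log Υ`. -/
noncomputable def kG (κ ε : ℝ) (x : ℝ) : ℝ :=
  Real.exp ((dd κ - 2) * x) * st ((x - Real.log ε) / Real.log 2)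

end Crest.Agent.R162
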