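import Crest.Agent.R162.P1

set_option autoImplicit false
open MeasureTheory ProbabilityTheory Set Filter Topology Metric
open scoped ENNReal NNReal ComplexConjugate

namespace Crest.Agent.R162

open Crest.ProbabilityR.Loewner in
theorem P2_aemeas {Ω : Type*} [MeasurableSpace Ω] {P : Measure Ω} {W : Ω → Path}
    (h : ∀ t : ℝ, AEMeasurable (fun ω => W ω t) P) : AEMeasurable W P := by
  have h1 : NullMeasurable W P :=
    (measurable_path_iff (Ω := NullMeasurableSpace Ω P) W).2 fun t => (h t).nullMeasurable
  exact h1.aemeasurable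

open Crest.ProbabilityR.Loewner in
theorem P2_fdd {Ω : Type*} [MeasurableSpace Ω] {P : Measure Ω} {κ : ℝ} {B : ℝ≥0 → Ω → ℝ}
    (hB : IsPreBrownianReal B P) {W : Ω → Path} (hW : AEMeasurable W P)
    (h : ∀ᵐ ω ∂P, (W ω : ℝ → ℝ) = driving κ B ω) (I : Finset ℝ) :
    (P.map W).map (fun (w : Path) (i : I) => w i) =
      (BrownianReal.projectiveFamily (I.image Real.toNNReal)).map
        (fun (x : I.image Real.toNNReal → ℝ) (i : I) =>
          √κ * x ⟨Real.toNNReal i, Finset.mem_image_of_mem _ i.2⟩) := by
  have m1 : Measurable (fun (w : Path) (i : I) => w i) :=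
    measurable_pi_lambda _ fun i => measurable_eval _
  have m2 : Measurable (fun (x : I.image Real.toNNReal → ℝ) (i : I) =>
      √κ * x ⟨Real.toNNReal i, Finset.mem_image_of_mem _ i.2⟩) :=
    measurable_pi_lambda _ fun i => (measurable_pi_apply _).const_mul _
  have hl := hB.hasLaw (I.image Real.toNNReal)
  rw [← hl.map_eq, AEMeasurable.map_map_of_aemeasurable m1.aemeasurable hW,
    AEMeasurable.map_map_of_aemeasurable m2.aemeasurable hl.aemeasurable]
  refine Measure.map_congr ?_
  filter_upwards [h] with ω hω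
  funext i
  exact congrFun hω i

open Crest.ProbabilityR.Loewner in
theorem P2_law {Ω : Type*} [MeasurableSpace Ω] {P : Measure Ω} [IsProbabilityMeasure P] {κ : ℝ}
    {B B' : ℝ≥0 → Ω → ℝ} (hB : IsPreBrownianReal B P) (hB' : IsPreBrownianReal B' P)
    {W W' : Ω → Path} (hW : AEMeasurable W P) (hW' : AEMeasurable W' P)
    (h : ∀ᵐ ω ∂P, (W ω : ℝ → ℝ) = driving κ B ω)
    (h' : ∀ᵐ ω ∂P, (W' ω : ℝ → ℝ) = driving κ B' ω) : P.map W = P.map W' :=
  path_ext _ _ fun I => by rw [P2_fdd hB hW h, P2_fdd hB' hW' h']

theorem P2_indep {Ω : Type*} [MeasurableSpace Ω] {P : Measure Ω} {f g : Ω → Path}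
    (h : IndepFun (fun ω => (f ω : ℝ → ℝ)) (fun ω => (g ω : ℝ → ℝ)) P) : IndepFun f g P := by
  have key : ∀ s : Set Path, MeasurableSet s → ∃ s' : Set (ℝ → ℝ), MeasurableSet s' ∧
      (fun w : Path => (w : ℝ → ℝ)) ⁻¹' s' = s := by
    intro s hs
    have h1 := (@measurable_path_iff Path
      (MeasurableSpace.comap (fun w : Path => (w : ℝ → ℝ)) inferInstance) id).2 fun t =>
        (measurable_pi_apply t).comp (comap_measurable (fun w : Path => (w : ℝ → ℝ)))
    exact h1 hs
  rw [indepFun_iff_measure_inter_preimage_eq_mul] at h ⊢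
  intro s t hs ht
  obtain ⟨s', hs', rfl⟩ := key s hs
  obtain ⟨t', ht', rfl⟩ := key t ht
  exact h s' t' hs' ht'

/-- increments after time `s` -/
def P2_sh (s : ℝ) (w : Path) : Path := ⟨fun t => w (s + max t 0) - w s, by fun_prop⟩

/-- the path stopped at time `s` -/
def P2_stop (s : ℝ) (w : Path) : Path := ⟨fun t => w (min t s), by fun_prop⟩

theorem P2_meas_sh (s : ℝ) : Measurable (P2_sh s) :=
  (measurable_path_iff _).2 fun _ => (measurable_eval _).sub (measurable_eval _)

theorem P2_meas_stop (s : ℝ) : Measurable (P2_stop s) :=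
  (measurable_path_iff _).2 fun _ => measurable_eval _

theorem P2_concat_stop (s : ℝ) (w w' : Path) : concat s (P2_stop s w) w' = concat s w w' := by
  ext t
  show w (min (min t s) s) + _ = w (min t s) + _
  rw [min_eq_left (min_le_right t s)]

theorem P2_concat_sh (s : ℝ) (w : Path) : concat s w (P2_sh s w) = w := by
  ext t
  show w (min t s) + ((w (s + max (max (t - s) 0) 0) - w s) - (w (s + max 0 0) - w s)) = w t
  rcases le_total t s with h | h
  · rw [min_eq_left h, max_eq_right (sub_nonpos.2 h)]
    ring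
  · rw [min_eq_right h, max_eq_left (sub_nonneg.2 h), max_eq_left (sub_nonneg.2 h), max_self,
      add_zero, add_sub_cancel]
    ring

open Crest.ProbabilityR.Loewner in
/-- The law of the driving function. Modify `B` on a null set (measurable modifications at rational
times, `toMeasurable`), use `measurable_path_iff`; `IsBrownianReal.smul`, `.shift`,
`IsPreBrownianReal.indepFun_shift`, `path_ext` (finite-dimensional laws of a pre-Brownian motion are
`projectiveFamily`). For `markov`: `W = concat s W (shifted W)` a.s., `concat s w w'` depends on `w`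
only through the stopped path, which is independent of the shifted path. -/
theorem exists_drv {Ω : Type*} [MeasurableSpace Ω] (P : Measure Ω) [IsProbabilityMeasure P]
    {κ : ℝ} (hκ : 0 < κ) (B : ℝ≥0 → Ω → ℝ) (hB : IsBrownianReal B P) :
    ∃ W : Ω → Path, AEMeasurable W P ∧ IsDrv κ (P.map W) ∧
      ∀ᵐ ω ∂P, (W ω : ℝ → ℝ) = driving κ B ω := by
  classical
  obtain ⟨W, hWe⟩ : ∃ W : Ω → Path, ∀ᵐ ω ∂P, (W ω : ℝ → ℝ) = driving κ B ω := by
    refine ⟨fun ω => if h : Continuous (B · ω) then
      ⟨driving κ B ω, continuous_const.mul (h.comp continuous_real_toNNReal)⟩ else 0, ?_⟩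
    filter_upwards [hB.cont] with ω hω
    rw [dif_pos hω]
    rfl
  have hP := hB.toIsPreBrownianReal
  have hW : AEMeasurable W P := P2_aemeas fun t => by
    refine ((hP.aemeasurable (Real.toNNReal t)).const_mul √κ).congr ?_
    filter_upwards [hWe] with ω hω
    exact (congrFun hω t).symm
  have h0 : ∀ᵐ ω ∂P, W ω 0 = 0 := by
    filter_upwards [hWe, hP.eval_zero_ae_eq_zero] with ω h1 h2
    rw [congrFun h1 0]
    simp [driving, h2]
  refine ⟨W, hW, ⟨Measure.isProbabilityMeasure_map hW, ?_, fun t ht => ?_, fun s hs => ?_,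
    fun r hr => ?_⟩, hWe⟩
  · exact (ae_map_iff hW (measurableSet_eq_fun (measurable_eval 0) measurable_const)).2 h0
  · have m1 : Measurable fun w : Path => w t - w 0 := (measurable_eval t).sub (measurable_eval 0)
    have hl := hP.hasLaw_eval (Real.toNNReal t)
    have e1 : P.map ((fun w : Path => w t - w 0) ∘ W) =
        P.map ((fun x : ℝ => √κ * x) ∘ B (Real.toNNReal t)) := by
      refine Measure.map_congr ?_
      filter_upwards [hWe, h0] with ω h1 h2
      show W ω t - W ω 0 = _
      rw [h2, sub_zero, congrFun h1 t]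
      rfl
    rw [AEMeasurable.map_map_of_aemeasurable m1.aemeasurable hW, e1,
      ← AEMeasurable.map_map_of_aemeasurable (measurable_const_mul _).aemeasurable
        hl.aemeasurable, hl.map_eq, gaussianReal_map_const_mul, mul_zero]
    congr 1
    ext
    simp [Real.sq_sqrt hκ.le, ht, mul_nonneg hκ.le ht]
  · have hPW := Measure.isProbabilityMeasure_map hW
    have mc : Measurable fun p : Path × Path => concat s p.1 p.2 :=
      (continuous_concat.comp (continuous_const.prodMk continuous_id)).measurable
    have a1 : AEMeasurable (P2_stop s ∘ W) P := (P2_meas_stop s).comp_aemeasurable hW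
    have a2 : AEMeasurable (P2_sh s ∘ W) P := (P2_meas_sh s).comp_aemeasurable hW
    have e2 : ∀ᵐ ω ∂P, ((P2_sh s ∘ W) ω : ℝ → ℝ) =
        driving κ (fun t ω => B (Real.toNNReal s + t) ω - B (Real.toNNReal s) ω) ω := by
      filter_upwards [hWe] with ω hω
      funext t
      have e : Real.toNNReal (s + max t 0) = Real.toNNReal s + Real.toNNReal t := by
        rw [Real.toNNReal_add hs (le_max_right _ _)]
        congr 1
        ext
        simp
      show W ω (s + max t 0) - W ω s = _
      rw [congrFun hω _, congrFun hω s]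
      simp only [driving, e]
      ring
    have l2 : P.map (P2_sh s ∘ W) = P.map W := P2_law (hP.shift _) hP a2 hW e2 hWe
    have hi : IndepFun (P2_stop s ∘ W) (P2_sh s ∘ W) P := by
      refine P2_indep ?_
      have i1 := (hP.indepFun_shift (Real.toNNReal s)).symm.comp
        (φ := fun (y : Iic (Real.toNNReal s) → ℝ) (t : ℝ) =>
          √κ * y ⟨Real.toNNReal (min t s), Real.toNNReal_le_toNNReal (min_le_right t s)⟩)
        (ψ := fun (x : ℝ≥0 → ℝ) (t : ℝ) => √κ * x (Real.toNNReal t))
        (measurable_pi_lambda _ fun _ => (measurable_pi_apply _).const_mul _)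
        (measurable_pi_lambda _ fun _ => (measurable_pi_apply _).const_mul _)
      refine i1.congr ?_ ?_
      · filter_upwards [hWe] with ω hω
        funext t
        exact (congrFun hω (min t s)).symm
      · filter_upwards [e2] with ω hω
        exact hω.symm
    have e3 : (fun p : Path × Path => concat s p.1 p.2) =
        (fun p : Path × Path => concat s p.1 p.2) ∘ Prod.map (P2_stop s) id := by
      funext p
      exact (P2_concat_stop s p.1 p.2).symm
    rw [e3, ← Measure.map_map mc ((P2_meas_stop s).prodMap measurable_id),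
      ← Measure.map_prod_map _ _ (P2_meas_stop s) measurable_id, Measure.map_id,
      AEMeasurable.map_map_of_aemeasurable (P2_meas_stop s).aemeasurable hW]
    nth_rewrite 1 [← l2]
    rw [← (indepFun_iff_map_prod_eq_prod_map_map a1 a2).1 hi,
      AEMeasurable.map_map_of_aemeasurable mc.aemeasurable (a1.prodMk a2)]
    congr 1
    funext ω
    show concat s (P2_stop s (W ω)) (P2_sh s (W ω)) = W ω
    rw [P2_concat_stop, P2_concat_sh]
  · have ms : Measurable (scale r) := (continuous_scale r).measurable
    have hr2 : 0 < (r ^ 2)⁻¹ := by positivity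
    have hc : Real.toNNReal (r ^ 2)⁻¹ ≠ 0 := (Real.toNNReal_pos.2 hr2).ne'
    rw [AEMeasurable.map_map_of_aemeasurable ms.aemeasurable hW]
    refine P2_law (hP.smul hc) hP (ms.comp_aemeasurable hW) hW ?_ hWe
    filter_upwards [hWe] with ω hω
    funext t
    have e1 : Real.toNNReal (t / r ^ 2) = Real.toNNReal (r ^ 2)⁻¹ * Real.toNNReal t := by
      rw [div_eq_inv_mul, Real.toNNReal_mul hr2.le]
    have e2 : (√((Real.toNNReal (r ^ 2)⁻¹ : ℝ≥0) : ℝ))⁻¹ = r := by
      rw [Real.coe_toNNReal _ hr2.le, Real.sqrt_inv, inv_inv, Real.sqrt_sq hr.le]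
    show r * W ω (t / r ^ 2) = _
    rw [congrFun hω _]
    simp only [driving, e1, e2]
    ring

end Crest.Agent.R162
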