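import Crest.Agent.R162.EXP
import Crest.Agent.R162.P4
import Crest.Agent.R162.L7
import Crest.Agent.R162.K1

set_option autoImplicit false
open MeasureTheory ProbabilityTheory Set Filter Topology Metric
open scoped ENNReal NNReal ComplexConjugate

namespace Crest.Agent.R162

theorem tail_geo : ∃ A : ℝ, 1 ≤ A ∧ ∀ g : ℂ → ℂ, Univ g → ∀ ζ ∈ H, ∀ r : ℝ, 0 < r →
    A * r ≤ ups g ζ → ∀ ξ ∈ H, g ξ ∈ ball (g ζ) r → Qh ζ ξ ≤ 6 ∧ 4 * r ≤ ups g ξ := by
  obtain ⟨c, hc, -, hK⟩ := koebe_cover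
  obtain ⟨C, p0, hC, -, hD⟩ := distortion
  have h6 : (0 : ℝ) < 6 ^ p0 := by positivity
  have hc2 : 0 < 2 / c := by positivity
  have hC0 : 0 < C * 6 ^ p0 := by positivity
  refine ⟨1 + 2 / c + 4 * (C * 6 ^ p0), by linarith, ?_⟩
  intro g hg ζ hζ r hr hA ξ hξ hB
  have h1 : 2 * r ≤ c * ups g ζ := by
    have h2 : 2 / c * r ≤ ups g ζ := by nlinarith
    have h3 : c * (2 / c * r) = 2 * r := by field_simp
    nlinarith
  have hsub : ball (g ζ) (2 * r) ⊆ g '' H := by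
    refine (ball_subset_ball h1).trans ((hK g hg ζ hζ).trans (image_mono ?_))
    intro z hz
    have hζ' : 0 < ζ.im := hζ
    rw [mem_ball, dist_eq_norm] at hz
    have h4 := (Complex.abs_im_le_norm (z - ζ)).trans_lt hz
    rw [Complex.sub_im, abs_lt] at h4
    show 0 < z.im
    linarith [h4.1]
  have hQ : Qh ζ ξ ≤ 6 := by
    refine harnack_ball hg hζ hξ hsub ?_ (by linarith)
    rw [mem_ball, dist_eq_norm] at hB
    linarith
  refine ⟨hQ, ?_⟩
  have h5 := (hD g hg ξ hξ ζ hζ).1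
  have hQ0 : 0 ≤ Qh ξ ζ := by linarith [four_le_Qh hξ hζ]
  have h7 : Qh ξ ζ ^ p0 ≤ 6 ^ p0 := pow_le_pow_left₀ hQ0 (by rw [Qh_comm]; exact hQ) p0
  have hu := hg.ups_pos hξ
  have h8 : ups g ζ ≤ C * 6 ^ p0 * ups g ξ :=
    h5.trans (mul_le_mul_of_nonneg_right (mul_le_mul_of_nonneg_left h7 (by linarith)) hu.le)
  have h9 : C * 6 ^ p0 * (4 * r) ≤ C * 6 ^ p0 * ups g ξ := by nlinarith
  exact le_of_mul_le_mul_left h9 hC0

/-- Up to a time before which `ups` at `ζ` stays above `A r`, the ball is deep inside. -/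
theorem tail_deep {A : ℝ} (hA : ∀ g : ℂ → ℂ, Univ g → ∀ ζ ∈ H, ∀ r : ℝ, 0 < r →
      A * r ≤ ups g ζ → ∀ ξ ∈ H, g ξ ∈ ball (g ζ) r → Qh ζ ξ ≤ 6 ∧ 4 * r ≤ ups g ξ)
    {f : ℂ → ℂ} (hf : Univ f) {ζ : ℂ} (hζ : ζ ∈ H) {r : ℝ} (hr : 0 < r) (w : Path) {s : ℝ}
    (hs : 0 ≤ s) (h : ∀ t ∈ Icc 0 s, ζ ∈ dom w t → A * r ≤ ups f ζ * mm w t ζ) :
    ∀ ξ ∈ H, cfg f w s ξ ∈ ball (f ζ) r → 4 * r ≤ ups (cfg f w s) ξ := by
  have key : ∀ t ∈ Icc 0 s, ζ ∈ dom w t → ∀ ξ ∈ H, cfg f w t ξ ∈ ball (f ζ) r →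
      Qh (Zf w t ζ) ξ ≤ 6 ∧ 4 * r ≤ ups (cfg f w t) ξ := by
    intro t ht hd ξ hξ hB
    refine hA (cfg f w t) (hf.cfg w t) (Zf w t ζ) (Zf_mem hd) r hr ?_ ξ hξ ?_
    · rw [ups_cfg hf hd]; exact h t ht hd
    · rw [cfg_Zf f hd]; exact hB
  intro ξ hξ hB
  by_cases hd : ζ ∈ dom w s
  · exact (key s ⟨hs, le_rfl⟩ hd ξ hξ hB).2
  exfalso
  obtain ⟨T, hT, -, hal, hδ⟩ := exists_death w hζ hs hd
  have hξ' : 0 < ξ.im := hξ
  obtain ⟨t, ht, hlt⟩ := hδ (ξ.im / 6) (by positivity)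
  have hts : t ≤ s := ht.2.le.trans hT.2
  have h0 : phi w s ξ ∈ dom w s := mem_image_of_mem _ hξ
  have h1 : phi w s ξ ∈ dom w t := dom_anti w ht.1 hts h0
  have h2 : cfg f w t (Zf w t (phi w s ξ)) ∈ ball (f ζ) r := by
    rw [cfg_Zf f h1]; exact hB
  have h3 := (key t ⟨ht.1, hts⟩ (hal t ht) _ (Zf_mem h1) h2).1
  have h4 := im_le_Qh (Zf_mem h1) (Zf_mem (hal t ht))
  rw [Qh_comm] at h4
  have h5 := im_Zf_anti w ht.1 hts (phi w s ξ)
  rw [Zf_phi w s hξ] at h5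
  have h6 : 0 < (Zf w t ζ).im := Zf_mem (hal t ht)
  nlinarith

theorem tail_isOpt (ζ : ℂ) {u : ℝ} (hu : 0 ≤ u) (a : ℝ) :
    IsOpt (ft (fun w t => ζ ∈ dom w t ∧ u * mm w t ζ < a)) := by
  refine isOpt_ft ?_ ?_ ?_
  · intro t
    have hm : Measurable (fun w : Path => (w, t, ζ)) := by fun_prop
    have h1 : MeasurableSet {w : Path | ζ ∈ dom w t} := hm measurableSet_alive
    have h2 : Measurable (fun w : Path => u * mm w t ζ) :=
      (measurable_mm.comp hm).const_mul u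
    exact h1.inter (measurableSet_lt h2 measurable_const)
  · intro w w' t _ hww h
    obtain ⟨-, h1, -, h2⟩ := phi_congr_le (le_refl t) hww
    rw [← h1, ← h2]; exact h
  · intro w t ht h
    obtain ⟨t', htt, hd⟩ := alive_right ht h.1
    filter_upwards [Ioo_mem_nhdsGT htt] with s hs
    exact ⟨dom_anti w (ht.trans hs.1.le) hs.2.le hd,
      (mul_le_mul_of_nonneg_left (mm_anti w ht hs.1.le ζ) hu).trans_lt h.2⟩

theorem tail_pre {ζ : ℂ} (hζ : ζ ∈ H) {u a : ℝ} (hau : a ≤ u) (w : Path) {s : ℝ}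
    (hs : ENNReal.ofReal s ≤ ft (fun w t => ζ ∈ dom w t ∧ u * mm w t ζ < a) w) :
    ∀ t ∈ Icc 0 s, ζ ∈ dom w t → a ≤ u * mm w t ζ := by
  intro t ht hd
  rcases ht.1.eq_or_lt with h0 | h0
  · rw [← h0, mm_zero w hζ, mul_one]; exact hau
  have hc : ContinuousOn (fun x => u * mm w x ζ) (Icc 0 t) :=
    continuousOn_const.mul (continuousOn_mm ht.1 hd)
  have hlt : ∀ x ∈ Ico 0 t, a ≤ u * mm w x ζ := by
    intro x hx
    have h1 : ENNReal.ofReal x < ft (fun w t => ζ ∈ dom w t ∧ u * mm w t ζ < a) w :=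
      lt_of_lt_of_le ((ENNReal.ofReal_lt_ofReal_iff (h0.trans_le ht.2)).2 (hx.2.trans_le ht.2)) hs
    have h2 := not_of_lt_ft hx.1 h1
    by_contra h3
    exact h2 ⟨dom_anti w hx.1 hx.2.le hd, not_le.1 h3⟩
  have hcl : t ∈ closure (Ico 0 t) := by
    rw [closure_Ico h0.ne]; exact ⟨h0.le, le_rfl⟩
  exact ContinuousWithinAt.closure_le hcl continuousWithinAt_const
    ((hc t ⟨h0.le, le_rfl⟩).mono Ico_subset_Icc_self) hlt

theorem tail_rho {r m d : ℝ} (hr : 0 < r) (hm : 1 ≤ m) :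
    (r / Real.sqrt m) ^ d * m = m ^ (1 - d / 2) * r ^ d := by
  have hm0 : 0 < m := by linarith
  rw [Real.div_rpow hr.le (Real.sqrt_nonneg m), Real.sqrt_eq_rpow, ← Real.rpow_mul hm0.le,
    Real.rpow_sub hm0, Real.rpow_one]
  have h1 : (1 : ℝ) / 2 * d = d / 2 := by ring
  rw [h1]
  have h2 : 0 < m ^ (d / 2) := Real.rpow_pos_of_pos hm0 _
  field_simp

theorem tail_pt {Y : ℝ≥0∞} (hY : Y ≠ ⊤) {q b x : ℝ} (hq : 0 < q) (hx : 2 * b * q ≤ x)
    (h : ENNReal.ofReal x < Y) :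
    Y ≤ ENNReal.ofReal (2 * q * Real.exp (-b)) * ENNReal.ofReal (Real.exp (q⁻¹ * Y.toReal)) := by
  rw [← ENNReal.ofReal_mul (by positivity)]
  nth_rewrite 1 [← ENNReal.ofReal_toReal hY]
  apply ENNReal.ofReal_le_ofReal
  have h1 : x ≤ Y.toReal := (ENNReal.ofReal_le_iff_le_toReal hY).1 h.le
  set y := q⁻¹ * Y.toReal with hy
  have h2 : Y.toReal = q * y := by rw [hy]; field_simp
  have h3 : 2 * b ≤ y := by
    have h4 : q * (2 * b) ≤ q * y := by linarith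
    exact le_of_mul_le_mul_left h4 hq
  have h5 : y / 2 ≤ Real.exp (y / 2) := by linarith [Real.add_one_le_exp (y / 2)]
  have h6 : Real.exp (y / 2) ≤ Real.exp (-b) * Real.exp y := by
    rw [← Real.exp_add]; exact Real.exp_le_exp.2 (by linarith)
  rw [h2]
  nlinarith


/-- Upper tail. `X` the mass of `ball (f ζ) r`. If `10 ε > r/√m` then `X ≤ K m^(1-d/2) r^d` surely
(`mass_le_vol`). Otherwise let `τ` be the first time with `ζ` alive and `ups f ζ * mm < A r`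
(`isOpt_ft`). While `ζ` is alive and `ups ≥ A r`, `koebe_cover` and `distortion` for `cfg f w s` give
`ball (f ζ) (2 r) ⊆ cfg '' H` and `ups ≥ 4 r` over the ball, so no mass is created (`mass_eq_zero`); if
`ζ` dies before `τ`, the preimage of the ball dies with it: apply `ball_dead`-type argument, or directly:
for `ξ` with `f ξ` in the ball `Qh (Zf w s ζ) (Zf w s ξ) ≤ 6` (`harnack_ball`) for all `s` before the death
time, so `im (Zf w s ξ)` is not bounded below (`exists_death`, `im_le_Qh`) and `ξ` is dead too. On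
`τ < ⊤`: `strong_markov`, `mass_concat_Ioi`, `exp_moment` for `cfg f w τ` with `R = r`, scale `r/√m`
(at `τ` the point is alive with `ups = A r` by continuity), `y 1{y > 2 b} ≤ 2 e^y e^(-b)`, and `hit'`. -/
theorem tail {κ : ℝ} (hκ : 0 < κ) (hκ8 : κ < 8) {P : Measure Path} (hP : IsDrv κ P) {s1 : ℝ}
    (hs1 : 0 < s1) : ∃ A K C : ℝ, 1 ≤ A ∧ 0 < K ∧ 0 < C ∧ ∀ f : ℂ → ℂ, Univ f → ∀ ζ ∈ H,
      ∀ r m ε : ℝ, 0 < r → 1 ≤ m → 0 < ε → A * r ≤ ups f ζ →
      ∫⁻ w in {w | ENNReal.ofReal (K * m ^ (1 - dd κ / 2) * r ^ dd κ) <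
          mass κ s1 ε f w (Ioi 0) (ball (f ζ) r)},
        mass κ s1 ε f w (Ioi 0) (ball (f ζ) r) ∂P ≤
      ENNReal.ofReal (C * r ^ 2 * ups f ζ ^ (dd κ - 2) * Real.exp (-2 * m)) := by
  obtain ⟨A, hA1, hA⟩ := tail_geo
  obtain ⟨θ, C0, hθ, hC0, hE⟩ := exp_moment hκ hκ8 hP hs1
  obtain ⟨C1, hC1, hH⟩ := hit' hκ hκ8 hP
  obtain ⟨hd1, hd2⟩ := dd_mem hκ hκ8
  have hA0 : 0 < A := by linarith
  have hK1 : 0 < 2 * (C0 + 2) / θ := by positivity
  have hK2 : 0 < Real.pi * (100 / 10 ^ dd κ) / s1 ^ 2 := by positivity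
  refine ⟨A, 2 * (C0 + 2) / θ + Real.pi * (100 / 10 ^ dd κ) / s1 ^ 2,
    2 / θ * C1 * A ^ (2 - dd κ), hA1, by positivity, by positivity, ?_⟩
  intro f hf ζ hζ r m ε hr hm hε hAr
  have hm0 : 0 < m := by linarith
  have hsq : 1 ≤ Real.sqrt m := Real.one_le_sqrt.2 hm
  set ρ := r / Real.sqrt m with hρ
  have hρ0 : 0 < ρ := by positivity
  have hρr : ρ ≤ r := div_le_self hr.le hsq
  have hρd : 0 < ρ ^ dd κ := Real.rpow_pos_of_pos hρ0 _
  have hrho : ρ ^ dd κ * m = m ^ (1 - dd κ / 2) * r ^ dd κ := tail_rho hr hm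
  have hρm : (r / ρ) ^ 2 = m := by
    rw [hρ, div_div_cancel₀ hr.ne', Real.sq_sqrt hm0.le]
  set x := (2 * (C0 + 2) / θ + Real.pi * (100 / 10 ^ dd κ) / s1 ^ 2) * m ^ (1 - dd κ / 2) *
    r ^ dd κ with hx
  have hx' : x = (2 * (C0 + 2) / θ + Real.pi * (100 / 10 ^ dd κ) / s1 ^ 2) * (ρ ^ dd κ * m) := by
    rw [hx, hrho]; ring
  have hvol : volume (ball (f ζ) r) = ENNReal.ofReal (Real.pi * r ^ 2) := by
    rw [Complex.volume_ball, ← ENNReal.ofReal_pow hr.le, mul_comm Real.pi,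
      ENNReal.ofReal_mul (by positivity), ← NNReal.coe_real_pi, ENNReal.ofReal_coe_nnreal]
  by_cases hcase : ρ < 10 * ε
  · have hempty : {w | ENNReal.ofReal x < mass κ s1 ε f w (Ioi 0) (ball (f ζ) r)} = ∅ := by
      refine eq_empty_of_forall_notMem fun w hw => ?_
      have hw' : ENNReal.ofReal x < mass κ s1 ε f w (Ioi 0) (ball (f ζ) r) := hw
      refine absurd hw' (not_lt.2 ?_)
      refine (mass_le_vol hf κ hs1 hε w measurableSet_ball).trans ?_
      rw [hvol, ← ENNReal.ofReal_mul (by positivity)]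
      apply ENNReal.ofReal_le_ofReal
      have h1 : ε ^ (dd κ - 2) ≤ (ρ / 10) ^ (dd κ - 2) :=
        Real.rpow_le_rpow_of_nonpos (by positivity) (by linarith) (by linarith)
      have h2 : (ρ / 10) ^ (dd κ - 2) * r ^ 2 = 100 / 10 ^ dd κ * (ρ ^ dd κ * m) := by
        rw [Real.rpow_sub (by positivity), Real.div_rpow hρ0.le (by norm_num), Real.rpow_two,
          ← hρm]
        field_simp
        norm_num
      have h3 : ε ^ (dd κ - 2) / s1 ^ 2 * (Real.pi * r ^ 2) ≤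
          Real.pi * (100 / 10 ^ dd κ) / s1 ^ 2 * (ρ ^ dd κ * m) := by
        calc ε ^ (dd κ - 2) / s1 ^ 2 * (Real.pi * r ^ 2)
            = Real.pi / s1 ^ 2 * (ε ^ (dd κ - 2) * r ^ 2) := by ring
          _ ≤ Real.pi / s1 ^ 2 * ((ρ / 10) ^ (dd κ - 2) * r ^ 2) := by gcongr
          _ = _ := by rw [h2]; ring
      have h4 : 0 ≤ 2 * (C0 + 2) / θ * (ρ ^ dd κ * m) := by positivity
      rw [hx']
      linarith
    rw [hempty, Measure.restrict_empty, lintegral_zero_measure]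
    exact zero_le
  have hερ : 10 * ε ≤ ρ := not_lt.1 hcase
  have hu := hf.ups_pos hζ
  set τ := ft (fun w t => ζ ∈ dom w t ∧ ups f ζ * mm w t ζ < A * r) with hτdef
  have hτ : IsOpt τ := tail_isOpt ζ hu.le (A * r)
  have hdeep : ∀ (w : Path) (s : ℝ), 0 ≤ s → ENNReal.ofReal s ≤ τ w →
      ∀ ξ ∈ H, cfg f w s ξ ∈ ball (f ζ) r → 4 * r ≤ ups (cfg f w s) ξ :=
    fun w s hs hle => tail_deep hA hf hζ hr w hs (tail_pre hζ hAr w hle)
  set X : Path → ℝ≥0∞ := fun w => mass κ s1 ε f w (Ioi 0) (ball (f ζ) r) with hX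
  have hXm : Measurable X := measurable_mass hf κ s1 ε measurableSet_ball _
  have hS : MeasurableSet {w | ENNReal.ofReal x < X w} := measurableSet_lt measurable_const hXm
  set F : Path → ℝ≥0∞ := indicator {w | ENNReal.ofReal x < X w} X with hF
  have hFm : Measurable F := hXm.indicator hS
  have hT : MeasurableSet {w | τ w < ⊤} := measurableSet_lt hτ.meas measurable_const
  have hzero : ∀ w, w ∉ {w | τ w < ⊤} → F w = 0 := by
    intro w hw
    have htop : τ w = ⊤ := by simpa using hw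
    have h0 : X w = 0 := by
      refine mass_eq_zero κ s1 ε f w measurableSet_Ioi fun s hs ξ hξ hB => ?_
      have := hdeep w s (le_of_lt hs) (by rw [htop]; exact le_top) ξ hξ hB
      linarith
    exact le_antisymm ((indicator_le_self _ _ w).trans h0.le) zero_le
  have hstep1 : ∫⁻ w in {w | ENNReal.ofReal x < X w}, X w ∂P = ∫⁻ w in {w | τ w < ⊤}, F w ∂P := by
    rw [← lintegral_indicator hS, ← lintegral_indicator hT]
    refine lintegral_congr fun w => ?_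
    by_cases hw : w ∈ {w | τ w < ⊤}
    · rw [indicator_of_mem hw]
    · rw [indicator_of_notMem hw]; exact hzero w hw
  have hq : 0 < ρ ^ dd κ / θ := by positivity
  have hinner : ∀ w ∈ {w | τ w < ⊤}, ∫⁻ w', F (concat (τ w).toReal w w') ∂P ≤
      ENNReal.ofReal (2 / θ * r ^ dd κ * Real.exp (-2 * m)) := by
    intro w hw
    have hw' : τ w ≠ ⊤ := ne_of_lt hw
    set t0 := (τ w).toReal with ht0
    have ht00 : 0 ≤ t0 := ENNReal.toReal_nonneg
    have hle : ENNReal.ofReal t0 ≤ τ w := ENNReal.ofReal_toReal_le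
    have hXc : ∀ w', X (concat t0 w w') =
        mass κ s1 ε (cfg f w t0) w' (Ioi 0) (ball (f ζ) r) := by
      intro w'
      have e1 : mass κ s1 ε f (concat t0 w w') (Ioc 0 t0) (ball (f ζ) r) = 0 := by
        rw [mass_congr κ s1 ε f measurableSet_Ioc (s := t0) (fun t ht => ht.2)
          (fun r' hr' => concat_le t0 w w' hr')]
        refine mass_eq_zero κ s1 ε f w measurableSet_Ioc fun s hs ξ hξ hB => ?_
        have := hdeep w s hs.1.le ((ENNReal.ofReal_le_ofReal hs.2).trans hle) ξ hξ hB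
        linarith
      show mass κ s1 ε f (concat t0 w w') (Ioi 0) (ball (f ζ) r) = _
      rw [mass_union_Ioi f κ s1 ε _ ht00, e1, zero_add, mass_concat_Ioi κ s1 ε f w w' ht00]
    have hg := hf.cfg w t0
    have hmom := hE (cfg f w t0) hg (f ζ) r ρ ε hε hερ hρr
      (fun ξ hξ hB => by linarith [hdeep w t0 ht00 hle ξ hξ hB])
    have hpt : ∀ w', F (concat t0 w w') ≤
        ENNReal.ofReal (2 * (ρ ^ dd κ / θ) * Real.exp (-((C0 + 2) * m))) *
          ENNReal.ofReal (Real.exp (θ * ρ ^ (-dd κ) *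
            (mass κ s1 ε (cfg f w t0) w' (Ioi 0) (ball (f ζ) r)).toReal)) := by
      intro w'
      by_cases hmem : concat t0 w w' ∈ {w | ENNReal.ofReal x < X w}
      · rw [hF, indicator_of_mem hmem, hXc]
        have hlt : ENNReal.ofReal x < X (concat t0 w w') := hmem
        rw [hXc] at hlt
        have hfin : mass κ s1 ε (cfg f w t0) w' (Ioi 0) (ball (f ζ) r) ≠ ⊤ := by
          refine ne_top_of_le_ne_top ?_ (mass_le_vol hg κ hs1 hε w' measurableSet_ball)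
          rw [hvol]
          exact ENNReal.mul_ne_top ENNReal.ofReal_ne_top ENNReal.ofReal_ne_top
        have hxb : 2 * ((C0 + 2) * m) * (ρ ^ dd κ / θ) ≤ x := by
          have h4 : 0 ≤ Real.pi * (100 / 10 ^ dd κ) / s1 ^ 2 * (ρ ^ dd κ * m) := by positivity
          have h5 : 2 * ((C0 + 2) * m) * (ρ ^ dd κ / θ) = 2 * (C0 + 2) / θ * (ρ ^ dd κ * m) := by
            ring
          rw [hx', h5]
          linarith
        have h6 := tail_pt hfin hq hxb hlt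
        have h7 : (ρ ^ dd κ / θ)⁻¹ = θ * ρ ^ (-dd κ) := by
          rw [Real.rpow_neg hρ0.le]; field_simp
        rwa [h7] at h6
      · rw [hF, indicator_of_notMem hmem]; exact zero_le
    refine (lintegral_mono hpt).trans ?_
    rw [lintegral_const_mul' _ _ ENNReal.ofReal_ne_top]
    refine (mul_le_mul_right hmom _).trans ?_
    rw [← ENNReal.ofReal_mul (by positivity), hρm]
    apply ENNReal.ofReal_le_ofReal
    have h8 : ρ ^ dd κ ≤ r ^ dd κ := Real.rpow_le_rpow hρ0.le hρr (by linarith)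
    have h9 : Real.exp (-((C0 + 2) * m)) * Real.exp (C0 * m) = Real.exp (-2 * m) := by
      rw [← Real.exp_add]; congr 1; ring
    calc 2 * (ρ ^ dd κ / θ) * Real.exp (-((C0 + 2) * m)) * Real.exp (C0 * m)
        = 2 / θ * ρ ^ dd κ * (Real.exp (-((C0 + 2) * m)) * Real.exp (C0 * m)) := by ring
      _ ≤ 2 / θ * r ^ dd κ * Real.exp (-2 * m) := by rw [h9]; gcongr
  have hhit : P {w | τ w < ⊤} ≤ ENNReal.ofReal (C1 * (A * r / ups f ζ) ^ (2 - dd κ)) := by
    refine (measure_mono ?_).trans (hH ζ hζ (ups f ζ) hu (A * r) (by positivity))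
    intro w hw
    obtain ⟨t, ht, h1, h2⟩ := ft_lt_top_iff.1 hw
    exact ⟨t, ht, h1, h2.le⟩
  show ∫⁻ w in {w | ENNReal.ofReal x < X w}, X w ∂P ≤ _
  rw [hstep1, hP.strong_markov hτ hFm]
  refine (setLIntegral_mono' hT hinner).trans ?_
  rw [setLIntegral_const]
  refine (mul_le_mul_right hhit _).trans ?_
  rw [← ENNReal.ofReal_mul (by positivity)]
  apply ENNReal.ofReal_le_ofReal
  apply le_of_eq
  have e1 : (A * r / ups f ζ) ^ (2 - dd κ) =
      A ^ (2 - dd κ) * r ^ (2 - dd κ) * ups f ζ ^ (dd κ - 2) := by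
    rw [Real.div_rpow (by positivity) hu.le, Real.mul_rpow hA0.le hr.le, div_eq_mul_inv,
      ← Real.rpow_neg hu.le, neg_sub]
  have e2 : r ^ dd κ * r ^ (2 - dd κ) = r ^ 2 := by
    rw [← Real.rpow_add hr, add_sub_cancel, Real.rpow_two]
  rw [e1, ← e2]
  ring

end Crest.Agent.R162
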