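import Crest.Agent.R162.Q1
import Crest.Agent.R162.MassL
import Crest.Agent.R162.Tail

/-! Row 162, block Q: probability of the good event. -/

set_option autoImplicit false
open MeasureTheory ProbabilityTheory Set Filter Topology Metric
open scoped ENNReal NNReal ComplexConjugate
open Crest.ProbabilityR.Loewner

namespace Crest.Agent.R162.Q

/-- The conclusion of `tail`. -/
def TailP (κ : ℝ) (P : Measure Path) (s1 A K C : ℝ) : Prop :=
  ∀ f : ℂ → ℂ, Univ f → ∀ ζ ∈ H, ∀ r m ε : ℝ, 0 < r → 1 ≤ m → 0 < ε → A * r ≤ ups f ζ →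
    ∫⁻ w in {w | ENNReal.ofReal (K * m ^ (1 - dd κ / 2) * r ^ dd κ) <
        mass κ s1 ε f w (Ioi 0) (ball (f ζ) r)},
      mass κ s1 ε f w (Ioi 0) (ball (f ζ) r) ∂P ≤
    ENNReal.ofReal (C * r ^ 2 * ups f ζ ^ (dd κ - 2) * Real.exp (-2 * m))

theorem exp_loglog_rr {n : ℕ} (hn : 0 < n) :
    Real.exp (-2 * Real.log (Real.log (1 / rr n))) ≤ 4 * ((n : ℝ) ^ 2)⁻¹ := by
  have hn' : (0 : ℝ) < n := by exact_mod_cast hn
  have h2 := Real.log_two_gt_d9
  have e : Real.log (1 / rr n) = n * Real.log 2 := by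
    rw [rr, one_div, ← inv_pow, Real.log_pow]; norm_num
  have hp : 0 < (n : ℝ) * Real.log 2 := by positivity
  have e2 : Real.exp (-2 * Real.log (n * Real.log 2)) = (((n : ℝ) * Real.log 2) ^ 2)⁻¹ := by
    rw [show -2 * Real.log (n * Real.log 2) = -((2 : ℕ) * Real.log (n * Real.log 2)) by
      push_cast; ring, Real.exp_neg, Real.exp_nat_mul, Real.exp_log hp]
  rw [e, e2, ← div_eq_mul_inv, inv_eq_one_div, div_le_div_iff₀ (by positivity) (by positivity),
    mul_pow]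
  have h3 : 1 / 4 ≤ Real.log 2 ^ 2 := by nlinarith
  nlinarith [mul_le_mul_of_nonneg_left h3 (sq_nonneg (n : ℝ))]

theorem cell_expect {κ : ℝ} (hκ8 : κ < 8) {P : Measure Path} {s1 A K C : ℝ} (hC : 0 < C)
    (hT : TailP κ P s1 A K C) {f : ℂ → ℂ} (hf : Univ f) {z0 : ℂ} {ρ : ℝ} (hρ : 0 < ρ)
    (hfr : ball z0 (3 / 2 * ρ) ⊆ f '' H) {n : ℕ} (hn : 0 < n) (h1 : A * rr n ≤ ρ / 8)
    (h2 : rr n ≤ Real.exp (-Real.exp 1)) (h3 : rr n ≤ ρ / 2) {j : ℤ × ℤ} (hj : j ∈ Jn z0 ρ n)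
    {ε : ℝ} (hε : 0 < ε) {I : Set ℝ} (hI : I ⊆ Ioi 0) :
    ∫⁻ w, cut (ENNReal.ofReal (K * gaugeReal κ (rr n)))
      (mass κ s1 ε f w I (ball (gp z0 n j) (rr n))) ∂P ≤
      ENNReal.ofReal (C * rr n ^ 2 * (ρ / 8) ^ (dd κ - 2) * (4 * ((n : ℝ) ^ 2)⁻¹)) := by
  have hj' := mem_Jn hj
  have hb : ball (gp z0 n j) (ρ / 4) ⊆ f '' H := by
    refine Subset.trans (fun y hy => ?_) hfr
    have := dist_triangle y (gp z0 n j) z0
    rw [← dist_eq_norm] at hj'
    rw [mem_ball] at hy ⊢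
    linarith
  obtain ⟨ζ, hζ, hfζ⟩ := hb (mem_ball_self (by positivity))
  have hu : ρ / 8 ≤ ups f ζ := by
    have := schwarz_ball hf hζ (ρ := ρ / 4) (by rwa [hfζ])
    linarith
  have hr := rr_pos n
  have h4 := hT f hf ζ hζ (rr n) (Real.log (Real.log (1 / rr n))) ε hr (one_le_loglog hr h2).2 hε
    (h1.trans hu)
  have e : K * Real.log (Real.log (1 / rr n)) ^ (1 - dd κ / 2) * rr n ^ dd κ =
      K * gaugeReal κ (rr n) := by
    rw [gaugeReal_eq h2, show (2 - dimParam κ) / 2 = 1 - dd κ / 2 by unfold dimParam dd; ring,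
      show dimParam κ = dd κ from rfl]
    ring
  rw [e, hfζ] at h4
  have hm := measurable_mass hf κ s1 ε (B := ball (gp z0 n j) (rr n)) measurableSet_ball (Ioi 0)
  rw [← lintegral_indicator (measurableSet_lt measurable_const hm)] at h4
  refine le_trans (lintegral_mono fun w => ?_) (h4.trans (ENNReal.ofReal_le_ofReal ?_))
  · refine (cut_mono _ (mass_mono κ s1 ε f w hI Subset.rfl)).trans (le_of_eq ?_)
    simp only [cut, indicator, mem_ofPred_eq]
  · have h5 : ups f ζ ^ (dd κ - 2) ≤ (ρ / 8) ^ (dd κ - 2) :=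
      Real.rpow_le_rpow_of_nonpos (by positivity) hu (by unfold dd; linarith)
    have h6 := exp_loglog_rr hn
    gcongr

theorem bad_expect {κ : ℝ} (hκ8 : κ < 8) {P : Measure Path} {s1 A K C : ℝ} (hA : 1 ≤ A)
    (hC : 0 < C) (hT : TailP κ P s1 A K C) {f : ℂ → ℂ} (hf : Univ f) {z0 : ℂ} {ρ : ℝ}
    (hρ : 0 < ρ) (hfr : ball z0 (3 / 2 * ρ) ⊆ f '' H) {η : ℝ} (hη : 0 < η) :
    ∃ n0 : ℕ, ∀ (N : ℕ) (ε : ℝ) (I : Set ℝ), 0 < ε → I ⊆ Ioi 0 →
      ∫⁻ w, badM κ s1 ε K f w I z0 ρ n0 N ∂P ≤ ENNReal.ofReal η := by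
  obtain ⟨M, hM⟩ := exists_rr_le (x := min (ρ / (8 * A)) (Real.exp (-Real.exp 1))) (by positivity)
  set D := 81 * ρ ^ 2 * C * (ρ / 8) ^ (dd κ - 2) * 4 with hD
  have hD0 : 0 < D := by positivity
  obtain ⟨M', hM'⟩ := exists_nat_ge (2 * D / η)
  refine ⟨max M M', fun N ε I hε hI => ?_⟩
  have hmc : ∀ n j, Measurable fun w => cut (ENNReal.ofReal (K * gaugeReal κ (rr n)))
      (mass κ s1 ε f w I (ball (gp z0 n j) (rr n))) := fun n j =>
    (measurable_cut _).comp (measurable_mass hf κ s1 ε measurableSet_ball I)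
  unfold badM
  rw [lintegral_finsetSum _ fun n _ => Finset.measurable_sum _ fun j _ => hmc n j]
  have h1 : ∀ n ∈ Finset.Ioo (max M M') N, ∫⁻ w, ∑ j ∈ Jn z0 ρ n,
      cut (ENNReal.ofReal (K * gaugeReal κ (rr n)))
        (mass κ s1 ε f w I (ball (gp z0 n j) (rr n))) ∂P ≤
      ENNReal.ofReal (D * ((n : ℝ) ^ 2)⁻¹) := by
    intro n hn
    have hn1 := (Finset.mem_Ioo.1 hn).1
    have h2 := hM n ((le_max_left _ _).trans hn1.le)
    have h3 : A * rr n ≤ ρ / 8 := by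
      have := h2.trans (min_le_left _ _)
      rw [le_div_iff₀ (by positivity)] at this
      linarith
    have h4 : rr n ≤ ρ / 2 := by nlinarith [rr_pos n]
    rw [lintegral_finsetSum _ fun j _ => hmc n j]
    refine (Finset.sum_le_card_nsmul _ _ _ fun j hj => cell_expect hκ8 hC hT hf hρ hfr
      (by omega) h3 (h2.trans (min_le_right _ _)) h4 hj hε hI).trans ?_
    rw [nsmul_eq_mul, ← ENNReal.ofReal_natCast, ← ENNReal.ofReal_mul (by positivity)]
    refine ENNReal.ofReal_le_ofReal ?_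
    have h5 := card_Jn z0 (ρ := ρ) (n := n) (by linarith)
    calc _ = ((Jn z0 ρ n).card * rr n ^ 2) * (C * (ρ / 8) ^ (dd κ - 2) * (4 * ((n : ℝ) ^ 2)⁻¹)) := by
          ring
      _ ≤ (81 * ρ ^ 2) * (C * (ρ / 8) ^ (dd κ - 2) * (4 * ((n : ℝ) ^ 2)⁻¹)) := by gcongr
      _ = _ := by rw [hD]; ring
  refine (Finset.sum_le_sum h1).trans ?_
  rw [← ENNReal.ofReal_sum_of_nonneg fun n _ => by positivity, ← Finset.mul_sum]
  refine ENNReal.ofReal_le_ofReal ?_
  have h6 := sum_Ioo_inv_sq_le (α := ℝ) (max M M') N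
  have h7 : (M' : ℝ) ≤ ((max M M' : ℕ) : ℝ) := by exact_mod_cast le_max_right _ _
  refine (mul_le_mul_of_nonneg_left h6 hD0.le).trans ?_
  rw [div_le_iff₀ hη] at hM'
  rw [← mul_div_assoc, div_le_iff₀ (by positivity)]
  nlinarith

theorem measure_freq_ge {P : Measure Path} [IsFiniteMeasure P] {G : ℕ → Set Path}
    (hG : ∀ N, MeasurableSet (G N)) {p : ℝ≥0∞} {N0 : ℕ} (h : ∀ N, N0 ≤ N → p ≤ P (G N)) :
    p ≤ P {w | ∀ M : ℕ, ∃ N, M ≤ N ∧ w ∈ G N} := by
  have e : {w | ∀ M : ℕ, ∃ N, M ≤ N ∧ w ∈ G N} = ⋂ M : ℕ, ⋃ (N : ℕ) (_ : M ≤ N), G N := by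
    ext w; simp
  have ha : Antitone fun M : ℕ => ⋃ (N : ℕ) (_ : M ≤ N), G N := fun M M' hM =>
    iUnion₂_subset fun N hN => subset_iUnion₂_of_subset N (hM.trans hN) Subset.rfl
  rw [e, ha.measure_iInter (fun M => (MeasurableSet.iUnion fun N => .iUnion fun _ =>
    hG N).nullMeasurableSet) ⟨0, measure_ne_top _ _⟩]
  refine le_iInf fun M => (h (max M N0) (le_max_right _ _)).trans (measure_mono ?_)
  exact subset_iUnion₂_of_subset (max M N0) (le_max_left _ _) Subset.rfl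

theorem exists_zq (z : ℂ) {η : ℝ} (hη : 0 < η) : ∃ q : ℚ × ℚ, dist z (zq q) < η := by
  obtain ⟨a, ha⟩ := exists_rat_near z.re (half_pos hη)
  obtain ⟨b, hb⟩ := exists_rat_near z.im (half_pos hη)
  refine ⟨(a, b), ?_⟩
  rw [dist_eq_norm]
  refine (Complex.norm_le_abs_re_add_abs_im _).trans_lt ?_
  simp only [zq, Complex.sub_re, Complex.add_re, Complex.ofReal_re, Complex.mul_re, Complex.I_re,
    mul_zero, Complex.ofReal_im, Complex.I_im, mul_one, sub_self, add_zero, Complex.sub_im,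
    Complex.add_im, Complex.mul_im, zero_add]
  linarith

theorem section_Ev {κ : ℝ} (hκ : 0 < κ) (hκ8 : κ < 8) {P : Measure Path} (hP : IsDrv κ P) :
    ∃ s1 K T p : ℝ, 0 < s1 ∧ 0 < K ∧ 0 < T ∧ 0 < p ∧ ∀ a y : ℝ, 0 ≤ a → 0 < y → ∀ w : Path,
      ENNReal.ofReal p ≤ P {w' | concat a w w' ∈ Ev κ s1 K a (a + y ^ 2 * T)} := by
  have := hP.prob
  obtain ⟨s1, T, A0, c, c0, ε0, hs1, hT, -, hc, hc0, hε0, hML⟩ := mass_lemma hκ hκ8 hP
  obtain ⟨A, K, C, hA, hK, hC, hTl⟩ := tail hκ hκ8 hP hs1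
  refine ⟨s1, K, T, c / 2, hs1, hK, hT, by positivity, fun a y ha hy w => ?_⟩
  have hf : Univ (cfg id w a) := univ_id.cfg w a
  set f := cfg id w a with hfdef
  have hyH : (y : ℂ) * Complex.I ∈ H := by
    show 0 < ((y : ℂ) * Complex.I).im
    simpa using hy
  have hu := hf.ups_pos hyH
  set u := ups f (y * Complex.I) with hudef
  set z := f (y * Complex.I) with hz
  have hball : ball z (2 * c0 * u) ⊆ f '' H := by
    refine (hML f hf y hy (ε0 * u) (by positivity) le_rfl).1.trans (image_mono ?_)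
    refine Subset.trans (ball_subset_ball ?_) (ball_im_subset (z := (y : ℂ) * Complex.I))
    simp; linarith
  have hcu : 0 < c0 * u := by positivity
  obtain ⟨q, hq⟩ := exists_zq z (η := c0 * u / 10) (by positivity)
  obtain ⟨ρ, hρ1, hρ2⟩ := exists_rat_btwn (show 11 / 10 * (c0 * u) < 12 / 10 * (c0 * u) by linarith)
  have hρ : 0 < (ρ : ℝ) := by linarith
  have hfr : ball (zq q) (3 / 2 * ρ) ⊆ f '' H := by
    refine Subset.trans (fun x hx => ?_) hball
    have := dist_triangle x (zq q) z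
    rw [dist_comm] at hq
    rw [mem_ball] at hx ⊢
    linarith
  have hin : ball z (c0 * u) ⊆ ball (zq q) ρ := by
    intro x hx
    have := dist_triangle x z (zq q)
    rw [mem_ball] at hx ⊢
    linarith
  have hm0 : 0 < c * u ^ dd κ := by positivity
  obtain ⟨n0, hn0⟩ := bad_expect hκ8 hA hC hTl hf hρ hfr
    (η := c * u ^ dd κ / 2 * (c / 2)) (by positivity)
  obtain ⟨k, hk⟩ := exists_nat_one_div_lt (half_pos hm0)
  obtain ⟨N0, hN0⟩ := exists_rr_le (x := ε0 * u) (by positivity)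
  have hG : ∀ N, N0 ≤ N → ENNReal.ofReal (c / 2) ≤
      P (Gd κ s1 K f (Ioc 0 (y ^ 2 * T)) (zq q) ρ n0 k N) := by
    intro N hN
    have h1 := (hML f hf y hy (eps N) (eps_pos N)
      (by have := hN0 N hN; have := rr_pos N; unfold eps; linarith)).2
    have h2 := hn0 N (eps N) (Ioc 0 (y ^ 2 * T)) (eps_pos N) Ioc_subset_Ioi_self
    have h3 := mul_meas_ge_le_lintegral₀ (μ := P)
      (measurable_badM κ s1 (eps N) K hf (Ioc 0 (y ^ 2 * T)) (zq q) ρ n0 N).aemeasurable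
      (ENNReal.ofReal (c * u ^ dd κ / 2))
    have h4 : P {w' | ENNReal.ofReal (c * u ^ dd κ / 2) ≤
        badM κ s1 (eps N) K f w' (Ioc 0 (y ^ 2 * T)) (zq q) ρ n0 N} ≤ ENNReal.ofReal (c / 2) := by
      have h5 := h3.trans h2
      rw [ENNReal.ofReal_mul (by positivity)] at h5
      exact (ENNReal.mul_le_mul_iff_right (by simpa using hm0) ENNReal.ofReal_ne_top).1 h5
    have h6 : ENNReal.ofReal (c / 2) + ENNReal.ofReal (c / 2) ≤
        P (Gd κ s1 K f (Ioc 0 (y ^ 2 * T)) (zq q) ρ n0 k N) + ENNReal.ofReal (c / 2) := by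
      rw [← ENNReal.ofReal_add (by positivity) (by positivity), add_halves]
      refine h1.trans (le_trans (measure_mono fun w' hw' => ?_)
        ((measure_union_le _ _).trans (add_le_add le_rfl h4)))
      by_cases hb : ENNReal.ofReal (c * u ^ dd κ / 2) ≤
          badM κ s1 (eps N) K f w' (Ioc 0 (y ^ 2 * T)) (zq q) ρ n0 N
      · exact Or.inr hb
      · refine Or.inl (le_trans ?_ (hw'.2.trans (mass_mono κ s1 _ f w' Subset.rfl hin)))
        refine (add_le_add (ENNReal.ofReal_le_ofReal hk.le) (not_le.1 hb).le).trans ?_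
        rw [← ENNReal.ofReal_add (by positivity) (by positivity), add_halves]
    exact (ENNReal.add_le_add_iff_right ENNReal.ofReal_ne_top).1 h6
  refine (measure_freq_ge (fun N => measurableSet_Gd κ s1 K hf _ _ _ _ _ N) hG).trans
    (measure_mono fun w' hw' => ⟨q, ρ, n0, k, hρ, ?_, fun M => ?_⟩)
  · rw [(phi_congr_le le_rfl fun r hr => concat_le a w w' hr).2.1]
    refine (closedBall_subset_ball (by linarith)).trans (hfr.trans ?_)
    rw [hfdef, cfg_image, image_id]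
  · obtain ⟨N, hN, hGN⟩ := hw' M
    refine ⟨N, hN, ?_⟩
    have e : ∀ B, mass κ s1 (eps N) id (concat a w w') (Ioc a (a + y ^ 2 * T)) B =
        mass κ s1 (eps N) f w' (Ioc 0 (y ^ 2 * T)) B :=
      fun B => mass_concat_Ioc κ s1 _ id w w' ha _ B
    simpa only [Gd, badM, mem_ofPred_eq, e] using hGN

/-- Independent trials on consecutive time windows. -/
theorem measure_all_fail {κ : ℝ} {P : Measure Path} (hP : IsDrv κ P) {E : ℕ → Set Path}
    {a : ℕ → ℝ} (ha0 : ∀ i, 0 ≤ a i) (ha : Monotone a) (hE : ∀ i, MeasurableSet (E i))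
    (hloc : ∀ i (w w' : Path), (∀ r, r ≤ a (i + 1) → w r = w' r) → w ∈ E i → w' ∈ E i)
    {p : ℝ≥0∞} (hp : ∀ i w, p ≤ P {w' | concat (a i) w w' ∈ E i}) (M : ℕ) :
    P {w | ∀ i < M, w ∉ E i} ≤ (1 - p) ^ M := by
  have := hP.prob
  have hm : ∀ M, MeasurableSet {w | ∀ i < M, w ∉ E i} := fun M => by
    have e : {w | ∀ i < M, w ∉ E i} = ⋂ (i : ℕ) (_ : i < M), (E i)ᶜ := by ext w; simp
    rw [e]
    exact .iInter fun i => .iInter fun _ => (hE i).compl
  induction M with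
  | zero => simp
  | succ M ih =>
    have h1 := hP.le_measure_of_section (ha0 M) ((hm M).inter (hE M)) (hm M) (p := p)
      fun w hw => (hp M w).trans (measure_mono fun w' hw' => ⟨fun i hi hi' => hw i hi
        (hloc i _ w (fun r hr => concat_le _ w w' (hr.trans (ha hi))) hi'), hw'⟩)
    have e : {w | ∀ i < M + 1, w ∉ E i} = {w | ∀ i < M, w ∉ E i} \ E M := by
      ext w
      simp only [mem_ofPred_eq, mem_diff, Nat.lt_succ_iff_lt_or_eq]
      exact ⟨fun h => ⟨fun i hi => h i (Or.inl hi), h M (Or.inr rfl)⟩,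
        fun h i hi => hi.elim (h.1 i) fun e => e ▸ h.2⟩
    have h2 := measure_inter_add_sdiff (μ := P) {w | ∀ i < M, w ∉ E i} (hE M)
    rw [e, pow_succ]
    refine le_trans ?_ (mul_le_mul_left ih _)
    rw [ENNReal.mul_sub fun _ _ => measure_ne_top _ _, mul_one]
    refine ENNReal.le_sub_of_add_le_left (ne_top_of_le_ne_top (measure_ne_top P _) h1) ?_
    exact (add_le_add h1 le_rfl).trans h2.le

end Crest.Agent.R162.Q
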