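import Mathlib
import Crest.Prelude.Def_Loewner

/-!
The gauge function and the Rogers–Taylor density theorems for the gauge measure.
-/

set_option autoImplicit false
open MeasureTheory Set Filter Topology Metric
open scoped ENNReal NNReal
open Crest.ProbabilityR.Loewner

namespace Crest.Agent.R162

variable {κ : ℝ}

theorem one_le_loglog {x : ℝ} (hx : 0 < x) (hx1 : x ≤ Real.exp (-Real.exp 1)) :
    Real.exp 1 ≤ Real.log (1 / x) ∧ 1 ≤ Real.log (Real.log (1 / x)) := by
  have h1 : Real.exp 1 ≤ Real.log (1 / x) := by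
    rw [Real.le_log_iff_exp_le (by positivity), le_div_iff₀ hx]
    calc Real.exp (Real.exp 1) * x ≤ Real.exp (Real.exp 1) * Real.exp (-Real.exp 1) := by gcongr
      _ = 1 := by rw [← Real.exp_add]; simp
  refine ⟨h1, ?_⟩
  rw [Real.le_log_iff_exp_le ((Real.exp_pos 1).trans_le h1)]
  exact h1

theorem gaugeReal_eq {x : ℝ} (hx1 : x ≤ Real.exp (-Real.exp 1)) :
    gaugeReal κ x = x ^ dimParam κ * Real.log (Real.log (1 / x)) ^ ((2 - dimParam κ) / 2) := by
  rw [gaugeReal, min_eq_left hx1]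

theorem gaugeReal_min (x : ℝ) : gaugeReal κ x = gaugeReal κ (min x (Real.exp (-Real.exp 1))) := by
  simp [gaugeReal]

theorem gaugeReal_zero (hκ : 0 < κ) : gaugeReal κ 0 = 0 := by
  rw [gaugeReal_eq (Real.exp_pos _).le, Real.zero_rpow (by unfold dimParam; positivity), zero_mul]

theorem gaugeReal_pos {x : ℝ} (hx : 0 < x) : 0 < gaugeReal κ x := by
  have h0 : 0 < min x (Real.exp (-Real.exp 1)) := lt_min hx (Real.exp_pos _)
  have h1 := (one_le_loglog h0 (min_le_right _ _)).2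
  exact mul_pos (Real.rpow_pos_of_pos h0 _) (Real.rpow_pos_of_pos (by linarith) _)

theorem gaugeReal_nonneg (hκ : 0 < κ) {x : ℝ} (hx : 0 ≤ x) : 0 ≤ gaugeReal κ x := by
  rcases hx.eq_or_lt with rfl | h
  · rw [gaugeReal_zero hκ]
  · exact (gaugeReal_pos h).le

theorem loglog_anti {x y : ℝ} (hx : 0 < x) (hxy : x ≤ y) (hy : y ≤ Real.exp (-Real.exp 1)) :
    Real.log (Real.log (1 / y)) ≤ Real.log (Real.log (1 / x)) := by
  have h1 := (one_le_loglog (hx.trans_le hxy) hy).1
  refine Real.log_le_log ((Real.exp_pos 1).trans_le h1) (Real.log_le_log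
    (by have := hx.trans_le hxy; positivity) (one_div_le_one_div_of_le hx hxy))

theorem loglog_le_mul {x y : ℝ} (hx : 0 < x) (hxy : x ≤ y) (hy : y ≤ Real.exp (-Real.exp 1)) :
    Real.log (Real.log (1 / x)) ≤ y / x * Real.log (Real.log (1 / y)) := by
  have hy0 := hx.trans_le hxy
  obtain ⟨h1, h2⟩ := one_le_loglog hy0 hy
  have he : 1 ≤ Real.exp 1 := Real.one_le_exp zero_le_one
  have hq : 1 ≤ y / x := (one_le_div hx).2 hxy
  have hl : 0 ≤ Real.log (y / x) := Real.log_nonneg hq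
  have h3 : Real.log (1 / x) = Real.log (1 / y) + Real.log (y / x) := by
    rw [← Real.log_mul (by positivity) (by positivity)]; congr 1; field_simp
  have h4 : Real.log (1 / x) ≤ Real.log (1 / y) * (1 + Real.log (y / x)) := by
    rw [h3]; nlinarith
  have h5 : Real.log (Real.log (1 / x)) ≤
      Real.log (Real.log (1 / y)) + Real.log (1 + Real.log (y / x)) := by
    rw [← Real.log_mul (by linarith) (by linarith)]
    exact Real.log_le_log (by linarith) h4
  have h6 : Real.log (1 + Real.log (y / x)) ≤ Real.log (y / x) := by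
    have := Real.log_le_sub_one_of_pos (show 0 < 1 + Real.log (y / x) by linarith)
    linarith
  have h7 := Real.log_le_sub_one_of_pos (show 0 < y / x by linarith)
  nlinarith

theorem gaugeReal_mono (hκ : 0 < κ) (hκ8 : κ < 8) {x y : ℝ} (hx : 0 ≤ x) (hxy : x ≤ y) :
    gaugeReal κ x ≤ gaugeReal κ y := by
  rcases hx.eq_or_lt with rfl | hx
  · rw [gaugeReal_zero hκ]; exact gaugeReal_nonneg hκ hxy
  rw [gaugeReal_min x, gaugeReal_min y]
  have h0 : 0 < min x (Real.exp (-Real.exp 1)) := lt_min hx (Real.exp_pos _)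
  have h1 : min x (Real.exp (-Real.exp 1)) ≤ min y (Real.exp (-Real.exp 1)) :=
    min_le_min hxy le_rfl
  have h2 := min_le_right y (Real.exp (-Real.exp 1))
  generalize min x (Real.exp (-Real.exp 1)) = a at *
  generalize min y (Real.exp (-Real.exp 1)) = b at *
  have hb := h0.trans_le h1
  rw [gaugeReal_eq (h1.trans h2), gaugeReal_eq h2]
  have h3 := loglog_le_mul h0 h1 h2
  have h4 := (one_le_loglog h0 (h1.trans h2)).2
  have h5 := (one_le_loglog hb h2).2
  have hβ : 0 ≤ (2 - dimParam κ) / 2 := by unfold dimParam; linarith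
  have hβ' : (2 - dimParam κ) / 2 ≤ dimParam κ := by unfold dimParam; linarith
  have hq : 1 ≤ b / a := (one_le_div h0).2 h1
  calc a ^ dimParam κ * Real.log (Real.log (1 / a)) ^ ((2 - dimParam κ) / 2)
      ≤ a ^ dimParam κ * (b / a * Real.log (Real.log (1 / b))) ^ ((2 - dimParam κ) / 2) := by
        gcongr
    _ = a ^ dimParam κ * ((b / a) ^ ((2 - dimParam κ) / 2) *
        Real.log (Real.log (1 / b)) ^ ((2 - dimParam κ) / 2)) := by
        rw [Real.mul_rpow (by positivity) (by linarith)]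
    _ ≤ a ^ dimParam κ * ((b / a) ^ dimParam κ *
        Real.log (Real.log (1 / b)) ^ ((2 - dimParam κ) / 2)) := by
        gcongr
    _ = _ := by
        rw [Real.div_rpow hb.le h0.le]
        have := Real.rpow_pos_of_pos h0 (dimParam κ)
        field_simp

/-- Doubling. -/
theorem gaugeReal_mul_le (hκ : 0 < κ) (hκ8 : κ < 8) {l x : ℝ} (hl : 1 ≤ l) (hx : 0 ≤ x) :
    gaugeReal κ (l * x) ≤ l ^ 2 * gaugeReal κ x := by
  rcases hx.eq_or_lt with rfl | hx
  · simp [gaugeReal_zero hκ]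
  rw [gaugeReal_min x, gaugeReal_min (l * x)]
  have he := Real.exp_pos (-Real.exp 1)
  have h0 : 0 < min x (Real.exp (-Real.exp 1)) := lt_min hx he
  have h1 : min x (Real.exp (-Real.exp 1)) ≤ min (l * x) (Real.exp (-Real.exp 1)) :=
    min_le_min (by nlinarith) le_rfl
  have h2 := min_le_right (l * x) (Real.exp (-Real.exp 1))
  have h3 : min (l * x) (Real.exp (-Real.exp 1)) ≤ l * min x (Real.exp (-Real.exp 1)) := by
    rw [mul_min_of_nonneg _ _ (by linarith)]
    exact min_le_min le_rfl (by nlinarith)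
  generalize min x (Real.exp (-Real.exp 1)) = a at *
  generalize min (l * x) (Real.exp (-Real.exp 1)) = b at *
  have hb := h0.trans_le h1
  rw [gaugeReal_eq (h1.trans h2), gaugeReal_eq h2]
  have h4 := loglog_anti h0 h1 h2
  have h5 := (one_le_loglog hb h2).2
  have hβ : 0 ≤ (2 - dimParam κ) / 2 := by unfold dimParam; linarith
  have hd : 0 ≤ dimParam κ := by unfold dimParam; linarith
  have hd2 : dimParam κ ≤ 2 := by unfold dimParam; linarith
  have h6 : b ^ dimParam κ ≤ l ^ 2 * a ^ dimParam κ := by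
    calc b ^ dimParam κ ≤ (l * a) ^ dimParam κ := by gcongr
      _ = l ^ dimParam κ * a ^ dimParam κ := Real.mul_rpow (by linarith) h0.le
      _ ≤ l ^ (2 : ℝ) * a ^ dimParam κ := by gcongr
      _ = _ := by rw [Real.rpow_two]
  rw [← mul_assoc]
  gcongr

theorem rpow_le_gaugeReal (hκ8 : κ < 8) {x : ℝ} (hx : 0 < x) (hx1 : x ≤ Real.exp (-Real.exp 1)) :
    x ^ dimParam κ ≤ gaugeReal κ x := by
  rw [gaugeReal_eq hx1]
  have h := (one_le_loglog hx hx1).2
  have hβ : 0 ≤ (2 - dimParam κ) / 2 := by unfold dimParam; linarith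
  exact le_mul_of_one_le_right (by positivity) (Real.one_le_rpow h hβ)

theorem gaugeReal_le_mul (hκ : 0 < κ) (hκ8 : κ < 8) {x : ℝ} (hx : 0 ≤ x)
    (hx1 : x ≤ Real.exp (-Real.exp 1)) :
    gaugeReal κ x ≤ x ^ (κ / 8) := by
  rcases hx.eq_or_lt with rfl | hx
  · rw [gaugeReal_zero hκ]; positivity
  rw [gaugeReal_eq hx1]
  obtain ⟨h1, h2⟩ := one_le_loglog hx hx1
  have hβ : (2 - dimParam κ) / 2 ≤ 1 := by unfold dimParam; linarith
  have h3 : Real.log (Real.log (1 / x)) ≤ 1 / x := by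
    have := Real.log_le_sub_one_of_pos ((Real.exp_pos 1).trans_le h1)
    have := Real.log_le_sub_one_of_pos (show 0 < 1 / x by positivity)
    linarith
  have h4 : Real.log (Real.log (1 / x)) ^ ((2 - dimParam κ) / 2) ≤ 1 / x := by
    refine le_trans ?_ h3
    conv_rhs => rw [← Real.rpow_one (Real.log (Real.log (1 / x)))]
    exact Real.rpow_le_rpow_of_exponent_le h2 hβ
  calc _ ≤ x ^ dimParam κ * (1 / x) := by gcongr
    _ = _ := by
      rw [dimParam, Real.rpow_add hx, Real.rpow_one]; field_simp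

theorem tendsto_gaugeReal (hκ : 0 < κ) (hκ8 : κ < 8) :
    Tendsto (gaugeReal κ) (𝓝[>] 0) (𝓝 0) := by
  have h1 : Tendsto (fun x : ℝ => x ^ (κ / 8)) (𝓝[>] 0) (𝓝 0) := by
    have h := (Real.continuousAt_rpow_const 0 (κ / 8) (Or.inr (by positivity))).tendsto
    rw [Real.zero_rpow (by positivity)] at h
    exact h.mono_left nhdsWithin_le_nhds
  refine squeeze_zero' ?_ ?_ h1
  · filter_upwards [self_mem_nhdsWithin] with x hx using (gaugeReal_pos hx).le
  · filter_upwards [Ioc_mem_nhdsGT (Real.exp_pos (-Real.exp 1))] with x hx using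
      gaugeReal_le_mul hκ hκ8 hx.1.le hx.2

theorem gaugeExt_ediam (s : Set ℂ) : gaugeExt κ (ediam s) = ENNReal.ofReal (gaugeReal κ (diam s)) :=
  rfl

/-- Mass distribution principle for an outer measure, uniform form. -/
theorem outer_le_gauge (hκ : 0 < κ) (hκ8 : κ < 8) (μ : OuterMeasure ℂ) {A : Set ℂ} {r0 : ℝ}
    (hr0 : 0 < r0) {C : ℝ} (hC : 0 < C)
    (h : ∀ x ∈ A, ∀ r, 0 < r → r ≤ r0 → μ (closedBall x r ∩ A) ≤ ENNReal.ofReal (C * gaugeReal κ r)) :
    μ A ≤ ENNReal.ofReal C * gaugeMeasure κ A := by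
  have hC0 : ENNReal.ofReal C ≠ 0 := by simpa using hC
  have key := OuterMeasure.le_mkMetric (gaugeExt κ)
    ((ENNReal.ofReal C)⁻¹ • OuterMeasure.restrict A μ) (ENNReal.ofReal r0) (by simpa using hr0)
    (fun s hs => by
      rw [OuterMeasure.smul_apply, OuterMeasure.restrict_apply, smul_eq_mul, gaugeExt_ediam,
        ENNReal.inv_mul_le_iff hC0 ENNReal.ofReal_ne_top, ← ENNReal.ofReal_mul hC.le]
      rcases (s ∩ A).eq_empty_or_nonempty with he | ⟨x, hxs, hxA⟩
      · simp [he]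
      have hb : Bornology.IsBounded s :=
        isBounded_iff_ediam_ne_top.2 (hs.trans_lt ENNReal.ofReal_lt_top).ne
      have hd : diam s ≤ r0 := ENNReal.toReal_le_of_le_ofReal hr0.le hs
      have hsub : ∀ r, diam s ≤ r → s ∩ A ⊆ closedBall x r ∩ A := fun r hr y hy =>
        ⟨(dist_le_diam_of_mem hb hy.1 hxs).trans hr, hy.2⟩
      rcases (diam_nonneg (s := s)).eq_or_lt with h0 | h0
      · rw [← h0, gaugeReal_zero hκ, mul_zero]
        have h1 : Tendsto (fun r => ENNReal.ofReal (C * gaugeReal κ r)) (𝓝[>] 0)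
            (𝓝 (ENNReal.ofReal (C * 0))) :=
          ENNReal.tendsto_ofReal ((tendsto_gaugeReal hκ hκ8).const_mul C)
        rw [mul_zero] at h1
        refine ge_of_tendsto h1 ?_
        filter_upwards [Ioc_mem_nhdsGT hr0] with r hr
        exact (μ.mono (hsub r (h0 ▸ hr.1.le))).trans (h x hxA r hr.1 hr.2)
      · exact (μ.mono (hsub _ le_rfl)).trans (h x hxA _ h0 hd)) A
  rw [OuterMeasure.smul_apply, OuterMeasure.restrict_apply, smul_eq_mul, inter_self,
    ENNReal.inv_mul_le_iff hC0 ENNReal.ofReal_ne_top, OuterMeasure.coe_mkMetric] at key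
  exact key

/-- Rogers–Taylor lower bound: an upper density bound at every point of `A`. -/
theorem measure_le_gauge (hκ : 0 < κ) (hκ8 : κ < 8) (μ : Measure ℂ) {A : Set ℂ} {C : ℝ}
    (hC : 0 < C) (h : ∀ x ∈ A, ∃ r0 > 0, ∀ r, 0 < r → r ≤ r0 →
      μ (closedBall x r) ≤ ENNReal.ofReal (C * gaugeReal κ r)) :
    μ A ≤ ENNReal.ofReal C * gaugeMeasure κ A := by
  set An : ℕ → Set ℂ := fun n => {x ∈ A | ∀ r, 0 < r → r ≤ 1 / ((n : ℝ) + 1) →
    μ (closedBall x r) ≤ ENNReal.ofReal (C * gaugeReal κ r)} with hAn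
  have hmono : Monotone An := fun m n hmn x hx =>
    ⟨hx.1, fun r hr hrn => hx.2 r hr (hrn.trans (Nat.one_div_le_one_div hmn))⟩
  have hU : A = ⋃ n, An n := by
    refine Subset.antisymm (fun x hx => ?_) (iUnion_subset fun n x hx => hx.1)
    obtain ⟨r0, hr0, hr⟩ := h x hx
    obtain ⟨n, hn⟩ := exists_nat_one_div_lt hr0
    exact mem_iUnion.2 ⟨n, hx, fun r h1 h2 => hr r h1 (h2.trans hn.le)⟩
  conv_lhs => rw [hU, hmono.measure_iUnion]
  refine iSup_le fun n => ?_
  have := outer_le_gauge hκ hκ8 μ.toOuterMeasure (A := An n) (r0 := 1 / ((n : ℝ) + 1))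
    (by positivity) hC fun x hx r h1 h2 => (measure_mono inter_subset_left).trans (hx.2 r h1 h2)
  exact this.trans (mul_le_mul_right (measure_mono fun x hx => hx.1) _)

/-- Lower bound for a compact set through approximate measures: if for every `ρ > 0` there is an
outer measure of total mass at least `m`, carried by the `ρ`-neighbourhood of `K`, with
`ν (closedBall x r) ≤ C h(r)` for `ρ ≤ r ≤ r0` and `x ∈ K`, then `m ≤ 16 C · gauge K`. -/
theorem approx_le_gauge (hκ : 0 < κ) (hκ8 : κ < 8) {K : Set ℂ} (hK : IsCompact K) {r0 C : ℝ}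
    (hr0 : 0 < r0) (hC : 0 < C) {m : ℝ≥0∞}
    (h : ∀ ρ > 0, ∃ ν : OuterMeasure ℂ, m ≤ ν (thickening ρ K) ∧
      ∀ x ∈ K, ∀ r, ρ ≤ r → r ≤ r0 → ν (closedBall x r) ≤ ENNReal.ofReal (C * gaugeReal κ r)) :
    m ≤ ENNReal.ofReal (16 * C) * gaugeMeasure κ K := by
  rcases K.eq_empty_or_nonempty with rfl | ⟨k0, hk0⟩
  · obtain ⟨ν, hν, -⟩ := h 1 one_pos
    simp only [thickening_empty, measure_empty] at hν
    exact hν.trans bot_le
  have hC0 : ENNReal.ofReal (16 * C) ≠ 0 := by simpa using hC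
  rw [← ENNReal.inv_mul_le_iff hC0 ENNReal.ofReal_ne_top, gaugeMeasure, Measure.mkMetric_apply]
  refine le_iSup₂_of_le (ENNReal.ofReal (r0 / 4)) (by simpa using hr0) ?_
  refine le_iInf fun t => le_iInf fun ht => le_iInf fun htd => ?_
  rw [ENNReal.inv_mul_le_iff hC0 ENNReal.ofReal_ne_top]
  refine ENNReal.le_of_forall_pos_le_add fun η hη _ => ?_
  obtain ⟨ε, hε, hεs⟩ := ENNReal.exists_pos_sum_of_countable' (ε := η) (by simpa using hη.ne') ℕ
  have hsmall : ∀ n, ∃ r, 0 < r ∧ 2 * r ≤ r0 ∧ ENNReal.ofReal (C * gaugeReal κ (2 * r)) ≤ ε n := by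
    intro n
    have h1 : Tendsto (fun r => ENNReal.ofReal (C * gaugeReal κ r)) (𝓝[>] 0)
        (𝓝 (ENNReal.ofReal (C * 0))) :=
      ENNReal.tendsto_ofReal ((tendsto_gaugeReal hκ hκ8).const_mul C)
    rw [mul_zero, ENNReal.ofReal_zero] at h1
    obtain ⟨r, hr1, hr2⟩ := ((h1.eventually (gt_mem_nhds (hε n))).and (Ioc_mem_nhdsGT hr0)).exists
    refine ⟨r / 2, by linarith [hr2.1], by linarith [hr2.2], ?_⟩
    rw [mul_div_cancel₀ _ two_ne_zero]; exact hr1.le
  have hch : ∀ n, ∃ x ∈ K, ∃ r, 0 < r ∧ 2 * r ≤ r0 ∧ t n ∩ K ⊆ ball x r ∧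
      ENNReal.ofReal (C * gaugeReal κ (2 * r)) ≤ ENNReal.ofReal (16 * C) *
        (⨆ _ : (t n).Nonempty, gaugeExt κ (ediam (t n))) + ε n := by
    intro n
    obtain ⟨r, hr, hr2, hrε⟩ := hsmall n
    rcases (t n ∩ K).eq_empty_or_nonempty with he | ⟨x, hxt, hxK⟩
    · exact ⟨k0, hk0, r, hr, hr2, by simp [he], hrε.trans le_add_self⟩
    have hb : Bornology.IsBounded (t n) :=
      isBounded_iff_ediam_ne_top.2 ((htd n).trans_lt ENNReal.ofReal_lt_top).ne
    have hd : diam (t n) ≤ r0 / 4 := ENNReal.toReal_le_of_le_ofReal (by positivity) (htd n)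
    rcases (diam_nonneg (s := t n)).eq_or_lt with h0 | h0
    · refine ⟨x, hxK, r, hr, hr2, fun y hy => ?_, hrε.trans le_add_self⟩
      exact (dist_le_diam_of_mem hb hy.1 hxt).trans_lt (h0 ▸ hr)
    · refine ⟨x, hxK, 2 * diam (t n), by linarith, by linarith, fun y hy => ?_, ?_⟩
      · exact (dist_le_diam_of_mem hb hy.1 hxt).trans_lt (by linarith)
      · refine le_trans ?_ le_self_add
        rw [iSup_pos ⟨x, hxt⟩, gaugeExt_ediam, ← ENNReal.ofReal_mul (by positivity)]
        refine ENNReal.ofReal_le_ofReal ?_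
        have := gaugeReal_mul_le hκ hκ8 (l := 4) (x := diam (t n)) (by norm_num) h0.le
        rw [show 2 * (2 * diam (t n)) = 4 * diam (t n) by ring]
        nlinarith
  choose x hxK r hr hr2 hsub hle using hch
  obtain ⟨F, hF⟩ := hK.elim_finite_subcover (fun n => ball (x n) (r n)) (fun _ => isOpen_ball)
    fun y hy => by
      obtain ⟨n, hn⟩ := mem_iUnion.1 (ht hy)
      exact mem_iUnion.2 ⟨n, hsub n ⟨hn, hy⟩⟩
  obtain ⟨ρ, hρ, hρr⟩ : ∃ ρ > 0, ∀ n ∈ F, ρ ≤ r n := by
    rcases F.eq_empty_or_nonempty with rfl | hne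
    · exact ⟨1, one_pos, by simp⟩
    · obtain ⟨n, -, hn⟩ := F.exists_min_image r hne
      exact ⟨r n, hr n, hn⟩
  obtain ⟨ν, hm, hν⟩ := h ρ hρ
  have hcov : thickening ρ K ⊆ ⋃ n ∈ F, closedBall (x n) (2 * r n) := by
    intro y hy
    obtain ⟨z, hz, hyz⟩ := mem_thickening_iff.1 hy
    obtain ⟨n, hn, hzn⟩ := mem_iUnion₂.1 (hF hz)
    refine mem_iUnion₂.2 ⟨n, hn, ?_⟩
    have := dist_triangle y z (x n)
    have := hρr n hn
    rw [mem_ball] at hzn
    rw [mem_closedBall]
    linarith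
  calc m ≤ ν (⋃ n ∈ F, closedBall (x n) (2 * r n)) := hm.trans (ν.mono hcov)
    _ ≤ ∑ n ∈ F, ν (closedBall (x n) (2 * r n)) := measure_biUnion_finset_le _ _
    _ ≤ ∑ n ∈ F, (ENNReal.ofReal (16 * C) *
        (⨆ _ : (t n).Nonempty, gaugeExt κ (ediam (t n))) + ε n) :=
        Finset.sum_le_sum fun n hn =>
          (hν _ (hxK n) _ (by linarith [hρr n hn, hr n]) (hr2 n)).trans (hle n)
    _ ≤ ∑' n, (ENNReal.ofReal (16 * C) *
        (⨆ _ : (t n).Nonempty, gaugeExt κ (ediam (t n))) + ε n) := ENNReal.sum_le_tsum _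
    _ ≤ _ := by
        rw [ENNReal.tsum_add, ENNReal.tsum_mul_left]
        exact add_le_add le_rfl hεs.le

/-- Rogers–Taylor upper bound, covering form: for every `δ` a finite measure of mass at most `M`
such that each point of `A` has a radius `r ≤ δ` with `h(r) ≤ C μ(closedBall x r)`. -/
theorem gauge_le_of_cover (hκ : 0 < κ) (hκ8 : κ < 8) {A : Set ℂ} {C M : ℝ≥0∞}
    (h : ∀ δ > 0, ∃ μ : Measure ℂ, μ univ ≤ M ∧ ∀ x ∈ A, ∃ r, 0 < r ∧ r ≤ δ ∧
      ENNReal.ofReal (gaugeReal κ r) ≤ C * μ (closedBall x r)) :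
    gaugeMeasure κ A ≤ 64 * C * M := by
  have key : ∀ n : ℕ, ∃ (u : Set ℂ) (r : ℂ → ℝ), u.Countable ∧
      (∀ x ∈ u, 0 < r x ∧ r x ≤ 1 / ((n : ℝ) + 1)) ∧ (A ⊆ ⋃ x : u, closedBall (x : ℂ) (4 * r x)) ∧
      ∑' x : u, gaugeExt κ (ediam (closedBall (x : ℂ) (4 * r x))) ≤ 64 * C * M := by
    intro n
    obtain ⟨μ, hμ, hx⟩ := h (1 / ((n : ℝ) + 1)) (by positivity)
    choose! r hr0 hr1 hr2 using hx
    obtain ⟨u, huA, hdis, hcov⟩ := Vitali.exists_disjoint_subfamily_covering_enlargement_closedBall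
      A (fun x => x) r (1 / ((n : ℝ) + 1)) hr1 4 (by norm_num)
    have hc : u.Countable := hdis.countable_of_nonempty_interior fun x hx =>
      ⟨x, ball_subset_interior_closedBall (mem_ball_self (hr0 x (huA hx)))⟩
    refine ⟨u, r, hc, fun x hx => ⟨hr0 x (huA hx), hr1 x (huA hx)⟩, fun a ha => ?_, ?_⟩
    · obtain ⟨b, hb, hab⟩ := hcov a ha
      exact mem_iUnion.2 ⟨⟨b, hb⟩, hab (mem_closedBall_self (hr0 a ha).le)⟩
    · calc _ ≤ ∑' x : u, 64 * C * μ (closedBall (x : ℂ) (r x)) := by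
            refine ENNReal.tsum_le_tsum fun x => ?_
            have h0 := hr0 x (huA x.2)
            have h1 : diam (closedBall (x : ℂ) (4 * r x)) ≤ 8 * r x :=
              (diam_closedBall (by positivity)).trans (le_of_eq (by ring))
            have h2 := (gaugeReal_mono hκ hκ8 diam_nonneg h1).trans
              (gaugeReal_mul_le hκ hκ8 (l := 8) (by norm_num) h0.le)
            rw [gaugeExt_ediam, mul_assoc]
            refine (ENNReal.ofReal_le_ofReal h2).trans ?_
            rw [ENNReal.ofReal_mul (by norm_num)]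
            refine mul_le_mul' (le_of_eq ?_) (hr2 x (huA x.2))
            norm_num
        _ = 64 * C * μ (⋃ x ∈ u, closedBall x (r x)) := by
            rw [ENNReal.tsum_mul_left,
              measure_biUnion hc hdis fun _ _ => measurableSet_closedBall]
        _ ≤ _ := mul_le_mul_right ((measure_mono (subset_univ _)).trans hμ) _
  choose u r hc hr hcov hsum using key
  have : ∀ n, Countable (u n) := fun n => (hc n).to_subtype
  have hlim : Tendsto (fun n : ℕ => ENNReal.ofReal (8 * (1 / ((n : ℝ) + 1)))) atTop (𝓝 0) := by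
    have := ENNReal.tendsto_ofReal ((tendsto_one_div_add_atTop_nhds_zero_nat (𝕜 := ℝ)).const_mul 8)
    simpa using this
  refine (Measure.mkMetric_le_liminf_tsum (ι := fun n => u n) A _ hlim
    (fun n x => closedBall (x : ℂ) (4 * r n x)) (Eventually.of_forall fun n x => ?_)
    (Eventually.of_forall hcov) (gaugeExt κ)).trans ?_
  · have h0 := hr n x x.2
    refine ediam_le_of_forall_dist_le fun y hy z hz => ?_
    have := dist_triangle_right y z (x : ℂ)
    rw [mem_closedBall] at hy hz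
    linarith [h0.2]
  · exact liminf_le_of_frequently_le' (Frequently.of_forall hsum)

end Crest.Agent.R162
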