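import Crest.Agent.R162.MassL
import Crest.Agent.R162.Tail
import Crest.Agent.R162.L9
import Crest.Agent.R162.RT
import Crest.Agent.R162.Q2

set_option autoImplicit false
open MeasureTheory ProbabilityTheory Set Filter Topology Metric
open scoped ENNReal NNReal ComplexConjugate

namespace Crest.Agent.R162

open Crest.ProbabilityR.Loewner in
/-- Positivity (block Q). -/
theorem positivity {κ : ℝ} (hκ : 0 < κ) (hκ8 : κ < 8) {P : Measure Path} (hP : IsDrv κ P) {s t : ℝ}
    (hs : 0 < s) (hst : s < t) :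
    ∀ᵐ w ∂P, ∀ γ : ℝ → ℂ, IsChordalTrace (w : Path) γ → 0 < gaugeMeasure κ (γ '' Icc s t) := by
  have := hP.prob
  obtain ⟨s1, K, T, p, hs1, hK, hT, hp, hsec⟩ := Q.section_Ev hκ hκ8 hP
  set a : ℕ → ℕ → ℝ := fun M i => s + i * ((t - s) / ((M : ℝ) + 1)) with ha
  have hd : ∀ M : ℕ, 0 < (t - s) / ((M : ℝ) + 1) := fun M =>
    div_pos (by linarith) (by positivity)
  have hsa : ∀ M i, s ≤ a M i := fun M i =>
    le_add_of_nonneg_right (mul_nonneg (Nat.cast_nonneg _) (hd M).le)
  have hmono : ∀ M, Monotone (a M) := fun M i j hij => by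
    have : (i : ℝ) ≤ j := by exact_mod_cast hij
    simp only [ha]
    nlinarith [hd M]
  have hat : ∀ M i, i ≤ M + 1 → a M i ≤ t := fun M i hi => by
    refine (hmono M hi).trans (le_of_eq ?_)
    simp only [ha]
    push_cast
    field_simp
    ring
  have h1 : ∀ M, P {w | ∀ i < M, w ∉ Q.Ev κ s1 K (a M i) (a M (i + 1))} ≤
      (1 - ENNReal.ofReal p) ^ M := fun M =>
    Q.measure_all_fail hP (fun i => hs.le.trans (hsa M i)) (hmono M)
      (fun i => Q.measurableSet_Ev κ s1 K (hs.le.trans (hsa M i)) _)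
      (fun i w w' h hw => Q.Ev_congr (hmono M (Nat.le_succ i)) h hw)
      (fun i w => by
        have h := hsec (a M i) (Real.sqrt ((t - s) / ((M : ℝ) + 1) / T))
          (hs.le.trans (hsa M i)) (Real.sqrt_pos.2 (div_pos (hd M) hT)) w
        have e : a M i + Real.sqrt ((t - s) / ((M : ℝ) + 1) / T) ^ 2 * T = a M (i + 1) := by
          rw [Real.sq_sqrt (div_pos (hd M) hT).le, div_mul_cancel₀ _ hT.ne']
          simp only [ha]
          push_cast
          ring
        rwa [e] at h) M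
  have h2 : P {w | ∀ M, ∀ i < M, w ∉ Q.Ev κ s1 K (a M i) (a M (i + 1))} = 0 := by
    have hlim : Tendsto (fun M : ℕ => (1 - ENNReal.ofReal p) ^ M) atTop (𝓝 0) :=
      ENNReal.tendsto_pow_atTop_nhds_zero_of_lt_one
        (ENNReal.sub_lt_self ENNReal.one_ne_top one_ne_zero (by simpa using hp))
    refine le_antisymm (ge_of_tendsto' hlim fun M => le_trans (measure_mono ?_) (h1 M)) bot_le
    exact fun w hw => hw M
  filter_upwards [measure_eq_zero_iff_ae_notMem.1 h2, hP.zero] with w hw h0 γ hγ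
  simp only [mem_ofPred_eq, not_forall, not_not] at hw
  obtain ⟨M, i, hi, hw⟩ := hw
  exact (Q.gauge_pos_of_Ev hκ hκ8 hs1 hK (hs.le.trans (hsa M i)) hw h0 hγ).trans_le
    (measure_mono (image_mono (Icc_subset_Icc (hsa M i) (hat M _ (by omega)))))

end Crest.Agent.R162
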