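import Crest.Agent.R162.M2
import Crest.Agent.R162.L9
import Crest.Agent.R162.RT

/-! Row 162, block Q: grids, the good event, and its deterministic consequence. -/

set_option autoImplicit false
open MeasureTheory ProbabilityTheory Set Filter Topology Metric
open scoped ENNReal NNReal ComplexConjugate
open Crest.ProbabilityR.Loewner

namespace Crest.Agent.R162.Q

/-- dyadic radii -/
noncomputable def rr (n : ℕ) : ℝ := (1 / 2) ^ n

/-- grid points of mesh `rr n / 2` -/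
noncomputable def gp (z0 : ℂ) (n : ℕ) (j : ℤ × ℤ) : ℂ :=
  z0 + ((rr n / 2 : ℝ) : ℂ) * ((j.1 : ℂ) + (j.2 : ℂ) * Complex.I)

noncomputable def NN (ρ : ℝ) (n : ℕ) : ℕ := ⌈2 * ρ / rr n⌉₊ + 1

open Classical in
noncomputable def Jn (z0 : ℂ) (ρ : ℝ) (n : ℕ) : Finset (ℤ × ℤ) :=
  (Finset.Icc (-(NN ρ n : ℤ)) (NN ρ n) ×ˢ Finset.Icc (-(NN ρ n : ℤ)) (NN ρ n)).filter
    fun j => ‖gp z0 n j - z0‖ < ρ + rr n / 2

noncomputable def cut (c x : ℝ≥0∞) : ℝ≥0∞ := if c < x then x else 0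

/-- the fine scale at stage `N` -/
noncomputable def eps (N : ℕ) : ℝ := rr N / 10

/-- Mass of the heavy grid balls. -/
noncomputable def badM (κ s1 ε K : ℝ) (f : ℂ → ℂ) (w : Path) (I : Set ℝ) (z0 : ℂ) (ρ : ℝ)
    (n0 N : ℕ) : ℝ≥0∞ :=
  ∑ n ∈ Finset.Ioo n0 N, ∑ j ∈ Jn z0 ρ n,
    cut (ENNReal.ofReal (K * gaugeReal κ (rr n))) (mass κ s1 ε f w I (ball (gp z0 n j) (rr n)))

/-- The good event at stage `N`. -/
def Gd (κ s1 K : ℝ) (f : ℂ → ℂ) (I : Set ℝ) (z0 : ℂ) (ρ : ℝ) (n0 k N : ℕ) : Set Path :=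
  {w | ENNReal.ofReal (1 / ((k : ℝ) + 1)) + badM κ s1 (eps N) K f w I z0 ρ n0 N ≤
    mass κ s1 (eps N) f w I (ball z0 ρ)}

noncomputable def zq (q : ℚ × ℚ) : ℂ := ((q.1 : ℝ) : ℂ) + ((q.2 : ℝ) : ℂ) * Complex.I

/-- The good event of the time window `(a, b]`. -/
def Ev (κ s1 K a b : ℝ) : Set Path :=
  {w | ∃ (q : ℚ × ℚ) (ρ : ℚ) (n0 k : ℕ), 0 < (ρ : ℝ) ∧
    closedBall (zq q) (5 / 4 * ρ) ⊆ dom w a ∧
    ∀ M : ℕ, ∃ N, M ≤ N ∧ w ∈ Gd κ s1 K id (Ioc a b) (zq q) ρ n0 k N}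

theorem rr_pos (n : ℕ) : 0 < rr n := by unfold rr; positivity

theorem rr_anti {m n : ℕ} (h : m ≤ n) : rr n ≤ rr m :=
  pow_le_pow_of_le_one (by norm_num) (by norm_num) h

theorem lt_of_rr_lt {m n : ℕ} (h : rr n < rr m) : m < n := by
  by_contra h'
  exact absurd (rr_anti (not_lt.1 h')) (not_le.2 h)

theorem tendsto_rr : Tendsto rr atTop (𝓝 0) :=
  tendsto_pow_atTop_nhds_zero_of_lt_one (by norm_num) (by norm_num)

theorem exists_rr_le {x : ℝ} (hx : 0 < x) : ∃ M, ∀ N, M ≤ N → rr N ≤ x :=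
  eventually_atTop.1 (tendsto_rr.eventually (ge_mem_nhds hx))

theorem eps_pos (N : ℕ) : 0 < eps N := by have := rr_pos N; unfold eps; positivity

theorem cut_mono (c : ℝ≥0∞) {x y : ℝ≥0∞} (h : x ≤ y) : cut c x ≤ cut c y := by
  unfold cut
  split_ifs with h1 h2
  · exact h
  · exact absurd (h1.trans_le h) h2
  · exact bot_le
  · exact le_rfl

theorem measurable_cut (c : ℝ≥0∞) : Measurable (cut c) :=
  Measurable.ite measurableSet_Ioi measurable_id measurable_const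

theorem exists_grid {z0 z : ℂ} {ρ : ℝ} (hz : z ∈ ball z0 ρ) (n : ℕ) :
    ∃ j ∈ Jn z0 ρ n, ‖z - gp z0 n j‖ < rr n / 2 := by
  have hr := rr_pos n
  set h := rr n / 2 with hh
  have hh0 : 0 < h := by positivity
  rw [mem_ball, dist_eq_norm] at hz
  set v := z - z0 with hv
  have key : ∀ x : ℝ, |x| < ρ → |x - h * (round (x / h) : ℤ)| ≤ h / 2 ∧
      round (x / h) ∈ Finset.Icc (-(NN ρ n : ℤ)) (NN ρ n) := by
    intro x hx
    have h1 := abs_sub_round (x / h)
    have h2 : x - h * (round (x / h) : ℤ) = h * (x / h - round (x / h)) := by field_simp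
    refine ⟨by rw [h2, abs_mul, abs_of_pos hh0]; nlinarith, ?_⟩
    have h3 : |x / h| ≤ 2 * ρ / rr n := by
      rw [abs_div, abs_of_pos hh0, div_le_div_iff₀ hh0 hr, hh]; nlinarith
    have h4 : 2 * ρ / rr n ≤ ⌈2 * ρ / rr n⌉₊ := Nat.le_ceil _
    have h5 : |((round (x / h) : ℤ) : ℝ)| ≤ (NN ρ n : ℝ) := by
      have := abs_sub_abs_le_abs_sub ((round (x / h) : ℤ) : ℝ) (x / h)
      rw [abs_sub_comm] at this
      unfold NN
      push_cast
      linarith
    rw [Finset.mem_Icc, ← abs_le]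
    exact_mod_cast h5
  obtain ⟨a1, a2⟩ := key v.re ((Complex.abs_re_le_norm v).trans_lt hz)
  obtain ⟨b1, b2⟩ := key v.im ((Complex.abs_im_le_norm v).trans_lt hz)
  have hd : ‖z - gp z0 n (round (v.re / h), round (v.im / h))‖ < h := by
    have e : z - gp z0 n (round (v.re / h), round (v.im / h)) =
        ((v.re - h * (round (v.re / h) : ℤ) : ℝ) : ℂ) +
          ((v.im - h * (round (v.im / h) : ℤ) : ℝ) : ℂ) * Complex.I := by
      have := Complex.re_add_im v
      simp only [gp, ← hh]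
      push_cast
      linear_combination -this
    rw [e, Complex.norm_add_mul_I, Real.sqrt_lt' hh0]
    have := sq_le_sq' (abs_le.1 a1).1 (abs_le.1 a1).2
    have := sq_le_sq' (abs_le.1 b1).1 (abs_le.1 b1).2
    nlinarith
  refine ⟨(round (v.re / h), round (v.im / h)), ?_, hd⟩
  classical
  rw [Jn, Finset.mem_filter, Finset.mem_product]
  refine ⟨⟨a2, b2⟩, ?_⟩
  calc _ = ‖v - (z - gp z0 n (round (v.re / h), round (v.im / h)))‖ := by rw [hv]; ring_nf
    _ ≤ _ := norm_sub_le _ _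
    _ < _ := by linarith

theorem mem_Jn {z0 : ℂ} {ρ : ℝ} {n : ℕ} {j : ℤ × ℤ} (h : j ∈ Jn z0 ρ n) :
    ‖gp z0 n j - z0‖ < ρ + rr n / 2 := by
  classical
  rw [Jn, Finset.mem_filter] at h
  exact h.2

theorem card_Jn (z0 : ℂ) {ρ : ℝ} {n : ℕ} (h : rr n ≤ ρ) :
    ((Jn z0 ρ n).card : ℝ) * rr n ^ 2 ≤ 81 * ρ ^ 2 := by
  classical
  have hr := rr_pos n
  have h1 : (Jn z0 ρ n).card ≤ (2 * NN ρ n + 1) ^ 2 := by
    refine (Finset.card_filter_le _ _).trans (le_of_eq ?_)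
    rw [Finset.card_product, Int.card_Icc, sq]
    congr 1 <;> omega
  have h2 : (⌈2 * ρ / rr n⌉₊ : ℝ) < 2 * ρ / rr n + 1 :=
    Nat.ceil_lt_add_one (by have := hr.trans_le h; positivity)
  have h3 : ((2 * NN ρ n + 1 : ℕ) : ℝ) * rr n ≤ 9 * ρ := by
    unfold NN
    push_cast
    have : 2 * ρ / rr n * rr n = 2 * ρ := by field_simp
    nlinarith
  have h4 : ((Jn z0 ρ n).card : ℝ) ≤ ((2 * NN ρ n + 1 : ℕ) : ℝ) ^ 2 := by exact_mod_cast h1
  calc _ ≤ ((2 * NN ρ n + 1 : ℕ) : ℝ) ^ 2 * rr n ^ 2 := by gcongr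
    _ = (((2 * NN ρ n + 1 : ℕ) : ℝ) * rr n) ^ 2 := by ring
    _ ≤ (9 * ρ) ^ 2 := by gcongr
    _ = _ := by ring

theorem measurable_badM (κ s1 ε K : ℝ) {f : ℂ → ℂ} (hf : Univ f) (I : Set ℝ) (z0 : ℂ) (ρ : ℝ)
    (n0 N : ℕ) : Measurable fun w => badM κ s1 ε K f w I z0 ρ n0 N :=
  Finset.measurable_sum _ fun _ _ => Finset.measurable_sum _ fun _ _ =>
    (measurable_cut _).comp (measurable_mass hf κ s1 ε measurableSet_ball I)

theorem measurableSet_Gd (κ s1 K : ℝ) {f : ℂ → ℂ} (hf : Univ f) (I : Set ℝ) (z0 : ℂ) (ρ : ℝ)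
    (n0 k N : ℕ) : MeasurableSet (Gd κ s1 K f I z0 ρ n0 k N) :=
  measurableSet_le (measurable_const.add (measurable_badM κ s1 _ K hf I z0 ρ n0 N))
    (measurable_mass hf κ s1 _ measurableSet_ball I)

theorem isOpen_fresh {A : Set ℂ} (hA : IsCompact A) {a : ℝ} (ha : 0 ≤ a) :
    IsOpen {w : Path | A ⊆ dom w a} := by
  refine isOpen_iff_mem_nhds.2 fun w hw => ?_
  refine hA.eventually_forall_of_forall_eventually (P := fun w z => z ∈ dom w a) fun z hz => ?_
  have h := alive_nhds (p := (w, a, z)) ha (hw hz)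
  have hc : Tendsto (fun p : Path × ℂ => (p.1, a, p.2)) (𝓝 (w, z))
      (𝓝[{q : Path × ℝ × ℂ | 0 ≤ q.2.1}] (w, a, z)) :=
    tendsto_nhdsWithin_iff.2 ⟨(by fun_prop : Continuous fun p : Path × ℂ => (p.1, a, p.2)).tendsto _,
      Eventually.of_forall fun _ => ha⟩
  exact hc.eventually h

theorem measurableSet_Ev (κ s1 K : ℝ) {a : ℝ} (ha : 0 ≤ a) (b : ℝ) :
    MeasurableSet (Ev κ s1 K a b) := by
  have e : Ev κ s1 K a b = ⋃ (q : ℚ × ℚ) (ρ : ℚ) (n0 : ℕ) (k : ℕ) (_ : 0 < (ρ : ℝ)),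
      ({w | closedBall (zq q) (5 / 4 * ρ) ⊆ dom w a} ∩
        ⋂ M : ℕ, ⋃ (N : ℕ) (_ : M ≤ N), Gd κ s1 K id (Ioc a b) (zq q) ρ n0 k N) := by
    ext w
    simp only [Ev, mem_ofPred_eq, mem_iUnion, mem_inter_iff, mem_iInter, exists_prop]
  rw [e]
  refine .iUnion fun q => .iUnion fun ρ => .iUnion fun n0 => .iUnion fun k => .iUnion fun _ => ?_
  exact (isOpen_fresh (isCompact_closedBall _ _) ha).measurableSet.inter
    (.iInter fun M => .iUnion fun N => .iUnion fun _ =>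
      measurableSet_Gd κ s1 K univ_id _ _ _ _ _ _)

theorem Ev_congr {κ s1 K a b : ℝ} (hab : a ≤ b) {w w' : Path} (h : ∀ r, r ≤ b → w r = w' r)
    (hw : w ∈ Ev κ s1 K a b) : w' ∈ Ev κ s1 K a b := by
  obtain ⟨q, ρ, n0, k, h1, h2, h3⟩ := hw
  refine ⟨q, ρ, n0, k, h1, (phi_congr_le hab h).2.1 ▸ h2, fun M => ?_⟩
  obtain ⟨N, hN, hG⟩ := h3 M
  refine ⟨N, hN, ?_⟩
  have e : ∀ B, mass κ s1 (eps N) id w (Ioc a b) B = mass κ s1 (eps N) id w' (Ioc a b) B :=
    fun B => mass_congr κ s1 _ id measurableSet_Ioc (fun t ht => ht.2) h B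
  simpa only [Gd, badM, mem_ofPred_eq, e] using hG

/-- Mass created in a fresh ball sits near the new part of the curve. -/
theorem mass_far {κ s1 ε a b δ ρ : ℝ} {w : Path} {γ : ℝ → ℂ} (hγ : IsChordalTrace w γ)
    (h0 : w 0 = 0) (ha : 0 ≤ a) {z0 : ℂ} (hfr : closedBall z0 (5 / 4 * ρ) ⊆ dom w a)
    (hδ : 6 * ε ≤ δ) (hρ : 6 * ε ≤ ρ / 4) :
    mass κ s1 ε id w (Ioc a b) (ball z0 ρ \ thickening δ (γ '' Icc a b)) = 0 := by
  refine mass_eq_zero κ s1 ε id w measurableSet_Ioc fun s hs ζ hζ hB => ?_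
  by_contra hle
  push Not at hle
  rw [cfg_id] at hB hle
  have hs0 : 0 ≤ s := ha.trans hs.1.le
  obtain ⟨p, hp, hpz⟩ := exists_omit_H (univ_phi w s).diff (univ_phi w s).inj hζ
  have hpz' : ‖phi w s ζ - p‖ < 6 * ε := hpz.trans_le (by unfold ups at hle; linarith)
  have hsub : ball (phi w s ζ) (6 * ε) ⊆ dom w a := by
    refine Subset.trans (fun y hy => ?_) hfr
    have := dist_triangle y (phi w s ζ) z0
    have := mem_ball.1 hB.1
    rw [mem_ball] at hy
    rw [mem_closedBall]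
    linarith
  obtain ⟨s', hs', hγ'⟩ := trace_meets hγ h0 hs0 (z := phi w s ζ) ⟨ζ, hζ, rfl⟩
    (hsub.trans (dom_subset w a)) fun h => hp (h (by rwa [mem_ball, dist_comm, dist_eq_norm]))
  have has : a ≤ s' := by
    by_contra hlt
    exact trace_not_mem hγ h0 ⟨hs'.1, (not_le.1 hlt).le⟩ (hsub hγ')
  refine hB.2 (mem_thickening_iff.2 ⟨γ s', ⟨s', ⟨has, hs'.2.trans hs.2⟩, rfl⟩, ?_⟩)
  rw [mem_ball, dist_comm] at hγ'
  linarith

theorem gauge_pos_of_Ev {κ : ℝ} (hκ : 0 < κ) (hκ8 : κ < 8) {s1 K a b : ℝ} (hs1 : 0 < s1)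
    (hK : 0 < K) (ha : 0 ≤ a) {w : Path} (hw : w ∈ Ev κ s1 K a b) (h0 : w 0 = 0) {γ : ℝ → ℂ}
    (hγ : IsChordalTrace w γ) : 0 < gaugeMeasure κ (γ '' Icc a b) := by
  classical
  obtain ⟨q, ρ, n0, k, hρ, hfr, hG⟩ := hw
  have hK' : IsCompact (γ '' Icc a b) :=
    isCompact_Icc.image_of_continuousOn (hγ.continuousOn.mono fun s hs => ha.trans hs.1)
  have key := approx_le_gauge hκ hκ8 hK' (r0 := rr n0 / 16) (C := 64 * K)
    (m := ENNReal.ofReal (1 / ((k : ℝ) + 1))) (by have := rr_pos n0; positivity) (by positivity)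
    fun δ hδ => by
      obtain ⟨M, hM⟩ := exists_rr_le (x := min δ (ρ / 4)) (by positivity)
      obtain ⟨N, hN, hGN⟩ := hG M
      have hrN := hM N hN
      have hr0 := rr_pos N
      have hε1 : 6 * eps N ≤ δ := by unfold eps; linarith [min_le_left δ ((ρ : ℝ) / 4)]
      have hε2 : 6 * eps N ≤ ρ / 4 := by unfold eps; linarith [min_le_right δ ((ρ : ℝ) / 4)]
      obtain ⟨μ, hμ⟩ := mass_exists_measure univ_id κ s1 (eps N) w (Ioc a b)
      set Bad : Set ℂ := ⋃ n ∈ Finset.Ioo n0 N, ⋃ j ∈ Jn (zq q) ρ n,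
        if ENNReal.ofReal (K * gaugeReal κ (rr n)) < μ (ball (gp (zq q) n j) (rr n)) then
          ball (gp (zq q) n j) (rr n) else ∅ with hBad
      have hBm : μ Bad ≤ badM κ s1 (eps N) K id w (Ioc a b) (zq q) ρ n0 N := by
        refine (measure_biUnion_finset_le _ _).trans (Finset.sum_le_sum fun n _ => ?_)
        refine (measure_biUnion_finset_le _ _).trans (Finset.sum_le_sum fun j _ => ?_)
        rw [hμ _ measurableSet_ball, cut]
        split_ifs <;> simp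
      refine ⟨OuterMeasure.restrict (ball (zq q) ρ \ Bad) μ.toOuterMeasure, ?_, ?_⟩
      · have hfin : mass κ s1 (eps N) id w (Ioc a b) (ball (zq q) ρ) ≠ ⊤ := by
          refine ne_top_of_le_ne_top ?_ ((mass_mono κ s1 _ id w
            (fun s hs => ha.trans_lt hs.1) Subset.rfl).trans
            (mass_le_vol univ_id κ hs1 (eps_pos N) w measurableSet_ball))
          exact ENNReal.mul_ne_top ENNReal.ofReal_ne_top measure_ball_lt_top.ne
        have hb : badM κ s1 (eps N) K id w (Ioc a b) (zq q) ρ n0 N ≠ ⊤ :=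
          ne_top_of_le_ne_top hfin (le_add_self.trans hGN)
        refine (ENNReal.add_le_add_iff_right hb).1 (le_trans hGN ?_)
        have h1 := mass_far (κ := κ) (s1 := s1) (b := b) hγ h0 ha hfr hε1 hε2
        rw [hμ _ (measurableSet_ball.diff isOpen_thickening.measurableSet)] at h1
        rw [hμ _ measurableSet_ball, OuterMeasure.restrict_apply]
        calc μ (ball (zq q) ρ) ≤ μ ((thickening δ (γ '' Icc a b) ∩ (ball (zq q) ρ \ Bad)) ∪
              (Bad ∪ (ball (zq q) ρ \ thickening δ (γ '' Icc a b)))) := by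
              refine measure_mono fun z hz => ?_
              by_cases h2 : z ∈ thickening δ (γ '' Icc a b)
              · by_cases h3 : z ∈ Bad
                · exact Or.inr (Or.inl h3)
                · exact Or.inl ⟨h2, hz, h3⟩
              · exact Or.inr (Or.inr ⟨hz, h2⟩)
          _ ≤ _ := by
              refine (measure_union_le _ _).trans (add_le_add le_rfl ?_)
              refine (measure_union_le _ _).trans ?_
              rw [h1, add_zero]
              exact hBm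
      · intro x _ r hr1 hr2
        rw [OuterMeasure.restrict_apply]
        rcases (closedBall x r ∩ (ball (zq q) ρ \ Bad)).eq_empty_or_nonempty with
          he | ⟨z, hzx, hz, hzB⟩
        · simp [he]
        have hr : 0 < r := hδ.trans_le hr1
        have hn0 : rr n0 ≤ 1 := rr_anti (Nat.zero_le n0) |>.trans (by simp [rr])
        obtain ⟨n, hn1, hn2⟩ := exists_nat_pow_near_of_lt_one (x := 8 * r) (y := (1 / 2 : ℝ))
          (by positivity) (by linarith) (by norm_num) (by norm_num)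
        have h3 : rr (n + 1) < 8 * r := hn1
        have h4 : 4 * r ≤ rr (n + 1) := by
          have : rr (n + 1) = (1 / 2) ^ n / 2 := by rw [rr, pow_succ]; ring
          linarith
        have hmem : n + 1 ∈ Finset.Ioo n0 N := Finset.mem_Ioo.2
          ⟨lt_of_rr_lt (by linarith [rr_pos n0]),
            lt_of_rr_lt (by linarith [min_le_left δ ((ρ : ℝ) / 4)])⟩
        obtain ⟨j, hj, hzj⟩ := exists_grid hz (n + 1)
        have hzj' : z ∈ ball (gp (zq q) (n + 1) j) (rr (n + 1)) := by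
          rw [mem_ball, dist_eq_norm]; linarith [rr_pos (n + 1)]
        have hle : μ (ball (gp (zq q) (n + 1) j) (rr (n + 1))) ≤
            ENNReal.ofReal (K * gaugeReal κ (rr (n + 1))) := by
          by_contra hlt
          exact hzB (mem_iUnion₂.2 ⟨n + 1, hmem, mem_iUnion₂.2 ⟨j, hj, by
            rw [if_pos (not_le.1 hlt)]; exact hzj'⟩⟩)
        refine le_trans (measure_mono fun y hy => ?_) (hle.trans (ENNReal.ofReal_le_ofReal ?_))
        · have h5 := dist_triangle_right y z x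
          have h6 := dist_triangle y z (gp (zq q) (n + 1) j)
          have h7 := mem_closedBall.1 hy.1
          have h8 := mem_closedBall.1 hzx
          rw [← dist_eq_norm] at hzj
          rw [mem_ball]
          linarith
        · have := (gaugeReal_mono hκ hκ8 (rr_pos _).le h3.le).trans
            (gaugeReal_mul_le hκ hκ8 (l := 8) (by norm_num) hr.le)
          nlinarith
  refine pos_iff_ne_zero.2 fun h => ?_
  rw [h, mul_zero, nonpos_iff_eq_zero, ENNReal.ofReal_eq_zero] at key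
  exact absurd key (not_le.2 (by positivity))

end Crest.Agent.R162.Q
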