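import Crest.Agent.R162.RT

/-!
Upper bound of the gauge measure by a mixed cover: Vitali balls at good points, given small sets
at bad points.
-/

set_option autoImplicit false
open MeasureTheory Set Filter Topology Metric
open scoped ENNReal NNReal
open Crest.ProbabilityR.Loewner

namespace Crest.Agent.R162

variable {κ : ℝ}

/-- One Vitali cover. -/
theorem vitali_cover (hκ : 0 < κ) (hκ8 : κ < 8) {A : Set ℂ} {C : ℝ≥0∞} {δ : ℝ} (μ : Measure ℂ)
    (h : ∀ x ∈ A, ∃ r, 0 < r ∧ r ≤ δ ∧ ENNReal.ofReal (gaugeReal κ r) ≤ C * μ (closedBall x r)) :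
    ∃ (u : Set ℂ) (r : ℂ → ℝ), u.Countable ∧
      (∀ x ∈ u, 0 < r x ∧ r x ≤ δ) ∧ (A ⊆ ⋃ x : u, closedBall (x : ℂ) (4 * r x)) ∧
      ∑' x : u, gaugeExt κ (ediam (closedBall (x : ℂ) (4 * r x))) ≤
        64 * C * μ (cthickening δ A) := by
  choose! r hr0 hr1 hr2 using h
  obtain ⟨u, huA, hdis, hcov⟩ := Vitali.exists_disjoint_subfamily_covering_enlargement_closedBall
    A (fun x => x) r δ hr1 4 (by norm_num)
  have hc : u.Countable := hdis.countable_of_nonempty_interior fun x hx =>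
    ⟨x, ball_subset_interior_closedBall (mem_ball_self (hr0 x (huA hx)))⟩
  refine ⟨u, r, hc, fun x hx => ⟨hr0 x (huA hx), hr1 x (huA hx)⟩, fun a ha => ?_, ?_⟩
  · obtain ⟨b, hb, hab⟩ := hcov a ha
    exact mem_iUnion.2 ⟨⟨b, hb⟩, hab (mem_closedBall_self (hr0 a ha).le)⟩
  · calc _ ≤ ∑' x : u, 64 * C * μ (closedBall (x : ℂ) (r x)) := by
          refine ENNReal.tsum_le_tsum fun x => ?_
          have h0 := hr0 x (huA x.2)
          have h1 : diam (closedBall (x : ℂ) (4 * r x)) ≤ 8 * r x :=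
            (diam_closedBall (by positivity)).trans (le_of_eq (by ring))
          have h2 := (gaugeReal_mono hκ hκ8 diam_nonneg h1).trans
            (gaugeReal_mul_le hκ hκ8 (l := 8) (by norm_num) h0.le)
          rw [gaugeExt_ediam, mul_assoc]
          refine (ENNReal.ofReal_le_ofReal h2).trans ?_
          rw [ENNReal.ofReal_mul (by norm_num)]
          refine mul_le_mul' (le_of_eq ?_) (hr2 x (huA x.2))
          norm_num
      _ = 64 * C * μ (⋃ x ∈ u, closedBall x (r x)) := by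
          rw [ENNReal.tsum_mul_left,
            measure_biUnion hc hdis fun _ _ => measurableSet_closedBall]
      _ ≤ _ := by
          refine mul_le_mul_right (measure_mono (iUnion₂_subset fun x hx => ?_)) _
          exact (closedBall_subset_closedBall (hr1 x (huA hx))).trans
            (closedBall_subset_cthickening (huA hx) δ)

/-- Mixed cover: at stage `n` every point of `A` lies in one of the countably many small sets
`t n i` or has a radius `r ≤ δ n` with `h(r) ≤ C μₙ (closedBall x r)`. -/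
theorem gauge_le_liminf (hκ : 0 < κ) (hκ8 : κ < 8) {A : Set ℂ} {C : ℝ≥0∞} {δ : ℕ → ℝ}
    (hδ : Tendsto δ atTop (𝓝 0)) (μ : ℕ → Measure ℂ) {ι : ℕ → Type} [∀ n, Countable (ι n)]
    (t : ∀ n, ι n → Set ℂ) (ht : ∀ n i, ediam (t n i) ≤ ENNReal.ofReal (δ n))
    (h : ∀ᶠ n in atTop, ∀ x ∈ A, (∃ i, x ∈ t n i) ∨
      ∃ r, 0 < r ∧ r ≤ δ n ∧ ENNReal.ofReal (gaugeReal κ r) ≤ C * μ n (closedBall x r)) :
    gaugeMeasure κ A ≤ liminf (fun n => 64 * C * μ n (cthickening (δ n) A) +
      ∑' i, gaugeExt κ (ediam (t n i))) atTop := by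
  have key := fun n => vitali_cover hκ hκ8 (A := {x ∈ A | ∃ r, 0 < r ∧ r ≤ δ n ∧
    ENNReal.ofReal (gaugeReal κ r) ≤ C * μ n (closedBall x r)}) (C := C) (δ := δ n) (μ n)
    fun x hx => hx.2
  choose u r hc hr hcov hsum using key
  have : ∀ n, Countable (u n) := fun n => (hc n).to_subtype
  have hlim : Tendsto (fun n : ℕ => ENNReal.ofReal (8 * |δ n|)) atTop (𝓝 0) := by
    have := ENNReal.tendsto_ofReal (hδ.abs.const_mul 8)
    simpa using this
  refine (Measure.mkMetric_le_liminf_tsum (ι := fun n => u n ⊕ ι n) A _ hlim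
    (fun n => Sum.elim (fun x : u n => closedBall (x : ℂ) (4 * r n x)) (t n))
    (Eventually.of_forall fun n x => ?_) ?_ (gaugeExt κ)).trans ?_
  · rcases x with x | i
    · have h0 := hr n x x.2
      refine ediam_le_of_forall_dist_le fun y hy z hz => ?_
      have := dist_triangle_right y z (x : ℂ)
      simp only [Sum.elim_inl, mem_closedBall] at hy hz
      linarith [h0.2, le_abs_self (δ n)]
    · exact (ht n i).trans (ENNReal.ofReal_le_ofReal
        (by linarith [le_abs_self (δ n), abs_nonneg (δ n)]))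
  · filter_upwards [h] with n hn x hx
    rcases hn x hx with ⟨i, hi⟩ | hg
    · exact mem_iUnion.2 ⟨Sum.inr i, hi⟩
    · obtain ⟨y, hy⟩ := mem_iUnion.1 (hcov n ⟨hx, hg⟩)
      exact mem_iUnion.2 ⟨Sum.inl y, hy⟩
  · refine liminf_le_liminf (Eventually.of_forall fun n => ?_)
    rw [Summable.tsum_sum ENNReal.summable ENNReal.summable]
    refine add_le_add ((hsum n).trans ?_) le_rfl
    exact mul_le_mul_right (measure_mono (cthickening_subset_of_subset _ fun x hx => hx.1)) _

theorem gaugeReal_le_rpow (hκ : 0 < κ) {x η : ℝ} (hη : 0 < η) (hx : 0 < x)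
    (hx1 : x ≤ Real.exp (-Real.exp 1)) : gaugeReal κ x ≤ x ^ (dimParam κ - η) / η := by
  rw [gaugeReal_eq hx1]
  obtain ⟨h1, h2⟩ := one_le_loglog hx hx1
  have hβ : (2 - dimParam κ) / 2 ≤ 1 := by unfold dimParam; linarith
  have h3 : Real.log (Real.log (1 / x)) ≤ (1 / x) ^ η / η := by
    have := Real.log_le_sub_one_of_pos ((Real.exp_pos 1).trans_le h1)
    have := Real.log_le_rpow_div (show 0 ≤ 1 / x by positivity) hη
    linarith
  have h4 : Real.log (Real.log (1 / x)) ^ ((2 - dimParam κ) / 2) ≤ (1 / x) ^ η / η := by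
    refine le_trans ?_ h3
    conv_rhs => rw [← Real.rpow_one (Real.log (Real.log (1 / x)))]
    exact Real.rpow_le_rpow_of_exponent_le h2 hβ
  calc _ ≤ x ^ dimParam κ * ((1 / x) ^ η / η) := by gcongr
    _ = _ := by
      rw [Real.rpow_sub hx, one_div, Real.inv_rpow hx.le]; ring

theorem tendsto_gaugeReal_div (hκ : 0 < κ) :
    Tendsto (fun x => gaugeReal κ x / x) (𝓝[>] 0) (𝓝 0) := by
  have h1 : Tendsto (fun x : ℝ => x ^ (κ / 16) / (κ / 16)) (𝓝[>] 0) (𝓝 0) := by
    have h := (Real.continuousAt_rpow_const 0 (κ / 16) (Or.inr (by positivity))).tendsto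
    rw [Real.zero_rpow (by positivity)] at h
    simpa using (h.mono_left nhdsWithin_le_nhds).div_const (κ / 16)
  refine squeeze_zero' ?_ ?_ h1
  · filter_upwards [self_mem_nhdsWithin] with x hx using div_nonneg (gaugeReal_pos hx).le hx.le
  · filter_upwards [Ioc_mem_nhdsGT (Real.exp_pos (-Real.exp 1))] with x hx
    have h := gaugeReal_le_rpow hκ (η := κ / 16) (by positivity) hx.1 hx.2
    have e : dimParam κ - κ / 16 = 1 + κ / 16 := by unfold dimParam; ring
    rw [e, Real.rpow_add hx.1, Real.rpow_one, mul_div_assoc] at h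
    rwa [div_le_iff₀' hx.1]

/-- Sets of finite `(1+η)`-dimensional size, such as segments of the real line, are null. -/
theorem gauge_real_line (hκ : 0 < κ) (hκ8 : κ < 8) : gaugeMeasure κ {z : ℂ | z.im = 0} = 0 := by
  have hseg : ∀ k : ℤ, gaugeMeasure κ ((fun x : ℝ => (x : ℂ)) '' Ico (k : ℝ) (k + 1)) = 0 := by
    intro k
    refine le_antisymm ?_ bot_le
    have hlim : Tendsto (fun n : ℕ => ENNReal.ofReal (1 / ((n : ℝ) + 1))) atTop (𝓝 0) := by
      have := ENNReal.tendsto_ofReal (tendsto_one_div_add_atTop_nhds_zero_nat (𝕜 := ℝ))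
      simpa using this
    have hd : ∀ (n : ℕ) (i : Fin (n + 1)),
        ediam ((fun x : ℝ => (x : ℂ)) '' Icc ((k : ℝ) + (i : ℕ) / ((n : ℝ) + 1))
          ((k : ℝ) + ((i : ℕ) + 1) / ((n : ℝ) + 1))) ≤ ENNReal.ofReal (1 / ((n : ℝ) + 1)) := by
      intro n i
      refine ediam_le_of_forall_dist_le ?_
      rintro _ ⟨x, hx, rfl⟩ _ ⟨y, hy, rfl⟩
      rw [Complex.dist_eq, ← Complex.ofReal_sub, Complex.norm_real, Real.norm_eq_abs, abs_le]
      have e : ((i : ℕ) + 1 : ℝ) / ((n : ℝ) + 1) = (i : ℕ) / ((n : ℝ) + 1) + 1 / ((n : ℝ) + 1) :=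
        add_div _ _ _
      constructor <;> linarith [hx.1, hx.2, hy.1, hy.2]
    refine (Measure.mkMetric_le_liminf_sum (ι := fun n : ℕ => Fin (n + 1)) _ _ hlim
      (fun n i => (fun x : ℝ => (x : ℂ)) '' Icc ((k : ℝ) + (i : ℕ) / ((n : ℝ) + 1))
        ((k : ℝ) + ((i : ℕ) + 1) / ((n : ℝ) + 1))) (Eventually.of_forall hd)
      (Eventually.of_forall fun n => ?_) (gaugeExt κ)).trans ?_
    · rintro _ ⟨x, hx, rfl⟩
      have hn : (0 : ℝ) < (n : ℝ) + 1 := by positivity
      have h0 : 0 ≤ (x - k) * ((n : ℝ) + 1) := mul_nonneg (by linarith [hx.1]) hn.le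
      have h1 : ⌊(x - k) * ((n : ℝ) + 1)⌋₊ < n + 1 := by
        rw [Nat.floor_lt h0]; push_cast; nlinarith [hx.2]
      refine mem_iUnion.2 ⟨⟨_, h1⟩, x, ⟨?_, ?_⟩, rfl⟩
      · have := Nat.floor_le h0
        rw [← le_sub_iff_add_le', div_le_iff₀ hn]; exact this
      · have := (Nat.lt_floor_add_one ((x - k) * ((n : ℝ) + 1))).le
        rw [← sub_le_iff_le_add', le_div_iff₀ hn]; exact this
    · have h2 : Tendsto (fun n : ℕ => ENNReal.ofReal
          (((n : ℝ) + 1) * gaugeReal κ (1 / ((n : ℝ) + 1)))) atTop (𝓝 0) := by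
        have h3 : Tendsto (fun n : ℕ => 1 / ((n : ℝ) + 1)) atTop (𝓝[>] 0) :=
          tendsto_nhdsWithin_iff.2 ⟨tendsto_one_div_add_atTop_nhds_zero_nat,
            Eventually.of_forall fun n => by
              show (0 : ℝ) < 1 / ((n : ℝ) + 1)
              positivity⟩
        have h4 := ENNReal.tendsto_ofReal ((tendsto_gaugeReal_div hκ).comp h3)
        rw [ENNReal.ofReal_zero] at h4
        refine h4.congr fun n => ?_
        simp [mul_comm]
      refine le_trans (liminf_le_liminf (Eventually.of_forall fun n => ?_)) h2.liminf_eq.le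
      rw [ENNReal.ofReal_mul (by positivity)]
      refine (Finset.sum_le_card_nsmul _ _ (ENNReal.ofReal (gaugeReal κ (1 / ((n : ℝ) + 1))))
        fun i _ => ?_).trans (le_of_eq ?_)
      · rw [gaugeExt_ediam]
        exact ENNReal.ofReal_le_ofReal (gaugeReal_mono hκ hκ8 diam_nonneg
          (ENNReal.toReal_le_of_le_ofReal (by positivity) (hd n i)))
      · rw [Finset.card_univ, Fintype.card_fin, nsmul_eq_mul, ← Nat.cast_succ,
          ENNReal.ofReal_natCast]
  refine measure_mono_null (t := ⋃ k : ℤ, (fun x : ℝ => (x : ℂ)) '' Ico (k : ℝ) (k + 1))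
    (fun z hz => ?_) (measure_iUnion_null hseg)
  refine mem_iUnion.2 ⟨⌊z.re⌋, z.re, ⟨Int.floor_le _, Int.lt_floor_add_one _⟩, ?_⟩
  exact Complex.ext rfl (by simpa using hz.symm)

end Crest.Agent.R162
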