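import Crest.Agent.R162.Defs

set_option autoImplicit false
open MeasureTheory ProbabilityTheory Set Filter Topology Metric
open scoped ENNReal NNReal ComplexConjugate

namespace Crest.Agent.R162

private theorem h19_small {w : Path} {h e : ℝ} (hs : Small w h e) :
    |w h - w 0| ≤ e ∧ |h| ≤ e ^ 2 ∧ 0 < e :=
  ⟨hs.2.2.2 h ⟨hs.1, le_rfl⟩, by rw [abs_of_nonneg hs.1]; exact hs.2.1, hs.2.2.1⟩

private theorem h19_small_mono {w : Path} {h e s : ℝ} (hs : Small w h e) (h0 : 0 ≤ s)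
    (h1 : s ≤ h) : Small w s e :=
  ⟨h0, h1.trans hs.2.1, hs.2.2.1, fun u hu => hs.2.2.2 u ⟨hu.1, hu.2.trans h1⟩⟩

private theorem h19_norm {ι : Type*} {I : Set ι} {Ψ : ι → Path → ℝ → ℝ} {J : ι → Jet}
    (h : TE I Ψ J) : ∃ C e0 : ℝ, 0 ≤ C ∧ 0 < e0 ∧ e0 ≤ 1 ∧ ∀ i ∈ I,
      |(J i).a| ≤ C ∧ |(J i).b| ≤ C ∧ |(J i).c| ≤ C ∧
      ∀ (w : Path) (h e : ℝ), e ≤ e0 → Small w h e →
      |Ψ i w h - (J i).v - (J i).a * (w h - w 0) - (J i).b / 2 * (w h - w 0) ^ 2 - (J i).c * h|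
        ≤ C * e ^ 3 := by
  obtain ⟨C, e0, he0, H⟩ := h
  refine ⟨max C 0, min e0 1, le_max_right _ _, lt_min he0 one_pos, min_le_right _ _,
    fun i hi => ?_⟩
  obtain ⟨h1, h2, h3, h4⟩ := H i hi
  refine ⟨h1.trans (le_max_left _ _), h2.trans (le_max_left _ _), h3.trans (le_max_left _ _),
    fun w h e he hs => (h4 w h e (he.trans (min_le_left _ _)) hs).trans ?_⟩
  exact mul_le_mul_of_nonneg_right (le_max_left _ _) (pow_pos hs.2.2.1 3).le

private theorem h19_mul_le {x y a b : ℝ} (hx : |x| ≤ a) (hy : |y| ≤ b) : |x * y| ≤ a * b := by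
  rw [abs_mul]
  exact mul_le_mul hx hy (abs_nonneg _) ((abs_nonneg _).trans hx)

/-- second order part -/
private theorem h19_p2 {P a b c v h e C : ℝ} (hb : |b| ≤ C) (hc : |c| ≤ C) (hv : |v| ≤ e)
    (hh : |h| ≤ e ^ 2) (he : 0 < e) (he1 : e ≤ 1)
    (hR : |P - a * v - b / 2 * v ^ 2 - c * h| ≤ C * e ^ 3) : |P - a * v| ≤ 3 * C * e ^ 2 := by
  have hC : 0 ≤ C := (abs_nonneg _).trans hb
  have h1 : |b / 2 * v ^ 2| ≤ C * e ^ 2 := by
    refine h19_mul_le ?_ ?_
    · rw [abs_div, abs_two]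
      linarith [abs_nonneg b]
    · rw [abs_pow]
      exact pow_le_pow_left₀ (abs_nonneg _) hv 2
  have h2 : |c * h| ≤ C * e ^ 2 := h19_mul_le hc hh
  have h3 : C * e ^ 3 ≤ C * e ^ 2 :=
    mul_le_mul_of_nonneg_left (pow_le_pow_of_le_one he.le he1 (by norm_num)) hC
  have e1 : P - a * v = (P - a * v - b / 2 * v ^ 2 - c * h) + b / 2 * v ^ 2 + c * h := by ring
  rw [e1]
  have := abs_add_three (P - a * v - b / 2 * v ^ 2 - c * h) (b / 2 * v ^ 2) (c * h)
  linarith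

private theorem h19_p1 {P a v e C : ℝ} (ha : |a| ≤ C) (hv : |v| ≤ e) (he : 0 < e) (he1 : e ≤ 1)
    (hR : |P - a * v| ≤ 3 * C * e ^ 2) : |P| ≤ 4 * C * e := by
  have hC : 0 ≤ C := (abs_nonneg _).trans ha
  have h1 : |a * v| ≤ C * e := h19_mul_le ha hv
  have h3 : C * e ^ 2 ≤ C * e := mul_le_mul_of_nonneg_left (by nlinarith) hC
  have e1 : P = (P - a * v) + a * v := by ring
  rw [e1]
  have := abs_add_le (P - a * v) (a * v)
  linarith

/-- products of two first order expansions -/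
private theorem h19_prod {P Q a a' v e C : ℝ} (ha : |a| ≤ C) (ha' : |a'| ≤ C) (hv : |v| ≤ e)
    (he : 0 < e) (he1 : e ≤ 1) (hP : |P - a * v| ≤ 3 * C * e ^ 2)
    (hQ : |Q - a' * v| ≤ 3 * C * e ^ 2) : |P * Q - a * a' * v ^ 2| ≤ 7 * C ^ 2 * 3 * e ^ 3 := by
  have hC : 0 ≤ C := (abs_nonneg _).trans ha
  have h1 := h19_mul_le hP (h19_p1 ha' hv he he1 hQ)
  have h2 := h19_mul_le (h19_mul_le ha hv) hQ
  have e1 : P * Q - a * a' * v ^ 2 = (P - a * v) * Q + a * v * (Q - a' * v) := by ring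
  rw [e1]
  have := abs_add_le ((P - a * v) * Q) (a * v * (Q - a' * v))
  have h3 : 0 ≤ C ^ 2 * e ^ 3 := by positivity
  nlinarith

private theorem h19_taylor {φ : ℝ → ℝ} {x r M d : ℝ} (hφ : ContDiffOn ℝ 3 φ (Ioo (x - r) (x + r)))
    (hM : ∀ y ∈ Ioo (x - r) (x + r), |deriv (deriv (deriv φ)) y| ≤ M) (hd : |d| < r) :
    |φ (x + d) - φ x - deriv φ x * d - deriv (deriv φ) x / 2 * d ^ 2| ≤ M * |d| ^ 3 := by
  have ho : IsOpen (Ioo (x - r) (x + r)) := isOpen_Ioo
  have h1 : ContDiffOn ℝ 2 (deriv φ) (Ioo (x - r) (x + r)) :=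
    hφ.deriv_of_isOpen ho (by norm_num)
  have h2 : ContDiffOn ℝ 1 (deriv (deriv φ)) (Ioo (x - r) (x + r)) :=
    h1.deriv_of_isOpen ho (by norm_num)
  have hsub : closedBall x |d| ⊆ Ioo (x - r) (x + r) := fun y hy => by
    rw [mem_closedBall, Real.dist_eq] at hy
    have := abs_lt.1 (hy.trans_lt hd)
    constructor <;> linarith [this.1, this.2]
  have hx : x ∈ closedBall x |d| := mem_closedBall_self (abs_nonneg _)
  have hcv : Convex ℝ (closedBall x |d|) := convex_closedBall _ _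
  have d0 : ∀ y ∈ closedBall x |d|, HasDerivAt φ (deriv φ y) y := fun y hy =>
    ((hφ.differentiableOn (by norm_num)).differentiableAt (ho.mem_nhds (hsub hy))).hasDerivAt
  have d1 : ∀ y ∈ closedBall x |d|, HasDerivAt (deriv φ) (deriv (deriv φ) y) y := fun y hy =>
    ((h1.differentiableOn (by norm_num)).differentiableAt (ho.mem_nhds (hsub hy))).hasDerivAt
  have d2 : ∀ y ∈ closedBall x |d|,
      HasDerivAt (deriv (deriv φ)) (deriv (deriv (deriv φ)) y) y := fun y hy =>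
    ((h2.differentiableOn (by norm_num)).differentiableAt (ho.mem_nhds (hsub hy))).hasDerivAt
  have hM0 : 0 ≤ M := (abs_nonneg _).trans (hM x (hsub hx))
  have hn : ∀ y ∈ closedBall x |d|, ‖y - x‖ ≤ |d| := fun y hy => by
    rwa [mem_closedBall, dist_eq_norm] at hy
  have b2 : ∀ y ∈ closedBall x |d|, ‖deriv (deriv φ) y - deriv (deriv φ) x‖ ≤ M * |d| :=
    fun y hy => (hcv.norm_image_sub_le_of_norm_hasDerivWithin_le
      (fun z hz => (d2 z hz).hasDerivWithinAt) (fun z hz => hM z (hsub hz)) hx hy).trans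
      (mul_le_mul_of_nonneg_left (hn y hy) hM0)
  have b1 : ∀ y ∈ closedBall x |d|,
      ‖deriv φ y - deriv φ x - deriv (deriv φ) x * (y - x)‖ ≤ M * |d| * |d| := fun y hy => by
    have := hcv.norm_image_sub_le_of_norm_hasDerivWithin_le
      (f := fun z => deriv φ z - deriv (deriv φ) x * (z - x))
      (f' := fun z => deriv (deriv φ) z - deriv (deriv φ) x)
      (fun z hz => by
        have := (d1 z hz).sub (((hasDerivAt_id z).sub_const x).const_mul (deriv (deriv φ) x))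
        rw [mul_one] at this
        exact this.hasDerivWithinAt) b2 hx hy
    have e1 : deriv φ y - deriv φ x - deriv (deriv φ) x * (y - x) =
      deriv φ y - deriv (deriv φ) x * (y - x) - (deriv φ x - deriv (deriv φ) x * (x - x)) := by ring
    rw [e1]
    exact this.trans (mul_le_mul_of_nonneg_left (hn y hy) (by positivity))
  have hy : x + d ∈ closedBall x |d| := by
    rw [mem_closedBall, Real.dist_eq, add_sub_cancel_left]
  have := hcv.norm_image_sub_le_of_norm_hasDerivWithin_le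
    (f := fun z => φ z - deriv φ x * (z - x) - deriv (deriv φ) x / 2 * (z - x) ^ 2)
    (f' := fun z => deriv φ z - deriv φ x - deriv (deriv φ) x * (z - x))
    (fun z hz => by
      have := ((d0 z hz).sub (((hasDerivAt_id z).sub_const x).const_mul (deriv φ x))).sub
        ((((hasDerivAt_id z).sub_const x).pow 2).const_mul (deriv (deriv φ) x / 2))
      refine (this.congr_deriv ?_).hasDerivWithinAt
      simp only [id, Nat.cast_ofNat, Nat.add_one_sub_one, pow_one, mul_one]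
      ring) b1 hx hy
  have e1 : φ (x + d) - φ x - deriv φ x * d - deriv (deriv φ) x / 2 * d ^ 2 =
    φ (x + d) - deriv φ x * (x + d - x) - deriv (deriv φ) x / 2 * (x + d - x) ^ 2 -
      (φ x - deriv φ x * (x - x) - deriv (deriv φ) x / 2 * (x - x) ^ 2) := by ring
  rw [e1, ← Real.norm_eq_abs]
  refine this.trans (le_of_eq ?_)
  rw [add_sub_cancel_left, Real.norm_eq_abs]
  ring

theorem TE.mono {ι : Type*} {I I' : Set ι} {Ψ : ι → Path → ℝ → ℝ} {J : ι → Jet} (h : TE I Ψ J)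
    (hI : I' ⊆ I) : TE I' Ψ J := by
  obtain ⟨C, e0, he0, H⟩ := h
  exact ⟨C, e0, he0, fun i hi => H i (hI hi)⟩

theorem TE.reindex {ι ι' : Type*} {I : Set ι} {Ψ : ι → Path → ℝ → ℝ} {J : ι → Jet} (h : TE I Ψ J)
    {I' : Set ι'} (r : ι' → ι) (hr : MapsTo r I' I) :
    TE I' (fun i => Ψ (r i)) (fun i => J (r i)) := by
  obtain ⟨C, e0, he0, H⟩ := h
  exact ⟨C, e0, he0, fun i hi => H (r i) (hr hi)⟩

theorem TE.congr {ι : Type*} {I : Set ι} {Ψ Ψ' : ι → Path → ℝ → ℝ} {J J' : ι → Jet} (h : TE I Ψ J)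
    (hJ : ∀ i ∈ I, J' i = J i) {e1 : ℝ} (he1 : 0 < e1)
    (hΨ : ∀ i ∈ I, ∀ w t e, e ≤ e1 → Small w t e → Ψ' i w t = Ψ i w t) : TE I Ψ' J' := by
  obtain ⟨C, e0, he0, H⟩ := h
  refine ⟨C, min e0 e1, lt_min he0 he1, fun i hi => ?_⟩
  obtain ⟨h1, h2, h3, h4⟩ := H i hi
  rw [hJ i hi]
  refine ⟨h1, h2, h3, fun w t e he hs => ?_⟩
  rw [hΨ i hi w t e (he.trans (min_le_right _ _)) hs]
  exact h4 w t e (he.trans (min_le_left _ _)) hs

theorem TE.union {ι : Type*} {I I' : Set ι} {Ψ : ι → Path → ℝ → ℝ} {J : ι → Jet} (h : TE I Ψ J)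
    (h' : TE I' Ψ J) : TE (I ∪ I') Ψ J := by
  obtain ⟨C, e0, he0, H⟩ := h
  obtain ⟨C', e0', he0', H'⟩ := h'
  refine ⟨max C C', min e0 e0', lt_min he0 he0', fun i hi => ?_⟩
  rcases hi with hi | hi
  · obtain ⟨h1, h2, h3, h4⟩ := H i hi
    refine ⟨h1.trans (le_max_left _ _), h2.trans (le_max_left _ _), h3.trans (le_max_left _ _),
      fun w t e he hs => (h4 w t e (he.trans (min_le_left _ _)) hs).trans ?_⟩
    exact mul_le_mul_of_nonneg_right (le_max_left _ _) (pow_pos hs.2.2.1 3).le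
  · obtain ⟨h1, h2, h3, h4⟩ := H' i hi
    refine ⟨h1.trans (le_max_right _ _), h2.trans (le_max_right _ _), h3.trans (le_max_right _ _),
      fun w t e he hs => (h4 w t e (he.trans (min_le_right _ _)) hs).trans ?_⟩
    exact mul_le_mul_of_nonneg_right (le_max_right _ _) (pow_pos hs.2.2.1 3).le

theorem TE.const {ι : Type*} (I : Set ι) (r : ι → ℝ) :
    TE I (fun i _ _ => r i) (fun i => Jet.const (r i)) := by
  refine ⟨0, 1, one_pos, fun i _ => ?_⟩
  simp [Jet.const]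

theorem TE.time {ι : Type*} (I : Set ι) : TE I (fun _ _ t => t) (fun _ => ⟨0, 0, 0, 1⟩) := by
  refine ⟨1, 1, one_pos, fun i _ => ⟨by simp, by simp, by simp, fun w t e _ hs => ?_⟩⟩
  have := pow_pos hs.2.2.1 3
  simp [this.le]

theorem TE.add {ι : Type*} {I : Set ι} {Ψ Φ : ι → Path → ℝ → ℝ} {J K : ι → Jet} (h : TE I Ψ J)
    (h' : TE I Φ K) : TE I (fun i w t => Ψ i w t + Φ i w t) (fun i => (J i).add (K i)) := by
  obtain ⟨C, e0, he0, H⟩ := h
  obtain ⟨C', e0', he0', H'⟩ := h'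
  refine ⟨C + C', min e0 e0', lt_min he0 he0', fun i hi => ?_⟩
  obtain ⟨h1, h2, h3, h4⟩ := H i hi
  obtain ⟨k1, k2, k3, k4⟩ := H' i hi
  simp only [Jet.add]
  refine ⟨(abs_add_le _ _).trans (add_le_add h1 k1), (abs_add_le _ _).trans (add_le_add h2 k2),
    (abs_add_le _ _).trans (add_le_add h3 k3), fun w t e he hs => ?_⟩
  have a1 := h4 w t e (he.trans (min_le_left _ _)) hs
  have a2 := k4 w t e (he.trans (min_le_right _ _)) hs
  have a3 := (abs_add_le _ _).trans (add_le_add a1 a2)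
  refine le_trans (le_of_eq ?_) (a3.trans (le_of_eq ?_))
  · congr 1
    ring
  · ring

theorem TE.smul {ι : Type*} {I : Set ι} {Ψ : ι → Path → ℝ → ℝ} {J : ι → Jet} (h : TE I Ψ J)
    (r : ι → ℝ) {M : ℝ} (hr : ∀ i ∈ I, |r i| ≤ M) :
    TE I (fun i w t => r i * Ψ i w t) (fun i => (J i).smul (r i)) := by
  obtain ⟨C, e0, he0, H⟩ := h
  refine ⟨M * C, e0, he0, fun i hi => ?_⟩
  obtain ⟨h1, h2, h3, h4⟩ := H i hi
  simp only [Jet.smul]
  refine ⟨h19_mul_le (hr i hi) h1, h19_mul_le (hr i hi) h2, h19_mul_le (hr i hi) h3,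
    fun w t e he hs => ?_⟩
  have a1 := h19_mul_le (hr i hi) (h4 w t e he hs)
  rw [mul_assoc M]
  convert a1 using 2
  ring

theorem TE.mul {ι : Type*} {I : Set ι} {Ψ Φ : ι → Path → ℝ → ℝ} {J K : ι → Jet} (h : TE I Ψ J)
    (h' : TE I Φ K) {M : ℝ} (hM : ∀ i ∈ I, |(J i).v| ≤ M ∧ |(K i).v| ≤ M) :
    TE I (fun i w t => Ψ i w t * Φ i w t) (fun i => (J i).mul (K i)) := by
  obtain ⟨C1, e0, hC1, he0, he1, H⟩ := h19_norm h
  obtain ⟨C2, e0', hC2, he0', -, H'⟩ := h19_norm h'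
  set C := max C1 C2 with hCdef
  have hC : 0 ≤ C := hC1.trans (le_max_left _ _)
  refine ⟨2 * M * C + 21 * C ^ 2, min e0 e0', lt_min he0 he0', fun i hi => ?_⟩
  obtain ⟨h1, h2, h3, h4⟩ := H i hi
  obtain ⟨k1, k2, k3, k4⟩ := H' i hi
  obtain ⟨m1, m2⟩ := hM i hi
  replace h1 : |(J i).a| ≤ C := h1.trans (le_max_left _ _)
  replace h2 : |(J i).b| ≤ C := h2.trans (le_max_left _ _)
  replace h3 : |(J i).c| ≤ C := h3.trans (le_max_left _ _)
  replace k1 : |(K i).a| ≤ C := k1.trans (le_max_right _ _)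
  replace k2 : |(K i).b| ≤ C := k2.trans (le_max_right _ _)
  replace k3 : |(K i).c| ≤ C := k3.trans (le_max_right _ _)
  have hC2' : 0 ≤ C ^ 2 := by positivity
  simp only [Jet.mul]
  refine ⟨?_, ?_, ?_, fun w t e he hs => ?_⟩
  · have := abs_add_le ((J i).a * (K i).v) ((J i).v * (K i).a)
    nlinarith [h19_mul_le h1 m2, h19_mul_le m1 k1]
  · have := abs_add_three ((J i).b * (K i).v) (2 * (J i).a * (K i).a) ((J i).v * (K i).b)
    have h5 : |2 * (J i).a * (K i).a| ≤ 2 * C * C :=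
      h19_mul_le (h19_mul_le (le_of_eq abs_two) h1) k1
    nlinarith [h19_mul_le h2 m2, h19_mul_le m1 k2]
  · have := abs_add_le ((J i).c * (K i).v) ((J i).v * (K i).c)
    nlinarith [h19_mul_le h3 m2, h19_mul_le m1 k3]
  · obtain ⟨s1, s2, s3⟩ := h19_small hs
    have he' : e ≤ 1 := (he.trans (min_le_left _ _)).trans he1
    have a1 := (h4 w t e (he.trans (min_le_left _ _)) hs).trans
      (mul_le_mul_of_nonneg_right (le_max_left C1 C2) (pow_pos s3 3).le)
    have a2 := (k4 w t e (he.trans (min_le_right _ _)) hs).trans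
      (mul_le_mul_of_nonneg_right (le_max_right C1 C2) (pow_pos s3 3).le)
    have b1 := h19_p2 h2 h3 s1 s2 s3 he' a1
    have b2 := h19_p2 k2 k3 s1 s2 s3 he' a2
    have b3 := h19_prod h1 k1 s1 s3 he' b1 b2
    have b4 := h19_mul_le m1 a2
    have b5 := h19_mul_le m2 a1
    have b6 := (abs_add_three _ _ _).trans (add_le_add (add_le_add b3 b4) b5)
    refine le_trans (le_of_eq ?_) (b6.trans (le_of_eq ?_))
    · congr 1
      ring
    · rw [← hCdef]
      ring

/-- First order consequence. -/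
theorem TE.first {ι : Type*} {I : Set ι} {Ψ : ι → Path → ℝ → ℝ} {J : ι → Jet} (h : TE I Ψ J) :
    ∃ C e0 : ℝ, 0 ≤ C ∧ 0 < e0 ∧ ∀ i ∈ I, ∀ w t e, e ≤ e0 → Small w t e →
      |Ψ i w t - (J i).v| ≤ C * e := by
  obtain ⟨C, e0, hC, he0, he1, H⟩ := h19_norm h
  refine ⟨4 * C, e0, by positivity, he0, fun i hi w t e he hs => ?_⟩
  obtain ⟨h1, h2, h3, h4⟩ := H i hi
  obtain ⟨s1, s2, s3⟩ := h19_small hs
  exact h19_p1 h1 s1 s3 (he.trans he1) (h19_p2 h2 h3 s1 s2 s3 (he.trans he1) (h4 w t e he hs))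

/-- Composition with a family of `C³` functions with uniform bounds near the base values
(Taylor with cubic remainder). -/
theorem TE.comp {ι : Type*} {I : Set ι} {Ψ : ι → Path → ℝ → ℝ} {J : ι → Jet} (h : TE I Ψ J)
    (φ : ι → ℝ → ℝ) {M r : ℝ} (hr : 0 < r)
    (hφ : ∀ i ∈ I, ContDiffOn ℝ 3 (φ i) (Ioo ((J i).v - r) ((J i).v + r)) ∧
      ∀ x ∈ Ioo ((J i).v - r) ((J i).v + r), |deriv (φ i) x| ≤ M ∧
        |deriv (deriv (φ i)) x| ≤ M ∧ |deriv (deriv (deriv (φ i))) x| ≤ M) :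
    TE I (fun i w t => φ i (Ψ i w t)) (fun i => (J i).comp (φ i)) := by
  obtain ⟨C, e0, hC, he0, he1, H⟩ := h19_norm h
  refine ⟨M * C + 21 * M * C ^ 2 + 64 * M * C ^ 3, min e0 (r / (4 * C + 1)),
    lt_min he0 (by positivity), fun i hi => ?_⟩
  obtain ⟨h1, h2, h3, h4⟩ := H i hi
  obtain ⟨p0, p1⟩ := hφ i hi
  obtain ⟨q1, q2, -⟩ := p1 (J i).v ⟨by linarith, by linarith⟩
  have hM : 0 ≤ M := (abs_nonneg _).trans q1
  have t2 : 0 ≤ M * C ^ 2 := by positivity
  have t3 : 0 ≤ M * C ^ 3 := by positivity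
  simp only [Jet.comp]
  refine ⟨?_, ?_, ?_, fun w t e he hs => ?_⟩
  · linarith [h19_mul_le q1 h1]
  · have := abs_add_le (deriv (φ i) (J i).v * (J i).b)
      (deriv (deriv (φ i)) (J i).v * (J i).a ^ 2)
    have h5 : |(J i).a ^ 2| ≤ C ^ 2 := by
      rw [abs_pow]
      exact pow_le_pow_left₀ (abs_nonneg _) h1 2
    linarith [h19_mul_le q1 h2, h19_mul_le q2 h5]
  · linarith [h19_mul_le q1 h3]
  · obtain ⟨s1, s2, s3⟩ := h19_small hs
    have he' : e ≤ 1 := (he.trans (min_le_left _ _)).trans he1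
    have a1 := h4 w t e (he.trans (min_le_left _ _)) hs
    have b1 := h19_p2 h2 h3 s1 s2 s3 he' a1
    have b2 := h19_p1 h1 s1 s3 he' b1
    have b3 := h19_prod h1 h1 s1 s3 he' b1 b1
    have hd : |Ψ i w t - (J i).v| < r := by
      have h5 : e ≤ r / (4 * C + 1) := he.trans (min_le_right _ _)
      rw [le_div_iff₀ (by positivity)] at h5
      linarith
    have b4 := h19_taylor p0 (fun y hy => (p1 y hy).2.2) hd
    rw [add_sub_cancel] at b4
    have b5 : M * |Ψ i w t - (J i).v| ^ 3 ≤ M * (4 * C * e) ^ 3 :=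
      mul_le_mul_of_nonneg_left (pow_le_pow_left₀ (abs_nonneg _) b2 3) hM
    have b6 := h19_mul_le q1 a1
    have q2' : |deriv (deriv (φ i)) (J i).v / 2| ≤ M := by
      rw [abs_div, abs_two]
      linarith [abs_nonneg (deriv (deriv (φ i)) (J i).v)]
    have b7 := h19_mul_le q2' b3
    have b8 := (abs_add_three _ _ _).trans (add_le_add (add_le_add (b4.trans b5) b6) b7)
    refine le_trans (le_of_eq ?_) (b8.trans (le_of_eq ?_))
    · congr 1
      ring
    · ring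

theorem TE.comp_BC3 {ι : Type*} {I : Set ι} {Ψ : ι → Path → ℝ → ℝ} {J : ι → Jet} (h : TE I Ψ J)
    {φ : ℝ → ℝ} (hφ : BC3 φ) : TE I (fun i w t => φ (Ψ i w t)) (fun i => (J i).comp φ) := by
  obtain ⟨h1, C, hC⟩ := hφ
  exact h.comp (fun _ => φ) (M := C) one_pos
    fun i _ => ⟨h1.contDiffOn, fun x _ => (hC x).2⟩

/-- A fixed `C³` function on bounded base values. -/
theorem TE.comp_bdd {ι : Type*} {I : Set ι} {Ψ : ι → Path → ℝ → ℝ} {J : ι → Jet} (h : TE I Ψ J)
    {φ : ℝ → ℝ} (hφ : ContDiff ℝ 3 φ) {M : ℝ} (hM : ∀ i ∈ I, |(J i).v| ≤ M) :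
    TE I (fun i w t => φ (Ψ i w t)) (fun i => (J i).comp φ) := by
  have h1 : ContDiff ℝ 2 (deriv φ) := hφ.deriv'
  have h2 : ContDiff ℝ 1 (deriv (deriv φ)) := h1.deriv'
  have h3 : Continuous (deriv (deriv (deriv φ))) := h2.continuous_deriv le_rfl
  have hK : IsCompact (Icc (-M - 1) (M + 1)) := isCompact_Icc
  obtain ⟨C1, c1⟩ := hK.exists_bound_of_continuousOn h1.continuous.continuousOn
  obtain ⟨C2, c2⟩ := hK.exists_bound_of_continuousOn h2.continuous.continuousOn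
  obtain ⟨C3, c3⟩ := hK.exists_bound_of_continuousOn h3.continuousOn
  refine h.comp (fun _ => φ) (M := max C1 (max C2 C3)) one_pos
    fun i hi => ⟨hφ.contDiffOn, fun x hx => ?_⟩
  have := abs_le.1 (hM i hi)
  have hx' : x ∈ Icc (-M - 1) (M + 1) := ⟨by linarith [hx.1, this.1], by linarith [hx.2, this.2]⟩
  exact ⟨(c1 x hx').trans (le_max_left _ _),
    (c2 x hx').trans ((le_max_left _ _).trans (le_max_right _ _)),
    (c3 x hx').trans ((le_max_right _ _).trans (le_max_right _ _))⟩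

/-- Integration against measures of bounded mass carried by the sections of the index set. -/
theorem TE.integral {ι X : Type*} [MeasurableSpace X] {I : Set ι} {S : Set (ι × X)}
    {Ψ : ι × X → Path → ℝ → ℝ} {J : ι × X → Jet} (h : TE S Ψ J) (ν : ι → Measure X) {M e1 : ℝ}
    (he1 : 0 < e1) (hν : ∀ i ∈ I, ν i univ ≤ ENNReal.ofReal M)
    (hS : ∀ i ∈ I, ∀ᵐ x ∂(ν i), (i, x) ∈ S)
    (hv : ∀ i ∈ I, Integrable (fun x => (J (i, x)).v) (ν i))
    (hJ : ∀ i ∈ I, AEStronglyMeasurable (fun x => (J (i, x)).a) (ν i) ∧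
      AEStronglyMeasurable (fun x => (J (i, x)).b) (ν i) ∧
      AEStronglyMeasurable (fun x => (J (i, x)).c) (ν i))
    (hΨ : ∀ i ∈ I, ∀ w t e, e ≤ e1 → Small w t e →
      AEStronglyMeasurable (fun x => Ψ (i, x) w t) (ν i)) :
    TE I (fun i w t => ∫ x, Ψ (i, x) w t ∂(ν i)) (fun i => Jet.integral (ν i) (fun x => J (i, x))) := by
  obtain ⟨C, e0, hC, he0, he0', H⟩ := h19_norm h
  refine ⟨C * max M 0, min e0 e1, lt_min he0 he1, fun i hi => ?_⟩
  haveI : IsFiniteMeasure (ν i) := ⟨(hν i hi).trans_lt ENNReal.ofReal_lt_top⟩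
  have hm : (ν i).real univ ≤ max M 0 := by
    have := ENNReal.toReal_mono ENNReal.ofReal_ne_top (hν i hi)
    rwa [ENNReal.toReal_ofReal'] at this
  have key : ∀ (f : X → ℝ) (B : ℝ), 0 ≤ B → (∀ᵐ x ∂(ν i), |f x| ≤ B) →
      |∫ x, f x ∂(ν i)| ≤ B * max M 0 := fun f B hB hf =>
    (norm_integral_le_of_norm_le_const (μ := ν i) (f := f) (C := B) hf).trans
      (mul_le_mul_of_nonneg_left hm hB)
  have ba : ∀ᵐ x ∂(ν i), |(J (i, x)).a| ≤ C := (hS i hi).mono fun x hx => (H _ hx).1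
  have bb : ∀ᵐ x ∂(ν i), |(J (i, x)).b| ≤ C := (hS i hi).mono fun x hx => (H _ hx).2.1
  have bc : ∀ᵐ x ∂(ν i), |(J (i, x)).c| ≤ C := (hS i hi).mono fun x hx => (H _ hx).2.2.1
  have ia : Integrable (fun x => (J (i, x)).a) (ν i) := Integrable.of_bound (hJ i hi).1 C ba
  have ib : Integrable (fun x => (J (i, x)).b) (ν i) := Integrable.of_bound (hJ i hi).2.1 C bb
  have ic : Integrable (fun x => (J (i, x)).c) (ν i) := Integrable.of_bound (hJ i hi).2.2 C bc
  simp only [Jet.integral]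
  refine ⟨key _ C hC ba, key _ C hC bb, key _ C hC bc, fun w t e he hs => ?_⟩
  obtain ⟨s1, s2, s3⟩ := h19_small hs
  have hee : e ≤ e0 := he.trans (min_le_left _ _)
  have iΨ : Integrable (fun x => Ψ (i, x) w t) (ν i) := by
    have : Integrable (fun x => Ψ (i, x) w t - (J (i, x)).v) (ν i) := by
      refine Integrable.of_bound
        ((hΨ i hi w t e (he.trans (min_le_right _ _)) hs).sub (hv i hi).1) (4 * C * e) ?_
      refine (hS i hi).mono fun x hx => ?_
      obtain ⟨h1, h2, h3, h4⟩ := H _ hx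
      exact h19_p1 h1 s1 s3 (hee.trans he0')
        (h19_p2 h2 h3 s1 s2 s3 (hee.trans he0') (h4 w t e hee hs))
    exact (this.add (hv i hi)).congr (Eventually.of_forall fun x => by simp)
  have bR := key (fun x => Ψ (i, x) w t - (J (i, x)).v - (J (i, x)).a * (w t - w 0) -
    (J (i, x)).b / 2 * (w t - w 0) ^ 2 - (J (i, x)).c * t) (C * e ^ 3) (by positivity)
    ((hS i hi).mono fun x hx => (H _ hx).2.2.2 w t e hee hs)
  have i1 : Integrable (fun x => Ψ (i, x) w t - (J (i, x)).v) (ν i) := iΨ.sub (hv i hi)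
  have i2 := ia.mul_const (w t - w 0)
  have i3 := (ib.div_const 2).mul_const ((w t - w 0) ^ 2)
  have i4 := ic.mul_const t
  have i5 : Integrable (fun x => Ψ (i, x) w t - (J (i, x)).v - (J (i, x)).a * (w t - w 0)) (ν i) :=
    i1.sub i2
  have i6 : Integrable (fun x => Ψ (i, x) w t - (J (i, x)).v - (J (i, x)).a * (w t - w 0) -
      (J (i, x)).b / 2 * (w t - w 0) ^ 2) (ν i) := i5.sub i3
  rw [integral_sub i6 i4, integral_sub i5 i3, integral_sub i1 i2,
    integral_sub iΨ (hv i hi), integral_mul_const, integral_mul_const, integral_mul_const,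
    integral_div] at bR
  refine bR.trans (le_of_eq ?_)
  ring

/-- Time integrals of a family that is first order close to its base value. -/
theorem TE.time_integral {ι : Type*} {I : Set ι} {Ψ : ι → Path → ℝ → ℝ} {J : ι → Jet}
    (h : TE I Ψ J) {M e1 : ℝ} (he1 : 0 < e1) (hM : ∀ i ∈ I, |(J i).v| ≤ M)
    (hm : ∀ i ∈ I, ∀ w t e, e ≤ e1 → Small w t e →
      AEStronglyMeasurable (Ψ i w) (volume.restrict (Ioc 0 t))) :
    TE I (fun i w t => ∫ s in Ioc 0 t, Ψ i w s) (fun i => ⟨0, 0, 0, (J i).v⟩) := by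
  obtain ⟨C, e0, hC, he0, H⟩ := h.first
  refine ⟨max M C, min e0 e1, lt_min he0 he1, fun i hi => ?_⟩
  have hM0 : 0 ≤ max M C := hC.trans (le_max_right _ _)
  refine ⟨by simpa using hM0, by simpa using hM0, (hM i hi).trans (le_max_left _ _),
    fun w t e he hs => ?_⟩
  have s3 : 0 < e := hs.2.2.1
  have hb : ∀ᵐ s ∂(volume.restrict (Ioc 0 t)), ‖Ψ i w s - (J i).v‖ ≤ C * e :=
    (ae_restrict_mem measurableSet_Ioc).mono fun s hs' =>
      H i hi w s e (he.trans (min_le_left _ _)) (h19_small_mono hs hs'.1.le hs'.2)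
  have i1 : Integrable (fun s => Ψ i w s - (J i).v) (volume.restrict (Ioc 0 t)) :=
    Integrable.of_bound
      ((hm i hi w t e (he.trans (min_le_right _ _)) hs).sub aestronglyMeasurable_const) _ hb
  have i2 : Integrable (fun _ : ℝ => (J i).v) (volume.restrict (Ioc 0 t)) := integrable_const _
  have i3 : Integrable (fun s => Ψ i w s) (volume.restrict (Ioc 0 t)) :=
    (i1.add i2).congr (Eventually.of_forall fun x => by simp)
  have hvol : (volume.restrict (Ioc 0 t)).real univ = t := by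
    simp [Measure.real, ENNReal.toReal_ofReal hs.1]
  have b1 := norm_integral_le_of_norm_le_const hb
  rw [integral_sub i3 i2, integral_const, hvol, smul_eq_mul, Real.norm_eq_abs] at b1
  have b2 : C * e * t ≤ max M C * e ^ 3 := by
    calc C * e * t ≤ C * e * e ^ 2 := mul_le_mul_of_nonneg_left hs.2.1 (by positivity)
      _ = C * e ^ 3 := by ring
      _ ≤ max M C * e ^ 3 := mul_le_mul_of_nonneg_right (le_max_right _ _) (by positivity)
  refine le_trans (le_of_eq ?_) (b1.trans b2)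
  congr 1
  ring

theorem Jet.gen_add (κ : ℝ) (J K : Jet) : (J.add K).gen κ = J.gen κ + K.gen κ := by
  simp only [Jet.gen, Jet.add]
  ring

theorem Jet.gen_smul (κ r : ℝ) (J : Jet) : (J.smul r).gen κ = r * J.gen κ := by
  simp only [Jet.gen, Jet.smul]
  ring

theorem Jet.gen_mul (κ : ℝ) (J K : Jet) :
    (J.mul K).gen κ = J.gen κ * K.v + J.v * K.gen κ + κ * J.a * K.a := by
  simp only [Jet.gen, Jet.mul]
  ring

theorem Jet.gen_comp (κ : ℝ) (φ : ℝ → ℝ) (J : Jet) :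
    (J.comp φ).gen κ = deriv φ J.v * J.gen κ + κ / 2 * deriv (deriv φ) J.v * J.a ^ 2 := by
  simp only [Jet.gen, Jet.comp]
  ring

end Crest.Agent.R162
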