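import Crest.Agent.R162.T2

/-! Row 162: expansions that are uniform on `{y ≤ im}` (no bound on `‖ζ‖`). -/

set_option autoImplicit false
open MeasureTheory ProbabilityTheory Set Filter Topology Metric
open scoped ENNReal NNReal ComplexConjugate

namespace Crest.Agent.R162

/-- The half-plane above height `y`. -/
def Hy (y : ℝ) : Set ℂ := {ζ | y ≤ ζ.im}

theorem t3_H {y : ℝ} (hy : 0 < y) {ζ : ℂ} (hζ : ζ ∈ Hy y) : ζ ∈ H :=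
  lt_of_lt_of_le hy hζ

theorem t3_norm {y : ℝ} {ζ : ℂ} (hζ : ζ ∈ Hy y) : y ≤ ‖ζ‖ :=
  le_trans hζ ((le_abs_self _).trans (Complex.abs_im_le_norm ζ))

theorem t3_ne {w : Path} {t : ℝ} {z : ℂ} (hz : z ∈ dom w t) {s : ℝ} (hs : s ∈ Icc 0 t) :
    Zf w s z ≠ 0 := by
  intro h
  have h1 : 0 < (Zf w s z).im := Zf_mem (dom_anti w hs.1 hs.2 hz)
  rw [h] at h1
  simp at h1

theorem t3_int {E : Type*} [NormedAddCommGroup E] [NormedSpace ℝ E] [CompleteSpace E]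
    {f : ℝ → E} {c : E} {h K : ℝ} (h0 : 0 ≤ h) (hf : ContinuousOn f (Icc 0 h))
    (hK : ∀ s ∈ Icc 0 h, ‖f s - c‖ ≤ K) : ‖(∫ s in (0 : ℝ)..h, f s) - h • c‖ ≤ K * h := by
  have hi : IntervalIntegrable f volume 0 h := by
    apply ContinuousOn.intervalIntegrable; rwa [uIcc_of_le h0]
  have : (∫ s in (0 : ℝ)..h, f s) - h • c = ∫ s in (0 : ℝ)..h, (f s - c) := by
    rw [intervalIntegral.integral_sub hi intervalIntegrable_const, intervalIntegral.integral_const,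
      sub_zero]
  rw [this]
  have h2 := intervalIntegral.norm_integral_le_of_norm_le_const (a := 0) (b := h) (C := K)
    (f := fun s => f s - c) (fun s hs => by
      rw [uIoc_of_le h0] at hs
      exact hK s ⟨hs.1.le, hs.2⟩)
  rwa [sub_zero, abs_of_nonneg h0] at h2

theorem alive_small' {y : ℝ} (hy : 0 < y) : ∃ e0 > 0, ∀ ζ ∈ Hy y, ∀ (w : Path) (h e : ℝ),
    e ≤ e0 → Small w h e → ∀ s ∈ Icc 0 h,
      ζ ∈ dom w s ∧ Zf w s ζ ∈ Hy (y / 2) ∧ ‖Zf w s ζ - ζ‖ ≤ 2 * e ∧ 9 / 10 ≤ mm w s ζ := by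
  refine ⟨y / 10, by positivity, fun ζ hζ w h e he hs s hsI => ?_⟩
  obtain ⟨h0, hh, hep, hw⟩ := hs
  have hyi : y ≤ ζ.im := hζ
  have hip : 0 < ζ.im := hy.trans_le hyi
  have hse : s ≤ e ^ 2 := hsI.2.trans hh
  have he2 : e ^ 2 ≤ y ^ 2 / 100 := by nlinarith
  have hy2 : y ^ 2 ≤ ζ.im ^ 2 := by gcongr
  obtain ⟨h1, h2, h3, h4⟩ := alive_low w (t3_H hy hζ) hsI.1 (by nlinarith : 8 * s ≤ ζ.im ^ 2)
  refine ⟨h1, ?_, ?_, ?_⟩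
  · have hp : 0 < (Zf w s ζ).im := Zf_mem h1
    show y / 2 ≤ (Zf w s ζ).im
    by_contra hc
    push Not at hc
    nlinarith
  · have h5 : 3 * s / ζ.im ≤ e := by
      rw [div_le_iff₀ hip]; nlinarith
    have h6 : ‖((w s - w 0 : ℝ) : ℂ)‖ ≤ e := by
      rw [Complex.norm_real, Real.norm_eq_abs]; exact hw s hsI
    calc ‖Zf w s ζ - ζ‖ = ‖(Zf w s ζ - (ζ - ((w s - w 0 : ℝ) : ℂ))) - ((w s - w 0 : ℝ) : ℂ)‖ := by
          congr 1; ring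
      _ ≤ _ := norm_sub_le _ _
      _ ≤ 2 * e := by linarith
  · refine le_trans ?_ h4
    have h5 : 8 * s / ζ.im ^ 2 ≤ 1 / 10 := by
      rw [div_le_iff₀ (by positivity)]; nlinarith
    have := Real.add_one_le_exp (-(8 * s / ζ.im ^ 2))
    linarith

/-- `Z = ζ - v + 2h/ζ + O(e³)`. -/
theorem Zf_expand {y : ℝ} (hy : 0 < y) : ∃ C e0 : ℝ, 0 ≤ C ∧ 0 < e0 ∧ ∀ ζ ∈ Hy y,
    ∀ (w : Path) (h e : ℝ), e ≤ e0 → Small w h e →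
      ‖Zf w h ζ - (ζ - ((w h - w 0 : ℝ) : ℂ) + 2 * (h : ℂ) / ζ)‖ ≤ C * e ^ 3 := by
  obtain ⟨e0, he0, hA⟩ := alive_small' hy
  refine ⟨2 / (y / 2) ^ 2 * 2, e0, by positivity, he0, fun ζ hζ w h e he hs => ?_⟩
  have hA' := hA ζ hζ w h e he hs
  obtain ⟨h0, hh, hep, hw⟩ := hs
  have hd := (hA' h ⟨h0, le_rfl⟩).1
  have hc : ContinuousOn (fun s => 2 / Zf w s ζ) (Icc 0 h) :=
    continuousOn_const.div (continuousOn_Zf h0 hd) fun s hs => t3_ne hd hs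
  have key := t3_int (c := 2 / ζ) (K := 2 / (y / 2) ^ 2 * (2 * e)) h0 hc fun s hs => by
    refine (h50_lip (by positivity) (t3_norm (hA' s hs).2.1)
      ((by linarith : y / 2 ≤ y).trans (t3_norm hζ))).trans ?_
    gcongr
    exact (hA' s hs).2.2.1
  rw [Zf_eq h0 hd]
  have : ζ - ((w h - w 0 : ℝ) : ℂ) + (∫ s in (0 : ℝ)..h, 2 / Zf w s ζ) -
      (ζ - ((w h - w 0 : ℝ) : ℂ) + 2 * (h : ℂ) / ζ) =
      (∫ s in (0 : ℝ)..h, 2 / Zf w s ζ) - h • (2 / ζ) := by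
    rw [Complex.real_smul]; ring
  rw [this]
  refine key.trans ?_
  calc 2 / (y / 2) ^ 2 * (2 * e) * h ≤ 2 / (y / 2) ^ 2 * (2 * e) * e ^ 2 := by gcongr
    _ = _ := by ring

/-- `phi w h ξ = ξ + v - 2h/ξ + O(e³)`. -/
theorem phi_expand {y : ℝ} (hy : 0 < y) : ∃ C e0 : ℝ, 0 ≤ C ∧ 0 < e0 ∧ ∀ ξ ∈ Hy y,
    ∀ (w : Path) (h e : ℝ), e ≤ e0 → Small w h e →
      ‖phi w h ξ - (ξ + ((w h - w 0 : ℝ) : ℂ) - 2 * (h : ℂ) / ξ)‖ ≤ C * e ^ 3 := by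
  obtain ⟨e0, he0, hA⟩ := alive_small' hy
  obtain ⟨C, e1, hC, he1, hB⟩ := Zf_expand hy
  refine ⟨C + 2 / y ^ 2 * 2, min e0 e1, by positivity, by positivity,
    fun ξ hξ w h e he hs => ?_⟩
  have hz : phi w h ξ ∈ Hy y := le_trans hξ (im_le_phi w h ξ)
  have h1 := hB _ hz w h e (he.trans (min_le_right _ _)) hs
  have h2 := (hA _ hz w h e (he.trans (min_le_left _ _)) hs h ⟨hs.1, le_rfl⟩).2.2.1
  rw [Zf_phi w h (t3_H hy hξ)] at h1 h2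
  obtain ⟨h0, hh, hep, hw⟩ := hs
  set z := phi w h ξ
  have h3 := h50_lip hy (t3_norm hξ) (t3_norm hz)
  have h4 : ‖(h : ℂ) * (2 / ξ - 2 / z)‖ ≤ 2 / y ^ 2 * 2 * e ^ 3 := by
    rw [norm_mul, Complex.norm_real, Real.norm_eq_abs, abs_of_nonneg h0]
    calc h * ‖2 / ξ - 2 / z‖ ≤ e ^ 2 * (2 / y ^ 2 * (2 * e)) := by
          gcongr
          exact h3.trans (by gcongr)
      _ = _ := by ring
  calc ‖z - (ξ + ((w h - w 0 : ℝ) : ℂ) - 2 * (h : ℂ) / ξ)‖ =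
        ‖(h : ℂ) * (2 / ξ - 2 / z) - (ξ - (z - ((w h - w 0 : ℝ) : ℂ) + 2 * (h : ℂ) / z))‖ := by
        congr 1; ring
    _ ≤ _ := norm_sub_le _ _
    _ ≤ _ := by linarith

theorem t3_log {x : ℂ} (hx : ‖x‖ ≤ 1 / 2) :
    |Real.log ‖1 + x‖ - (x - x ^ 2 / 2).re| ≤ ‖x‖ ^ 3 := by
  have h := Complex.norm_log_sub_logTaylor_le 2 (z := x) (by linarith)
  have h1 : Complex.logTaylor (2 + 1) x = x - x ^ 2 / 2 := by
    simp [Complex.logTaylor, Finset.sum_range_succ]; ring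
  rw [h1] at h
  have h2 : Real.log ‖1 + x‖ - (x - x ^ 2 / 2).re =
      (Complex.log (1 + x) - (x - x ^ 2 / 2)).re := by
    rw [Complex.sub_re (Complex.log _), Complex.log_re]
  rw [h2]
  refine (Complex.abs_re_le_norm _).trans (h.trans ?_)
  have h3 : (1 - ‖x‖)⁻¹ ≤ 2 := by
    rw [inv_le_comm₀ (by linarith) (by norm_num)]; linarith
  have h4 : 0 ≤ ‖x‖ ^ 3 := by positivity
  have h5 : ‖x‖ ^ (2 + 1) * (1 - ‖x‖)⁻¹ ≤ ‖x‖ ^ 3 * 2 := by gcongr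
  push_cast
  linarith

theorem t3_logA {q r : ℂ} {v h e m C : ℝ} (hq : ‖q‖ ≤ m) (hv : |v| ≤ e) (h0 : 0 ≤ h)
    (hh : h ≤ e ^ 2) (hr : ‖r‖ ≤ C * e ^ 3) (hep : 0 < e) (he1 : e ≤ 1) (hC : 0 ≤ C)
    (hx : ‖(-(v : ℂ) + 2 * (h : ℂ) * q + r) * q‖ ≤ 2 * e * m) (hem : 2 * e * m ≤ 1 / 2) :
    |Real.log ‖1 + (-(v : ℂ) + 2 * (h : ℂ) * q + r) * q‖ - (-q.re) * v - (-(q ^ 2).re) / 2 * v ^ 2
      - 2 * (q ^ 2).re * h| ≤
      (8 * m ^ 3 + C * m + m * ((2 * m + C) * m) + ((2 * m + C) * m) ^ 2) * e ^ 3 := by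
  have hm : 0 ≤ m := (norm_nonneg _).trans hq
  set x := (-(v : ℂ) + 2 * (h : ℂ) * q + r) * q with hxdef
  have h1 := t3_log (hx.trans hem)
  have h2 : ‖x‖ ^ 3 ≤ 8 * m ^ 3 * e ^ 3 := by
    calc ‖x‖ ^ 3 ≤ (2 * e * m) ^ 3 := by gcongr
      _ = _ := by ring
  set δ := (2 * (h : ℂ) * q + r) * q with hδ
  have he32 : e ^ 3 ≤ e ^ 2 := pow_le_pow_of_le_one hep.le he1 (by norm_num)
  have he43 : e ^ 4 ≤ e ^ 3 := pow_le_pow_of_le_one hep.le he1 (by norm_num)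
  have hδb : ‖δ‖ ≤ (2 * m + C) * m * e ^ 2 := by
    have k1 : ‖2 * (h : ℂ) * q‖ ≤ 2 * e ^ 2 * m := by
      rw [norm_mul, norm_mul, Complex.norm_real, Real.norm_eq_abs, abs_of_nonneg h0,
        Complex.norm_two]
      gcongr
    have k2 : ‖r‖ ≤ C * e ^ 2 := hr.trans (by gcongr)
    calc ‖δ‖ ≤ (‖2 * (h : ℂ) * q‖ + ‖r‖) * ‖q‖ := by
          rw [hδ, norm_mul]; gcongr; exact norm_add_le _ _
      _ ≤ (2 * e ^ 2 * m + C * e ^ 2) * m := by gcongr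
      _ = _ := by ring
  have h3 : (x - x ^ 2 / 2).re - (-q.re) * v - (-(q ^ 2).re) / 2 * v ^ 2 - 2 * (q ^ 2).re * h =
      (r * q + (v : ℂ) * q * δ - δ ^ 2 / 2).re := by
    have : r * q + (v : ℂ) * q * δ - δ ^ 2 / 2 = x - x ^ 2 / 2 + (v : ℂ) * q +
        ((v ^ 2 / 2 : ℝ) : ℂ) * q ^ 2 - ((2 * h : ℝ) : ℂ) * q ^ 2 := by
      simp only [hxdef, hδ]; push_cast; ring
    rw [this]
    simp only [Complex.sub_re, Complex.add_re, Complex.re_ofReal_mul]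
    ring
  have h4 : ‖r * q + (v : ℂ) * q * δ - δ ^ 2 / 2‖ ≤
      (C * m + m * ((2 * m + C) * m) + ((2 * m + C) * m) ^ 2) * e ^ 3 := by
    have k1 : ‖r * q‖ ≤ C * e ^ 3 * m := by rw [norm_mul]; gcongr
    have k2 : ‖(v : ℂ) * q * δ‖ ≤ e * m * ((2 * m + C) * m * e ^ 2) := by
      rw [norm_mul, norm_mul, Complex.norm_real, Real.norm_eq_abs]; gcongr
    have k3 : ‖δ ^ 2 / 2‖ ≤ ((2 * m + C) * m) ^ 2 * e ^ 3 := by
      rw [norm_div, norm_pow, Complex.norm_two]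
      calc ‖δ‖ ^ 2 / 2 ≤ ‖δ‖ ^ 2 := by linarith [sq_nonneg ‖δ‖]
        _ ≤ ((2 * m + C) * m * e ^ 2) ^ 2 := by gcongr
        _ = ((2 * m + C) * m) ^ 2 * e ^ 4 := by ring
        _ ≤ _ := by gcongr
    calc _ ≤ ‖r * q + (v : ℂ) * q * δ‖ + ‖δ ^ 2 / 2‖ := norm_sub_le _ _
      _ ≤ ‖r * q‖ + ‖(v : ℂ) * q * δ‖ + ‖δ ^ 2 / 2‖ := by gcongr; exact norm_add_le _ _
      _ ≤ _ := by nlinarith
  have h5 := (Complex.abs_re_le_norm _).trans h4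
  rw [← h3] at h5
  have h6 := abs_add_le (Real.log ‖1 + x‖ - (x - x ^ 2 / 2).re)
    ((x - x ^ 2 / 2).re - (-q.re) * v - (-(q ^ 2).re) / 2 * v ^ 2 - 2 * (q ^ 2).re * h)
  have h7 : Real.log ‖1 + x‖ - (x - x ^ 2 / 2).re +
      ((x - x ^ 2 / 2).re - (-q.re) * v - (-(q ^ 2).re) / 2 * v ^ 2 - 2 * (q ^ 2).re * h) =
      Real.log ‖1 + x‖ - (-q.re) * v - (-(q ^ 2).re) / 2 * v ^ 2 - 2 * (q ^ 2).re * h := by ring
  rw [h7] at h6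
  nlinarith

theorem t3_inv_re (ζ : ℂ) : ζ⁻¹.re = ζ.re / ‖ζ‖ ^ 2 := by
  rw [Complex.inv_re, Complex.normSq_eq_norm_sq]

theorem t3_inv_im (ζ : ℂ) : ζ⁻¹.im = -ζ.im / ‖ζ‖ ^ 2 := by
  rw [Complex.inv_im, Complex.normSq_eq_norm_sq]

theorem t3_inv_sq_re (ζ : ℂ) : (ζ⁻¹ ^ 2).re = (ζ.re ^ 2 - ζ.im ^ 2) / ‖ζ‖ ^ 4 := by
  rw [sq, Complex.mul_re, t3_inv_re, t3_inv_im]; ring

theorem t3_inv_le {y : ℝ} (hy : 0 < y) {ζ : ℂ} (hζ : ζ ∈ Hy y) : ‖ζ⁻¹‖ ≤ y⁻¹ := by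
  rw [norm_inv]; exact inv_anti₀ hy (t3_norm hζ)

theorem TE_A' {y : ℝ} (hy : 0 < y) : TE (Hy y) (fun ζ w t => Real.log ‖Zf w t ζ‖) jA := by
  obtain ⟨e0, he0, hA⟩ := alive_small' hy
  obtain ⟨C, e1, hC, he1, hB⟩ := Zf_expand hy
  set m := y⁻¹ with hm
  have hmp : 0 < m := inv_pos.2 hy
  set K := 8 * m ^ 3 + C * m + m * ((2 * m + C) * m) + ((2 * m + C) * m) ^ 2 with hK
  have hKp : 0 ≤ K := by positivity
  refine ⟨K + m + 2 * m ^ 2, min (min e0 e1) (min 1 (y / 4)), by positivity, fun ζ hζ => ?_⟩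
  have hq := t3_inv_le hy hζ
  have hζ0 : ζ ≠ 0 := norm_pos_iff.1 (hy.trans_le (t3_norm hζ))
  have ea : (jA ζ).a = -ζ⁻¹.re := by rw [t3_inv_re]; simp only [jA]; ring
  have eb : (jA ζ).b = -(ζ⁻¹ ^ 2).re := by rw [t3_inv_sq_re]; simp only [jA]; ring
  have ec : (jA ζ).c = 2 * (ζ⁻¹ ^ 2).re := by rw [t3_inv_sq_re]; simp only [jA]; ring
  have b1 : |ζ⁻¹.re| ≤ m := (Complex.abs_re_le_norm _).trans hq
  have b2 : |(ζ⁻¹ ^ 2).re| ≤ m ^ 2 := by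
    refine (Complex.abs_re_le_norm _).trans ?_
    rw [norm_pow]; gcongr
  have hm2 : 0 ≤ m ^ 2 := by positivity
  refine ⟨?_, ?_, ?_, fun w h e he hs => ?_⟩
  · rw [ea, abs_neg]; linarith
  · rw [eb, abs_neg]; linarith
  · rw [ec, abs_mul, abs_two]; linarith
  have k0 : e ≤ e0 := he.trans ((min_le_left _ _).trans (min_le_left _ _))
  have k1 : e ≤ e1 := he.trans ((min_le_left _ _).trans (min_le_right _ _))
  have k2 : e ≤ 1 := he.trans ((min_le_right _ _).trans (min_le_left _ _))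
  have k3 : e ≤ y / 4 := he.trans ((min_le_right _ _).trans (min_le_right _ _))
  have h1 := hB ζ hζ w h e k1 hs
  obtain ⟨hd, -, h2, -⟩ := hA ζ hζ w h e k0 hs h ⟨hs.1, le_rfl⟩
  obtain ⟨h0, hh, hep, hw⟩ := hs
  set r := Zf w h ζ - (ζ - ((w h - w 0 : ℝ) : ℂ) + 2 * (h : ℂ) / ζ) with hr
  have hD : -((w h - w 0 : ℝ) : ℂ) + 2 * (h : ℂ) * ζ⁻¹ + r = Zf w h ζ - ζ := by
    rw [hr, div_eq_mul_inv]; ring
  have hx : ‖(-((w h - w 0 : ℝ) : ℂ) + 2 * (h : ℂ) * ζ⁻¹ + r) * ζ⁻¹‖ ≤ 2 * e * m := by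
    rw [hD, norm_mul]; gcongr
  have hem : 2 * e * m ≤ 1 / 2 := by
    rw [hm, ← div_eq_mul_inv, div_le_iff₀ hy]; linarith
  have key := t3_logA hq (hw h ⟨h0, le_rfl⟩) h0 hh h1 hep k2 hC hx hem
  have hZ : Zf w h ζ = ζ * (1 + (-((w h - w 0 : ℝ) : ℂ) + 2 * (h : ℂ) * ζ⁻¹ + r) * ζ⁻¹) := by
    rw [hD]; field_simp; ring
  have hZ0 : Zf w h ζ ≠ 0 := t3_ne hd ⟨h0, le_rfl⟩
  have hlog : Real.log ‖Zf w h ζ‖ = Real.log ‖ζ‖ +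
      Real.log ‖1 + (-((w h - w 0 : ℝ) : ℂ) + 2 * (h : ℂ) * ζ⁻¹ + r) * ζ⁻¹‖ := by
    rw [← Real.log_mul (norm_ne_zero_iff.2 hζ0), ← norm_mul, ← hZ]
    intro h3
    apply hZ0
    rw [hZ, norm_eq_zero.1 h3, mul_zero]
  have ev : (jA ζ).v = Real.log ‖ζ‖ := rfl
  simp only [ea, eb, ec, ev, hlog, add_sub_cancel_left]
  refine key.trans ?_
  have : K ≤ K + m + 2 * m ^ 2 := by linarith
  gcongr

theorem t3_inv_close {y e : ℝ} (hy : 0 < y) {Z ζ : ℂ} (hZ : Z ∈ Hy (y / 2)) (hζ : ζ ∈ Hy y)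
    (h : ‖Z - ζ‖ ≤ 2 * e) : ‖Z⁻¹‖ ≤ (y / 2)⁻¹ ∧ ‖ζ⁻¹‖ ≤ (y / 2)⁻¹ ∧
      ‖Z⁻¹ - ζ⁻¹‖ ≤ (y / 2)⁻¹ ^ 2 * (2 * e) := by
  have hζ' : ζ ∈ Hy (y / 2) := le_trans (by linarith : y / 2 ≤ y) hζ
  have hy2 : 0 < y / 2 := by positivity
  refine ⟨t3_inv_le hy2 hZ, t3_inv_le hy2 hζ', ?_⟩
  have h1 := h50_lip hy2 (t3_norm hZ) (t3_norm hζ')
  have h2 : (2 / Z - 2 / ζ) = 2 * (Z⁻¹ - ζ⁻¹) := by ring
  rw [h2, norm_mul, Complex.norm_two] at h1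
  have h3 : 2 / (y / 2) ^ 2 * ‖Z - ζ‖ ≤ 2 / (y / 2) ^ 2 * (2 * e) := by gcongr
  have h4 : 2 / (y / 2) ^ 2 * (2 * e) = 2 * ((y / 2)⁻¹ ^ 2 * (2 * e)) := by
    field_simp
  linarith

theorem t3_sq_close {a b m d : ℝ} (ha : |a| ≤ m) (hb : |b| ≤ m) (hd : |a - b| ≤ d) :
    |a ^ 2 - b ^ 2| ≤ 2 * m * d := by
  have : a ^ 2 - b ^ 2 = (a + b) * (a - b) := by ring
  rw [this, abs_mul]
  have h1 : |a + b| ≤ 2 * m := (abs_add_le _ _).trans (by linarith)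
  have hm : 0 ≤ m := (abs_nonneg _).trans ha
  gcongr

theorem TE_L' {y : ℝ} (hy : 0 < y) : TE (Hy y) (fun ζ w t => Real.log (Zf w t ζ).im) jL := by
  obtain ⟨e0, he0, hA⟩ := alive_small' hy
  set m := (y / 2)⁻¹ with hm
  have hmp : 0 < m := by positivity
  refine ⟨2 * m ^ 2 + 2 * (2 * m * (m ^ 2 * 2)), e0, he0, fun ζ hζ => ?_⟩
  have hζ' : ζ ∈ Hy (y / 2) := le_trans (by linarith : y / 2 ≤ y) hζ
  have hq := t3_inv_le (by positivity) hζ'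
  have ec : (jL ζ).c = -(2 * ‖ζ⁻¹‖ ^ 2) := by simp only [jL, norm_inv]; ring
  refine ⟨?_, ?_, ?_, fun w h e he hs => ?_⟩
  · simp only [jL, abs_zero]; positivity
  · simp only [jL, abs_zero]; positivity
  · rw [ec, abs_neg, abs_of_nonneg (by positivity)]
    have : ‖ζ⁻¹‖ ^ 2 ≤ m ^ 2 := by gcongr
    have : 0 ≤ 2 * (2 * m * (m ^ 2 * 2)) := by positivity
    linarith
  have hA' := hA ζ hζ w h e he hs
  obtain ⟨h0, hh, hep, hw⟩ := hs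
  have hd := (hA' h ⟨h0, le_rfl⟩).1
  have hc : ContinuousOn (fun s => 2 / ‖Zf w s ζ‖ ^ 2) (Icc 0 h) :=
    continuousOn_const.div ((continuousOn_Zf h0 hd).norm.pow 2) fun s hs =>
      pow_ne_zero _ (norm_ne_zero_iff.2 (t3_ne hd hs))
  have key := t3_int (c := 2 * ‖ζ⁻¹‖ ^ 2) (K := 2 * (2 * m * (m ^ 2 * (2 * e)))) h0 hc
    fun s hs => by
      obtain ⟨a1, a2, a3⟩ := t3_inv_close hy (hA' s hs).2.1 hζ (hA' s hs).2.2.1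
      have := t3_sq_close (a := ‖(Zf w s ζ)⁻¹‖) (b := ‖ζ⁻¹‖) (m := m) (by rwa [abs_norm])
        (by rwa [abs_norm]) ((abs_norm_sub_norm_le _ _).trans a3)
      have e1 : 2 / ‖Zf w s ζ‖ ^ 2 - 2 * ‖ζ⁻¹‖ ^ 2 = 2 * (‖(Zf w s ζ)⁻¹‖ ^ 2 - ‖ζ⁻¹‖ ^ 2) := by
        rw [norm_inv (Zf w s ζ)]; ring
      rw [e1, Real.norm_eq_abs, abs_mul, abs_two]
      gcongr
  have hip : 0 < ζ.im := t3_H hy hζ
  have ev : (jL ζ).v = Real.log ζ.im := rfl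
  have ea : (jL ζ).a = 0 := rfl
  have eb : (jL ζ).b = 0 := rfl
  simp only [ev, ea, eb, ec]
  rw [im_Zf_eq h0 hd, Real.log_mul hip.ne' (Real.exp_pos _).ne', Real.log_exp]
  rw [Real.norm_eq_abs, smul_eq_mul] at key
  have : Real.log ζ.im + (-∫ s in (0 : ℝ)..h, 2 / ‖Zf w s ζ‖ ^ 2) - Real.log ζ.im -
      0 * (w h - w 0) - 0 / 2 * (w h - w 0) ^ 2 - -(2 * ‖ζ⁻¹‖ ^ 2) * h =
      -((∫ s in (0 : ℝ)..h, 2 / ‖Zf w s ζ‖ ^ 2) - h * (2 * ‖ζ⁻¹‖ ^ 2)) := by ring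
  rw [this, abs_neg]
  refine key.trans ?_
  calc 2 * (2 * m * (m ^ 2 * (2 * e))) * h ≤ 2 * (2 * m * (m ^ 2 * (2 * e))) * e ^ 2 := by gcongr
    _ = 2 * (2 * m * (m ^ 2 * 2)) * e ^ 3 := by ring
    _ ≤ _ := by
      have : 0 ≤ 2 * m ^ 2 := by positivity
      gcongr; linarith

theorem TE_U' {y : ℝ} (hy : 0 < y) : TE (Hy y ×ˢ Ioi (0 : ℝ))
    (fun p w t => Real.log (p.2 * mm w t p.1)) (fun p => jU p.1 p.2) := by
  obtain ⟨e0, he0, hA⟩ := alive_small' hy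
  set m := (y / 2)⁻¹ with hm
  have hmp : 0 < m := by positivity
  refine ⟨4 * m ^ 2 + 4 * (2 * m * (m ^ 2 * 2)), e0, he0, ?_⟩
  rintro ⟨ζ, u⟩ ⟨hζ, hu⟩
  replace hζ : ζ ∈ Hy y := hζ
  replace hu : 0 < u := hu
  have hζ' : ζ ∈ Hy (y / 2) := le_trans (by linarith : y / 2 ≤ y) hζ
  have hq := t3_inv_le (by positivity) hζ'
  have ec : (jU ζ u).c = -(4 * ζ⁻¹.im ^ 2) := by rw [t3_inv_im]; simp only [jU]; ring
  refine ⟨?_, ?_, ?_, fun w h e he hs => ?_⟩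
  · simp only [jU, abs_zero]; positivity
  · simp only [jU, abs_zero]; positivity
  · simp only
    rw [ec, abs_neg, abs_of_nonneg (by positivity)]
    have h1 : |ζ⁻¹.im| ≤ m := (Complex.abs_im_le_norm _).trans hq
    have : ζ⁻¹.im ^ 2 ≤ m ^ 2 := by rw [← sq_abs]; gcongr
    have : 0 ≤ 4 * (2 * m * (m ^ 2 * 2)) := by positivity
    linarith
  have hA' := hA ζ hζ w h e he hs
  obtain ⟨h0, hh, hep, hw⟩ := hs
  have hd := (hA' h ⟨h0, le_rfl⟩).1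
  have hc : ContinuousOn (fun s => 4 * (Zf w s ζ).im ^ 2 / ‖Zf w s ζ‖ ^ 4) (Icc 0 h) :=
    (continuousOn_const.mul ((Complex.continuous_im.comp_continuousOn
      (continuousOn_Zf h0 hd)).pow 2)).div ((continuousOn_Zf h0 hd).norm.pow 4) fun s hs =>
      pow_ne_zero _ (norm_ne_zero_iff.2 (t3_ne hd hs))
  have key := t3_int (c := 4 * ζ⁻¹.im ^ 2) (K := 4 * (2 * m * (m ^ 2 * (2 * e)))) h0 hc
    fun s hs => by
      obtain ⟨a1, a2, a3⟩ := t3_inv_close hy (hA' s hs).2.1 hζ (hA' s hs).2.2.1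
      have := t3_sq_close (a := (Zf w s ζ)⁻¹.im) (b := ζ⁻¹.im) (m := m) (d := m ^ 2 * (2 * e))
        ((Complex.abs_im_le_norm _).trans a1) ((Complex.abs_im_le_norm _).trans a2)
        (by rw [← Complex.sub_im]; exact (Complex.abs_im_le_norm _).trans a3)
      have e1 : 4 * (Zf w s ζ).im ^ 2 / ‖Zf w s ζ‖ ^ 4 - 4 * ζ⁻¹.im ^ 2 =
          4 * ((Zf w s ζ)⁻¹.im ^ 2 - ζ⁻¹.im ^ 2) := by
        rw [t3_inv_im (Zf w s ζ)]; ring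
      rw [e1, Real.norm_eq_abs, abs_mul, abs_of_pos (by norm_num : (0 : ℝ) < 4)]
      gcongr
  have ev : (jU ζ u).v = Real.log u := rfl
  have ea : (jU ζ u).a = 0 := rfl
  have eb : (jU ζ u).b = 0 := rfl
  simp only [ev, ea, eb, ec]
  rw [mm_eq h0 hd, Real.log_mul hu.ne' (Real.exp_pos _).ne', Real.log_exp]
  rw [Real.norm_eq_abs, smul_eq_mul] at key
  have : Real.log u + (-∫ s in (0 : ℝ)..h, 4 * (Zf w s ζ).im ^ 2 / ‖Zf w s ζ‖ ^ 4) - Real.log u -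
      0 * (w h - w 0) - 0 / 2 * (w h - w 0) ^ 2 - -(4 * ζ⁻¹.im ^ 2) * h =
      -((∫ s in (0 : ℝ)..h, 4 * (Zf w s ζ).im ^ 2 / ‖Zf w s ζ‖ ^ 4) - h * (4 * ζ⁻¹.im ^ 2)) := by
    ring
  rw [this, abs_neg]
  refine key.trans ?_
  calc 4 * (2 * m * (m ^ 2 * (2 * e))) * h ≤ 4 * (2 * m * (m ^ 2 * (2 * e))) * e ^ 2 := by gcongr
    _ = 4 * (2 * m * (m ^ 2 * 2)) * e ^ 3 := by ring
    _ ≤ _ := by
      have : 0 ≤ 4 * m ^ 2 := by positivity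
      gcongr; linarith

/-- Jet of `‖Z‖`. -/
noncomputable def jN (ζ : ℂ) : Jet :=
  ⟨‖ζ‖, -ζ.re / ‖ζ‖, ζ.im ^ 2 / ‖ζ‖ ^ 3, 2 * (ζ.re ^ 2 - ζ.im ^ 2) / ‖ζ‖ ^ 3⟩

theorem t3_norm_exp {x : ℂ} (hx : ‖x‖ ≤ 1 / 2) :
    |‖1 + x‖ - (1 + x.re + x.im ^ 2 / 2)| ≤ 2 * ‖x‖ ^ 3 := by
  have ha : |x.re| ≤ ‖x‖ := Complex.abs_re_le_norm x
  have hb : |x.im| ≤ ‖x‖ := Complex.abs_im_le_norm x
  have hN : 1 / 2 ≤ ‖1 + x‖ := by
    have := norm_sub_le (1 + x) x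
    rw [add_sub_cancel_right, norm_one] at this
    linarith
  have hT : 1 / 2 ≤ 1 + x.re + x.im ^ 2 / 2 := by
    have := (abs_le.1 ha).1
    nlinarith [sq_nonneg x.im]
  have hsq : ‖1 + x‖ ^ 2 = (1 + x.re) ^ 2 + x.im ^ 2 := by
    rw [← Complex.normSq_eq_norm_sq, Complex.normSq_apply]; simp; ring
  set N := ‖1 + x‖
  set T := 1 + x.re + x.im ^ 2 / 2 with hTdef
  have h1 : (N - T) * (N + T) = -(x.re * x.im ^ 2) - x.im ^ 4 / 4 := by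
    have : (N - T) * (N + T) = N ^ 2 - T ^ 2 := by ring
    rw [this, hsq, hTdef]; ring
  have hb2 : x.im ^ 2 ≤ ‖x‖ ^ 2 := by rw [← sq_abs]; gcongr
  have h2 : |x.re * x.im ^ 2| ≤ ‖x‖ ^ 3 := by
    rw [abs_mul, abs_of_nonneg (sq_nonneg x.im)]
    calc |x.re| * x.im ^ 2 ≤ ‖x‖ * ‖x‖ ^ 2 := by gcongr
      _ = _ := by ring
  have h3 : x.im ^ 4 ≤ ‖x‖ ^ 3 := by
    calc x.im ^ 4 = (x.im ^ 2) ^ 2 := by ring
      _ ≤ (‖x‖ ^ 2) ^ 2 := by gcongr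
      _ = ‖x‖ ^ 3 * ‖x‖ := by ring
      _ ≤ ‖x‖ ^ 3 * 1 := by gcongr; linarith
      _ = _ := by ring
  have h4 : |(N - T) * (N + T)| ≤ 2 * ‖x‖ ^ 3 := by
    rw [h1, abs_le]
    have := abs_le.1 h2
    have : 0 ≤ x.im ^ 4 := by positivity
    have : 0 ≤ ‖x‖ ^ 3 := by positivity
    constructor <;> linarith
  rw [abs_mul, abs_of_pos (by linarith : 0 < N + T)] at h4
  nlinarith [abs_nonneg (N - T)]

theorem t3_normN {p r : ℂ} {n v h e m C : ℝ} (hn : 0 < n) (hp : ‖p‖ = 1) (hq : n⁻¹ ≤ m)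
    (hv : |v| ≤ e) (h0 : 0 ≤ h) (hh : h ≤ e ^ 2) (hr : ‖r‖ ≤ C * e ^ 3) (hep : 0 < e)
    (he1 : e ≤ 1) (hC : 0 ≤ C)
    (hD : ‖-(v : ℂ) + 2 * (h : ℂ) * (((n⁻¹ : ℝ) : ℂ) * p) + r‖ ≤ 2 * e) (hem : 2 * e * m ≤ 1 / 2) :
    |n * ‖1 + (-(v : ℂ) + 2 * (h : ℂ) * (((n⁻¹ : ℝ) : ℂ) * p) + r) * (((n⁻¹ : ℝ) : ℂ) * p)‖ - n -
      (-p.re) * v - (p.im ^ 2 * n⁻¹) / 2 * v ^ 2 - 2 * (p ^ 2).re * n⁻¹ * h| ≤
      (16 * m ^ 2 + C + m * (2 * m + C) + m * (2 * m + C) ^ 2) * e ^ 3 := by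
  have hni : 0 < n⁻¹ := inv_pos.2 hn
  have hm : 0 ≤ m := hni.le.trans hq
  set k := n⁻¹ with hk
  have hnk : n * k = 1 := mul_inv_cancel₀ hn.ne'
  set D := -(v : ℂ) + 2 * (h : ℂ) * ((k : ℂ) * p) + r with hDdef
  have hxn : ‖D * ((k : ℂ) * p)‖ = ‖D‖ * k := by
    rw [norm_mul, norm_mul, hp, Complex.norm_real, Real.norm_eq_abs, abs_of_pos hni, mul_one]
  have hx : ‖D * ((k : ℂ) * p)‖ ≤ 1 / 2 := by
    rw [hxn]; refine le_trans ?_ hem; gcongr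
  have h1 := t3_norm_exp hx
  have h2 : n * (2 * ‖D * ((k : ℂ) * p)‖ ^ 3) ≤ 16 * m ^ 2 * e ^ 3 := by
    rw [hxn]
    calc n * (2 * (‖D‖ * k) ^ 3) = 2 * ‖D‖ ^ 3 * k ^ 2 * (n * k) := by ring
      _ = 2 * ‖D‖ ^ 3 * k ^ 2 := by rw [hnk, mul_one]
      _ ≤ 2 * (2 * e) ^ 3 * m ^ 2 := by gcongr
      _ = _ := by ring
  set δ := (2 * (h : ℂ) * ((k : ℂ) * p) + r) * p with hδ
  have he32 : e ^ 3 ≤ e ^ 2 := pow_le_pow_of_le_one hep.le he1 (by norm_num)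
  have he43 : e ^ 4 ≤ e ^ 3 := pow_le_pow_of_le_one hep.le he1 (by norm_num)
  have hδb : ‖δ‖ ≤ (2 * m + C) * e ^ 2 := by
    have k1 : ‖2 * (h : ℂ) * ((k : ℂ) * p)‖ ≤ 2 * e ^ 2 * m := by
      rw [norm_mul, norm_mul, norm_mul, hp, Complex.norm_real, Complex.norm_real, Real.norm_eq_abs,
        Real.norm_eq_abs, abs_of_nonneg h0, abs_of_pos hni, Complex.norm_two, mul_one]
      gcongr
    have k2 : ‖r‖ ≤ C * e ^ 2 := hr.trans (by gcongr)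
    calc ‖δ‖ ≤ ‖2 * (h : ℂ) * ((k : ℂ) * p)‖ + ‖r‖ := by
          rw [hδ, norm_mul, hp, mul_one]; exact norm_add_le _ _
      _ ≤ 2 * e ^ 2 * m + C * e ^ 2 := by gcongr
      _ = _ := by ring
  have hre : (D * ((k : ℂ) * p)).re = k * (-(v * p.re) + 2 * h * k * (p ^ 2).re + (r * p).re) := by
    have : D * ((k : ℂ) * p) = (k : ℂ) * (-((v : ℂ) * p) + ((2 * h * k : ℝ) : ℂ) * p ^ 2 + r * p) := by
      simp only [hDdef]; push_cast; ring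
    rw [this]
    simp only [Complex.add_re, Complex.neg_re, Complex.re_ofReal_mul]
  have him : (D * ((k : ℂ) * p)).im = k * (-(v * p.im) + δ.im) := by
    have : D * ((k : ℂ) * p) = (k : ℂ) * (-((v : ℂ) * p) + δ) := by
      simp only [hDdef, hδ]; ring
    rw [this]
    simp only [Complex.add_im, Complex.neg_im, Complex.im_ofReal_mul]
  have h3 : n * (1 + (D * ((k : ℂ) * p)).re + (D * ((k : ℂ) * p)).im ^ 2 / 2) - n - (-p.re) * v -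
      (p.im ^ 2 * k) / 2 * v ^ 2 - 2 * (p ^ 2).re * k * h =
      (r * p).re + (-(k * (v * p.im * δ.im))) + k * δ.im ^ 2 / 2 := by
    rw [hre, him]
    have e1 : n * (1 + k * (-(v * p.re) + 2 * h * k * (p ^ 2).re + (r * p).re) +
        (k * (-(v * p.im) + δ.im)) ^ 2 / 2) = n + (n * k) * (-(v * p.re) + 2 * h * k * (p ^ 2).re +
        (r * p).re) + (n * k) * k * (-(v * p.im) + δ.im) ^ 2 / 2 := by ring
    rw [e1, hnk]; ring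
  have hpim : |p.im| ≤ 1 := (Complex.abs_im_le_norm p).trans hp.le
  have hδim : |δ.im| ≤ (2 * m + C) * e ^ 2 := (Complex.abs_im_le_norm δ).trans hδb
  have k1 : |(r * p).re| ≤ C * e ^ 3 := by
    refine (Complex.abs_re_le_norm _).trans ?_
    rwa [norm_mul, hp, mul_one]
  have k2 : |-(k * (v * p.im * δ.im))| ≤ m * (2 * m + C) * e ^ 3 := by
    rw [abs_neg, abs_mul, abs_mul, abs_mul, abs_of_pos hni]
    calc k * (|v| * |p.im| * |δ.im|) ≤ m * (e * 1 * ((2 * m + C) * e ^ 2)) := by gcongr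
      _ = _ := by ring
  have k3 : |k * δ.im ^ 2 / 2| ≤ m * (2 * m + C) ^ 2 * e ^ 3 := by
    rw [abs_of_nonneg (by positivity)]
    have : 0 ≤ k * δ.im ^ 2 := by positivity
    calc k * δ.im ^ 2 / 2 ≤ k * |δ.im| ^ 2 := by rw [sq_abs]; linarith
      _ ≤ m * ((2 * m + C) * e ^ 2) ^ 2 := by gcongr
      _ = m * (2 * m + C) ^ 2 * e ^ 4 := by ring
      _ ≤ _ := by gcongr
  have h4 := (abs_add_three _ _ _).trans (add_le_add (add_le_add k1 k2) k3)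
  rw [← h3] at h4
  have h5 : |n * (‖1 + D * ((k : ℂ) * p)‖ -
      (1 + (D * ((k : ℂ) * p)).re + (D * ((k : ℂ) * p)).im ^ 2 / 2))| ≤ 16 * m ^ 2 * e ^ 3 := by
    rw [abs_mul, abs_of_pos hn]
    exact le_trans (by gcongr) h2
  have h6 := (abs_add_le _ _).trans (add_le_add h5 h4)
  refine le_trans (le_of_eq ?_) (h6.trans (le_of_eq ?_))
  · congr 1; ring
  · ring

/-- `‖Z‖ = ‖ζ‖ ‖1 + x‖`, `‖1 + x‖ = 1 + re x + (im x)²/2 + O(‖x‖³)`, `‖x‖ ≤ C e / ‖ζ‖`. -/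
theorem TE_N' {y : ℝ} (hy : 0 < y) : TE (Hy y) (fun ζ w t => ‖Zf w t ζ‖) jN := by
  obtain ⟨e0, he0, hA⟩ := alive_small' hy
  obtain ⟨C, e1, hC, he1, hB⟩ := Zf_expand hy
  set m := y⁻¹ with hm
  have hmp : 0 < m := inv_pos.2 hy
  set K := 16 * m ^ 2 + C + m * (2 * m + C) + m * (2 * m + C) ^ 2 with hK
  have hKp : 0 ≤ K := by positivity
  refine ⟨K + 1 + 2 * m, min (min e0 e1) (min 1 (y / 4)), by positivity, fun ζ hζ => ?_⟩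
  have hn : 0 < ‖ζ‖ := hy.trans_le (t3_norm hζ)
  have hζ0 : ζ ≠ 0 := norm_pos_iff.1 hn
  have hq : ‖ζ‖⁻¹ ≤ m := inv_anti₀ hy (t3_norm hζ)
  set p : ℂ := ((‖ζ‖ : ℝ) : ℂ) * ζ⁻¹ with hpdef
  have hp : ‖p‖ = 1 := by
    rw [hpdef, norm_mul, norm_inv, Complex.norm_real, norm_norm, mul_inv_cancel₀ hn.ne']
  have hkp : ((‖ζ‖⁻¹ : ℝ) : ℂ) * p = ζ⁻¹ := by
    rw [hpdef, ← mul_assoc, ← Complex.ofReal_mul, inv_mul_cancel₀ hn.ne']; simp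
  have pre : p.re = ζ.re / ‖ζ‖ := by
    rw [hpdef, Complex.re_ofReal_mul, t3_inv_re]; field_simp
  have pim : p.im = -ζ.im / ‖ζ‖ := by
    rw [hpdef, Complex.im_ofReal_mul, t3_inv_im]; field_simp
  have ea : (jN ζ).a = -p.re := by rw [pre]; simp only [jN]; ring
  have eb : (jN ζ).b = p.im ^ 2 * ‖ζ‖⁻¹ := by rw [pim]; simp only [jN]; ring
  have ec : (jN ζ).c = 2 * (p ^ 2).re * ‖ζ‖⁻¹ := by
    rw [sq p, Complex.mul_re, pre, pim]; simp only [jN]; ring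
  have b1 : |p.re| ≤ 1 := (Complex.abs_re_le_norm _).trans hp.le
  have b2 : |p.im| ≤ 1 := (Complex.abs_im_le_norm _).trans hp.le
  have b3 : |(p ^ 2).re| ≤ 1 := by
    refine (Complex.abs_re_le_norm _).trans ?_
    rw [norm_pow, hp]; norm_num
  have hni : 0 < ‖ζ‖⁻¹ := inv_pos.2 hn
  refine ⟨?_, ?_, ?_, fun w h e he hs => ?_⟩
  · rw [ea, abs_neg]; linarith
  · rw [eb, abs_mul, abs_pow, abs_of_pos hni]
    have : |p.im| ^ 2 * ‖ζ‖⁻¹ ≤ 1 ^ 2 * m := by gcongr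
    linarith
  · rw [ec, abs_mul, abs_mul, abs_two, abs_of_pos hni]
    have : 2 * |(p ^ 2).re| * ‖ζ‖⁻¹ ≤ 2 * 1 * m := by gcongr
    linarith
  have k0 : e ≤ e0 := he.trans ((min_le_left _ _).trans (min_le_left _ _))
  have k1 : e ≤ e1 := he.trans ((min_le_left _ _).trans (min_le_right _ _))
  have k2 : e ≤ 1 := he.trans ((min_le_right _ _).trans (min_le_left _ _))
  have k3 : e ≤ y / 4 := he.trans ((min_le_right _ _).trans (min_le_right _ _))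
  have h1 := hB ζ hζ w h e k1 hs
  obtain ⟨hd, -, h2, -⟩ := hA ζ hζ w h e k0 hs h ⟨hs.1, le_rfl⟩
  obtain ⟨h0, hh, hep, hw⟩ := hs
  set r := Zf w h ζ - (ζ - ((w h - w 0 : ℝ) : ℂ) + 2 * (h : ℂ) / ζ) with hr
  have hD : -((w h - w 0 : ℝ) : ℂ) + 2 * (h : ℂ) * (((‖ζ‖⁻¹ : ℝ) : ℂ) * p) + r = Zf w h ζ - ζ := by
    rw [hkp, hr, div_eq_mul_inv]; ring
  have hem : 2 * e * m ≤ 1 / 2 := by
    rw [hm, ← div_eq_mul_inv, div_le_iff₀ hy]; linarith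
  have key := t3_normN hn hp hq (hw h ⟨h0, le_rfl⟩) h0 hh h1 hep k2 hC (by rwa [hD]) hem
  have hZ : ‖ζ‖ * ‖1 + (-((w h - w 0 : ℝ) : ℂ) + 2 * (h : ℂ) * (((‖ζ‖⁻¹ : ℝ) : ℂ) * p) + r) *
      (((‖ζ‖⁻¹ : ℝ) : ℂ) * p)‖ = ‖Zf w h ζ‖ := by
    rw [← norm_mul, hD, hkp]
    congr 1; field_simp; ring
  rw [hZ] at key
  have ev : (jN ζ).v = ‖ζ‖ := rfl
  simp only [ea, eb, ec, ev]
  refine key.trans ?_
  have : K ≤ K + 1 + 2 * m := by linarith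
  gcongr

end Crest.Agent.R162
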