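import Crest.Agent.R162.O3
import Crest.Agent.R162.M2
import Crest.Agent.R162.P4
import Crest.Agent.R162.L7

/-! Row 162, block U: the stopping times. -/

set_option autoImplicit false
open MeasureTheory ProbabilityTheory Set Filter Topology Metric
open scoped ENNReal NNReal ComplexConjugate

namespace Crest.Agent.R162.U

/-- First time at which `ζ` is alive and its conformal radius has dropped below the fraction `θ`. -/
noncomputable def tau (ζ : ℂ) (θ : ℝ) : Path → ℝ≥0∞ :=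
  ft (fun w t => ζ ∈ dom w t ∧ mm w t ζ < θ)

/-- The success condition of the worm. -/
def WormC (κ s1 ε s : ℝ) (X : ℝ≥0∞) (B : Set ℂ) (f : ℂ → ℂ) (ζ : ℂ) (w : Path) (t : ℝ) : Prop :=
  ζ ∈ dom w t ∧ 1 / 8 < mm w t ζ ∧ s < Sn (Zf w t ζ) ∧ X < mass κ s1 ε f w (Ioc 0 t) B

noncomputable def sig (κ s1 ε s : ℝ) (X : ℝ≥0∞) (B : Set ℂ) (f : ℂ → ℂ) (ζ : ℂ) : Path → ℝ≥0∞ :=
  ft (WormC κ s1 ε s X B f ζ)

private theorem u1_mm {w : Path} {ζ : ℂ} {t : ℝ} (ht : 0 ≤ t) (hζ : ζ ∈ dom w t) :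
    ContinuousWithinAt (fun s => mm w s ζ) (Ici 0) t := by
  simpa only [one_mul] using L7_state (fun _ u => u) continuousOn_snd w one_pos ht hζ

private theorem u1_Sn {w : Path} {ζ : ℂ} {t : ℝ} (ht : 0 ≤ t) (hζ : ζ ∈ dom w t) :
    ContinuousWithinAt (fun s => Sn (Zf w s ζ)) (Ici 0) t := by
  refine L7_state (fun z _ => Sn z) ?_ w one_pos ht hζ
  refine ContinuousOn.div (by fun_prop) (by fun_prop) fun p hp => ?_
  exact ne_of_gt (lt_of_lt_of_le hp.1 (Complex.im_le_norm _))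

private theorem u1_alive {w : Path} {ζ : ℂ} {t : ℝ} (ht : 0 ≤ t) (hζ : ζ ∈ dom w t) :
    ∀ᶠ s in 𝓝[>] t, ζ ∈ dom w s := by
  obtain ⟨t', htt, h⟩ := alive_right ht hζ
  filter_upwards [Ioo_mem_nhdsGT htt] with s hs
  exact dom_anti w (ht.trans hs.1.le) hs.2.le h

private theorem u1_closure {C : Path → ℝ → Prop} {w : Path} (h : ft C w < ⊤) :
    (ft C w).toReal ∈ closure {t | 0 ≤ t ∧ C w t} := by
  refine Metric.mem_closure_iff.2 fun δ hδ => ?_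
  obtain ⟨t, h1, h2, h3⟩ := ft_approx h hδ
  refine ⟨t, ⟨ENNReal.toReal_nonneg.trans h1, h3⟩, ?_⟩
  rw [dist_comm, Real.dist_eq, abs_of_nonneg (sub_nonneg.2 h1)]
  linarith

private theorem u1_meas (t : ℝ) (ζ : ℂ) :
    Measurable fun w : Path => ((w, t, ζ) : Path × ℝ × ℂ) :=
  measurable_id.prodMk measurable_const

private theorem u1_meas_Sn : Measurable Sn := by
  unfold Sn
  fun_prop

/-- `isOpt_ft`: `measurableSet_alive`, `measurable_mm`, `phi_congr_le`, `alive_right`, `mm_anti`. -/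
theorem isOpt_tau (ζ : ℂ) (θ : ℝ) : IsOpt (tau ζ θ) := by
  refine isOpt_ft (fun t => ?_) (fun w w' t _ he h => ?_) fun w t ht h => ?_
  · exact (u1_meas t ζ measurableSet_alive).inter
      (measurableSet_lt (measurable_mm.comp (u1_meas t ζ)) measurable_const)
  · obtain ⟨-, e1, -, e2⟩ := phi_congr_le (le_refl t) he
    rwa [← e1, ← e2]
  · filter_upwards [u1_alive ht h.1, self_mem_nhdsWithin] with s h1 h2
    exact ⟨h1, (mm_anti w ht (le_of_lt h2) ζ).trans_lt h.2⟩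

/-- `ft_approx`, `dom_anti`, `continuousOn_mm`, `not_of_lt_ft`, `mm_zero`. -/
theorem tau_spec {ζ : ℂ} (hζ : ζ ∈ H) {θ : ℝ} (hθ : θ ≤ 1) {w : Path} (h : tau ζ θ w < ⊤) :
    ζ ∈ dom w (tau ζ θ w).toReal ∧ mm w (tau ζ θ w).toReal ζ = θ := by
  have hT : 0 ≤ (tau ζ θ w).toReal := ENNReal.toReal_nonneg
  obtain ⟨t, h1, -, h3⟩ := ft_approx h one_pos
  have hd : ζ ∈ dom w (tau ζ θ w).toReal := dom_anti w hT h1 h3.1
  have hc := u1_mm hT hd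
  refine ⟨hd, le_antisymm ?_ ?_⟩
  · exact (hc.mono fun t ht => ht.1).closure_le (u1_closure h) continuousWithinAt_const
      fun t ht => ht.2.2.le
  · rcases hT.eq_or_lt with h0 | h0
    · rw [← h0, mm_zero w hζ]
      exact hθ
    · have h4 : (tau ζ θ w).toReal ∈ closure (Ico 0 (tau ζ θ w).toReal) := by
        rw [closure_Ico h0.ne]
        exact right_mem_Icc.2 hT
      refine continuousWithinAt_const.closure_le h4 (hc.mono fun t ht => ht.1) fun s hs => ?_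
      exact not_lt.1 fun h5 => not_of_lt_ft hs.1
        ((ENNReal.ofReal_lt_iff_lt_toReal hs.1 h.ne).2 hs.2) ⟨dom_anti w hs.1 hs.2.le hd, h5⟩

theorem tau_lt_top {ζ : ℂ} {θ : ℝ} {w : Path} {t : ℝ} (ht : 0 ≤ t) (hd : ζ ∈ dom w t)
    (h : mm w t ζ < θ) : tau ζ θ w < ⊤ := by
  exact ft_lt_top_iff.2 ⟨t, ht, hd, h⟩

theorem wormC_open {κ s1 ε s : ℝ} {X : ℝ≥0∞} {B : Set ℂ} {f : ℂ → ℂ} {ζ : ℂ} {w : Path} {t : ℝ}
    (ht : 0 ≤ t) (h : WormC κ s1 ε s X B f ζ w t) :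
    ∀ᶠ t' in 𝓝[>] t, WormC κ s1 ε s X B f ζ w t' := by
  have hle : 𝓝[>] t ≤ 𝓝[Ici 0] t := nhdsWithin_mono _ fun s hs => ht.trans (le_of_lt hs)
  filter_upwards [u1_alive ht h.1, hle ((u1_mm ht h.1).eventually (lt_mem_nhds h.2.1)),
    hle ((u1_Sn ht h.1).eventually (lt_mem_nhds h.2.2.1)), self_mem_nhdsWithin] with r h1 h2 h3 h4
  exact ⟨h1, h2, h3, h.2.2.2.trans_le
    (mass_mono κ s1 ε f w (Ioc_subset_Ioc_right (le_of_lt h4)) subset_rfl)⟩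

/-- `isOpt_ft`: `measurable_Zf`, `measurable_mass`, `mass_congr`, `wormC_open`. -/
theorem isOpt_sig (κ s1 ε s : ℝ) (X : ℝ≥0∞) {B : Set ℂ} (hB : MeasurableSet B) {f : ℂ → ℂ}
    (hf : Univ f) (ζ : ℂ) : IsOpt (sig κ s1 ε s X B f ζ) := by
  refine isOpt_ft (fun t => ?_) (fun w w' t _ he h => ?_) fun w t ht h => wormC_open ht h
  · exact (u1_meas t ζ measurableSet_alive).inter
      ((measurableSet_lt measurable_const (measurable_mm.comp (u1_meas t ζ))).inter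
        ((measurableSet_lt measurable_const
          (u1_meas_Sn.comp (measurable_Zf.comp (u1_meas t ζ)))).inter
          (measurableSet_lt measurable_const (measurable_mass hf κ s1 ε hB _))))
  · obtain ⟨-, e1, e2, e3⟩ := phi_congr_le (le_refl t) he
    unfold WormC at h ⊢
    rwa [← e1, ← e2, ← e3, ← mass_congr κ s1 ε f measurableSet_Ioc (fun _ hr => hr.2) he B]

/-- Take `t` with the condition, `t' > t` with the condition (`wormC_open`); up to `t'` the ratio `mm`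
is `> 1/8` (`mm_anti`), so `tau ≥ t' > t ≥ sig`. -/
theorem sig_spec {κ s1 ε s : ℝ} {X : ℝ≥0∞} {B : Set ℂ} {f : ℂ → ℂ} {ζ : ℂ} {θ : ℝ}
    (hθ : θ ≤ 1 / 8) {w : Path} (h : sig κ s1 ε s X B f ζ w < ⊤) :
    sig κ s1 ε s X B f ζ w < tau ζ θ w ∧ ζ ∈ dom w (sig κ s1 ε s X B f ζ w).toReal ∧
      θ ≤ mm w (sig κ s1 ε s X B f ζ w).toReal ζ ∧
      s ≤ Sn (Zf w (sig κ s1 ε s X B f ζ w).toReal ζ) ∧
      ∃ t, 0 ≤ t ∧ ENNReal.ofReal t < tau ζ θ w ∧ X < mass κ s1 ε f w (Ioc 0 t) B := by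
  obtain ⟨t, ht, hC⟩ := ft_lt_top_iff.1 h
  obtain ⟨t', hC', htt⟩ := ((wormC_open ht hC).and self_mem_nhdsWithin).exists
  have htt : t < t' := htt
  have h1 : ENNReal.ofReal t' ≤ tau ζ θ w := by
    refine le_iInf₂ fun r hr => ENNReal.ofReal_le_ofReal (not_lt.1 fun h2 => ?_)
    have := mm_anti w hr.1 h2.le ζ
    linarith [hr.2.2, hC'.2.1]
  have h2 : ENNReal.ofReal t < tau ζ θ w :=
    ((ENNReal.ofReal_lt_ofReal_iff (ht.trans_lt htt)).2 htt).trans_le h1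
  have h3 : sig κ s1 ε s X B f ζ w ≤ ENNReal.ofReal t := ft_le ht hC
  have hT : 0 ≤ (sig κ s1 ε s X B f ζ w).toReal := ENNReal.toReal_nonneg
  have h4 : (sig κ s1 ε s X B f ζ w).toReal ≤ t := ENNReal.toReal_le_of_le_ofReal ht h3
  have hd := dom_anti w hT h4 hC.1
  refine ⟨h3.trans_lt h2, hd, hθ.trans (hC.2.1.le.trans (mm_anti w hT h4 ζ)), ?_,
    t, ht, h2, hC.2.2.2⟩
  exact continuousWithinAt_const.closure_le (u1_closure h) ((u1_Sn hT hd).mono fun t ht => ht.1)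
    fun t ht => ht.2.2.2.1.le

theorem measurable_Sn_stop {τ : Path → ℝ≥0∞} (hτ : Measurable τ) (ζ : ℂ) :
    Measurable (fun w : Path => Sn (Zf w (τ w).toReal ζ)) := by
  exact u1_meas_Sn.comp (measurable_Zf.comp
    (measurable_id.prodMk (hτ.ennreal_toReal.prodMk measurable_const)))

/-- The integrand of `stopG`, multiplied by `θ ^ (2 - d)`. -/
private noncomputable def u1b_F (κ θ : ℝ) (ζ : ℂ) (w : Path) (t : ℝ≥0∞) : ℝ≥0∞ :=
  ENNReal.ofReal (θ ^ (2 - dd κ)) * ((Ici θ).indicator (fun _ => (1 : ℝ≥0∞)) (1 * mm w t.toReal ζ) *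
    ENNReal.ofReal (Gf κ (Zf w t.toReal ζ) (1 * mm w t.toReal ζ)))

private theorem u1b_stop {κ : ℝ} (hκ : 0 < κ) (hκ8 : κ < 8) {P : Measure Path} (hP : IsDrv κ P)
    {ζ : ℂ} (hζ : ζ ∈ H) {θ : ℝ} (hθ0 : 0 < θ) {τ : Path → ℝ≥0∞} (hτ : IsOpt τ) :
    ∫⁻ w in {w | τ w < ⊤}, u1b_F κ θ ζ w (τ w) ∂P ≤
      ENNReal.ofReal (θ ^ (2 - dd κ) * Sn ζ ^ aa κ) := by
  unfold u1b_F
  rw [lintegral_const_mul' _ _ ENNReal.ofReal_ne_top, ENNReal.ofReal_mul (Real.rpow_nonneg hθ0.le _)]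
  refine mul_le_mul' le_rfl ((stopG hκ hκ8 hP hζ one_pos hθ0 hτ).trans_eq ?_)
  rw [Gf, Real.one_rpow, one_mul]

private theorem u1b_eq {κ θ : ℝ} (hθ0 : 0 < θ) {ζ : ℂ} {w : Path} {t : ℝ≥0∞}
    (h : mm w t.toReal ζ = θ) :
    u1b_F κ θ ζ w t = ENNReal.ofReal (Sn (Zf w t.toReal ζ) ^ aa κ) := by
  rw [u1b_F, h, one_mul, indicator_of_mem (mem_Ici.2 (le_refl θ)), one_mul,
    ← ENNReal.ofReal_mul (Real.rpow_nonneg hθ0.le _), Gf, ← mul_assoc, ← Real.rpow_add hθ0]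
  simp

/-- `stopG` with `u = 1`, `ε = θ` at the optional time `min tau sig` (`IsOpt.min`): on
`{tau < ⊤, sig = ⊤}` the integrand is `θ^(d-2) S^a` (`tau_spec`), on `{sig < ⊤}` it is `≥ s^a`
(`sig_spec`, `mm_le_one`). -/
theorem step_G {κ : ℝ} (hκ : 0 < κ) (hκ8 : κ < 8) {P : Measure Path} (hP : IsDrv κ P)
    (s1 ε : ℝ) {s : ℝ} (hs : 0 ≤ s) (X : ℝ≥0∞) {B : Set ℂ} (hB : MeasurableSet B) {f : ℂ → ℂ}
    (hf : Univ f) {ζ : ℂ} (hζ : ζ ∈ H) {θ : ℝ} (hθ0 : 0 < θ) (hθ : θ ≤ 1 / 8) :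
    ∫⁻ w in {w | tau ζ θ w < ⊤ ∧ sig κ s1 ε s X B f ζ w = ⊤},
        ENNReal.ofReal (Sn (Zf w (tau ζ θ w).toReal ζ) ^ aa κ) ∂P +
      ENNReal.ofReal (θ ^ (2 - dd κ) * s ^ aa κ) * P {w | sig κ s1 ε s X B f ζ w < ⊤} ≤
      ENNReal.ofReal (θ ^ (2 - dd κ) * Sn ζ ^ aa κ) := by
  have hτ := isOpt_tau ζ θ
  have hσ := isOpt_sig κ s1 ε s X hB hf ζ
  have h := u1b_stop hκ hκ8 hP hζ hθ0 (hτ.min hσ)
  have hA : MeasurableSet {w | tau ζ θ w < ⊤ ∧ sig κ s1 ε s X B f ζ w = ⊤} :=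
    (measurableSet_lt hτ.meas measurable_const).inter (hσ.meas (measurableSet_singleton ⊤))
  have hB' : MeasurableSet {w | sig κ s1 ε s X B f ζ w < ⊤} :=
    measurableSet_lt hσ.meas measurable_const
  have hd : Disjoint {w | tau ζ θ w < ⊤ ∧ sig κ s1 ε s X B f ζ w = ⊤}
      {w | sig κ s1 ε s X B f ζ w < ⊤} :=
    disjoint_left.2 fun w h1 h2 => (ne_of_lt h2) h1.2
  refine le_trans ?_ h
  refine le_trans ?_ (lintegral_mono_set (s := {w | tau ζ θ w < ⊤ ∧ sig κ s1 ε s X B f ζ w = ⊤} ∪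
      {w | sig κ s1 ε s X B f ζ w < ⊤}) ?_)
  · rw [lintegral_union hB' hd, ← setLIntegral_const]
    refine add_le_add (setLIntegral_mono' hA fun w hw => ?_) (setLIntegral_mono' hB' fun w hw => ?_)
    · have e : min (tau ζ θ w) (sig κ s1 ε s X B f ζ w) = tau ζ θ w := by
        rw [hw.2]
        exact min_eq_left le_top
      rw [e]
      exact (u1b_eq hθ0 (tau_spec hζ (hθ.trans (by norm_num)) hw.1).2).ge
    · obtain ⟨h1, h2, h3, h4, -⟩ := sig_spec (ζ := ζ) hθ hw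
      rw [min_eq_right h1.le, u1b_F, indicator_of_mem (show _ ∈ Ici θ by rwa [one_mul]), one_mul,
        one_mul, ← ENNReal.ofReal_mul (Real.rpow_nonneg hθ0.le _)]
      refine ENNReal.ofReal_le_ofReal (mul_le_mul_of_nonneg_left ?_ (Real.rpow_nonneg hθ0.le _))
      have h5 : 1 ≤ mm w (sig κ s1 ε s X B f ζ w).toReal ζ ^ (dd κ - 2) :=
        Real.one_le_rpow_of_pos_of_le_one_of_nonpos (mm_pos h2)
          (mm_le_one w ENNReal.toReal_nonneg ζ) (by linarith [(dd_mem hκ hκ8).2])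
      have h6 := Real.rpow_le_rpow hs h4 (aa_pos hκ hκ8).le
      exact h6.trans (le_mul_of_one_le_left ((Real.rpow_nonneg hs _).trans h6) h5)
  · rintro w (hw | hw)
    · exact (min_le_left _ _).trans_lt hw.1
    · exact (min_le_right _ _).trans_lt (show sig κ s1 ε s X B f ζ w < ⊤ from hw)

/-- The same without the worm. -/
theorem step_G0 {κ : ℝ} (hκ : 0 < κ) (hκ8 : κ < 8) {P : Measure Path} (hP : IsDrv κ P)
    {ζ : ℂ} (hζ : ζ ∈ H) {θ : ℝ} (hθ0 : 0 < θ) (hθ : θ ≤ 1) :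
    ∫⁻ w in {w | tau ζ θ w < ⊤}, ENNReal.ofReal (Sn (Zf w (tau ζ θ w).toReal ζ) ^ aa κ) ∂P ≤
      ENNReal.ofReal (θ ^ (2 - dd κ) * Sn ζ ^ aa κ) := by
  have hτ := isOpt_tau ζ θ
  refine le_trans ?_ (u1b_stop hκ hκ8 hP hζ hθ0 hτ)
  exact setLIntegral_mono' (measurableSet_lt hτ.meas measurable_const) fun w hw =>
    (u1b_eq hθ0 (tau_spec hζ hθ hw).2).ge

/-- The two one-point estimates with a common constant. -/
def OneP (κ : ℝ) (P : Measure Path) (C : ℝ) : Prop :=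
  1 ≤ C ∧ (∀ ζ ∈ H, ∀ θ : ℝ, 0 < θ → θ ≤ 1 →
    ∫⁻ w in {w | tau ζ θ w < ⊤}, ENNReal.ofReal (Sn (Zf w (tau ζ θ w).toReal ζ) ^ cO κ) ∂P ≤
      ENNReal.ofReal (C * θ ^ (2 - dd κ) * (Sn ζ ^ aa κ + θ * Sn ζ ^ cO κ))) ∧
  (∀ ζ ∈ H, ∀ u : ℝ, 0 < u → P {w | ∃ t, 0 ≤ t ∧ ζ ∈ dom w t ∧ u * mm w t ζ ≤ u / 2} ≤
    ENNReal.ofReal (C * (Sn ζ ^ aa κ + Sn ζ ^ cO κ))) ∧
  ∀ ζ ∈ H, ∀ θ : ℝ, 0 < θ → P {w | tau ζ θ w < ⊤} ≤ ENNReal.ofReal (C * θ ^ (2 - dd κ))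

/-- `stopS` (`u = 1`, `ε = θ`, `tau_spec`), `hit` (`ε = u/2`), `hit'` (`u = 1`, `ft_lt_top_iff`). -/
theorem exists_oneP {κ : ℝ} (hκ : 0 < κ) (hκ8 : κ < 8) {P : Measure Path} (hP : IsDrv κ P) :
    ∃ C, OneP κ P C := by
  obtain ⟨C1, hC1, h1⟩ := stopS hκ hκ8 hP
  obtain ⟨C2, hC2, h2⟩ := hit hκ hκ8 hP
  obtain ⟨C3, hC3, h3⟩ := hit' hκ hκ8 hP
  refine ⟨C1 + C2 + C3, by linarith, fun ζ hζ θ hθ0 hθ => ?_, fun ζ hζ u hu => ?_,
    fun ζ hζ θ hθ0 => ?_⟩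
  · have hτ := isOpt_tau ζ θ
    have h := h1 ζ hζ 1 one_pos θ hθ0 _ hτ
    have hS := (Sn_pos hζ).le
    rw [div_one] at h
    refine le_trans (setLIntegral_mono' (measurableSet_lt hτ.meas measurable_const)
      fun w hw => ?_) (h.trans (ENNReal.ofReal_le_ofReal ?_))
    · rw [(tau_spec hζ hθ hw).2, one_mul,
        indicator_of_mem (show θ ∈ Icc θ (2 * θ) from ⟨le_rfl, by linarith⟩), one_mul]
    · gcongr
      linarith
  · have h := h2 ζ hζ u hu (u / 2) (by linarith) (by linarith)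
    have hS := (Sn_pos hζ).le
    have e : u / 2 / u = 1 / 2 := by field_simp
    rw [e] at h
    refine h.trans (ENNReal.ofReal_le_ofReal ?_)
    have h4 : (1 / 2 : ℝ) ^ (2 - dd κ) ≤ 1 :=
      Real.rpow_le_one (by norm_num) (by norm_num) (by linarith [(dd_mem hκ hκ8).2])
    have h5 : 0 ≤ Sn ζ ^ aa κ := Real.rpow_nonneg hS _
    have h6 : 0 ≤ Sn ζ ^ cO κ := Real.rpow_nonneg hS _
    calc C2 * (1 / 2 : ℝ) ^ (2 - dd κ) * (Sn ζ ^ aa κ + 1 / 2 * Sn ζ ^ cO κ)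
        ≤ (C1 + C2 + C3) * 1 * (Sn ζ ^ aa κ + 1 * Sn ζ ^ cO κ) := by
          gcongr
          · linarith
          · norm_num
      _ = (C1 + C2 + C3) * (Sn ζ ^ aa κ + Sn ζ ^ cO κ) := by ring
  · have h := h3 ζ hζ 1 one_pos θ hθ0
    rw [div_one] at h
    refine le_trans (measure_mono fun w hw => ?_) (h.trans (ENNReal.ofReal_le_ofReal ?_))
    · obtain ⟨t, ht, h4, h5⟩ := ft_lt_top_iff.1 hw
      exact ⟨t, ht, h4, by rw [one_mul]; exact h5.le⟩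
    · gcongr
      linarith

end Crest.Agent.R162.U
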