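import Crest.Agent.R162.U1

/-! Row 162, block U: the bad event and its behaviour under the Markov property. -/

set_option autoImplicit false
open MeasureTheory ProbabilityTheory Set Filter Topology Metric
open scoped ENNReal NNReal ComplexConjugate

namespace Crest.Agent.R162.U

/-- The point reaches the conformal radius `r θ^n / 2` alive, and none of the balls of radius
`Cb r θ^k`, `k < n`, gets much mass. -/
def Bad (κ s1 ε Cb Hm θ : ℝ) (f : ℂ → ℂ) (ζ : ℂ) (r : ℝ) (n : ℕ) : Set Path :=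
  {w | (∃ t, 0 ≤ t ∧ ζ ∈ dom w t ∧ ups f ζ * mm w t ζ ≤ r * θ ^ n / 2) ∧
    ∀ k < n, mass κ s1 ε f w (Ioi 0) (ball (f ζ) (Cb * (r * θ ^ k))) ≤
      ENNReal.ofReal (Hm * (r * θ ^ k) ^ dd κ)}

variable {κ s1 ε Cb Hm θ : ℝ} {f : ℂ → ℂ} {ζ : ℂ} {r : ℝ} {n : ℕ}

theorem measurableSet_Bad (hf : Univ f) : MeasurableSet (Bad κ s1 ε Cb Hm θ f ζ r n) := by
  by_cases hζ : ζ ∈ H
  · have e : Bad κ s1 ε Cb Hm θ f ζ r n =
        {w | ∃ t, 0 ≤ t ∧ ζ ∈ dom w t ∧ ups f ζ * mm w t ζ ≤ r * θ ^ n / 2} ∩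
          ⋂ k ∈ {k | k < n}, {w | mass κ s1 ε f w (Ioi 0) (ball (f ζ) (Cb * (r * θ ^ k))) ≤
            ENNReal.ofReal (Hm * (r * θ ^ k) ^ dd κ)} := by
      ext w
      simp [Bad]
    rw [e]
    exact (measurableSet_hit ζ _ _ (hf.ups_pos hζ).le).inter
      (MeasurableSet.biInter (to_countable _) fun k _ =>
        measurableSet_le (measurable_mass hf κ s1 ε measurableSet_ball _) measurable_const)
  · have e : Bad κ s1 ε Cb Hm θ f ζ r n = ∅ :=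
      eq_empty_of_forall_notMem fun w ⟨⟨t, _, hd, _⟩, _⟩ => hζ (dom_subset w t hd)
    rw [e]
    exact MeasurableSet.empty

theorem Bad_succ {w : Path} (h : w ∈ Bad κ s1 ε Cb Hm θ f ζ r (n + 1)) :
    w ∈ Bad κ s1 ε Cb Hm θ f ζ (r * θ) n ∧
      mass κ s1 ε f w (Ioi 0) (ball (f ζ) (Cb * r)) ≤ ENNReal.ofReal (Hm * r ^ dd κ) := by
  obtain ⟨⟨t, ht, hd, hm⟩, hk⟩ := h
  refine ⟨⟨⟨t, ht, hd, ?_⟩, fun k hk' => ?_⟩, ?_⟩
  · rwa [mul_assoc, ← pow_succ']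
  · rw [mul_assoc r, ← pow_succ']
    exact hk (k + 1) (Nat.succ_lt_succ hk')
  · simpa using hk 0 (Nat.succ_pos n)

theorem Bad_tau (hf : Univ f) (hζ : ζ ∈ H) {θ' : ℝ} (h' : r * θ ^ n / 2 < ups f ζ * θ') {w : Path}
    (h : w ∈ Bad κ s1 ε Cb Hm θ f ζ r n) : tau ζ θ' w < ⊤ := by
  obtain ⟨⟨t, ht, hd, hm⟩, -⟩ := h
  exact tau_lt_top ht hd (lt_of_mul_lt_mul_left (hm.trans_lt h') (hf.ups_pos hζ).le)

/-- With `T = tau`: the hitting time of `concat T w w'` is after `T` (`phi_congr_le`, `concat_le`,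
`mm_anti`, `tau_spec`); `mem_dom_concat_add`, `mm_concat_add`, `ups_cfg`, `cfg_Zf`,
`mass_concat_Ioi`, `mass_mono`. -/
theorem Bad_concat (hf : Univ f) (hζ : ζ ∈ H) {θ' : ℝ} (hθ' : θ' ≤ 1)
    (h' : r * θ ^ n / 2 < ups f ζ * θ') {w w' : Path} (hw : tau ζ θ' w < ⊤)
    (h : concat (tau ζ θ' w).toReal w w' ∈ Bad κ s1 ε Cb Hm θ f ζ r n) :
    w' ∈ Bad κ s1 ε Cb Hm θ (cfg f w (tau ζ θ' w).toReal) (Zf w (tau ζ θ' w).toReal ζ) r n := by
  obtain ⟨hd0, hm0⟩ := tau_spec hζ hθ' hw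
  have hT : 0 ≤ (tau ζ θ' w).toReal := ENNReal.toReal_nonneg
  generalize (tau ζ θ' w).toReal = T at *
  obtain ⟨⟨t, ht, hd, hm⟩, hk⟩ := h
  have hTt : T ≤ t := by
    by_contra hlt
    have hle : t ≤ T := (not_le.1 hlt).le
    rw [(phi_congr_le hle fun r hr => concat_le T w w' hr).2.2.2] at hm
    have h1 := mm_anti w ht hle ζ
    rw [hm0] at h1
    have h2 := mul_le_mul_of_nonneg_left h1 (hf.ups_pos hζ).le
    linarith
  obtain ⟨t', rfl⟩ : ∃ t', t = T + t' := ⟨t - T, by ring⟩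
  have ht' : 0 ≤ t' := by linarith
  refine ⟨⟨t', ht', ((mem_dom_concat_add w w' hT ht' ζ).1 hd).2, ?_⟩, fun k hk' => ?_⟩
  · rwa [ups_cfg hf hd0, mul_assoc, ← mm_concat_add w w' hT ht']
  · rw [cfg_Zf f hd0, ← mass_concat_Ioi κ s1 ε f w w' hT]
    exact (mass_mono κ s1 ε f _ (Ioi_subset_Ioi hT) subset_rfl).trans (hk k hk')

/-- If the worm succeeded before `tau`, the mass is large whatever comes after (`sig_spec`,
`mass_congr`, `concat_le`, `mass_mono`). -/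
theorem lt_mass_concat {s : ℝ} {X : ℝ≥0∞} {B : Set ℂ} {θ' : ℝ} (hθ' : θ' ≤ 1 / 8) {w : Path}
    (hw : tau ζ θ' w < ⊤) (hs : sig κ s1 ε s X B f ζ w < ⊤) (w' : Path) :
    X < mass κ s1 ε f (concat (tau ζ θ' w).toReal w w') (Ioi 0) B := by
  obtain ⟨-, -, -, -, t, ht, hlt, hX⟩ := sig_spec hθ' hs
  have hle : t ≤ (tau ζ θ' w).toReal := (ENNReal.ofReal_le_iff_le_toReal hw.ne).1 hlt.le
  rw [← mass_congr κ s1 ε f measurableSet_Ioc (fun _ h => h.2.trans hle)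
    (fun r hr => concat_le (tau ζ θ' w).toReal w w' hr) B] at hX
  exact hX.trans_le (mass_mono κ s1 ε f _ Ioc_subset_Ioi_self subset_rfl)

/-- Strong Markov property at `tau` for the indicator of `Bad`. -/
theorem Bad_le_markov {P : Measure Path} (hP : IsDrv κ P) (hf : Univ f) (hζ : ζ ∈ H) {θ' : ℝ}
    (h' : r * θ ^ n / 2 < ups f ζ * θ') :
    P (Bad κ s1 ε Cb Hm θ f ζ r n) ≤ ∫⁻ w in {w | tau ζ θ' w < ⊤},
      P {w' | concat (tau ζ θ' w).toReal w w' ∈ Bad κ s1 ε Cb Hm θ f ζ r n} ∂P := by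
  have hB := measurableSet_Bad (κ := κ) (s1 := s1) (ε := ε) (Cb := Cb) (Hm := Hm) (θ := θ)
    (ζ := ζ) (r := r) (n := n) hf
  have h := hP.strong_markov (isOpt_tau ζ θ') (F := (Bad κ s1 ε Cb Hm θ f ζ r n).indicator 1)
    (measurable_one.indicator hB)
  have hsub : Bad κ s1 ε Cb Hm θ f ζ r n ⊆ {w | tau ζ θ' w < ⊤} := fun w hw => Bad_tau hf hζ h' hw
  rw [lintegral_indicator_one hB, Measure.restrict_apply hB, inter_eq_left.2 hsub] at h
  refine h.le.trans (le_of_eq (lintegral_congr fun w => ?_))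
  have hm : Measurable fun w' => concat (tau ζ θ' w).toReal w w' :=
    (measurable_concat _).comp (measurable_const.prodMk measurable_id)
  exact lintegral_indicator_one (hm hB)

end Crest.Agent.R162.U
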