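import Crest.Agent.R162.W2
import Crest.Agent.R162.K4
import Crest.Agent.R162.L4

set_option autoImplicit false
open MeasureTheory ProbabilityTheory Set Filter Topology Metric
open scoped ENNReal NNReal ComplexConjugate

namespace Crest.Agent.R162

private theorem h48_rad_ge {e : ℝ} (he : 0 < e) (Λ : ℕ) {k l : ℕ} (h : k ≤ l) :
    2 * e ≤ e * min 4 (2 + ((l : ℝ) - k) / Λ) := by
  have h1 : (0 : ℝ) ≤ ((l : ℝ) - k) / Λ :=
    div_nonneg (sub_nonneg.2 (by exact_mod_cast h)) (Nat.cast_nonneg _)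
  rw [mul_comm]
  exact mul_le_mul_of_nonneg_left (le_min (by norm_num) (by linarith)) he.le

private theorem h48_rad_le {e : ℝ} (he : 0 < e) (x : ℝ) : e * min 4 x ≤ 4 * e := by
  rw [mul_comm 4]
  exact mul_le_mul_of_nonneg_left (min_le_left _ _) he.le

private theorem h48_far {q : ℕ → ℂ} {e : ℝ} {J Λ : ℕ} {c0 : ℝ} {φ : ℂ → ℂ} {k : ℕ} {ζ : ℂ}
    (hq : Snake q e J) (hJ : 1 ≤ J) (h : Inv q e Λ c0 φ k ζ) {R C : ℝ}
    (hconf : ∀ O : Set ℂ, IsPreconnected O → O ⊆ φ '' H → ¬ Bornology.IsBounded O →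
      Disjoint O (ball (φ ζ) C) → ∀ ξ ∈ H, φ ξ ∈ O → R * ζ.im ≤ ‖ξ - (ζ.re : ℂ)‖)
    {m : ℕ} (hmJ : m ≤ J) (hm : C + 4 * e ≤ e * m / 2) {l : ℕ} (hl : k + m ≤ l) {η : ℂ}
    (hη : η ∈ H) (hb : φ η ∈ ball (q l) (e * min 4 (2 + ((l : ℝ) - k) / Λ))) :
    R * ζ.im ≤ ‖η - (ζ.re : ℂ)‖ := by
  have he := hq.e_pos
  let B : ℕ → Set ℂ := fun l => ball (q l) (e * min 4 (2 + ((l : ℝ) - k) / Λ))
  have hk : ∀ i, k ≤ k + m + i := fun i => by omega
  have hc : ∀ i, q (k + m + i) ∈ B (k + m + i) := fun i =>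
    mem_ball_self (lt_of_lt_of_le (by linarith) (h48_rad_ge he Λ (hk i)))
  refine hconf (⋃ i, B (k + m + i)) ?_ (iUnion_subset fun i => h.balls _ (hk i)) ?_ ?_ η hη ?_
  · refine IsPreconnected.iUnion_of_chain (fun i => (convex_ball _ _).isPreconnected) fun i => ?_
    refine ⟨q (k + m + (i + 1)), ?_, hc (i + 1)⟩
    refine mem_ball.2 (lt_of_lt_of_le ?_ (h48_rad_ge he Λ (hk i)))
    rw [dist_eq_norm]
    exact (hq.step (k + m + i)).trans_lt (by linarith)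
  · intro hbd
    obtain ⟨M, hM⟩ := hbd.exists_norm_le
    have hJ' : (1 : ℝ) ≤ J := by exact_mod_cast hJ
    have hp : 0 < e ^ 2 * J / 4 := by positivity
    obtain ⟨i, hi⟩ := exists_nat_gt ((M + e * J) / (e ^ 2 * J / 4))
    rw [div_lt_iff₀ hp] at hi
    have h1 := hM _ (mem_iUnion.2 ⟨i, hc i⟩)
    have h2 := hq.low (k + m + i)
    have h3 := (le_abs_self _).trans (Complex.abs_im_le_norm (q (k + m + i)))
    have h4 : (i : ℝ) ≤ ((k + m + i : ℕ) : ℝ) := by exact_mod_cast Nat.le_add_left i (k + m)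
    have h5 := mul_le_mul_of_nonneg_right h4 hp.le
    linarith
  · rw [disjoint_iUnion_left]
    intro i
    refine ball_disjoint_ball ?_
    rw [h.eq, dist_eq_norm]
    refine le_trans ?_ (hq.sep k _ (hk i))
    have h1 := h48_rad_le he (2 + (((k + m + i : ℕ) : ℝ) - k) / Λ)
    have h2 : (m : ℝ) ≤ min (((k + m + i : ℕ) : ℝ) - k) J := by
      refine le_min ?_ (by exact_mod_cast hmJ)
      push_cast
      linarith [Nat.cast_nonneg (α := ℝ) i]
    have h3 := mul_le_mul_of_nonneg_left h2 he.le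
    linarith
  · obtain ⟨i, rfl⟩ := Nat.exists_eq_add_of_le hl
    exact mem_iUnion.2 ⟨i, hb⟩

private theorem h48_margin {q : ℕ → ℂ} {e : ℝ} {J Λ : ℕ} {c0 : ℝ} {φ : ℂ → ℂ} {k : ℕ} {ζ : ℂ}
    (hq : Snake q e J) (hΛ : 1 ≤ Λ) (h : Inv q e Λ c0 φ k ζ) {l : ℕ} (hl : k ≤ l)
    (hl2 : l ≤ k + 2 * Λ) {η : ℂ} (hη : η ∈ H)
    (hb : φ η ∈ ball (q l) (e * min 4 (2 + ((l : ℝ) - k - 1) / Λ))) :
    Qh ζ η ≤ 4 * (4 * 24 ^ (2 * Λ)) * (4 * 24 ^ (8 * Λ)) := by
  have he := hq.e_pos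
  have hΛ' : (0 : ℝ) < Λ := by exact_mod_cast hΛ
  obtain ⟨ξ, hξ, hξq, hQ⟩ := h.chain hq hl
  have h1 : Qh ζ ξ ≤ 4 * 24 ^ (2 * Λ) :=
    hQ.trans (mul_le_mul_of_nonneg_left (pow_le_pow_right₀ (by norm_num) (by omega)) (by norm_num))
  have h2 : Qh ξ η ≤ 4 * 24 ^ (8 * Λ) := by
    refine harnack_segment h.univ hξ hη (ρ := e / Λ) (by positivity) _ ?_ fun z hz => ?_
    · rw [hξq, ← dist_eq_norm]
      refine (mem_ball.1 hb).le.trans ((h48_rad_le he _).trans (le_of_eq ?_))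
      push_cast
      field_simp
      norm_num
    · have hz' : z ∈ ball (q l) (e * min 4 (2 + ((l : ℝ) - k - 1) / Λ)) := by
        refine (convex_ball _ _).segment_subset ?_ hb hz
        rw [hξq]
        exact mem_ball_self (pos_of_mem_ball hb)
      refine Subset.trans (ball_subset_ball' ?_) (h.balls l hl)
      have h3 : ((l : ℝ) - k) / Λ ≤ 2 := by
        rw [div_le_iff₀ hΛ']
        have : (l : ℝ) ≤ k + 2 * Λ := by exact_mod_cast hl2
        linarith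
      rw [min_eq_right (by linarith : 2 + ((l : ℝ) - k) / Λ ≤ 4)]
      have h4 := mul_le_mul_of_nonneg_left (min_le_right 4 (2 + ((l : ℝ) - k - 1) / Λ)) he.le
      have h5 := mem_ball.1 hz'
      have h6 : e / Λ + e * (2 + ((l : ℝ) - k - 1) / Λ) = e * (2 + ((l : ℝ) - k) / Λ) := by ring
      linarith
  have h3 := four_le_Qh h.mem hξ
  have h4 := four_le_Qh hξ hη
  exact (Qh_submul h.mem hξ hη).trans (mul_le_mul (mul_le_mul_of_nonneg_left h1 (by norm_num)) h2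
    (by linarith) (by positivity))

/-- The deterministic geometric step. `cK` from `koebe_cover`: `Inv.near` gives
`ups φ ζ ≤ 8 e / cK`. `C0 R` from `confine`. Choose `C1 ≥ 8 + 16 C0(4)/cK`, `C2 = C1 + 1`,
`μ1 < cK/4`, `Q1 = 4 * 24 ^ C2`, `μ2 = cK/(8 C Q1^p0)` (`distortion`), and given `R`:
`Λ, J ≥ max C1 (8 + 16 C0(R)/cK)`, `1/h = 4 * (4 * 24^(2Λ)) * (4 * 24^(8Λ))`, `8 e1 C0(R)/cK ≤ 1/4`.
`D' = cfg φ w t '' H = φ '' dom w t` (`cfg_image`). `ball (q k) (4 e) ⊄ D'` (`schwarz_ball`, `ups_cfg`,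
`StepOK.guide`). Let `k*` be the largest `l ∈ [k, k + C1]` with `ball (q l) (4 e) ⊄ D'`, `k' = k* + 1`.
Balls for `l ≥ k'`: (near) `l ≤ k + C1` by maximality; (margin) `k + C1 < l ≤ k + 2 Λ`: a point `z` of the
new ball has `ball`-slack `e/Λ` in the old one, so its preimage has `Qh ≤ 1/h` (`Inv.chain`,
`harnack_segment` with `ρ = e/Λ`, `n = 8 Λ`, `Qh_submul`), height `≥ h im ζ` (`im_le_Qh`), and is
`4 im ζ` away (`confine` with `O` the union of the old balls of index `> k + C1`: preconnected since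
consecutive balls meet, unbounded by `Snake.low`, disjoint from the ball about `q k` by `Snake.sep`);
(far) `l > k + 2 Λ`: `confine` with `R` and the union of the old balls of index `> k + 2 Λ`; the top
half-plane: `confine` with `O = {1/2 < im}`. The new guide point is `Zf w t ξ`, `φ ξ = q k'`
(`Inv.chain`); `mm ≥ μ2` by `schwarz_ball` for `ball (q k') (2 e) ⊆ D'`; `StepOK.next`. -/
theorem step_geom : ∃ (C2 : ℕ) (μ1 μ2 Q1 : ℝ), 1 ≤ C2 ∧ 0 < μ1 ∧ 0 < μ2 ∧ 4 ≤ Q1 ∧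
    ∀ R : ℝ, 1 ≤ R → ∃ (Λ J : ℕ) (h e1 : ℝ), 1 ≤ Λ ∧ 1 ≤ J ∧ 0 < h ∧ 0 < e1 ∧
      ∀ (q : ℕ → ℂ) (e : ℝ), Snake q e J → e ≤ e1 → ∀ (c0 : ℝ) (φ : ℂ → ℂ) (k : ℕ) (ζ : ℂ),
      Inv q e Λ c0 φ k ζ → (q k).im ≤ 1 / 4 → ∀ (w : Path) (t : ℝ), 0 ≤ t →
      StepOK R h μ1 μ2 Q1 c0 ζ w t →
      ∃ (k' : ℕ) (ζ' : ℂ), k < k' ∧ k' ≤ k + C2 ∧ Inv q e Λ c0 (cfg φ w t) k' ζ' := by
  classical
  obtain ⟨cK, hcK, -, hK⟩ := koebe_cover
  obtain ⟨C, p0, hC, -, hdist⟩ := distortion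
  obtain ⟨C4, hC4, hconf4⟩ := confine 4 (by norm_num)
  obtain ⟨C1, hC1⟩ := exists_nat_ge (8 + 16 * C4 / cK)
  have hQ1 : (1 : ℝ) ≤ 24 ^ (C1 + 1) := one_le_pow₀ (by norm_num)
  refine ⟨C1 + 1, cK / 4, cK / (8 * C * (4 * 24 ^ (C1 + 1)) ^ p0), 4 * 24 ^ (C1 + 1),
    by omega, by positivity, by positivity, by linarith, fun R hR => ?_⟩
  obtain ⟨CR, hCR, hconfR⟩ := confine R hR
  obtain ⟨N0, hN0⟩ := exists_nat_ge (8 + 16 * CR / cK)
  obtain ⟨N, hN1, hNC, hNN⟩ : ∃ N : ℕ, 1 ≤ N ∧ C1 ≤ N ∧ N0 ≤ N := ⟨1 + C1 + N0, by omega, by omega,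
    by omega⟩
  refine ⟨N, N, (4 * (4 * 24 ^ (2 * N)) * (4 * 24 ^ (8 * N)))⁻¹, cK / (32 * CR), hN1, hN1,
    by positivity, by positivity, fun q e hq he1 c0 φ k ζ h hk w t ht hs => ?_⟩
  have he := hq.e_pos
  have hU0 := h.univ.ups_pos h.mem
  have hU : cK * ups φ ζ < 8 * e := by
    by_contra hc
    refine h.near ((ball_subset_ball (not_lt.1 hc)).trans ?_)
    rw [← h.eq]
    refine (hK φ h.univ ζ h.mem).trans (image_mono fun z hz => ?_)
    have h1 := (Complex.abs_im_le_norm (z - ζ)).trans_lt (mem_ball_iff_norm.1 hz)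
    have h2 : 0 < ζ.im := h.mem
    rw [Complex.sub_im, abs_lt] at h1
    show 0 < z.im
    linarith [h1.1]
  have hCU : ∀ {C0 : ℝ} {m : ℕ}, 1 ≤ C0 → 8 + 16 * C0 / cK ≤ m →
      C0 * ups φ ζ + 4 * e ≤ e * m / 2 := by
    intro C0 m h0 hm
    have h1 : ups φ ζ ≤ 8 * e / cK := by rw [le_div_iff₀ hcK]; linarith
    have h2 := mul_le_mul_of_nonneg_left h1 (zero_le_one.trans h0)
    have h3 := mul_le_mul_of_nonneg_left hm he.le
    have h4 : e * (8 + 16 * C0 / cK) = 8 * e + 2 * (C0 * (8 * e / cK)) := by ring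
    linarith
  have hdom : ∀ ξ ∈ H, φ ξ ∈ φ '' dom w t → ξ ∈ dom w t := by
    rintro ξ hξ ⟨η, hη, e⟩
    rwa [← h.univ.inj (dom_subset w t hη) hξ e]
  have hsch : ∀ ξ ∈ H, ∀ ρ : ℝ, 0 < ρ → ball (φ ξ) ρ ⊆ φ '' dom w t →
      ρ ≤ 2 * (ups φ ξ * mm w t ξ) := by
    intro ξ hξ ρ hρ hb
    have hd := hdom ξ hξ (hb (mem_ball_self hρ))
    rw [← ups_cfg h.univ hd]
    refine schwarz_ball (h.univ.cfg w t) (Zf_mem hd) ?_
    rwa [cfg_Zf φ hd, cfg_image]
  let Pp : ℕ → Prop := fun l => k ≤ l ∧ ¬ ball (q l) (4 * e) ⊆ φ '' dom w t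
  have hPk : Pp k := by
    refine ⟨le_rfl, fun hb => ?_⟩
    have h1 := hsch ζ h.mem (4 * e) (by positivity) (by rwa [h.eq])
    have h2 := mul_le_mul_of_nonneg_left hs.guide hU0.le
    linarith
  obtain ⟨j, hj1, hj2, hj3⟩ : ∃ j, Pp j ∧ j ≤ k + C1 ∧ ∀ l, j < l → l ≤ k + C1 → ¬ Pp l :=
    ⟨Nat.findGreatest Pp (k + C1), Nat.findGreatest_spec (Nat.le_add_right k C1) hPk,
      Nat.findGreatest_le _, fun l h1 h2 => Nat.findGreatest_is_greatest h1 h2⟩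
  have hkj : k ≤ j := hj1.1
  have hN' : (0 : ℝ) < N := by exact_mod_cast hN1
  have hballs : ∀ l : ℕ, j + 1 ≤ l →
      ball (q l) (e * min 4 (2 + ((l : ℝ) - (j + 1 : ℕ)) / N)) ⊆ φ '' dom w t := by
    intro l hl
    have hkl : k ≤ l := by omega
    by_cases h1 : l ≤ k + C1
    · have h2 : ball (q l) (4 * e) ⊆ φ '' dom w t := by
        by_contra hc
        exact hj3 l hl h1 ⟨hkl, hc⟩
      exact (ball_subset_ball (h48_rad_le he _)).trans h2
    intro z hz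
    have hkj' : (k : ℝ) ≤ j := by exact_mod_cast hkj
    have hz1 : z ∈ ball (q l) (e * min 4 (2 + ((l : ℝ) - k - 1) / N)) := by
      refine ball_subset_ball (mul_le_mul_of_nonneg_left (min_le_min_left _ ?_) he.le) hz
      refine add_le_add le_rfl (div_le_div_of_nonneg_right ?_ hN'.le)
      push_cast
      linarith
    have hz2 : z ∈ ball (q l) (e * min 4 (2 + ((l : ℝ) - k) / N)) := by
      refine ball_subset_ball (mul_le_mul_of_nonneg_left (min_le_min_left _ ?_) he.le) hz1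
      exact add_le_add le_rfl (div_le_div_of_nonneg_right (by linarith) hN'.le)
    obtain ⟨η, hη, rfl⟩ := h.balls l hkl hz2
    refine mem_image_of_mem φ ?_
    by_cases h2 : l ≤ k + 2 * N
    · refine hs.margin η hη ?_ (h48_far hq hN1 h (hconf4 φ h.univ h.bdd ζ h.mem) hNC
        (hCU hC4 hC1) (by omega) hη hz2)
      rw [inv_mul_le_iff₀ (by positivity)]
      have h3 : 0 < η.im := hη
      exact (im_le_Qh h.mem hη).trans
        (mul_le_mul_of_nonneg_right (h48_margin hq hN1 h hkl h2 hη hz1) h3.le)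
    · exact hs.far η hη (h48_far hq hN1 h (hconfR φ h.univ h.bdd ζ h.mem) hNN
        (hCU hCR hN0) (by omega) hη hz2)
  obtain ⟨ξ, hξ, hξq, hQ⟩ := h.chain hq (l := j + 1) (by omega)
  have hQ' : Qh ζ ξ ≤ 4 * 24 ^ (C1 + 1) :=
    hQ.trans (mul_le_mul_of_nonneg_left (pow_le_pow_right₀ (by norm_num) (by omega)) (by norm_num))
  have hb2 : ball (φ ξ) (2 * e) ⊆ φ '' dom w t := by
    rw [hξq]
    exact (ball_subset_ball (h48_rad_ge he N le_rfl)).trans (hballs _ le_rfl)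
  have hd := hdom ξ hξ (hb2 (mem_ball_self (by positivity)))
  refine ⟨j + 1, Zf w t ξ, by omega, by omega, h.univ.cfg w t, h.bdd.cfg w t,
    fun z hz => h.maps (phi_mapsTo w t hz), Zf_mem hd, by rw [cfg_Zf φ hd, hξq], ?_, ?_, ?_, ?_⟩
  · refine hs.next ξ hξ hQ' ?_
    have h1 := hsch ξ hξ _ (by positivity) hb2
    have h2 : ups φ ξ ≤ C * (4 * 24 ^ (C1 + 1)) ^ p0 * ups φ ζ := by
      refine (hdist φ h.univ ζ h.mem ξ hξ).1.trans (mul_le_mul_of_nonneg_right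
        (mul_le_mul_of_nonneg_left (pow_le_pow_left₀ ?_ hQ' p0) (by linarith)) hU0.le)
      linarith [four_le_Qh h.mem hξ]
    have hA : (0 : ℝ) < C * (4 * 24 ^ (C1 + 1)) ^ p0 := by positivity
    rw [mul_assoc 8, div_le_iff₀ (by positivity)]
    generalize C * (4 * 24 ^ (C1 + 1)) ^ p0 = A at h2 hA
    have hm0 := mm_nonneg w t ξ
    have h3 := mul_le_mul_of_nonneg_right h2 hm0
    have h4 : e ≤ A * mm w t ξ * ups φ ζ := by linarith
    have h5 := mul_le_mul_of_nonneg_left h4 hcK.le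
    have h6 := mul_le_mul_of_nonneg_left hU.le (mul_nonneg hA.le hm0)
    have h7 : cK * e ≤ mm w t ξ * (8 * A) * e := by linarith
    exact le_of_mul_le_mul_right h7 he
  · rw [cfg_image]
    exact hballs
  · rw [cfg_image]
    intro z hz
    obtain ⟨η, hη, rfl⟩ := h.top hz
    refine mem_image_of_mem φ (hs.far η hη (hconfR φ h.univ h.bdd ζ h.mem _
      (convex_halfSpace_im_gt (1 / 2)).isPreconnected h.top (fun hbd => ?_) ?_ η hη hz))
    · obtain ⟨M, hM⟩ := hbd.exists_norm_le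
      have h1 := hM (((|M| + 1 : ℝ) : ℂ) * Complex.I) (by
        rw [mem_ofPred_eq, Complex.mul_I_im, Complex.ofReal_re]
        linarith [abs_nonneg M])
      rw [norm_mul, Complex.norm_I, mul_one, Complex.norm_real, Real.norm_eq_abs] at h1
      linarith [le_abs_self (|M| + 1), le_abs_self M]
    · rw [disjoint_left]
      intro y hy hy'
      have h1 := (Complex.abs_im_le_norm (y - φ ζ)).trans_lt (mem_ball_iff_norm.1 hy')
      rw [Complex.sub_im, abs_lt, h.eq] at h1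
      have h2 : 1 / 2 < y.im := hy
      rw [le_div_iff₀ (by positivity)] at he1
      have h3 := mul_lt_mul_of_pos_left hU (zero_lt_one.trans_le hCR)
      have h4 : cK * (CR * ups φ ζ) < cK * (1 / 4) := by linarith
      have h5 := lt_of_mul_lt_mul_left h4 hcK.le
      linarith [h1.2]
  · rw [cfg_image]
    refine fun hb => hj1.2 (Subset.trans (ball_subset_ball' ?_) hb)
    rw [dist_comm, dist_eq_norm]
    linarith [hq.step j]

end Crest.Agent.R162
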