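import Crest.Agent.R162.WDefs
import Crest.Agent.R162.K3
import Crest.Agent.R162.LS

set_option autoImplicit false
open MeasureTheory ProbabilityTheory Set Filter Topology Metric
open scoped ENNReal NNReal ComplexConjugate

namespace Crest.Agent.R162

private theorem h62_Qh {a b : ℂ} (ha : a ∈ H) (hb : b ∈ H) :
    Qh a b = 4 + ‖a - b‖ ^ 2 / (a.im * b.im) := by
  have h1 : 0 < a.im := ha
  have h2 : 0 < b.im := hb
  rw [Qh, normSq_sub_conj]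
  field_simp
  ring

private theorem h62_ball {z w : ℂ} {r : ℝ} (h : w ∈ ball z r) : z.im - r < w.im := by
  have h1 := (abs_le.1 (Complex.abs_im_le_norm (w - z))).1
  rw [mem_ball, dist_eq_norm] at h
  rw [Complex.sub_im] at h1
  linarith

/-- `schwarz_pick_H`; `Qh a b = 4 + ‖a - b‖²/(im a im b)` (`normSq_sub_conj`). -/
theorem Qh_map_le {φ : ℂ → ℂ} (hφ : Univ φ) (hm : MapsTo φ H H) {a b : ℂ} (ha : a ∈ H)
    (hb : b ∈ H) : Qh (φ a) (φ b) ≤ Qh a b := by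
  rw [h62_Qh (hm ha) (hm hb), h62_Qh ha hb]
  exact add_le_add_right (schwarz_pick_H hφ.diff hm ha hb) _

theorem inv_init {q : ℕ → ℂ} {e : ℝ} {J : ℕ} (hq : Snake q e J) (Λ : ℕ) {c0 : ℝ} (hc0 : c0 ≤ 1) :
    Inv q e Λ c0 id 0 (q 0) := by
  have he := hq.e_pos
  have hn : ‖q 0‖ = 4 * e := by
    rw [hq.zero, norm_mul, Complex.norm_I, mul_one, Complex.norm_real, Real.norm_eq_abs,
      abs_of_pos (by positivity)]
  have hi : (q 0).im = 4 * e := by rw [hq.zero]; simp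
  refine ⟨univ_id, fun R => ⟨R, fun ζ _ h => h⟩, mapsTo_id _, ?_, rfl, ?_, fun l _ w hw => ?_,
    fun z hz => ⟨z, (lt_trans one_half_pos (show 1 / 2 < z.im from hz) : 0 < z.im), rfl⟩, fun h => ?_⟩
  · show 0 < (q 0).im
    rw [hi]; positivity
  · rw [Sn, hn, hi, div_self (by positivity)]; exact hc0
  · refine ⟨w, ?_, rfl⟩
    have h1 := h62_ball hw
    have h2 := mul_le_mul_of_nonneg_left (min_le_left 4 (2 + ((l : ℝ) - (0 : ℕ)) / Λ)) he.le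
    have h3 := hq.im_ge l
    show 0 < w.im
    linarith
  · obtain ⟨z, hz, h0⟩ := h (show (0 : ℂ) ∈ ball (q 0) (8 * e) by
      rw [mem_ball, dist_comm, dist_zero_right, hn]; linarith)
    rw [id] at h0
    rw [h0] at hz
    exact lt_irrefl (0 : ℝ) hz

/-- `schwarz_ball`. -/
theorem Inv.le_ups {q : ℕ → ℂ} {e : ℝ} {Λ : ℕ} {c0 : ℝ} {φ : ℂ → ℂ} {k : ℕ} {ζ : ℂ}
    (h : Inv q e Λ c0 φ k ζ) : e ≤ ups φ ζ := by
  have h1 := h.balls k le_rfl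
  rw [← h.eq, sub_self, zero_div, add_zero, min_eq_right (by norm_num)] at h1
  linarith [schwarz_ball h.univ h.mem h1]

/-- `harnack_chain` with `ρ = 2 e`. -/
theorem Inv.chain {q : ℕ → ℂ} {e : ℝ} {J Λ : ℕ} {c0 : ℝ} {φ : ℂ → ℂ} {k : ℕ} {ζ : ℂ}
    (hq : Snake q e J) (h : Inv q e Λ c0 φ k ζ) {l : ℕ} (hl : k ≤ l) :
    ∃ ξ ∈ H, φ ξ = q l ∧ Qh ζ ξ ≤ 4 * 24 ^ (l - k) := by
  have he := hq.e_pos
  have hb : ∀ i : ℕ, ball (q (k + i)) (2 * e) ⊆ φ '' H := fun i => by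
    refine (ball_subset_ball ?_).trans (h.balls (k + i) (Nat.le_add_right _ _))
    rw [mul_comm]
    refine mul_le_mul_of_nonneg_left (le_min (by norm_num) ?_) he.le
    have : (0 : ℝ) ≤ (((k + i : ℕ) : ℝ) - k) / Λ := by
      rw [Nat.cast_add, add_sub_cancel_left]; positivity
    linarith
  choose ξ hξ hξq using fun i => hb i (mem_ball_self (by positivity))
  have h0 : ξ 0 = ζ := h.univ.inj (hξ 0) h.mem (by rw [hξq, h.eq, add_zero])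
  refine ⟨ξ (l - k), hξ _, by rw [hξq, Nat.add_sub_cancel' hl], ?_⟩
  rw [← h0]
  refine harnack_chain h.univ (l - k) ξ (fun i _ => hξ i) (ρ := 2 * e) (by positivity)
    (fun i _ => by rw [hξq]; exact hb i) fun i _ => ?_
  rw [hξq, hξq, ← add_assoc]
  linarith [hq.step (k + i)]

/-- Follow the snake to the first index `l ≥ k` with `1 ≤ im (q l)` (`l ≤ 8/e² + 1` by `Snake.low`,
`im (q l) ≤ 2`), then `harnack_segment` with `ρ = 1/2` inside `{1/2 < im}`; `Qh_submul`, `Sn_le_Qh`,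
`schwarz_ball`. -/
theorem inv_final {c0 X : ℝ} (hc0 : 0 < c0) (hX : 0 ≤ X) : ∃ C : ℝ, 1 ≤ C ∧
    ∀ (q : ℕ → ℂ) (e : ℝ) (J Λ : ℕ) (φ : ℂ → ℂ) (k : ℕ) (ζ : ℂ), Snake q e J → 1 ≤ J → e * J ≤ 1 →
      Inv q e Λ c0 φ k ζ → (q k).im ≤ 1 / 4 → ∀ ζ' ∈ H, (φ ζ').im = 1 → |(φ ζ').re| ≤ X →
      1 / 8 < ups φ ζ' ∧ Real.exp (-(C / e ^ 2)) < Sn ζ' := by
  refine ⟨8192 / c0 + 46 * (61 + 4 * X), by
    have : 0 ≤ 8192 / c0 := by positivity
    linarith, fun q e J Λ φ k ζ hq hJ heJ h hk ζ' hζ' hi hr => ?_⟩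
  have he := hq.e_pos
  have htop : ∀ z : ℂ, 1 ≤ z.im → ball z (1 / 2) ⊆ φ '' H := fun z hz w hw => h.top (by
    have := h62_ball hw
    show 1 / 2 < w.im
    linarith)
  refine ⟨by linarith [schwarz_ball h.univ hζ' (htop _ hi.ge)], ?_⟩
  have he1 : e ≤ 1 / 16 := by linarith [hq.im_ge k]
  have hJ' : (1 : ℝ) ≤ J := by exact_mod_cast hJ
  have he2 : 0 < e ^ 2 := by positivity
  obtain ⟨N, hN⟩ : ∃ N : ℕ, N = ⌈8 / e ^ 2⌉₊ := ⟨_, rfl⟩
  have hN1 : 8 / e ^ 2 ≤ N := hN ▸ Nat.le_ceil _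
  have hN2 : (N : ℝ) ≤ 8 / e ^ 2 + 1 := hN ▸ (Nat.ceil_lt_add_one (by positivity)).le
  have hlow : ∀ l : ℕ, N ≤ l → 1 ≤ (q l).im := fun l hl => by
    have h1 : 8 / e ^ 2 ≤ l := hN1.trans (by exact_mod_cast hl)
    rw [div_le_iff₀ he2] at h1
    have h2 := hq.low l
    have h3 : (l : ℝ) * e ^ 2 * 1 ≤ l * e ^ 2 * J := mul_le_mul_of_nonneg_left hJ' (by positivity)
    linarith
  have hkN : k ≤ N := by
    by_contra hc
    linarith [hlow k (not_le.1 hc).le]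
  obtain ⟨ξ, hξ, hξq, hQ1⟩ := h.chain hq hkN
  have hup : (q N).im ≤ 2 + N := by
    have h1 := hq.up N
    have h2 : e * J * (e * N) ≤ 1 * (e * N) := mul_le_mul_of_nonneg_right heJ (by positivity)
    have h3 : e * N ≤ 1 * N := mul_le_mul_of_nonneg_right (by linarith) (by positivity)
    linarith
  have hX1 : X ≤ ⌈X⌉₊ := Nat.le_ceil _
  have hX2 : (⌈X⌉₊ : ℝ) ≤ X + 1 := (Nat.ceil_lt_add_one hX).le
  have hQ2 : Qh ξ ζ' ≤ 4 * 24 ^ (4 * (⌈X⌉₊ + 3 + N)) := by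
    refine harnack_segment h.univ hξ hζ' (ρ := 1 / 2) (by norm_num) _ ?_ fun z hz => htop z ?_
    · refine (Complex.norm_le_abs_re_add_abs_im _).trans ?_
      rw [hξq, Complex.sub_re, Complex.sub_im, hi]
      have h1 := abs_sub (φ ζ').re (q N).re
      have h2 := hq.re_le N
      have h3 : |1 - (q N).im| ≤ 1 + N := abs_le.2 ⟨by linarith, by linarith [hlow N le_rfl]⟩
      push_cast
      linarith
    · exact (convex_halfSpace_im_ge 1).segment_subset (by rw [hξq]; exact hlow N le_rfl) hi.ge hz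
  obtain ⟨M, hM⟩ : ∃ M : ℕ, M = N + 4 * (⌈X⌉₊ + 3 + N) := ⟨_, rfl⟩
  have hQ : Qh ζ ζ' ≤ 64 * Real.exp (23 * M) := by
    have h1 : (24 : ℝ) ^ (N - k) ≤ 24 ^ N := pow_le_pow_right₀ (by norm_num) (Nat.sub_le _ _)
    have h2 : (24 : ℝ) ^ M ≤ Real.exp (23 * M) := by
      rw [mul_comm, Real.exp_nat_mul]
      exact pow_le_pow_left₀ (by norm_num) (by linarith [Real.add_one_le_exp (23 : ℝ)]) _
    have h3 := four_le_Qh hξ hζ'
    calc Qh ζ ζ' ≤ 4 * Qh ζ ξ * Qh ξ ζ' := Qh_submul h.mem hξ hζ'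
      _ ≤ 4 * (4 * 24 ^ N) * (4 * 24 ^ (4 * (⌈X⌉₊ + 3 + N))) :=
          mul_le_mul (by linarith) hQ2 (by linarith) (by positivity)
      _ = 64 * 24 ^ M := by rw [hM, pow_add]; ring
      _ ≤ _ := by linarith
  have hS0 : 0 ≤ Sn ζ' := div_nonneg (le_of_lt hζ') (norm_nonneg _)
  have h1 : c0 ≤ 2 * (64 * Real.exp (23 * M)) ^ 2 * Sn ζ' :=
    h.sn.trans ((Sn_le_Qh h.mem hζ').trans (mul_le_mul_of_nonneg_right
      (mul_le_mul_of_nonneg_left (pow_le_pow_left₀ (by linarith [four_le_Qh h.mem hζ']) hQ 2)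
        (by norm_num)) hS0))
  have h2 : 8192 / c0 + 46 * M ≤ (8192 / c0 + 46 * (61 + 4 * X)) / e ^ 2 := by
    have h3 : (1 : ℝ) ≤ 1 / e ^ 2 := by rw [le_div_iff₀ he2]; nlinarith
    have h4 : (M : ℝ) ≤ 40 * (1 / e ^ 2) + (4 * X + 21) := by
      have : 8 / e ^ 2 = 8 * (1 / e ^ 2) := by ring
      rw [hM]; push_cast; linarith
    have h5 := mul_le_mul_of_nonneg_left h3
      (by positivity : 0 ≤ 8192 / c0 + 46 * (4 * X + 21))
    rw [div_eq_mul_one_div _ (e ^ 2)]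
    linarith
  have h3 : 8192 / c0 * Real.exp (46 * M) <
      Real.exp ((8192 / c0 + 46 * (61 + 4 * X)) / e ^ 2) := by
    refine lt_of_lt_of_le ?_ (Real.exp_le_exp.2 h2)
    rw [Real.exp_add]
    exact mul_lt_mul_of_pos_right (by linarith [Real.add_one_le_exp (8192 / c0)]) (Real.exp_pos _)
  have h4 : Real.exp (46 * M) = Real.exp (23 * M) ^ 2 := by
    rw [← Real.exp_nat_mul]; congr 1; push_cast; ring
  have h5 : 1 ≤ 8192 / c0 * Real.exp (46 * M) * Sn ζ' := by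
    rw [h4, div_mul_eq_mul_div, div_mul_eq_mul_div, le_div_iff₀ hc0]
    linarith
  have hS : 0 < Sn ζ' := div_pos hζ' (lt_of_lt_of_le hζ' (Complex.im_le_norm _))
  rw [Real.exp_neg, inv_lt_iff_one_lt_mul₀' (Real.exp_pos _)]
  exact h5.trans_lt (mul_lt_mul_of_pos_right h3 hS)

/-- `ups_comp`, `Inv.le_ups`, `distortion`, `Qh_map_le`, `Qh_submul`. -/
theorem inv_mass {a X Q3 : ℝ} (ha : 0 < a) (hX : 0 ≤ X) (hQ3 : 0 ≤ Q3) : ∃ C : ℝ, 1 ≤ C ∧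
    ∀ (f : ℂ → ℂ) (ζ0 : ℂ), Univ f → ζ0.im = 1 → |ζ0.re| ≤ X →
    ∀ (q : ℕ → ℂ) (e : ℝ) (J Λ : ℕ) (c0 : ℝ) (φ : ℂ → ℂ) (k : ℕ) (ζ : ℂ), Snake q e J →
      Inv q e Λ c0 φ k ζ → a ≤ (q k).im → (q k).im ≤ 1 / 4 →
      e * ups f ζ0 / C ≤ ups (fun ξ => f (φ ξ)) ζ ∧
        ∀ ξ ∈ H, Qh ζ ξ ≤ Q3 → f (φ ξ) ∈ ball (f ζ0) (C * ups f ζ0) := by
  obtain ⟨C, p, hC, -, hd⟩ := distortion
  obtain ⟨Q, hQ⟩ : ∃ Q : ℝ, Q = (X + 4) ^ 2 / a := ⟨_, rfl⟩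
  have hQ0 : 0 ≤ Q := by rw [hQ]; positivity
  obtain ⟨D, hD⟩ : ∃ D : ℝ, D = C * (Q + 4 * Q * Q3) ^ p := ⟨_, rfl⟩
  have hD0 : 0 ≤ D := by rw [hD]; positivity
  have key : ∀ f : ℂ → ℂ, Univ f → ∀ ζ ∈ H, ∀ ξ ∈ H, Qh ζ ξ ≤ Q + 4 * Q * Q3 →
      ups f ξ ≤ D * ups f ζ ∧ ‖f ξ - f ζ‖ ≤ D * ups f ζ := fun f hf ζ hζ ξ hξ h => by
    have h1 : C * Qh ζ ξ ^ p * ups f ζ ≤ D * ups f ζ := by
      rw [hD]
      exact mul_le_mul_of_nonneg_right (mul_le_mul_of_nonneg_left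
        (pow_le_pow_left₀ (by linarith [four_le_Qh hζ hξ]) h p) (by linarith)) (hf.ups_pos hζ).le
    exact ⟨(hd f hf ζ hζ ξ hξ).1.trans h1, (hd f hf ζ hζ ξ hξ).2.trans h1⟩
  refine ⟨D + 1, by linarith, fun f ζ0 hf hi hr q e J Λ c0 φ k ζ hq h ha1 ha2 => ?_⟩
  have he := hq.e_pos
  have h0 : ζ0 ∈ H := by show 0 < ζ0.im; rw [hi]; exact one_pos
  have hk : q k ∈ H := ha.trans_le ha1
  have hu0 := hf.ups_pos h0
  have hQ1 : Qh ζ0 (q k) ≤ Q := by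
    rw [Qh, hi, one_mul, hQ]
    refine div_le_div₀ (by positivity) (pow_le_pow_left₀ (norm_nonneg _) ?_ 2) ha ha1
    refine (Complex.norm_le_abs_re_add_abs_im _).trans ?_
    rw [Complex.sub_re, Complex.sub_im, hi, Complex.conj_re, Complex.conj_im]
    have h1 := abs_sub ζ0.re (q k).re
    have h2 := hq.re_le k
    have h3 : |1 - -(q k).im| ≤ 2 := abs_le.2 ⟨by linarith, by linarith⟩
    linarith
  have hQQ : 0 ≤ 4 * Q * Q3 := by positivity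
  refine ⟨?_, fun ξ hξ hζξ => ?_⟩
  · have h1 := (key f hf _ hk _ h0 (by rw [Qh_comm]; linarith)).1
    have h2 : ups f (q k) ≤ ‖deriv f (q k)‖ :=
      mul_le_of_le_one_left (norm_nonneg _) (by linarith)
    have h3 : ups f ζ0 ≤ (D + 1) * ‖deriv f (q k)‖ :=
      h1.trans (mul_le_mul (by linarith) h2 (hf.ups_pos hk).le (by linarith))
    have h4 := mul_le_mul_of_nonneg_left h.le_ups (norm_nonneg (deriv f (q k)))
    rw [ups_comp hf h.univ h.maps h.mem, h.eq]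
    refine le_trans ?_ h4
    rw [div_le_iff₀ (by linarith)]
    nlinarith
  · have h1 := Qh_map_le h.univ h.maps h.mem hξ
    rw [h.eq] at h1
    have h2 : Qh ζ0 (φ ξ) ≤ 4 * Q * Q3 := (Qh_submul h0 hk (h.maps hξ)).trans
      (mul_le_mul (by linarith) (h1.trans hζξ) (by linarith [four_le_Qh hk (h.maps hξ)])
        (by positivity))
    have h3 := (key f hf _ h0 _ (h.maps hξ) (by linarith)).2
    rw [mem_ball, dist_eq_norm]
    linarith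

end Crest.Agent.R162
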