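import Crest.Agent.R162.W4
import Crest.Agent.R162.W2
import Crest.Agent.R162.MassL
import Crest.Agent.R162.P3
import Crest.Agent.R162.P5

set_option autoImplicit false
open MeasureTheory ProbabilityTheory Set Filter Topology Metric
open scoped ENNReal NNReal ComplexConjugate

namespace Crest.Agent.R162

theorem concat_shift (s : ℝ) (w : Path) : concat s w (shift s w) = w := by
  ext t
  simp only [concat, shift, ContinuousMap.coe_mk]
  rcases le_total t s with h | h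
  · rw [min_eq_left h, max_eq_right (by linarith)]; simp
  · rw [min_eq_right h, max_eq_left (by linarith)]; simp

theorem shift_concat_osc (s : ℝ) (w w' : Path) {h : ℝ} (hh : 0 ≤ h) :
    osc (shift s (concat s w w')) h = osc w' h := by
  unfold osc
  congr 1
  apply Set.image_congr
  intro r hr
  have h1 : (shift s (concat s w w')) r = w s + (w' r - w' 0) := concat_add s w w' hr.1
  have h2 : (shift s (concat s w w')) 0 = w s + (w' 0 - w' 0) := concat_add s w w' le_rfl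
  rw [h1, h2]
  congr 1
  ring

/-- `t2 = η² + (1 - s²)/4`, `E = {tube on [0,t2]} ∩ {osc (shift t2 w) (η3² T) ≤ A η3} ∩ {hypotheses →
mass (Ioc 0 t) B ≥ μ3 u^d}`. `IsDrv.support` for the tube (`isClosed_tube`), then
`le_measure_of_section` at `t2` with `mass_lemma` for `cfg g w t2` at `y = η3` (when the hypotheses on
`ε`, `B` fail use `mass_lemma` with any admissible `ε` for the oscillation only). On the tube,
`ups (cfg g w t2) (η3 i) ≥ c ups g ζ` (`ups_cfg`, `step_det`, `distortion`), and a point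
`cfg g w t2 ξ'`, `ξ' ∈ ball (η3 i) (η3/2)`, is `g ξ` with `ξ = phi w t2 ξ'`,
`Qh ζ ξ ≤ Qh (Zf w t2 ζ) ξ' ≤ Q3` (`Qh_map_le`, `phi_Zf`); `mass_concat_Ioc`, `mass_mono`. -/
theorem step_prob_norm {κ : ℝ} (hκ : 0 < κ) (hκ8 : κ < 8) {P : Measure Path} (hP : IsDrv κ P) :
    ∃ s1 : ℝ, 0 < s1 ∧ ∀ μ1 μ2 Q1 : ℝ, 0 < μ1 → 0 < μ2 → 4 ≤ Q1 →
      ∃ c0 R Q3 μ3 ε2 : ℝ, 0 < c0 ∧ c0 ≤ 1 ∧ 1 ≤ R ∧ 4 ≤ Q3 ∧ 0 < μ3 ∧ 0 < ε2 ∧
      ∀ h : ℝ, 0 < h → ∃ p : ℝ, 0 < p ∧ p ≤ 1 ∧ ∀ g : ℂ → ℂ, Univ g → ∀ ζ : ℂ, ζ.im = 1 →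
        c0 ≤ Sn ζ → StepP κ s1 P R h μ1 μ2 Q1 c0 Q3 μ3 ε2 p g ζ := by
  obtain ⟨s1, T, A, c, c0', ε0, hs1, hT, hA, hc, hc0', hε0, hmass⟩ := mass_lemma hκ hκ8 hP
  obtain ⟨C, p0, hC, -, hdist⟩ := distortion
  refine ⟨s1, hs1, fun μ1 μ2 Q1 hμ1 hμ2 hQ1 => ?_⟩
  obtain ⟨c0, R, s, η3, δ, hc0, hc01, hR, hs, hs2, hη3, hδ, hdet⟩ :=
    step_det (T := T) (A := A) hμ1 hμ2 hQ1 hT hA
  have hd : 0 < dd κ := by unfold dd; positivity
  set Q3 : ℝ := 4 + (2 * s + 2 * η3) ^ 2 / (s / 2 * (η3 / 2)) with hQ3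
  have hQ34 : 4 ≤ Q3 := by
    have : 0 ≤ (2 * s + 2 * η3) ^ 2 / (s / 2 * (η3 / 2)) := by positivity
    linarith
  set k0 : ℝ := s ^ 2 / 6 / (C * Q3 ^ p0) with hk0
  have hCQ : 0 < C * Q3 ^ p0 := by positivity
  have hk0p : 0 < k0 := by positivity
  refine ⟨c0, R, Q3, c * k0 ^ dd κ, ε0 * k0, hc0, hc01, hR, hQ34, by positivity, by positivity,
    fun h hh => ?_⟩
  obtain ⟨η, hη, hdet⟩ := hdet h hh
  set t2 : ℝ := η ^ 2 + (1 - s ^ 2) / 4 with ht2
  have ht2p : 0 < t2 := by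
    have : s ^ 2 ≤ 1 / 4 := by nlinarith
    have : 0 < η ^ 2 := by positivity
    rw [ht2]; linarith
  obtain ⟨c1, hc1, hsupp⟩ := hP.support hκ (T := t2) (L := 1 / c0 / η ^ 2) (δ := δ) ht2p
    (by positivity) hδ
  refine ⟨min 1 (c1 * c), lt_min one_pos (by positivity), min_le_left _ _,
    fun g hg ζ hζ hSn => ?_⟩
  have hζH : ζ ∈ H := by show 0 < ζ.im; rw [hζ]; exact one_pos
  have hζe : ((ζ.re : ℝ) : ℂ) + Complex.I = ζ := by
    apply Complex.ext <;> simp [hζ]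
  have hx : |ζ.re| ≤ 1 / c0 := by
    have hn : 0 < ‖ζ‖ := by
      have := Complex.abs_im_le_norm ζ
      rw [hζ, abs_one] at this; linarith
    unfold Sn at hSn
    rw [hζ, le_div_iff₀ hn] at hSn
    rw [le_div_iff₀ hc0]
    have := Complex.abs_re_le_norm ζ
    nlinarith
  have hug : 0 < ups g ζ := hg.ups_pos hζH
  intro ε hε B hB
  set tube : Set Path :=
    {w | ∀ r ∈ Icc 0 t2, |w r - w 0 - ζ.re * min (r / η ^ 2) 1| ≤ δ} with htube
  have htm : MeasurableSet tube :=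
    (isClosed_tube (fun r => ζ.re * min (r / η ^ 2) 1) 0 t2 δ).measurableSet
  have hPt : ENNReal.ofReal c1 ≤ P tube := by
    refine hsupp (fun r => ζ.re * min (r / η ^ 2) 1) (by simp) fun a b => ?_
    have hη2 : 0 < η ^ 2 := by positivity
    rw [← mul_sub, abs_mul]
    have h1 : |min (a / η ^ 2) 1 - min (b / η ^ 2) 1| ≤ |a - b| / η ^ 2 := by
      refine (abs_min_sub_min_le_max _ _ _ _).trans ?_
      rw [sub_self, abs_zero, ← sub_div, abs_div, abs_of_pos hη2]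
      exact max_le le_rfl (by positivity)
    calc |ζ.re| * |min (a / η ^ 2) 1 - min (b / η ^ 2) 1| ≤ 1 / c0 * (|a - b| / η ^ 2) :=
          mul_le_mul hx h1 (abs_nonneg _) (by positivity)
      _ = 1 / c0 / η ^ 2 * |a - b| := by ring
  have hτ : 0 ≤ η3 ^ 2 * T := by positivity
  set Hyp : Prop := ε ≤ ε0 * k0 * ups g ζ ∧ ∀ ξ ∈ H, Qh ζ ξ ≤ Q3 → g ξ ∈ B with hHyp
  set E : Set Path := tube ∩ ({w | osc (shift t2 w) (η3 ^ 2 * T) ≤ A * η3} ∩
    {w | Hyp → ENNReal.ofReal (c * k0 ^ dd κ * ups g ζ ^ dd κ) ≤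
      mass κ s1 ε g w (Ioc 0 (t2 + η3 ^ 2 * T)) B}) with hE
  have hEm : MeasurableSet E := by
    refine htm.inter (MeasurableSet.inter ?_ ?_)
    · have hsh : Measurable (fun w : Path => shift t2 w) :=
        (continuous_shift.comp (continuous_const.prodMk continuous_id)).measurable
      exact measurableSet_le ((measurable_osc _).comp hsh) measurable_const
    · by_cases hh' : Hyp
      · simp only [hh', true_imp_iff]
        exact measurableSet_le measurable_const (measurable_mass hg κ s1 ε hB _)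
      · simp only [hh', false_imp_iff, ofPred_true]
        exact MeasurableSet.univ
  refine ⟨t2 + η3 ^ 2 * T, E, by positivity, hEm, ?_, ?_⟩
  · have hsec : ∀ w ∈ tube, ENNReal.ofReal c ≤ P {w' | concat t2 w w' ∈ E} := by
      intro w hw
      obtain ⟨⟨hdom, hZ, hmm⟩, -⟩ := hdet ζ.re w hx hw
      rw [hζe] at hdom hZ hmm
      have hf : Univ (cfg g w t2) := hg.cfg w t2
      have hyH : ((η3 : ℂ) * Complex.I) ∈ H := by
        show 0 < ((η3 : ℂ) * Complex.I).im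
        simpa using hη3
      have huf : 0 < ups (cfg g w t2) (η3 * Complex.I) := hf.ups_pos hyH
      have htc : ∀ w' : Path, concat t2 w w' ∈ tube := by
        intro w' r hr
        rw [concat_le t2 w w' hr.2, concat_le t2 w w' ht2p.le]
        exact hw r hr
      have hZH : Zf w t2 ζ ∈ H := Zf_mem hdom
      have hQ : ∀ ξ' ∈ ball ((η3 : ℂ) * Complex.I) (η3 / 2), ξ' ∈ H ∧ Qh (Zf w t2 ζ) ξ' ≤ Q3 := by
        intro ξ' hξ'
        rw [mem_ball, dist_eq_norm] at hξ'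
        have h1 : |ξ'.im - η3| ≤ ‖ξ' - η3 * Complex.I‖ := by
          have := Complex.abs_im_le_norm (ξ' - η3 * Complex.I)
          simpa using this
        have h2 : |(Zf w t2 ζ).im - s| ≤ ‖Zf w t2 ζ - s * Complex.I‖ := by
          have := Complex.abs_im_le_norm (Zf w t2 ζ - s * Complex.I)
          simpa using this
        have h3 : η3 / 2 ≤ ξ'.im := by have := (abs_le.1 h1).1; linarith
        have h4 : s / 2 ≤ (Zf w t2 ζ).im := by have := (abs_le.1 h2).1; linarith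
        have h5 : ‖ξ'‖ ≤ 2 * η3 := by
          have := norm_add_le (ξ' - η3 * Complex.I) (η3 * Complex.I)
          rw [sub_add_cancel, norm_mul, Complex.norm_I, Complex.norm_real, Real.norm_eq_abs,
            abs_of_pos hη3] at this
          linarith
        have h6 : ‖Zf w t2 ζ‖ ≤ 2 * s := by
          have := norm_add_le (Zf w t2 ζ - s * Complex.I) (s * Complex.I)
          rw [sub_add_cancel, norm_mul, Complex.norm_I, Complex.norm_real, Real.norm_eq_abs,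
            abs_of_pos hs] at this
          linarith
        refine ⟨show 0 < ξ'.im by linarith, ?_⟩
        have h7 : ‖Zf w t2 ζ - conj ξ'‖ ≤ 2 * s + 2 * η3 := by
          have := norm_sub_le (Zf w t2 ζ) (conj ξ')
          rw [Complex.norm_conj] at this
          linarith
        have h8 : Qh (Zf w t2 ζ) ξ' ≤ (2 * s + 2 * η3) ^ 2 / (s / 2 * (η3 / 2)) := by
          unfold Qh
          exact div_le_div₀ (by positivity) (pow_le_pow_left₀ (norm_nonneg _) h7 2) (by positivity)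
            (mul_le_mul h4 h3 (by positivity) (by linarith))
        linarith
      have hlow : k0 * ups g ζ ≤ ups (cfg g w t2) (η3 * Complex.I) := by
        have h1 := (hdist _ hf _ hyH _ hZH).1
        rw [ups_cfg hg hdom] at h1
        have h2 : Qh (η3 * Complex.I) (Zf w t2 ζ) ≤ Q3 := by
          rw [Qh_comm]; exact (hQ _ (mem_ball_self (by positivity))).2
        have h3 : Qh (η3 * Complex.I) (Zf w t2 ζ) ^ p0 ≤ Q3 ^ p0 :=
          pow_le_pow_left₀ (by linarith [four_le_Qh hyH hZH]) h2 p0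
        have h4 : ups g ζ * (s ^ 2 / 6) ≤ C * Q3 ^ p0 * ups (cfg g w t2) (η3 * Complex.I) :=
          calc ups g ζ * (s ^ 2 / 6) ≤ ups g ζ * mm w t2 ζ := mul_le_mul_of_nonneg_left hmm hug.le
            _ ≤ _ := h1
            _ ≤ _ := mul_le_mul_of_nonneg_right
                (mul_le_mul_of_nonneg_left h3 (by linarith)) huf.le
        rw [hk0, div_mul_eq_mul_div, div_le_iff₀ hCQ]
        linarith
      by_cases hh' : Hyp
      · have hε' : ε ≤ ε0 * ups (cfg g w t2) (η3 * Complex.I) :=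
          calc ε ≤ ε0 * k0 * ups g ζ := hh'.1
            _ = ε0 * (k0 * ups g ζ) := by ring
            _ ≤ _ := mul_le_mul_of_nonneg_left hlow hε0.le
        obtain ⟨hball, hpr⟩ := hmass _ hf η3 hη3 ε hε hε'
        refine hpr.trans (measure_mono fun w' hw' => ⟨htc w', ?_, fun _ => ?_⟩)
        · show osc (shift t2 (concat t2 w w')) _ ≤ _
          rw [shift_concat_osc t2 w w' hτ]; exact hw'.1
        · have hsub : ball (cfg g w t2 (η3 * Complex.I))
              (c0' * ups (cfg g w t2) (η3 * Complex.I)) ⊆ B := by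
            intro z hz
            obtain ⟨ξ', hξ', rfl⟩ := hball (ball_subset_ball (by nlinarith) hz)
            obtain ⟨h1, h2⟩ := hQ ξ' hξ'
            refine hh'.2 _ (phi_mapsTo w t2 h1) ?_
            have h3 := Qh_map_le (univ_phi w t2) (phi_mapsTo w t2) hZH h1
            rw [phi_Zf hdom] at h3
            exact h3.trans h2
          calc ENNReal.ofReal (c * k0 ^ dd κ * ups g ζ ^ dd κ)
              ≤ ENNReal.ofReal (c * ups (cfg g w t2) (η3 * Complex.I) ^ dd κ) := by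
                apply ENNReal.ofReal_le_ofReal
                rw [mul_assoc, ← Real.mul_rpow hk0p.le hug.le]
                exact mul_le_mul_of_nonneg_left
                  (Real.rpow_le_rpow (by positivity) hlow hd.le) hc.le
            _ ≤ _ := hw'.2
            _ ≤ mass κ s1 ε (cfg g w t2) w' (Ioc 0 (η3 ^ 2 * T)) B :=
                mass_mono _ _ _ _ _ subset_rfl hsub
            _ = mass κ s1 ε g (concat t2 w w') (Ioc t2 (t2 + η3 ^ 2 * T)) B :=
                (mass_concat_Ioc κ s1 ε g w w' ht2p.le _ B).symm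
            _ ≤ _ := mass_mono _ _ _ _ _ (Ioc_subset_Ioc_left ht2p.le) subset_rfl
      · obtain ⟨-, hpr⟩ := hmass _ hf η3 hη3 _ (mul_pos hε0 huf) le_rfl
        refine hpr.trans (measure_mono fun w' hw' => ⟨htc w', ?_, fun h' => absurd h' hh'⟩)
        show osc (shift t2 (concat t2 w w')) _ ≤ _
        rw [shift_concat_osc t2 w w' hτ]; exact hw'.1
    calc ENNReal.ofReal (min 1 (c1 * c)) ≤ ENNReal.ofReal (c1 * c) :=
          ENNReal.ofReal_le_ofReal (min_le_right _ _)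
      _ = ENNReal.ofReal c1 * ENNReal.ofReal c := ENNReal.ofReal_mul hc1.le
      _ ≤ P tube * ENNReal.ofReal c := by gcongr
      _ ≤ P E := hP.le_measure_of_section ht2p.le hEm htm hsec
  · intro w hw
    refine ⟨?_, fun h1 h2 => hw.2.2 ⟨h1, h2⟩⟩
    have := (hdet ζ.re w hx hw.1).2 hw.2.1
    rwa [hζe] at this

/-- `r = im ζ`, `E = {w | scale r⁻¹ w ∈ E'}`; `measure_scale`, `mem_dom_scale`, `Zf_scale`, `mm_scale`,
`mass_scale_Ioc`, `ups_dilate`. -/
theorem StepP.scale {κ : ℝ} {P : Measure Path} (hP : IsDrv κ P)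
    {s1 R h μ1 μ2 Q1 c0 Q3 μ3 ε2 p : ℝ} {g : ℂ → ℂ} (hg : Univ g) {ζ : ℂ} (hζ : ζ ∈ H) {r : ℝ}
    (hr : 0 < r) (hs : StepP κ s1 P R h μ1 μ2 Q1 c0 Q3 μ3 ε2 p (fun ξ => g (r * ξ)) ζ) :
    StepP κ s1 P R h μ1 μ2 Q1 c0 Q3 μ3 ε2 p g (r * ζ) := by
  intro ε hε B hB
  obtain ⟨t, E, ht, hE, hp, hw⟩ := hs ε hε B hB
  have hr0 : (r : ℂ) ≠ 0 := by exact_mod_cast hr.ne'
  have hQ : ∀ a b : ℂ, Qh (r * a) (r * b) = Qh a b := by
    intro a b
    unfold Qh
    have h1 : (r : ℂ) * a - conj ((r : ℂ) * b) = r * (a - conj b) := by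
      rw [map_mul, Complex.conj_ofReal]; ring
    rw [h1, norm_mul, Complex.norm_real, Real.norm_eq_abs, abs_of_pos hr]
    simp only [Complex.mul_im, Complex.ofReal_re, Complex.ofReal_im, zero_mul, add_zero]
    rw [show r * a.im * (r * b.im) = r ^ 2 * (a.im * b.im) by ring, mul_pow,
      mul_div_mul_left _ _ (by positivity)]
  have him : ∀ a : ℂ, ((r : ℂ) * a).im = r * a.im := fun a => by simp
  have hnorm : ∀ a : ℂ, ‖(r : ℂ) * a - (((r : ℂ) * ζ).re : ℂ)‖ = r * ‖a - (ζ.re : ℂ)‖ := by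
    intro a
    have : (r : ℂ) * a - (((r : ℂ) * ζ).re : ℂ) = r * (a - (ζ.re : ℂ)) := by
      simp only [Complex.mul_re, Complex.ofReal_re, Complex.ofReal_im, zero_mul, sub_zero,
        Complex.ofReal_mul]
      ring
    rw [this, norm_mul, Complex.norm_real, Real.norm_eq_abs, abs_of_pos hr]
  have hsurj : ∀ z ∈ H, ∃ z' ∈ H, z = (r : ℂ) * z' := by
    intro z hz
    have h1 : z = (r : ℂ) * (z / r) := by field_simp
    exact ⟨z / r, (L3_mul_mem hr).1 (h1 ▸ hz), h1⟩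
  refine ⟨r ^ 2 * t, {w | R162.scale r⁻¹ w ∈ E}, by positivity,
    (continuous_scale r⁻¹).measurable hE, ?_, ?_⟩
  · rw [← hP.measure_scale (inv_pos.2 hr) hE]; exact hp
  · intro w hwE
    obtain ⟨hok, hm⟩ := hw _ hwE
    have hww : w = R162.scale r (R162.scale r⁻¹ w) := by
      ext u
      simp only [R162.scale, ContinuousMap.coe_mk]
      have : u / r ^ 2 / r⁻¹ ^ 2 = u := by field_simp
      rw [this]; field_simp
    generalize R162.scale r⁻¹ w = w' at hok hm hww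
    subst hww
    refine ⟨⟨?_, ?_, ?_, ?_⟩, fun h1 h2 => ?_⟩
    · intro z hz h1
      obtain ⟨z', hz', rfl⟩ := hsurj z hz
      rw [mem_dom_scale w' hr]
      rw [him, hnorm] at h1
      refine hok.far z' hz' (le_of_mul_le_mul_left ?_ hr)
      linarith
    · intro z hz h1 h2
      obtain ⟨z', hz', rfl⟩ := hsurj z hz
      rw [mem_dom_scale w' hr]
      rw [him, hnorm] at h2
      rw [him, him] at h1
      refine hok.margin z' hz' (le_of_mul_le_mul_left ?_ hr) (le_of_mul_le_mul_left ?_ hr)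
      · linarith
      · linarith
    · rw [mm_scale w' hr]; exact hok.guide
    · intro z hz h1 h2
      obtain ⟨z', hz', rfl⟩ := hsurj z hz
      rw [hQ] at h1
      rw [mm_scale w' hr] at h2
      rw [Zf_scale w' hr, M2_Sn_mul hr]
      exact hok.next z' hz' h1 h2
    · rw [mass_scale_Ioc hg κ s1 ε w' hr t hB, ← ups_dilate hg hr hζ]
      rw [← ups_dilate hg hr hζ] at h1
      exact hm h1 fun ξ hξ hq => h2 _ ((L3_mul_mem hr).2 hξ) (by rw [hQ]; exact hq)

theorem step_prob {κ : ℝ} (hκ : 0 < κ) (hκ8 : κ < 8) {P : Measure Path} (hP : IsDrv κ P) :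
    ∃ s1 : ℝ, 0 < s1 ∧ ∀ μ1 μ2 Q1 : ℝ, 0 < μ1 → 0 < μ2 → 4 ≤ Q1 →
      ∃ c0 R Q3 μ3 ε2 : ℝ, 0 < c0 ∧ c0 ≤ 1 ∧ 1 ≤ R ∧ 4 ≤ Q3 ∧ 0 < μ3 ∧ 0 < ε2 ∧
      ∀ h : ℝ, 0 < h → ∃ p : ℝ, 0 < p ∧ p ≤ 1 ∧ ∀ g : ℂ → ℂ, Univ g → ∀ ζ ∈ H,
        c0 ≤ Sn ζ → StepP κ s1 P R h μ1 μ2 Q1 c0 Q3 μ3 ε2 p g ζ := by
  obtain ⟨s1, hs1, h⟩ := step_prob_norm hκ hκ8 hP
  refine ⟨s1, hs1, fun μ1 μ2 Q1 hμ1 hμ2 hQ1 => ?_⟩
  obtain ⟨c0, R, Q3, μ3, ε2, h1, h2, h3, h4, h5, h6, h⟩ := h μ1 μ2 Q1 hμ1 hμ2 hQ1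
  refine ⟨c0, R, Q3, μ3, ε2, h1, h2, h3, h4, h5, h6, fun hh hhp => ?_⟩
  obtain ⟨p, hp, hp1, h⟩ := h hh hhp
  refine ⟨p, hp, hp1, fun g hg ζ hζ hSn => ?_⟩
  have hr : 0 < ζ.im := hζ
  have hr0 : ((ζ.im : ℝ) : ℂ) ≠ 0 := by exact_mod_cast hr.ne'
  have he : ((ζ.im : ℝ) : ℂ) * (ζ / (ζ.im : ℝ)) = ζ := by field_simp
  have hH : ζ / (ζ.im : ℝ) ∈ H := (L3_mul_mem hr).1 (he.symm ▸ hζ)
  have him : (ζ / (ζ.im : ℝ)).im = 1 := by
    rw [Complex.div_ofReal_im, div_self hr.ne']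
  have hS : c0 ≤ Sn (ζ / (ζ.im : ℝ)) := by
    rw [← M2_Sn_mul hr, he]; exact hSn
  have := StepP.scale hP hg hH hr (h _ (hg.dilate hr) _ him hS)
  rwa [he] at this

end Crest.Agent.R162
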