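import Crest.Agent.R162.WDefs
import Crest.Agent.R162.M2
import Crest.Agent.R162.P3
import Crest.Agent.R162.P4
import Crest.Agent.R162.L5
import Crest.Agent.R162.L7
import Crest.Agent.R162.K1

set_option autoImplicit false
open MeasureTheory ProbabilityTheory Set Filter Topology Metric
open scoped ENNReal NNReal ComplexConjugate

namespace Crest.Agent.R162

/-- `measurableSet_exists_time`; `alive_right`, `dom_anti`, `state_right_cont`, `mass_mono`. -/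
theorem measurableSet_Tgt (κ s1 ε : ℝ) {g : ℂ → ℂ} (hg : Univ g) {B : Set ℂ} (hB : MeasurableSet B)
    (ζ : ℂ) {u : ℝ} (hu : 0 < u) (σ : ℝ) (M M0 : ℝ≥0∞) :
    MeasurableSet (Tgt κ s1 ε g B ζ u σ M M0) := by
  have hSn : Measurable Sn := by unfold Sn; fun_prop
  have hSnc : ContinuousOn Sn H := by
    unfold Sn
    refine Complex.continuous_im.continuousOn.div continuous_norm.continuousOn fun z hz => ?_
    refine norm_ne_zero_iff.2 fun h => ?_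
    simp [H, h] at hz
  refine measurableSet_exists_time (C := fun w t => ζ ∈ dom w t ∧ 1 / 8 < u * mm w t ζ ∧
    σ < Sn (Zf w t ζ) ∧ M < M0 + mass κ s1 ε g w (Ioc 0 t) B) (fun t => ?_) ?_
  · have hι : Measurable fun w : Path => ((w, t, ζ) : Path × ℝ × ℂ) :=
      measurable_id.prodMk measurable_const
    refine (hι measurableSet_alive).inter (MeasurableSet.inter ?_ (MeasurableSet.inter ?_ ?_))
    · exact measurableSet_lt measurable_const ((measurable_mm.comp hι).const_mul u)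
    · exact measurableSet_lt measurable_const (hSn.comp (measurable_Zf.comp hι))
    · exact measurableSet_lt measurable_const
        ((measurable_mass hg κ s1 ε hB (Ioc 0 t)).const_add M0)
  · rintro w t ht ⟨h1, h2, h3, h4⟩
    obtain ⟨t', ht', h5⟩ := alive_right ht h1
    have c1 := state_right_cont (fun _ r => r) continuous_snd.continuousOn w ζ hu ht
    have c2 := state_right_cont (fun z _ => Sn z)
      (hSnc.comp continuous_fst.continuousOn fun p hp => hp.1) w ζ hu ht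
    have e1 : ∀ᶠ s in 𝓝[>] t, 1 / 8 < u * mm w s ζ :=
      (c1.mono Ioi_subset_Ici_self).eventually (lt_mem_nhds h2)
    have e2 : ∀ᶠ s in 𝓝[>] t, σ < Sn (Zf w s ζ) :=
      (c2.mono Ioi_subset_Ici_self).eventually (lt_mem_nhds h3)
    filter_upwards [e1, e2, Ioo_mem_nhdsGT ht'] with s hs1 hs2 hs3
    refine ⟨dom_anti w (ht.trans hs3.1.le) hs3.2.le h5, hs1, hs2, h4.trans_le ?_⟩
    exact add_le_add le_rfl (mass_mono κ s1 ε g w (Ioc_subset_Ioc_right hs3.1.le) le_rfl)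

/-- Induction on `n`. `n = 0`: take `t = 0`. Step: `(t1, E)` from `hstep` for `g = f ∘ φ`;
`le_measure_of_section` at `t1`; for `w ∈ E` take `(k', ζ₁)` from `hgeom`, the preimage `ζ''` of `ζ0`
under `cfg φ w t1` (`Inv.top`; it is `Zf w t1 ζ'` by injectivity), `M0' = M0 + mass (Ioc 0 t1)`;
`mem_dom_concat_add`, `Zf_concat_add`, `mm_concat_add`, `ups_cfg`, `mass_union_time`, `mass_congr`,
`mass_concat_Ioc`. -/
theorem iterate {κ : ℝ} {P : Measure Path} (hP : IsDrv κ P)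
    {s1 ε e c0 R h μ1 μ2 Q1 Q3 μ3 ε2 p σ : ℝ} {q : ℕ → ℂ} {Λ C2 klo khi : ℕ} {f : ℂ → ℂ}
    (hf : Univ f) {B : Set ℂ} (hB : MeasurableSet B) {ζ0 : ℂ} (hζ0 : ζ0.im = 1) {μ M : ℝ≥0∞}
    (hε : 0 < ε) (hp : 0 ≤ p)
    (hstep : ∀ g : ℂ → ℂ, Univ g → ∀ ζ ∈ H, c0 ≤ Sn ζ → StepP κ s1 P R h μ1 μ2 Q1 c0 Q3 μ3 ε2 p g ζ)
    (hgeom : ∀ (φ : ℂ → ℂ) (k : ℕ) (ζ : ℂ), Inv q e Λ c0 φ k ζ → k ≤ khi → ∀ (w : Path) (t : ℝ),
      0 ≤ t → StepOK R h μ1 μ2 Q1 c0 ζ w t →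
      ∃ (k' : ℕ) (ζ' : ℂ), k < k' ∧ k' ≤ k + C2 ∧ Inv q e Λ c0 (cfg φ w t) k' ζ')
    (hmass : ∀ (φ : ℂ → ℂ) (k : ℕ) (ζ : ℂ), Inv q e Λ c0 φ k ζ → klo ≤ k → k ≤ khi →
      ε ≤ ε2 * ups (fun ξ => f (φ ξ)) ζ ∧ (∀ ξ ∈ H, Qh ζ ξ ≤ Q3 → f (φ ξ) ∈ B) ∧
        μ ≤ ENNReal.ofReal (μ3 * ups (fun ξ => f (φ ξ)) ζ ^ dd κ))
    (hfin : ∀ (φ : ℂ → ℂ) (k : ℕ) (ζ : ℂ), Inv q e Λ c0 φ k ζ → k ≤ khi → ∀ ζ' ∈ H, φ ζ' = ζ0 →
      1 / 8 < ups φ ζ' ∧ σ < Sn ζ')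
    (n : ℕ) : ∀ (φ : ℂ → ℂ) (k : ℕ) (ζ ζ' : ℂ) (M0 : ℝ≥0∞), Inv q e Λ c0 φ k ζ → ζ' ∈ H →
      φ ζ' = ζ0 → k + n * C2 ≤ khi → M < M0 + μ * ((n - (klo - k) : ℕ) : ℝ≥0∞) →
      ENNReal.ofReal (p ^ n) ≤ P (Tgt κ s1 ε (fun ξ => f (φ ξ)) B ζ' (ups φ ζ') σ M M0) := by
  have := hP.prob
  induction n with
  | zero =>
    intro φ k ζ ζ' M0 hI hζ' hφ hk hM
    obtain ⟨h1, h2⟩ := hfin φ k ζ hI (by omega) ζ' hζ' hφ
    have hU : Tgt κ s1 ε (fun ξ => f (φ ξ)) B ζ' (ups φ ζ') σ M M0 = univ := by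
      refine eq_univ_of_forall fun w => ⟨0, le_rfl, ?_, ?_, ?_, ?_⟩
      · rwa [dom_zero]
      · rwa [mm_zero w hζ', mul_one]
      · rwa [Zf_zero w hζ']
      · simp only [Nat.zero_sub, Nat.cast_zero, mul_zero, add_zero] at hM
        exact hM.trans_le le_self_add
    rw [hU, measure_univ, pow_zero, ENNReal.ofReal_one]
  | succ n ih =>
    intro φ k ζ ζ' M0 hI hζ' hφ hk hM
    have hg : Univ fun ξ => f (φ ξ) := hf.comp hI.univ hI.maps
    have hk1 : k + C2 + n * C2 ≤ khi := by rw [Nat.succ_mul] at hk; omega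
    have hk2 : k ≤ khi := by omega
    obtain ⟨t1, E, ht1, hE, hPE, hgood⟩ := hstep _ hg ζ hI.mem hI.sn ε hε B hB
    have hA := measurableSet_Tgt κ s1 ε hg hB ζ' (hI.univ.ups_pos hζ') σ M M0
    refine le_trans ?_ (hP.le_measure_of_section (p := ENNReal.ofReal (p ^ n)) ht1 hA hE ?_)
    · rw [pow_succ', ENNReal.ofReal_mul hp]
      exact mul_le_mul_left hPE _
    intro w hw
    obtain ⟨hok, hms⟩ := hgood w hw
    obtain ⟨k', ζ1, hkk, hkk', hI'⟩ := hgeom φ k ζ hI hk2 w t1 ht1 hok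
    obtain ⟨ζ'', hζ'', hφ'⟩ := hI'.top (a := ζ0) (by simp only [mem_setOf_eq, hζ0]; norm_num)
    have e1 : phi w t1 ζ'' = ζ' :=
      hI.univ.inj (phi_mapsTo w t1 hζ'') hζ' (by rw [hφ]; exact hφ')
    have hd : ζ' ∈ dom w t1 := ⟨ζ'', hζ'', e1⟩
    have e2 : Zf w t1 ζ' = ζ'' := by rw [← e1, Zf_phi w t1 hζ'']
    have hM' : M < M0 + mass κ s1 ε (fun ξ => f (φ ξ)) w (Ioc 0 t1) B +
        μ * ((n - (klo - k') : ℕ) : ℝ≥0∞) := by
      refine hM.trans_le ?_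
      rw [add_assoc]
      refine add_le_add le_rfl ?_
      by_cases hlo : klo ≤ k
      · obtain ⟨a1, a2, a3⟩ := hmass φ k ζ hI hlo hk2
        have b1 : n + 1 - (klo - k) = n + 1 := by omega
        have b2 : n - (klo - k') = n := by omega
        rw [b1, b2, Nat.cast_succ, mul_add, mul_one, add_comm]
        exact add_le_add (a3.trans (hms a1 a2)) le_rfl
      · refine le_trans (mul_le_mul_right ?_ μ) le_add_self
        exact Nat.cast_le.2 (by omega)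
    refine (ih (cfg φ w t1) k' ζ1 ζ'' _ hI' hζ'' hφ' (by omega) hM').trans (measure_mono ?_)
    rintro w' ⟨t, ht, c1, c2, c3, c4⟩
    refine ⟨t1 + t, add_nonneg ht1 ht, ?_, ?_, ?_, ?_⟩
    · rw [mem_dom_concat_add w w' ht1 ht, e2]
      exact ⟨hd, c1⟩
    · rw [mm_concat_add w w' ht1 ht, ← mul_assoc, ← ups_cfg hI.univ hd, e2]
      exact c2
    · rw [Zf_concat_add w w' ht1 ht, e2]
      exact c3
    · rw [mass_union_time hg κ s1 ε _ ht1 (le_add_of_nonneg_right ht), mass_concat_Ioc _ _ _ _ _ _ ht1,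
        mass_congr κ s1 ε _ measurableSet_Ioc (fun r hr => hr.2)
          (fun r hr => concat_le t1 w w' hr), ← add_assoc]
      exact c4

end Crest.Agent.R162
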