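import Crest.Agent.R162.W1
import Crest.Agent.R162.W3
import Crest.Agent.R162.W5
import Crest.Agent.R162.W6

set_option autoImplicit false
open MeasureTheory ProbabilityTheory Set Filter Topology Metric
open scoped ENNReal NNReal ComplexConjugate

namespace Crest.Agent.R162

/-- The arithmetic of the number of steps. -/
theorem Worm_steps {e J C2 : ℝ} (he : 0 < e) (hJ : 1 ≤ J) (hC2 : 1 ≤ C2)
    (h : e * (4 + J) ≤ 1 / (512 * C2)) : ∃ n : ℕ, 1 / 16 ≤ e ^ 2 * J * C2 * n ∧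
      e ^ 2 * J * C2 * n ≤ 1 / 8 ∧ e * J ≤ 1 ∧ e * (4 + J) + e ^ 2 * J * (n * C2) ≤ 1 / 4 ∧
      1 / (512 * C2) ≤ e ^ 2 * J * ((n / 2 : ℕ) : ℝ) / 4 - e * J := by
  have hC0 : 0 < C2 := by linarith
  have h1 : e * (4 + J) * C2 ≤ 1 / 512 := by
    rw [le_div_iff₀ (by positivity)] at h
    linarith
  have h2 : e * (4 + J) ≤ 1 / 512 := by nlinarith [mul_pos he (by linarith : 0 < 4 + J)]
  have h3 : e * J * C2 ≤ 1 / 512 := by nlinarith [mul_pos he hC0]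
  have h4 : e ≤ 1 := by nlinarith
  have hA : 0 < e ^ 2 * J * C2 := by positivity
  have hA1 : e ^ 2 * J * C2 ≤ 1 / 512 := by nlinarith [mul_pos (mul_pos he (by linarith : 0 < J)) hC0]
  have hn1 := Nat.le_ceil (1 / (16 * (e ^ 2 * J * C2)))
  have hn2 := Nat.ceil_lt_add_one (by positivity : 0 ≤ 1 / (16 * (e ^ 2 * J * C2)))
  generalize ⌈1 / (16 * (e ^ 2 * J * C2))⌉₊ = n at hn1 hn2
  rw [div_le_iff₀ (by positivity)] at hn1
  rw [← sub_lt_iff_lt_add, lt_div_iff₀ (by positivity)] at hn2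
  have hn3 : ((n : ℝ) - 1) / 2 ≤ ((n / 2 : ℕ) : ℝ) := by
    have : n ≤ 2 * (n / 2) + 1 := by omega
    have h' : (n : ℝ) ≤ 2 * ((n / 2 : ℕ) : ℝ) + 1 := by exact_mod_cast this
    linarith
  refine ⟨n, by linarith, by nlinarith, by nlinarith, by nlinarith, ?_⟩
  rw [div_le_iff₀ (by positivity)]
  have h5 := mul_le_mul_of_nonneg_left hn3 hA.le
  nlinarith

/-- Constants: `s1` from `step_prob`; `C2 μ1 μ2 Q1` from `step_geom`; `c0 R Q3 μ3 ε2` from `step_prob`;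
`Λ J h e1` from `step_geom`; `p` from `step_prob`; `Cf` from `inv_final` (`X = 1/sK`), `C` from `inv_mass`
(`a = 1/(512 C2)`). `e = e0/√m`, `e0 ≤ e1`, `e0 (4 + J) ≤ 1/(512 C2)`; `n = ⌈1/(16 e² J C2)⌉₊` (so
`1/16 ≤ e² J C2 n ≤ 1/8`), `khi = n C2`, `klo = n/2`, `μ = ofReal (μ3 (e u/C)^d)`,
`Hc = μ3 e0^(d-2)/(64 C^d J C2)`, `Cw ≥ max (log (1/p)) Cf / e0²`, `ε1 = ε2 e0/C`, `Cb = C`.
`iterate` from `inv_init` with `φ = id`, `M0 = 0`. -/
theorem worm_norm {κ : ℝ} (hκ : 0 < κ) (hκ8 : κ < 8) {P : Measure Path} (hP : IsDrv κ P) :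
    ∃ s1 : ℝ, 0 < s1 ∧ ∀ sK : ℝ, 0 < sK → ∃ Cb Hc Cw ε1 : ℝ, 1 ≤ Cb ∧ 0 < Hc ∧ 1 ≤ Cw ∧ 0 < ε1 ∧
      ∀ f : ℂ → ℂ, Univ f → ∀ ζ : ℂ, ζ.im = 1 → sK ≤ Sn ζ → ∀ m ε : ℝ, 1 ≤ m → 0 < ε →
      ε ≤ ε1 * ups f ζ / m →
      ENNReal.ofReal (Real.exp (-Cw * m)) ≤ P (Tgt κ s1 ε f (ball (f ζ) (Cb * ups f ζ)) ζ 1
        (Real.exp (-Cw * m)) (ENNReal.ofReal (Hc * m ^ (1 - dd κ / 2) * ups f ζ ^ dd κ)) 0) := by
  obtain ⟨s1, hs1, hprob⟩ := step_prob hκ hκ8 hP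
  refine ⟨s1, hs1, fun sK hsK => ?_⟩
  obtain ⟨C2, μ1, μ2, Q1, hC2, hμ1, hμ2, hQ1, hgeom⟩ := step_geom
  obtain ⟨c0, R, Q3, μ3, ε2, hc0, hc01, hR, hQ3, hμ3, hε2, hprob⟩ := hprob μ1 μ2 Q1 hμ1 hμ2 hQ1
  obtain ⟨Λ, J, h, e1, -, hJ, hh, he1, hgeom⟩ := hgeom R hR
  obtain ⟨p, hp, hp1, hprob⟩ := hprob h hh
  have hC2' : (1 : ℝ) ≤ C2 := by exact_mod_cast hC2
  have hJ' : (1 : ℝ) ≤ J := by exact_mod_cast hJ
  have hX : 0 ≤ 1 / sK := by positivity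
  obtain ⟨Cf, hCf, hfin⟩ := inv_final hc0 hX
  obtain ⟨C, hC, hmass⟩ := inv_mass (a := 1 / (512 * C2)) (by positivity) hX (by linarith : 0 ≤ Q3)
  obtain ⟨e0, he0, he01, he02⟩ : ∃ e0 : ℝ, 0 < e0 ∧ e0 ≤ e1 ∧ e0 * (4 + J) ≤ 1 / (512 * C2) := by
    refine ⟨min e1 (1 / (512 * C2) / (4 + J)), by positivity, min_le_left _ _, ?_⟩
    rw [← le_div_iff₀ (by positivity)]
    exact min_le_right _ _
  have he03 : e0 ≤ 1 := by
    have : 1 / (512 * (C2 : ℝ)) ≤ 1 := by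
      rw [div_le_one (by positivity)]
      linarith
    exact (le_mul_of_one_le_right he0.le (by linarith)).trans (he02.trans this)
  have hlp : Real.log p ≤ 0 := Real.log_nonpos hp.le hp1
  have he2 : 0 < e0 ^ 2 := by positivity
  refine ⟨C, μ3 * (e0 / C) ^ dd κ / (64 * (e0 ^ 2 * J * C2)), (Cf - Real.log p) / e0 ^ 2,
    ε2 * e0 / C, hC, by positivity, ?_, by positivity, fun f hf ζ hζ hS m ε hm hε hεm => ?_⟩
  · rw [le_div_iff₀ he2]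
    have := pow_le_one₀ (n := 2) he0.le he03
    linarith
  have hζH : ζ ∈ H := by
    show 0 < ζ.im
    rw [hζ]
    exact one_pos
  have hu := hf.ups_pos hζH
  have hre : |ζ.re| ≤ 1 / sK := by
    have hn : 0 < ‖ζ‖ := lt_of_lt_of_le (by rw [hζ]; simp) (Complex.abs_im_le_norm ζ)
    rw [Sn, hζ, le_div_iff₀ hn] at hS
    rw [le_div_iff₀ hsK]
    exact (mul_le_mul_of_nonneg_right (Complex.abs_re_le_norm ζ) hsK.le).trans
      (by rwa [mul_comm])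
  have hm0 : 0 < m := by linarith
  have hs1' : 1 ≤ √m := Real.one_le_sqrt.2 hm
  have hsq : √m ^ 2 = m := Real.sq_sqrt hm0.le
  have hsm : √m ≤ m := (le_self_pow₀ hs1' two_ne_zero).trans hsq.le
  have hsd : √m ^ dd κ = m ^ (dd κ / 2) := by
    rw [Real.sqrt_eq_rpow, ← Real.rpow_mul hm0.le]
    congr 1
    ring
  obtain ⟨e, hedef⟩ : ∃ e : ℝ, e = e0 / √m := ⟨_, rfl⟩
  have he : 0 < e := by rw [hedef]; positivity
  have hee : e ≤ e0 := by rw [hedef]; exact div_le_self he0.le hs1'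
  have hesq : e ^ 2 * m = e0 ^ 2 := by rw [hedef, div_pow, hsq]; field_simp
  obtain ⟨n, hn1, hn2, heJ, hup, hlow⟩ := Worm_steps he hJ' hC2'
    ((mul_le_mul_of_nonneg_right hee (by positivity)).trans he02)
  obtain ⟨q, hq⟩ := exists_snake he hJ heJ
  have him : ∀ k : ℕ, k ≤ n * C2 → (q k).im ≤ 1 / 4 := fun k hk => by
    have h1 : (k : ℝ) ≤ n * C2 := by exact_mod_cast hk
    have h2 := mul_le_mul_of_nonneg_left h1 (by positivity : 0 ≤ e ^ 2 * J)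
    linarith [hq.up k]
  have him' : ∀ k : ℕ, n / 2 ≤ k → 1 / (512 * (C2 : ℝ)) ≤ (q k).im := fun k hk => by
    have h1 : ((n / 2 : ℕ) : ℝ) ≤ k := by exact_mod_cast hk
    have h2 := mul_le_mul_of_nonneg_left h1 (by positivity : 0 ≤ e ^ 2 * J)
    linarith [hq.low k]
  have hd : 0 ≤ dd κ := by unfold dd; positivity
  have key := iterate (ε := ε) (σ := Real.exp (-((Cf - Real.log p) / e0 ^ 2) * m)) (klo := n / 2)
    (khi := n * C2) (μ := ENNReal.ofReal (μ3 * (e * ups f ζ / C) ^ dd κ))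
    (M := ENNReal.ofReal (μ3 * (e0 / C) ^ dd κ / (64 * (e0 ^ 2 * J * C2)) * m ^ (1 - dd κ / 2) *
      ups f ζ ^ dd κ)) hP hf (measurableSet_ball (x := f ζ) (ε := C * ups f ζ)) hζ hε hp.le hprob
    (fun φ k ξ hI hk w t ht hs => hgeom q e hq (hee.trans he01) c0 φ k ξ hI (him k hk) w t ht hs)
    (fun φ k ξ hI hk hk' => ?_) (fun φ k ξ hI hk ξ' hξ' hφ => ?_) n id 0 (q 0) ζ 0
    (inv_init hq Λ hc01) hζH rfl (by simp) ?_
  · rw [ups_id, hζ] at key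
    refine le_trans (ENNReal.ofReal_le_ofReal ?_) key
    rw [← Real.exp_log hp, ← Real.exp_nat_mul, Real.log_exp]
    refine Real.exp_le_exp.2 ?_
    have h1 : (n : ℝ) * e0 ^ 2 ≤ m := by
      have h2 : e ^ 2 * n ≤ e ^ 2 * J * C2 * n := by
        refine mul_le_mul_of_nonneg_right ?_ (Nat.cast_nonneg n)
        exact (le_mul_of_one_le_right (sq_nonneg e) hJ').trans
          (le_mul_of_one_le_right (by positivity) hC2')
      have h3 := mul_le_mul_of_nonneg_right (h2.trans hn2) hm0.le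
      rw [← hesq]
      linarith
    rw [neg_mul, div_mul_eq_mul_div, neg_le, le_div_iff₀ he2]
    have h4 := mul_le_mul_of_nonneg_right h1 (neg_nonneg.2 hlp)
    have h5 := mul_nonneg (zero_le_one.trans hCf) hm0.le
    linarith
  · obtain ⟨h1, h2⟩ := hmass f ζ hf hζ hre q e J Λ c0 φ k ξ hq hI (him' k hk) (him k hk')
    refine ⟨hεm.trans (le_trans ?_ (mul_le_mul_of_nonneg_left h1 hε2.le)), h2,
      ENNReal.ofReal_le_ofReal (mul_le_mul_of_nonneg_left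
        (Real.rpow_le_rpow (by positivity) h1 hd) hμ3.le)⟩
    have : ε2 * (e * ups f ζ / C) = ε2 * e0 / C * ups f ζ / √m := by rw [hedef]; ring
    rw [this]
    exact div_le_div_of_nonneg_left (by positivity) (by positivity) hsm
  · obtain ⟨h1, h2⟩ := hfin q e J Λ φ k ξ hq hJ heJ hI (him k hk) ξ' hξ' (by rw [hφ, hζ])
      (by rw [hφ]; exact hre)
    refine ⟨h1, lt_of_le_of_lt (Real.exp_le_exp.2 ?_) h2⟩
    have : Cf / e ^ 2 = Cf / e0 ^ 2 * m := by rw [← hesq]; field_simp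
    rw [this, neg_mul, neg_le_neg_iff]
    exact mul_le_mul_of_nonneg_right (div_le_div_of_nonneg_right (by linarith) he2.le) hm0.le
  · rw [zero_add, Nat.sub_zero, ← ENNReal.ofReal_natCast, ← ENNReal.ofReal_mul (by positivity)]
    have h1 : (n : ℝ) / 2 ≤ ((n - n / 2 : ℕ) : ℝ) := by
      have : n ≤ 2 * (n - n / 2) := by omega
      have h' : (n : ℝ) ≤ 2 * ((n - n / 2 : ℕ) : ℝ) := by exact_mod_cast this
      linarith
    have h2 : (e * ups f ζ / C) ^ dd κ = (e0 / C) ^ dd κ * ups f ζ ^ dd κ / m ^ (dd κ / 2) := by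
      rw [← hsd, ← Real.mul_rpow (by positivity) hu.le, ← Real.div_rpow (by positivity) (by positivity),
        hedef]
      congr 1
      ring
    have h3 : m / (32 * (e0 ^ 2 * J * C2)) ≤ ((n - n / 2 : ℕ) : ℝ) := by
      refine le_trans ?_ h1
      have h3 := mul_le_mul_of_nonneg_right hn1 hm0.le
      rw [div_le_iff₀ (by positivity), ← hesq]
      linarith
    have hT : 0 < μ3 * ((e0 / C) ^ dd κ * ups f ζ ^ dd κ / m ^ (dd κ / 2)) := by positivity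
    have hU : 0 < m / (32 * (e0 ^ 2 * J * C2)) := by positivity
    have h4 : μ3 * (e0 / C) ^ dd κ / (64 * (e0 ^ 2 * J * C2)) * m ^ (1 - dd κ / 2) * ups f ζ ^ dd κ =
        μ3 * ((e0 / C) ^ dd κ * ups f ζ ^ dd κ / m ^ (dd κ / 2)) *
          (m / (32 * (e0 ^ 2 * J * C2))) / 2 := by
      rw [Real.rpow_sub hm0, Real.rpow_one]
      ring
    rw [h2, h4]
    have h5 := mul_le_mul_of_nonneg_left h3 hT.le
    have h6 := mul_pos hT hU
    exact (ENNReal.ofReal_lt_ofReal_iff (by linarith)).2 (by linarith)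

/-- Lower tail: with probability `e^(-C m)` the curve makes mass `m^(1-d/2) u^d` near the target while
keeping the target alive, far from the curve and not too shielded (block W). Scaling of `worm_norm`
(`measure_scale`, `measurableSet_Tgt`, `mem_dom_scale`, `Zf_scale`, `mm_scale`, `mass_scale_Ioc`). -/
theorem worm {κ : ℝ} (hκ : 0 < κ) (hκ8 : κ < 8) {P : Measure Path} (hP : IsDrv κ P) :
    ∃ s1 : ℝ, 0 < s1 ∧ ∀ sK : ℝ, 0 < sK → ∃ Cb Hc Cw ε1 : ℝ, 1 ≤ Cb ∧ 0 < Hc ∧ 1 ≤ Cw ∧ 0 < ε1 ∧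
      ∀ f : ℂ → ℂ, Univ f → ∀ ζ ∈ H, sK ≤ Sn ζ → ∀ m ε : ℝ, 1 ≤ m → 0 < ε →
      ε ≤ ε1 * ups f ζ / m →
      ENNReal.ofReal (Real.exp (-Cw * m)) ≤ P {w | ∃ t, 0 ≤ t ∧ ζ ∈ dom w t ∧ 1 / 8 < mm w t ζ ∧
        Real.exp (-Cw * m) < Sn (Zf w t ζ) ∧
        ENNReal.ofReal (Hc * m ^ (1 - dd κ / 2) * ups f ζ ^ dd κ) <
          mass κ s1 ε f w (Ioc 0 t) (ball (f ζ) (Cb * ups f ζ))} := by
  obtain ⟨s1, hs1, h⟩ := worm_norm hκ hκ8 hP
  refine ⟨s1, hs1, fun sK hsK => ?_⟩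
  obtain ⟨Cb, Hc, Cw, ε1, hCb, hHc, hCw, hε1, h⟩ := h sK hsK
  refine ⟨Cb, Hc, Cw, ε1, hCb, hHc, hCw, hε1, fun f hf ζ hζ hS m ε hm hε hεm => ?_⟩
  have hr : 0 < ζ.im := hζ
  obtain ⟨r, hrdef⟩ : ∃ r : ℝ, r = ζ.im := ⟨_, rfl⟩
  rw [← hrdef] at hr
  have hrc : (r : ℂ) ≠ 0 := Complex.ofReal_ne_zero.2 hr.ne'
  have hSn : ∀ z : ℂ, Sn (r * z) = Sn z := fun z => by
    rw [Sn, Sn, Complex.im_ofReal_mul, norm_mul, Complex.norm_real, Real.norm_of_nonneg hr.le,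
      mul_div_mul_left _ _ hr.ne']
  obtain ⟨ξ, rfl⟩ : ∃ ξ : ℂ, ζ = r * ξ := ⟨ζ / r, by field_simp⟩
  have hξ : ξ.im = 1 := by
    rw [Complex.im_ofReal_mul] at hrdef
    exact mul_left_cancel₀ hr.ne' (by rw [← hrdef, mul_one])
  have hξH : ξ ∈ H := by
    show 0 < ξ.im
    rw [hξ]
    exact one_pos
  have h1 := h _ (hf.dilate hr) ξ hξ (by rwa [hSn] at hS) m ε hm hε
    (by rwa [ups_dilate hf hr hξH])
  rw [ups_dilate hf hr hξH] at h1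
  have hset := measurableSet_Tgt κ s1 ε hf
    (measurableSet_ball (x := f (r * ξ)) (ε := Cb * ups f (r * ξ))) (r * ξ) one_pos
    (Real.exp (-Cw * m)) (ENNReal.ofReal (Hc * m ^ (1 - dd κ / 2) * ups f (r * ξ) ^ dd κ)) 0
  simp only [Tgt, one_mul, zero_add] at hset h1
  rw [hP.measure_scale hr hset]
  refine h1.trans (measure_mono ?_)
  rintro w ⟨t, ht, h2, h3, h4, h5⟩
  refine ⟨r ^ 2 * t, by positivity, (mem_dom_scale w hr t ξ).2 h2, ?_, ?_, ?_⟩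
  · rwa [mm_scale w hr]
  · rwa [Zf_scale w hr, hSn]
  · rwa [mass_scale_Ioc hf κ s1 ε w hr t measurableSet_ball]

end Crest.Agent.R162
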