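import Crest.Agent.R162.U2
import Crest.Agent.R162.Worm

/-! Row 162, block U: probability of the bad event. -/

set_option autoImplicit false
open MeasureTheory ProbabilityTheory Set Filter Topology Metric
open scoped ENNReal NNReal ComplexConjugate

namespace Crest.Agent.R162.U

/-- The conclusion of `worm`. -/
def WormP (κ : ℝ) (P : Measure Path) (s1 sK Cb Hc Cw ε1 : ℝ) : Prop :=
  ∀ f : ℂ → ℂ, Univ f → ∀ ζ ∈ H, sK ≤ Sn ζ → ∀ m ε : ℝ, 1 ≤ m → 0 < ε →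
    ε ≤ ε1 * ups f ζ / m →
    ENNReal.ofReal (Real.exp (-Cw * m)) ≤ P {w | ∃ t, 0 ≤ t ∧ ζ ∈ dom w t ∧ 1 / 8 < mm w t ζ ∧
      Real.exp (-Cw * m) < Sn (Zf w t ζ) ∧
      ENNReal.ofReal (Hc * m ^ (1 - dd κ / 2) * ups f ζ ^ dd κ) <
        mass κ s1 ε f w (Ioc 0 t) (ball (f ζ) (Cb * ups f ζ))}

/-- The real inequality of the induction step (`x = S^a ≤ y = S^c ≤ 1`; either `S ≥ sK` and the worm
gains `p ≥ p x`, or `x ≤ y / (8 C)`). -/
theorem step_real {C θ p x y g : ℝ} (hC : 1 ≤ C) (hθ0 : 0 < θ) (hθ : θ ≤ 1 / (4 * C))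
    (hp0 : 0 < p) (hp : p ≤ 1) (hx0 : 0 ≤ x) (hx : x ≤ 1) (hy : 0 ≤ y)
    (hg : g = p ∨ (g = 0 ∧ x ≤ y / (8 * C))) :
    x - g + p / (2 * C) * (C * (x + θ * y)) ≤ (1 - p / 2) * (x + p / (2 * C) * y) := by
  have hC0 : 0 < C := by linarith
  have hθ' : θ * C ≤ 1 / 4 := by
    rw [le_div_iff₀ (by positivity)] at hθ; linarith
  obtain ⟨z, hz⟩ : ∃ z, z = y / C := ⟨_, rfl⟩
  have hz0 : 0 ≤ z := by rw [hz]; positivity
  have hy' : y = z * C := by rw [hz]; field_simp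
  have e1 : p / (2 * C) * (C * (x + θ * y)) = p / 2 * x + p / 2 * (θ * C) * z := by
    rw [hy']; field_simp
  have e2 : p / (2 * C) * y = p / 2 * z := by rw [hy']; field_simp
  rw [e1, e2]
  have h1 : p / 2 * (θ * C) * z ≤ p / 2 * (1 / 4) * z := by gcongr
  have h2 : p * p * z ≤ p * z := by
    have := mul_le_mul_of_nonneg_right hp (mul_nonneg hp0.le hz0)
    nlinarith
  rcases hg with rfl | ⟨rfl, hxy⟩
  · have h3 : g * x ≤ g := by nlinarith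
    nlinarith
  · have h3 : x ≤ z / 8 := by
      rw [hz]; refine hxy.trans (le_of_eq ?_); field_simp
    have h4 : p * x ≤ p * (z / 8) := by gcongr
    nlinarith

/-- One step: with `τ = tau ζ θ`, `σ = sig` (`s = exp (-Cw m)`, `X`, `B` as in `WormP`),
`p = exp (-(1 + a) Cw m)`:
`E[S_τ^a + p/(2C) S_τ^c; τ < ⊤, σ = ⊤] ≤ θ^(2-d) (1 - p/2) (S^a + p/(2C) S^c)`
(`step_G`, `OneP`, `WormP` with `ft_lt_top_iff` if `sK ≤ S`, `step_real`). -/
theorem step_V {κ : ℝ} (hκ : 0 < κ) (hκ8 : κ < 8) {P : Measure Path} (hP : IsDrv κ P) {C : ℝ}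
    (hC : OneP κ P C) {s1 sK Cb Hc Cw ε1 θ : ℝ} (hW : WormP κ P s1 sK Cb Hc Cw ε1) (hCw : 0 ≤ Cw)
    (hsK : sK ^ (aa κ - cO κ) ≤ 1 / (8 * C)) (hθ0 : 0 < θ) (hθ : θ ≤ 1 / 8) (hθC : θ ≤ 1 / (4 * C))
    {f : ℂ → ℂ} (hf : Univ f) {ζ : ℂ} (hζ : ζ ∈ H) {m ε : ℝ} (hm : 1 ≤ m) (hε : 0 < ε)
    (hε1 : ε ≤ ε1 * ups f ζ / m) :
    ∫⁻ w in {w | tau ζ θ w < ⊤ ∧ sig κ s1 ε (Real.exp (-Cw * m))
        (ENNReal.ofReal (Hc * m ^ (1 - dd κ / 2) * ups f ζ ^ dd κ))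
        (ball (f ζ) (Cb * ups f ζ)) f ζ w = ⊤},
      ENNReal.ofReal (Sn (Zf w (tau ζ θ w).toReal ζ) ^ aa κ +
        Real.exp (-((1 + aa κ) * Cw * m)) / (2 * C) * Sn (Zf w (tau ζ θ w).toReal ζ) ^ cO κ) ∂P ≤
      ENNReal.ofReal (θ ^ (2 - dd κ) * (1 - Real.exp (-((1 + aa κ) * Cw * m)) / 2) *
        (Sn ζ ^ aa κ + Real.exp (-((1 + aa κ) * Cw * m)) / (2 * C) * Sn ζ ^ cO κ)) := by
  obtain ⟨hC1, hS, -, -⟩ := hC
  have hC0 : 0 < C := by linarith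
  obtain ⟨hc0, hca, -⟩ := cO_pos hκ hκ8
  have ha := aa_pos hκ hκ8
  set p := Real.exp (-((1 + aa κ) * Cw * m)) with hp
  have hp0 : 0 < p := Real.exp_pos _
  have hp1 : p ≤ 1 := Real.exp_le_one_iff.2 (neg_nonpos.2 (by positivity))
  set X := ENNReal.ofReal (Hc * m ^ (1 - dd κ / 2) * ups f ζ ^ dd κ) with hX
  set B := ball (f ζ) (Cb * ups f ζ) with hB
  set σ := sig κ s1 ε (Real.exp (-Cw * m)) X B f ζ with hσ
  have hS0 := Sn_pos hζ
  have hS1 := Sn_le_one ζ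
  have hθa : 0 < θ ^ (2 - dd κ) := Real.rpow_pos_of_pos hθ0 _
  have hSn : ∀ ξ : ℂ, ∀ w : Path, 0 ≤ Sn (Zf w (tau ζ θ w).toReal ζ) := by
    intro _ w
    by_cases hd : ζ ∈ dom w (tau ζ θ w).toReal
    · exact (Sn_pos (Zf_mem hd)).le
    · rw [Zf_dead hd, Sn_zero]
  have hG := step_G hκ hκ8 hP s1 ε (Real.exp_pos (-Cw * m)).le X (measurableSet_ball (x := f ζ)
    (ε := Cb * ups f ζ)) hf hζ hθ0 hθ
  have hS' := hS ζ hζ θ hθ0 (by linarith)
  have hmeas := measurable_Sn_stop (isOpt_tau ζ θ).meas ζ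
  obtain ⟨g, hg, hg0, hgP⟩ : ∃ g : ℝ, (g = p ∨ (g = 0 ∧ Sn ζ ^ aa κ ≤ Sn ζ ^ cO κ / (8 * C))) ∧
      0 ≤ g ∧ ENNReal.ofReal (θ ^ (2 - dd κ) * g) ≤
        ENNReal.ofReal (θ ^ (2 - dd κ) * Real.exp (-Cw * m) ^ aa κ) * P {w | σ w < ⊤} := by
    by_cases hK : sK ≤ Sn ζ
    · refine ⟨p, Or.inl rfl, hp0.le, ?_⟩
      have h1 := hW f hf ζ hζ hK m ε hm hε hε1
      have h2 : ENNReal.ofReal (Real.exp (-Cw * m)) ≤ P {w | σ w < ⊤} :=
        h1.trans (measure_mono fun w hw => ft_lt_top_iff.2 hw)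
      refine le_trans (le_of_eq ?_) (mul_le_mul_right h2 _)
      rw [← ENNReal.ofReal_mul (by positivity), mul_assoc, ← Real.exp_mul, ← Real.exp_add, hp]
      congr 3
      ring
    · push Not at hK
      refine ⟨0, Or.inr ⟨rfl, ?_⟩, le_rfl, by simp⟩
      have e : Sn ζ ^ aa κ = Sn ζ ^ (aa κ - cO κ) * Sn ζ ^ cO κ := by
        rw [← Real.rpow_add hS0]; congr 1; ring
      have h1 : Sn ζ ^ (aa κ - cO κ) ≤ 1 / (8 * C) :=
        (Real.rpow_le_rpow hS0.le hK.le (by linarith)).trans hsK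
      rw [e, div_eq_mul_one_div, mul_comm]
      exact mul_le_mul_of_nonneg_left h1 (Real.rpow_pos_of_pos hS0 _).le
  have hx0 : 0 ≤ Sn ζ ^ aa κ := (Real.rpow_pos_of_pos hS0 _).le
  have hy0 : 0 ≤ Sn ζ ^ cO κ := (Real.rpow_pos_of_pos hS0 _).le
  have hreal := step_real hC1 hθ0 hθC hp0 hp1 hx0 (Real.rpow_le_one hS0.le hS1 ha.le) hy0 hg
  have hsplit : ∫⁻ w in {w | tau ζ θ w < ⊤ ∧ σ w = ⊤},
      ENNReal.ofReal (Sn (Zf w (tau ζ θ w).toReal ζ) ^ aa κ +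
        p / (2 * C) * Sn (Zf w (tau ζ θ w).toReal ζ) ^ cO κ) ∂P ≤
      ∫⁻ w in {w | tau ζ θ w < ⊤ ∧ σ w = ⊤},
        ENNReal.ofReal (Sn (Zf w (tau ζ θ w).toReal ζ) ^ aa κ) ∂P +
      ENNReal.ofReal (p / (2 * C)) * ENNReal.ofReal
        (C * θ ^ (2 - dd κ) * (Sn ζ ^ aa κ + θ * Sn ζ ^ cO κ)) := by
    have e : ∀ w : Path, ENNReal.ofReal (Sn (Zf w (tau ζ θ w).toReal ζ) ^ aa κ +
        p / (2 * C) * Sn (Zf w (tau ζ θ w).toReal ζ) ^ cO κ) =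
        ENNReal.ofReal (Sn (Zf w (tau ζ θ w).toReal ζ) ^ aa κ) + ENNReal.ofReal (p / (2 * C)) *
          ENNReal.ofReal (Sn (Zf w (tau ζ θ w).toReal ζ) ^ cO κ) := fun w => by
      rw [ENNReal.ofReal_add (Real.rpow_nonneg (hSn 0 w) _)
        (mul_nonneg (by positivity) (Real.rpow_nonneg (hSn 0 w) _)),
        ENNReal.ofReal_mul (by positivity)]
    simp_rw [e]
    rw [lintegral_add_left (hmeas.pow_const _).ennreal_ofReal,
      lintegral_const_mul' _ _ ENNReal.ofReal_ne_top]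
    gcongr
    exact (lintegral_mono_set fun w hw => hw.1).trans hS'
  refine hsplit.trans ?_
  rw [← ENNReal.add_le_add_iff_right (a := ENNReal.ofReal (θ ^ (2 - dd κ) * g))
    ENNReal.ofReal_ne_top, add_right_comm]
  refine (add_le_add ((add_le_add le_rfl hgP).trans hG) le_rfl).trans ?_
  have h1p : 0 ≤ 1 - p / 2 := by linarith
  rw [← ENNReal.ofReal_mul (by positivity), ← ENNReal.ofReal_add (by positivity) (by positivity),
    ← ENNReal.ofReal_add (by positivity) (by positivity)]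
  refine ENNReal.ofReal_le_ofReal ?_
  have := mul_le_mul_of_nonneg_left hreal hθa.le
  nlinarith

/-- Induction on `n` (for all `f`, `ζ`). `n = 0`: `OneP`. Step: `Bad_le_markov` with `θ' = θ`; for `w`
with `tau < ⊤`: the section is empty if `sig < ⊤` (`Bad_succ`, `lt_mass_concat`), otherwise
`Bad_succ`, `Bad_concat`, `tau_spec`, `ups_cfg` (the new `ups` is `ups f ζ * θ`) and the induction
hypothesis; then `step_V`. -/
theorem bad_ind {κ : ℝ} (hκ : 0 < κ) (hκ8 : κ < 8) {P : Measure Path} (hP : IsDrv κ P) {C : ℝ}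
    (hC : OneP κ P C) {s1 sK Cb Hc Cw ε1 θ : ℝ} (hW : WormP κ P s1 sK Cb Hc Cw ε1) (hCw : 0 ≤ Cw)
    (hε1 : 0 < ε1) (hsK : sK ^ (aa κ - cO κ) ≤ 1 / (8 * C)) (hθ0 : 0 < θ) (hθ : θ ≤ 1 / 8)
    (hθC : θ ≤ 1 / (4 * C)) {m ε : ℝ} (hm : 1 ≤ m) (hε : 0 < ε) (n : ℕ) :
    ∀ f : ℂ → ℂ, Univ f → ∀ ζ ∈ H, ε ≤ ε1 * (ups f ζ * θ ^ n) / m →
      P (Bad κ s1 ε Cb (Hc * m ^ (1 - dd κ / 2)) θ f ζ (ups f ζ) n) ≤
        ENNReal.ofReal (2 * C ^ 2 / Real.exp (-((1 + aa κ) * Cw * m)) *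
          (θ ^ (2 - dd κ) * (1 - Real.exp (-((1 + aa κ) * Cw * m)) / 2)) ^ n *
          (Sn ζ ^ aa κ + Real.exp (-((1 + aa κ) * Cw * m)) / (2 * C) * Sn ζ ^ cO κ)) := by
  have hC1 : 1 ≤ C := hC.1
  have hC0 : 0 < C := one_pos.trans_le hC1
  have ha : 0 < aa κ := by
    unfold aa
    rw [sub_pos, lt_div_iff₀ hκ]
    linarith
  have hθ1 : θ ≤ 1 := hθ.trans (by norm_num)
  have hm0 : 0 < m := one_pos.trans_le hm
  have hSV := fun (f : ℂ → ℂ) (hf : Univ f) (ζ : ℂ) (hζ : ζ ∈ H) (h : ε ≤ ε1 * ups f ζ / m) =>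
    step_V hκ hκ8 hP hC hW hCw hsK hθ0 hθ hθC hf hζ hm hε h
  have hp1 : Real.exp (-((1 + aa κ) * Cw * m)) ≤ 1 := by
    rw [Real.exp_le_one_iff, neg_nonpos]
    positivity
  have hp0 : 0 < Real.exp (-((1 + aa κ) * Cw * m)) := Real.exp_pos _
  generalize Real.exp (-((1 + aa κ) * Cw * m)) = p at hSV hp0 hp1 ⊢
  have hq0 : 0 ≤ θ ^ (2 - dd κ) * (1 - p / 2) :=
    mul_nonneg (Real.rpow_nonneg hθ0.le _) (by linarith)
  generalize θ ^ (2 - dd κ) * (1 - p / 2) = q at hSV hq0 ⊢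
  have hK0 : 0 ≤ 2 * C ^ 2 / p := by positivity
  induction n with
  | zero =>
    intro f hf ζ hζ _
    have hu := hf.ups_pos hζ
    have hS := (Sn_pos hζ).le
    refine le_trans (measure_mono ?_) ((hC.2.2.1 ζ hζ _ hu).trans (ENNReal.ofReal_le_ofReal ?_))
    · rintro w ⟨⟨t, ht, hd, h⟩, -⟩
      exact ⟨t, ht, hd, by simpa using h⟩
    · have h1 : 0 ≤ Sn ζ ^ aa κ := Real.rpow_nonneg hS _
      have h2 : C ≤ 2 * C ^ 2 / p := by
        rw [le_div_iff₀ hp0]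
        nlinarith
      have h3 : 2 * C ^ 2 / p * q ^ 0 * (Sn ζ ^ aa κ + p / (2 * C) * Sn ζ ^ cO κ) =
          2 * C ^ 2 / p * Sn ζ ^ aa κ + C * Sn ζ ^ cO κ := by
        field_simp
      rw [h3, mul_add]
      exact add_le_add (mul_le_mul_of_nonneg_right h2 h1) le_rfl
  | succ n ih =>
    intro f hf ζ hζ hεn
    have hu := hf.ups_pos hζ
    have hθn : θ ^ n ≤ 1 := pow_le_one₀ hθ0.le hθ1
    have hθn0 : 0 < θ ^ n := pow_pos hθ0 n
    have huθ : 0 < ups f ζ * θ := mul_pos hu hθ0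
    have h1 : ups f ζ * θ * θ ^ n / 2 < ups f ζ * θ := by
      have := mul_le_mul_of_nonneg_left hθn huθ.le
      linarith
    have h2 : ups f ζ * θ ^ (n + 1) = ups f ζ * θ * θ ^ n := by ring
    have h3 : ε ≤ ε1 * ups f ζ / m := by
      refine hεn.trans (div_le_div_of_nonneg_right (mul_le_mul_of_nonneg_left ?_ hε1.le) hm0.le)
      exact mul_le_of_le_one_right hu.le (pow_le_one₀ hθ0.le hθ1)
    have hτ : MeasurableSet {w : Path | tau ζ θ w < ⊤} :=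
      measurableSet_lt (isOpt_tau ζ θ).meas measurable_const
    have hσ : MeasurableSet {w : Path | sig κ s1 ε (Real.exp (-Cw * m))
        (ENNReal.ofReal (Hc * m ^ (1 - dd κ / 2) * ups f ζ ^ dd κ))
        (ball (f ζ) (Cb * ups f ζ)) f ζ w = ⊤} :=
      (isOpt_sig κ s1 ε _ _ measurableSet_ball hf ζ).meas (measurableSet_singleton ⊤)
    have hV := hSV f hf ζ hζ h3
    refine (Bad_le_markov hP hf hζ (θ' := θ) (by rw [h2]; exact h1)).trans ?_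
    have hKq : 0 ≤ 2 * C ^ 2 / p * q ^ n := mul_nonneg hK0 (pow_nonneg hq0 n)
    calc _ ≤ ∫⁻ w in {w | tau ζ θ w < ⊤}, ({w : Path | sig κ s1 ε (Real.exp (-Cw * m))
            (ENNReal.ofReal (Hc * m ^ (1 - dd κ / 2) * ups f ζ ^ dd κ))
            (ball (f ζ) (Cb * ups f ζ)) f ζ w = ⊤}).indicator (fun w =>
              ENNReal.ofReal (2 * C ^ 2 / p * q ^ n) *
              ENNReal.ofReal (Sn (Zf w (tau ζ θ w).toReal ζ) ^ aa κ +
                p / (2 * C) * Sn (Zf w (tau ζ θ w).toReal ζ) ^ cO κ)) w ∂P := by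
          refine setLIntegral_mono' hτ fun w hw => ?_
          by_cases hs : sig κ s1 ε (Real.exp (-Cw * m))
            (ENNReal.ofReal (Hc * m ^ (1 - dd κ / 2) * ups f ζ ^ dd κ))
            (ball (f ζ) (Cb * ups f ζ)) f ζ w = ⊤
          · rw [indicator_of_mem (by exact hs), ← ENNReal.ofReal_mul hKq]
            obtain ⟨hz, hmm⟩ := tau_spec hζ hθ1 hw
            have hups := ups_cfg hf hz
            rw [hmm] at hups
            have := ih (cfg f w (tau ζ θ w).toReal) (hf.cfg w _) _ (Zf_mem hz)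
              (by rw [hups, ← h2]; exact hεn)
            rw [hups] at this
            refine le_trans (measure_mono fun w' hw' => ?_) this
            exact Bad_concat hf hζ hθ1 h1 hw (Bad_succ hw').1
          · rw [indicator_of_notMem (by exact hs)]
            refine le_of_eq (measure_mono_null (t := ∅) (fun w' hw' => ?_) measure_empty)
            exact absurd (Bad_succ hw').2
              (not_le.2 (lt_mass_concat hθ hw (lt_top_iff_ne_top.2 hs) w'))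
      _ = ENNReal.ofReal (2 * C ^ 2 / p * q ^ n) * ∫⁻ w in {w | tau ζ θ w < ⊤ ∧
            sig κ s1 ε (Real.exp (-Cw * m))
            (ENNReal.ofReal (Hc * m ^ (1 - dd κ / 2) * ups f ζ ^ dd κ))
            (ball (f ζ) (Cb * ups f ζ)) f ζ w = ⊤},
              ENNReal.ofReal (Sn (Zf w (tau ζ θ w).toReal ζ) ^ aa κ +
                p / (2 * C) * Sn (Zf w (tau ζ θ w).toReal ζ) ^ cO κ) ∂P := by
          rw [lintegral_indicator hσ, Measure.restrict_restrict hσ,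
            lintegral_const_mul' _ _ ENNReal.ofReal_ne_top, inter_comm]
          rfl
      _ ≤ ENNReal.ofReal (2 * C ^ 2 / p * q ^ n) *
            ENNReal.ofReal (q * (Sn ζ ^ aa κ + p / (2 * C) * Sn ζ ^ cO κ)) := by gcongr
      _ = _ := by
          rw [← ENNReal.ofReal_mul hKq]
          congr 1
          ring

/-- The conclusion of `bad_prob`. -/
def BadP (κ : ℝ) (P : Measure Path) (s1 θ Cb Hc Cw ε1 C : ℝ) : Prop :=
  ∀ m : ℝ, 1 ≤ m → ∀ n : ℕ, ∀ z ∈ H, ∀ r : ℝ, 0 < r → r ≤ z.im → ∀ ε : ℝ, 0 < ε →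
    ε ≤ ε1 * (r * θ ^ n) / m →
    P (Bad κ s1 ε Cb (Hc * m ^ (1 - dd κ / 2)) θ id z r n) ≤
      ENNReal.ofReal (C * Real.exp (Cw * m) * (r * θ ^ n / z.im) ^ (2 - dd κ) *
        Real.exp (-(n * Real.exp (-(Cw * m)) / 2)))

/-- `exists_oneP`, `θ = min (1/8) (1/(4C))`, `sK = (1/(8C))^(1/(a - c))`, `worm`; `Bad_le_markov` and
`Bad_concat` with `θ' = r / z.im` (`ups_id`, `tau_spec`, `ups_cfg`: the new `ups` is `r`), `bad_ind`,
`S ≤ 1`, `1 - x ≤ exp (-x)`, third clause of `OneP`. The new `Cw` is `(1 + a) Cw`. -/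
theorem bad_prob {κ : ℝ} (hκ : 0 < κ) (hκ8 : κ < 8) {P : Measure Path} (hP : IsDrv κ P) :
    ∃ s1 θ Cb Hc Cw ε1 C : ℝ, 0 < s1 ∧ 0 < θ ∧ θ ≤ 1 / 8 ∧ 1 ≤ Cb ∧ 0 < Hc ∧ 0 < Cw ∧ 0 < ε1 ∧
      0 < C ∧ BadP κ P s1 θ Cb Hc Cw ε1 C := by
  obtain ⟨C, hC⟩ := exists_oneP hκ hκ8 hP
  have hC1 : 1 ≤ C := hC.1
  have hC0 : 0 < C := by linarith
  obtain ⟨s1, hs1, hw⟩ := worm hκ hκ8 hP
  have ha := aa_pos hκ hκ8
  obtain ⟨hc0, hca, -⟩ := cO_pos hκ hκ8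
  have h8C : 0 < 1 / (8 * C) := by positivity
  obtain ⟨Cb, Hc, Cw, ε1, hCb, hHc, hCw, hε1, hW⟩ :=
    hw ((1 / (8 * C)) ^ (aa κ - cO κ)⁻¹) (Real.rpow_pos_of_pos h8C _)
  have hsK : ((1 / (8 * C)) ^ (aa κ - cO κ)⁻¹) ^ (aa κ - cO κ) ≤ 1 / (8 * C) :=
    (Real.rpow_inv_rpow h8C.le (by linarith)).le
  set θ : ℝ := min (1 / 8) (1 / (4 * C)) with hθdef
  have hθ0 : 0 < θ := lt_min (by norm_num) (by positivity)
  have hθ8 : θ ≤ 1 / 8 := min_le_left _ _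
  have hθC : θ ≤ 1 / (4 * C) := min_le_right _ _
  refine ⟨s1, θ, Cb, Hc, (1 + aa κ) * Cw, ε1, 4 * C ^ 3, hs1, hθ0, hθ8, hCb, hHc,
    by positivity, hε1, by positivity, ?_⟩
  intro m hm n z hz r hr hrz ε hε hεle
  have hzim : 0 < z.im := hz
  have hθ'0 : 0 < r / z.im := div_pos hr hzim
  have hθ'1 : r / z.im ≤ 1 := (div_le_one hzim).2 hrz
  have hθn : θ ^ n ≤ 1 := pow_le_one₀ hθ0.le (by linarith)
  have e0 : z.im * (r / z.im) = r := by field_simp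
  have h' : r * θ ^ n / 2 < ups id z * (r / z.im) := by
    rw [ups_id, e0]
    nlinarith [pow_pos hθ0 n]
  set p : ℝ := Real.exp (-((1 + aa κ) * Cw * m)) with hp
  have hp0 : 0 < p := Real.exp_pos _
  have hp1 : p ≤ 1 := Real.exp_le_one_iff.2 (neg_nonpos.2 (by positivity))
  set K : ℝ := 2 * C ^ 2 / p * (θ ^ (2 - dd κ) * (1 - p / 2)) ^ n * 2 with hK
  have hq : 0 ≤ θ ^ (2 - dd κ) * (1 - p / 2) :=
    mul_nonneg (Real.rpow_nonneg hθ0.le _) (by linarith)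
  have hK0 : 0 ≤ K := by positivity
  have hmeas : MeasurableSet {w | tau z (r / z.im) w < ⊤} :=
    measurableSet_lt (isOpt_tau z _).meas measurable_const
  have hsec : ∀ w ∈ {w | tau z (r / z.im) w < ⊤},
      P {w' | concat (tau z (r / z.im) w).toReal w w' ∈
        Bad κ s1 ε Cb (Hc * m ^ (1 - dd κ / 2)) θ id z r n} ≤ ENNReal.ofReal K := by
    intro w hw
    obtain ⟨hd, hmm⟩ := tau_spec hz hθ'1 hw
    set T := (tau z (r / z.im) w).toReal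
    have hu : ups (cfg id w T) (Zf w T z) = r := by rw [ups_cfg univ_id hd, hmm, ups_id, e0]
    have hZ := Zf_mem hd
    have h1 := bad_ind hκ hκ8 hP hC hW (by linarith) hε1 hsK hθ0 hθ8 hθC hm hε n (cfg id w T)
      (univ_id.cfg w T) (Zf w T z) hZ (by rw [hu]; exact hεle)
    rw [hu] at h1
    refine (measure_mono fun w' hw' => Bad_concat univ_id hz hθ'1 h' hw hw').trans
      (h1.trans (ENNReal.ofReal_le_ofReal ?_))
    refine mul_le_mul_of_nonneg_left ?_ (by positivity)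
    have a1 : Sn (Zf w T z) ^ aa κ ≤ 1 := Real.rpow_le_one (Sn_pos hZ).le (Sn_le_one _) ha.le
    have a2 : Sn (Zf w T z) ^ cO κ ≤ 1 := Real.rpow_le_one (Sn_pos hZ).le (Sn_le_one _) hc0.le
    have a3 : p / (2 * C) ≤ 1 := by rw [div_le_one (by positivity)]; linarith
    have a4 := mul_le_mul a3 a2 (Real.rpow_nonneg (Sn_pos hZ).le _) zero_le_one
    linarith
  refine (Bad_le_markov hP univ_id hz h').trans ((setLIntegral_mono' hmeas hsec).trans ?_)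
  rw [setLIntegral_const]
  refine (mul_le_mul_right (hC.2.2.2 z hz _ hθ'0) _).trans ?_
  rw [← ENNReal.ofReal_mul hK0]
  refine ENNReal.ofReal_le_ofReal ?_
  have b1 : (1 - p / 2) ^ n ≤ Real.exp (-(n * p / 2)) := by
    calc (1 - p / 2) ^ n ≤ Real.exp (-(p / 2)) ^ n :=
          pow_le_pow_left₀ (by linarith) (by linarith [Real.add_one_le_exp (-(p / 2))]) n
      _ = Real.exp (-(n * p / 2)) := by rw [← Real.exp_nat_mul]; congr 1; ring
  have b2 : (r * θ ^ n / z.im) ^ (2 - dd κ) = (θ ^ (2 - dd κ)) ^ n * (r / z.im) ^ (2 - dd κ) := by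
    rw [show r * θ ^ n / z.im = θ ^ n * (r / z.im) by ring,
      Real.mul_rpow (pow_nonneg hθ0.le n) hθ'0.le, ← Real.rpow_natCast, ← Real.rpow_natCast,
      ← Real.rpow_mul hθ0.le, ← Real.rpow_mul hθ0.le, mul_comm (n : ℝ)]
  have b3 : Real.exp ((1 + aa κ) * Cw * m) = 1 / p := by
    rw [hp, Real.exp_neg, one_div, inv_inv]
  rw [b2, b3, hK, mul_pow]
  have b4 : 0 ≤ 4 * C ^ 3 * (1 / p) * ((θ ^ (2 - dd κ)) ^ n * (r / z.im) ^ (2 - dd κ)) := by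
    have := Real.rpow_nonneg hθ0.le (2 - dd κ)
    have := Real.rpow_nonneg hθ'0.le (2 - dd κ)
    positivity
  calc _ = 4 * C ^ 3 * (1 / p) * ((θ ^ (2 - dd κ)) ^ n * (r / z.im) ^ (2 - dd κ)) *
        (1 - p / 2) ^ n := by ring
    _ ≤ _ := mul_le_mul_of_nonneg_left b1 b4

end Crest.Agent.R162.U
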