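import Crest.Agent.R162.O3
import Crest.Agent.R162.RT2

/-! Row 162, block U: mean mass, grids and numerics. -/

set_option autoImplicit false
open MeasureTheory ProbabilityTheory Set Filter Topology Metric
open scoped ENNReal NNReal ComplexConjugate

namespace Crest.Agent.R162.U

open Crest.ProbabilityR.Loewner

private theorem h56_im_int {e : ℝ} (he : -1 < e) (C R : ℝ) :
    ∫⁻ ζ in ball (0 : ℂ) R ∩ H, ENNReal.ofReal (C * ζ.im ^ e) < ⊤ := by
  have hmp := Complex.volume_preserving_equiv_real_prod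
  have hi : IntegrableOn (fun y : ℝ => C * y ^ e) (Ioo 0 |R|) :=
    ((intervalIntegrable_iff_integrableOn_Ioo_of_le (abs_nonneg R)).1
      (intervalIntegral.intervalIntegrable_rpow' he)).const_mul _
  calc ∫⁻ ζ in ball (0 : ℂ) R ∩ H, ENNReal.ofReal (C * ζ.im ^ e)
      ≤ ∫⁻ ζ in Complex.measurableEquivRealProd ⁻¹' (Icc (-|R|) |R| ×ˢ Ioo 0 |R|),
          ENNReal.ofReal (C * ζ.im ^ e) := by
        refine lintegral_mono_set fun ζ hζ => ?_
        obtain ⟨h3, hy⟩ := hζ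
        rw [mem_ball_zero_iff] at h3
        have a0 := le_abs_self R
        have a1 := abs_le.1 (Complex.abs_re_le_norm ζ)
        have a2 := abs_le.1 (Complex.abs_im_le_norm ζ)
        simp only [mem_preimage, Complex.measurableEquivRealProd_apply, mem_prod, mem_Icc, mem_Ioo]
        exact ⟨⟨by linarith [a1.1], by linarith [a1.2]⟩, hy, by linarith [a2.2]⟩
    _ = ∫⁻ p in Icc (-|R|) |R| ×ˢ Ioo (0 : ℝ) |R|, ENNReal.ofReal (C * p.2 ^ e) :=
        hmp.setLIntegral_comp_preimage_emb Complex.measurableEquivRealProd.measurableEmbedding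
          (fun p : ℝ × ℝ => ENNReal.ofReal (C * p.2 ^ e)) _
    _ = ∫⁻ _ in Icc (-|R|) |R|, ∫⁻ y in Ioo (0 : ℝ) |R|, ENNReal.ofReal (C * y ^ e) := by
        rw [Measure.volume_eq_prod, ← Measure.prod_restrict, lintegral_prod]
        refine Measurable.aemeasurable ?_
        exact ENNReal.measurable_ofReal.comp (measurable_const.mul (measurable_snd.pow_const _))
    _ < ⊤ := by
        rw [setLIntegral_const]
        exact ENNReal.mul_lt_top hi.lintegral_lt_top measure_Icc_lt_top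

/-- `mass_material`, Tonelli, `mean_cr`, `ups_id`, and `∫_{H ∩ ball 0 R} (im ζ)^(d-2) < ∞`
(`Complex.volume_preserving_equiv_real_prod`, `d - 2 > -1`). -/
theorem mean_mass {κ : ℝ} (hκ : 0 < κ) (hκ8 : κ < 8) {P : Measure Path} (hP : IsDrv κ P) {s1 : ℝ}
    (hs1 : 0 < s1) (R : ℝ) : ∃ K : ℝ≥0∞, K < ⊤ ∧ ∀ ε : ℝ, 0 < ε →
      ∫⁻ w, mass κ s1 ε id w (Ioi 0) (ball 0 R) ∂P ≤ K := by
  obtain ⟨C, -, hC⟩ := mean_cr hκ hκ8 hP hs1
  have := hP.prob
  refine ⟨_, h56_im_int (e := dd κ - 2) (by unfold dd; linarith) C R, fun ε hε => ?_⟩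
  have m1 : Measurable fun q : (Path × ℂ) × ℝ =>
      cr κ s1 ε (Zf q.1.1 q.2 q.1.2) (ups id q.1.2 * mm q.1.1 q.2 q.1.2) := by
    have hw : Measurable fun q : (Path × ℂ) × ℝ => ((q.1.1, q.2, q.1.2) : Path × ℝ × ℂ) := by
      fun_prop
    have hu : Measurable (ups id) := Complex.measurable_im.mul (measurable_deriv id).norm
    exact (measurable_cr κ s1 ε).comp ((measurable_Zf.comp hw).prodMk
      ((hu.comp (measurable_snd.comp measurable_fst)).mul (measurable_mm.comp hw)))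
  have m2 : Measurable fun q : Path × ℂ =>
      ∫⁻ s in Ioi (0 : ℝ), cr κ s1 ε (Zf q.1 s q.2) (ups id q.2 * mm q.1 s q.2) :=
    m1.lintegral_prod_right'
  have m3 : Measurable fun q : Path × ℂ => (ball (0 : ℂ) R).indicator (fun _ => (1 : ℝ≥0∞)) q.2 :=
    (measurable_const.indicator measurableSet_ball).comp measurable_snd
  simp only [mass_material univ_id κ s1 ε _ measurableSet_Ioi measurableSet_ball, deriv_id,
    norm_one, one_pow, ENNReal.ofReal_one, mul_one, id]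
  rw [lintegral_lintegral_swap (m3.mul m2).aemeasurable,
    ← Measure.restrict_restrict measurableSet_ball, ← lintegral_indicator measurableSet_ball]
  refine setLIntegral_mono' measurableSet_H fun ζ hζ => ?_
  by_cases hb : ζ ∈ ball (0 : ℂ) R
  · simp only [indicator_of_mem hb, one_mul, ups_id]
    exact hC ζ hζ ζ.im hζ ε hε
  · simp [indicator_of_notMem hb]

/-- Points of the square grid of mesh `g`. -/
noncomputable def grid (g : ℝ) (i : ℤ × ℤ) : ℂ := ⟨g * i.1, g * i.2⟩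

theorem exists_grid {g : ℝ} (hg : 0 < g) (x : ℂ) : ∃ i, ‖x - grid g i‖ < g := by
  have key : ∀ t : ℝ, |t - g * (round (t / g) : ℤ)| ≤ g / 2 := by
    intro t
    have h := abs_sub_round (t / g)
    have e : t - g * (round (t / g) : ℤ) = g * (t / g - (round (t / g) : ℤ)) := by
      field_simp
    rw [e, abs_mul, abs_of_pos hg]
    nlinarith
  refine ⟨(round (x.re / g), round (x.im / g)), ?_⟩
  refine lt_of_pow_lt_pow_left₀ 2 hg.le ?_
  rw [Complex.sq_norm, Complex.normSq_apply]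
  have h1 := abs_le.1 (key x.re)
  have h2 := abs_le.1 (key x.im)
  simp only [grid, Complex.sub_re, Complex.sub_im]
  nlinarith [h1.1, h1.2, h2.1, h2.2]

open Classical in
theorem grid_count {g R : ℝ} (hg : 0 < g) (hR : 0 ≤ R) :
    ∑' i : ℤ × ℤ, (if ‖grid g i‖ ≤ R then (1 : ℝ≥0∞) else 0) ≤
      ENNReal.ofReal ((2 * R / g + 1) ^ 2) := by
  set n : ℕ := ⌊R / g⌋₊ with hn
  set S : Finset (ℤ × ℤ) := Finset.Icc (-(n : ℤ)) n ×ˢ Finset.Icc (-(n : ℤ)) n with hS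
  have key : ∀ a : ℤ, |g * a| ≤ R → a ∈ Finset.Icc (-(n : ℤ)) n := by
    intro a ha
    rw [abs_mul, abs_of_pos hg] at ha
    have h1 : ((a.natAbs : ℕ) : ℝ) ≤ R / g := by
      rw [le_div_iff₀ hg, Nat.cast_natAbs, Int.cast_abs]
      linarith
    have h2 : a.natAbs ≤ n := Nat.le_floor h1
    rw [Finset.mem_Icc]
    omega
  have hcard : (S.card : ℝ) = (2 * n + 1) ^ 2 := by
    have : (Finset.Icc (-(n : ℤ)) n).card = 2 * n + 1 := by
      rw [Int.card_Icc]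
      omega
    rw [hS, Finset.card_product, this]
    push_cast
    ring
  rw [tsum_eq_sum (s := S)]
  · calc ∑ i ∈ S, (if ‖grid g i‖ ≤ R then (1 : ℝ≥0∞) else 0) ≤ ∑ _i ∈ S, (1 : ℝ≥0∞) :=
          Finset.sum_le_sum fun i _ => by split_ifs <;> simp
      _ = ENNReal.ofReal (S.card : ℝ) := by simp
      _ ≤ _ := by
          refine ENNReal.ofReal_le_ofReal ?_
          rw [hcard]
          have : (n : ℝ) ≤ R / g := Nat.floor_le (by positivity)
          have e : 2 * R / g = 2 * (R / g) := by ring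
          rw [e]
          gcongr
  · intro i hi
    rw [if_neg]
    intro h
    exact hi (Finset.mem_product.2
      ⟨key _ ((Complex.abs_re_le_norm (grid g i)).trans h),
        key _ ((Complex.abs_im_le_norm (grid g i)).trans h)⟩)

/-- The number of cells of the worm at stage `j`. -/
noncomputable def mj (Cw : ℝ) (j : ℕ) : ℝ := max 1 (Real.log j / (2 * Cw))

theorem one_le_mj (Cw : ℝ) (j : ℕ) : 1 ≤ mj Cw j := le_max_left _ _

theorem dimParam_eq (κ : ℝ) : dimParam κ = dd κ := rfl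

theorem h93_small {θ : ℝ} (hθ0 : 0 < θ) (hθ : θ < 1) : ∀ᶠ j : ℕ in atTop,
    θ ^ j ≤ Real.exp (-Real.exp 1) ∧
      Real.log (Real.log (1 / (θ ^ j * θ ^ j))) ≤ 2 * Real.log j ∧ 1 ≤ j := by
  have h1 : ∀ᶠ j : ℕ in atTop, θ ^ j ≤ Real.exp (-Real.exp 1) :=
    (tendsto_pow_atTop_nhds_zero_of_lt_one hθ0.le hθ).eventually (ge_mem_nhds (Real.exp_pos _))
  have h2 : ∀ᶠ j : ℕ in atTop, 2 * (-Real.log θ) ≤ (j : ℝ) :=
    tendsto_natCast_atTop_atTop.eventually_ge_atTop _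
  filter_upwards [h1, h2, eventually_ge_atTop 1] with j a b c
  refine ⟨a, ?_, c⟩
  have hL : 0 < -Real.log θ := neg_pos.2 (Real.log_neg hθ0 hθ)
  have hj : (1 : ℝ) ≤ j := by exact_mod_cast c
  have e : Real.log (1 / (θ ^ j * θ ^ j)) = j * (2 * (-Real.log θ)) := by
    rw [one_div, Real.log_inv, Real.log_mul (by positivity) (by positivity), Real.log_pow]
    ring
  rw [e]
  calc Real.log (j * (2 * (-Real.log θ))) ≤ Real.log ((j : ℝ) * j) :=
        Real.log_le_log (by positivity) (mul_le_mul_of_nonneg_left b (by positivity))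
    _ = 2 * Real.log j := by
        rw [Real.log_mul (by positivity) (by positivity)]; ring

/-- `gaugeReal_mul_le`, `gaugeReal_eq`; `log log (1/(θ^j θ^k)) ≤ log (2 j log (1/θ)) ≤ C mj`. -/
theorem num_gauge {κ : ℝ} (hκ : 0 < κ) (hκ8 : κ < 8) {θ Cb Cw : ℝ} (hθ0 : 0 < θ) (hθ : θ < 1)
    (hCb : 1 ≤ Cb) (hCw : 0 < Cw) : ∃ C1 : ℝ, 0 < C1 ∧ ∀ᶠ j : ℕ in atTop, ∀ k < j,
      gaugeReal κ (2 * (Cb * (θ ^ j * θ ^ k))) ≤
        C1 * (mj Cw j ^ (1 - dd κ / 2) * (θ ^ j * θ ^ k) ^ dd κ) := by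
  have hp : 0 < 1 - dd κ / 2 := by unfold dd; linarith
  refine ⟨(2 * Cb) ^ 2 * (4 * Cw) ^ (1 - dd κ / 2), by positivity, ?_⟩
  filter_upwards [h93_small hθ0 hθ] with j ⟨a, b, c⟩ k hk
  have hj : 0 < θ ^ j := pow_pos hθ0 j
  have hk0 : 0 < θ ^ k := pow_pos hθ0 k
  have hk1 : θ ^ k ≤ 1 := pow_le_one₀ hθ0.le hθ.le
  have hjk : θ ^ j ≤ θ ^ k := pow_le_pow_of_le_one hθ0.le hθ.le hk.le
  have hx : 0 < θ ^ j * θ ^ k := mul_pos hj hk0
  have hx1 : θ ^ j * θ ^ k ≤ Real.exp (-Real.exp 1) :=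
    (mul_le_of_le_one_right hj.le hk1).trans a
  have h1 := gaugeReal_mul_le hκ hκ8 (l := 2 * Cb) (x := θ ^ j * θ ^ k) (by linarith) hx.le
  rw [← mul_assoc 2 Cb]
  refine h1.trans ?_
  rw [gaugeReal_eq hx1, dimParam_eq, show (2 - dd κ) / 2 = 1 - dd κ / 2 by ring]
  have h2 := loglog_anti (mul_pos hj hj) (mul_le_mul_of_nonneg_left hjk hj.le) hx1
  have h3 := (one_le_loglog hx hx1).2
  have h4 : Real.log j ≤ 2 * Cw * mj Cw j := by
    have : Real.log j / (2 * Cw) ≤ mj Cw j := le_max_right _ _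
    rw [div_le_iff₀ (by positivity)] at this
    linarith
  have h5 : Real.log (Real.log (1 / (θ ^ j * θ ^ k))) ≤ 4 * Cw * mj Cw j := by linarith
  have h6 := Real.rpow_le_rpow (by linarith) h5 hp.le
  have hm : 0 ≤ mj Cw j := zero_le_one.trans (one_le_mj Cw j)
  rw [Real.mul_rpow (by positivity) hm] at h6
  have h7 : 0 ≤ (θ ^ j * θ ^ k) ^ dd κ := by positivity
  calc (2 * Cb) ^ 2 * ((θ ^ j * θ ^ k) ^ dd κ *
        Real.log (Real.log (1 / (θ ^ j * θ ^ k))) ^ (1 - dd κ / 2))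
      ≤ (2 * Cb) ^ 2 * ((θ ^ j * θ ^ k) ^ dd κ *
        ((4 * Cw) ^ (1 - dd κ / 2) * mj Cw j ^ (1 - dd κ / 2))) :=
        mul_le_mul_of_nonneg_left (mul_le_mul_of_nonneg_left h6 h7) (by positivity)
    _ = _ := by ring

/-- Eventually `mj = log j / (2 Cw)`, so `exp (Cw mj) = √j`; with `ρ = θ^j θ^j` the expression is
`O (log j √j exp (-√j / 2))`. -/
theorem num_bad {κ : ℝ} (hκ : 0 < κ) (hκ8 : κ < 8) {θ Cw Ch R η C : ℝ} (hθ0 : 0 < θ) (hθ : θ < 1)
    (hCw : 0 < Cw) (hCh : 1 ≤ Ch) (hR : 0 ≤ R) (hη : 0 < η) :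
    Tendsto (fun j : ℕ => (2 * R / (θ ^ j * θ ^ j / (2 * Ch)) + 1) ^ 2 *
      gaugeReal κ (2 * (θ ^ j * θ ^ j / (2 * Ch))) *
      (C * Real.exp (Cw * mj Cw j) * (θ ^ j * θ ^ j / η) ^ (2 - dd κ) *
        Real.exp (-(j * Real.exp (-(Cw * mj Cw j)) / 2)))) atTop (𝓝 0) := by
  have hs : Tendsto (fun j : ℕ => √(j : ℝ) / 2) atTop atTop :=
    (Real.tendsto_sqrt_atTop.comp tendsto_natCast_atTop_atTop).atTop_div_const (by norm_num)
  have ht := ((Real.tendsto_pow_mul_exp_neg_atTop_nhds_zero 3).comp hs).const_mul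
    ((4 * R * Ch + 1) ^ 2 * 16 * |C| / η ^ (2 - dd κ))
  rw [mul_zero] at ht
  refine squeeze_zero_norm' ?_ ht
  have hl : ∀ᶠ j : ℕ in atTop, 2 * Cw ≤ Real.log j :=
    (Real.tendsto_log_atTop.comp tendsto_natCast_atTop_atTop).eventually_ge_atTop _
  filter_upwards [h93_small hθ0 hθ, hl] with j ⟨a, b, c⟩ hlj
  have hj1 : (1 : ℝ) ≤ j := by exact_mod_cast c
  have hj0 : (0 : ℝ) < j := by linarith
  have hmj : Cw * mj Cw j = Real.log (√(j : ℝ)) := by
    rw [Real.log_sqrt hj0.le]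
    unfold mj
    rw [max_eq_right (by rw [le_div_iff₀ (by positivity)]; linarith)]
    field_simp
  have hsq : 0 < √(j : ℝ) := Real.sqrt_pos.2 hj0
  have hss : √(j : ℝ) * √(j : ℝ) = j := Real.mul_self_sqrt hj0.le
  have e1 : Real.exp (Cw * mj Cw j) = √(j : ℝ) := by rw [hmj, Real.exp_log hsq]
  have e2 : (j : ℝ) * Real.exp (-(Cw * mj Cw j)) = √(j : ℝ) := by
    rw [Real.exp_neg, e1]
    field_simp
    nlinarith
  rw [e1, e2]
  have hj : 0 < θ ^ j := pow_pos hθ0 j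
  have hj1' : θ ^ j ≤ 1 := pow_le_one₀ hθ0.le hθ.le
  have hρ1 : θ ^ j * θ ^ j ≤ Real.exp (-Real.exp 1) := (mul_le_of_le_one_right hj.le hj1').trans a
  have hρ2 : θ ^ j * θ ^ j ≤ 1 := mul_le_one₀ hj1' hj.le hj1'
  have hρ : 0 < θ ^ j * θ ^ j := mul_pos hj hj
  generalize θ ^ j * θ ^ j = ρ at b hρ1 hρ2 hρ ⊢
  have hCh0 : 0 < Ch := by linarith
  have g0 : 0 ≤ gaugeReal κ (2 * (ρ / (2 * Ch))) := gaugeReal_nonneg hκ (by positivity)
  have g1 : gaugeReal κ (2 * (ρ / (2 * Ch))) ≤ ρ ^ dd κ * (2 * j) := by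
    have h1 : 2 * (ρ / (2 * Ch)) ≤ ρ := by
      rw [show 2 * (ρ / (2 * Ch)) = ρ / Ch by field_simp]
      exact div_le_self hρ.le hCh
    refine (gaugeReal_mono hκ hκ8 (by positivity) h1).trans ?_
    rw [gaugeReal_eq hρ1, dimParam_eq]
    refine mul_le_mul_of_nonneg_left ?_ (by positivity)
    have h3 := (one_le_loglog hρ hρ1).2
    have h4 : (2 - dd κ) / 2 ≤ 1 := by unfold dd; linarith
    have h5 := Real.rpow_le_rpow_of_exponent_le h3 h4
    rw [Real.rpow_one] at h5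
    have h6 := Real.log_le_self hj0.le
    linarith
  have q1 : (2 * R / (ρ / (2 * Ch)) + 1) ^ 2 ≤ ((4 * R * Ch + 1) / ρ) ^ 2 := by
    refine pow_le_pow_left₀ (by positivity) ?_ 2
    rw [show 2 * R / (ρ / (2 * Ch)) = 4 * R * Ch / ρ by field_simp; ring, add_div]
    have : 1 ≤ 1 / ρ := by rw [le_div_iff₀ hρ]; linarith
    linarith
  have q2 : (ρ / η) ^ (2 - dd κ) = ρ ^ (2 - dd κ) / η ^ (2 - dd κ) := Real.div_rpow hρ.le hη.le _
  have q3 : ρ ^ dd κ * ρ ^ (2 - dd κ) = ρ ^ 2 := by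
    rw [← Real.rpow_add hρ, show dd κ + (2 - dd κ) = ((2 : ℕ) : ℝ) by push_cast; ring,
      Real.rpow_natCast]
  have hη2 : 0 < η ^ (2 - dd κ) := Real.rpow_pos_of_pos hη _
  have hρ3 : 0 < ρ ^ (2 - dd κ) := Real.rpow_pos_of_pos hρ _
  rw [Real.norm_eq_abs, abs_mul, abs_of_nonneg (mul_nonneg (by positivity) g0), q2, abs_mul,
    abs_mul, abs_mul, abs_of_pos hsq, abs_of_pos (div_pos hρ3 hη2), abs_of_pos (Real.exp_pos _)]
  calc (2 * R / (ρ / (2 * Ch)) + 1) ^ 2 * gaugeReal κ (2 * (ρ / (2 * Ch))) *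
        (|C| * √(j : ℝ) * (ρ ^ (2 - dd κ) / η ^ (2 - dd κ)) * Real.exp (-(√(j : ℝ) / 2)))
      ≤ ((4 * R * Ch + 1) / ρ) ^ 2 * (ρ ^ dd κ * (2 * j)) *
        (|C| * √(j : ℝ) * (ρ ^ (2 - dd κ) / η ^ (2 - dd κ)) * Real.exp (-(√(j : ℝ) / 2))) :=
        mul_le_mul_of_nonneg_right (mul_le_mul q1 g1 g0 (by positivity)) (by positivity)
    _ = ((4 * R * Ch + 1) / ρ) ^ 2 * (ρ ^ dd κ * ρ ^ (2 - dd κ)) * (2 * (√(j : ℝ) * √(j : ℝ))) *
        (|C| * √(j : ℝ) / η ^ (2 - dd κ) * Real.exp (-(√(j : ℝ) / 2))) := by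
        rw [hss]; ring
    _ = _ := by
        rw [q3]
        simp only [Function.comp]
        field_simp
        ring

end Crest.Agent.R162.U
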