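import Crest.Agent.R162.U3
import Crest.Agent.R162.U4
import Crest.Agent.R162.L9

/-! Row 162, block U: the covering argument. -/

set_option autoImplicit false
open MeasureTheory ProbabilityTheory Set Filter Topology Metric
open scoped ENNReal NNReal ComplexConjugate

namespace Crest.Agent.R162.U

open Crest.ProbabilityR.Loewner

/-- Fine scale at stage `j`. -/
noncomputable def ej (θ Cw ε1 : ℝ) (j : ℕ) : ℝ := ε1 * (θ ^ j * θ ^ j) / mj Cw j

/-- Mesh at stage `j`. -/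
noncomputable def gj (θ Ch : ℝ) (j : ℕ) : ℝ := θ ^ j * θ ^ j / (2 * Ch)

/-- The bad event of the grid point `i` at stage `j`. -/
def BadAt (κ s1 θ Cb Hc Cw ε1 Ch R η : ℝ) (j : ℕ) (i : ℤ × ℤ) : Set Path :=
  {w | η / 2 ≤ (grid (gj θ Ch j) i).im ∧ ‖grid (gj θ Ch j) i‖ ≤ R + 1 ∧
    w ∈ Bad κ s1 (ej θ Cw ε1 j) Cb (Hc * mj Cw j ^ (1 - dd κ / 2)) θ id (grid (gj θ Ch j) i)
      (θ ^ j) j}

/-- The majorant at stage `j`. -/
noncomputable def Vj (κ s1 θ Cb Hc Cw ε1 Ch C2 R η : ℝ) (j : ℕ) (w : Path) : ℝ≥0∞ :=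
  64 * ENNReal.ofReal C2 * mass κ s1 (ej θ Cw ε1 j) id w (Ioi 0) (ball 0 (R + 2)) +
    ∑' i : ℤ × ℤ, (BadAt κ s1 θ Cb Hc Cw ε1 Ch R η j i).indicator
      (fun _ => ENNReal.ofReal (gaugeReal κ (2 * gj θ Ch j))) w

theorem measurableSet_BadAt (κ s1 θ Cb Hc Cw ε1 Ch R η : ℝ) (j : ℕ) (i : ℤ × ℤ) :
    MeasurableSet (BadAt κ s1 θ Cb Hc Cw ε1 Ch R η j i) :=
  (MeasurableSet.const _).inter ((MeasurableSet.const _).inter (measurableSet_Bad univ_id))

theorem measurable_Vj (κ s1 θ Cb Hc Cw ε1 Ch C2 R η : ℝ) (j : ℕ) :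
    Measurable (Vj κ s1 θ Cb Hc Cw ε1 Ch C2 R η j) :=
  ((measurable_mass univ_id κ s1 _ measurableSet_ball _).const_mul _).add
    (Measurable.tsum fun i =>
      measurable_const.indicator (measurableSet_BadAt κ s1 θ Cb Hc Cw ε1 Ch R η j i))

/-- The conclusion of `trace_hit`. -/
def HitP (Ch : ℝ) : Prop :=
  ∀ (w : Path) (γ : ℝ → ℂ), IsChordalTrace w γ → w 0 = 0 → ∀ z ∈ H, ∀ t1 δ : ℝ, 0 ≤ t1 →
    ‖γ t1 - z‖ < δ → ∃ t, 0 ≤ t ∧ z ∈ dom w t ∧ z.im * mm w t z ≤ Ch * δ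

theorem h95_gj_pos {θ Ch : ℝ} (hθ0 : 0 < θ) (hCh : 1 ≤ Ch) (j : ℕ) : 0 < gj θ Ch j := by
  unfold gj; positivity

theorem h95_gj_le {θ Ch : ℝ} (hθ0 : 0 < θ) (hCh : 1 ≤ Ch) (j : ℕ) :
    2 * gj θ Ch j ≤ θ ^ j * θ ^ j := by
  unfold gj
  have h : 0 < θ ^ j * θ ^ j := by positivity
  rw [show 2 * (θ ^ j * θ ^ j / (2 * Ch)) = θ ^ j * θ ^ j / Ch by field_simp]
  exact div_le_self h.le hCh

/-- `gauge_le_liminf` with `δ j = 2 Cb θ^j`, `μ j` from `mass_exists_measure`,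
`t j i = closedBall (grid ..) (gj ..)` if `w ∈ BadAt j i`, else `∅`. For `x = γ t1` take the grid point
`z` of `exists_grid`; `HitP` gives the first clause of `Bad` (`Ch * gj = θ^j θ^j / 2`, `ups_id`); if
`w ∉ Bad` some ball `ball z (Cb θ^j θ^k) ⊆ closedBall x (2 Cb θ^j θ^k)` is heavy, `num_gauge`,
`C2 = C1 / Hc`. -/
theorem cover {κ : ℝ} (hκ : 0 < κ) (hκ8 : κ < 8) {s1 θ Cb Hc Cw ε1 Ch : ℝ} (hθ0 : 0 < θ)
    (hθ : θ ≤ 1 / 8) (hCb : 1 ≤ Cb) (hHc : 0 < Hc) (hCw : 0 < Cw) (hCh : 1 ≤ Ch) (hH : HitP Ch) :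
    ∃ C2 : ℝ, ∀ R η : ℝ, 0 ≤ R → 0 < η → ∀ (w : Path) (γ : ℝ → ℂ), w 0 = 0 →
      IsChordalTrace w γ → gaugeMeasure κ (γ '' Ici 0 ∩ closedBall 0 R ∩ {z | η ≤ z.im}) ≤
        liminf (fun j => Vj κ s1 θ Cb Hc Cw ε1 Ch C2 R η j w) atTop := by
  classical
  have hθ1 : θ < 1 := by linarith
  obtain ⟨C1, hC1, hnum⟩ := num_gauge hκ hκ8 hθ0 hθ1 hCb hCw
  refine ⟨C1 / Hc, fun R η hR hη w γ hw0 hγ => ?_⟩
  have hpow : Tendsto (fun j : ℕ => θ ^ j) atTop (𝓝 0) :=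
    tendsto_pow_atTop_nhds_zero_of_lt_one hθ0.le hθ1
  have hδ : Tendsto (fun j : ℕ => 2 * Cb * θ ^ j) atTop (𝓝 0) := by
    simpa using hpow.const_mul (2 * Cb)
  have hp1 : ∀ j : ℕ, θ ^ j ≤ 1 := fun j => pow_le_one₀ hθ0.le hθ1.le
  have hp0 : ∀ j : ℕ, 0 < θ ^ j := fun j => pow_pos hθ0 j
  have hg0 := h95_gj_pos hθ0 hCh
  have hgθ : ∀ j : ℕ, 2 * gj θ Ch j ≤ θ ^ j := fun j =>
    (h95_gj_le hθ0 hCh j).trans (mul_le_of_le_one_right (hp0 j).le (hp1 j))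
  choose μ hμ using fun j : ℕ => mass_exists_measure univ_id κ s1 (ej θ Cw ε1 j) w (Ioi 0)
  set A : Set ℂ := γ '' Ici 0 ∩ closedBall 0 R ∩ {z | η ≤ z.im} with hA
  let t : ∀ _ : ℕ, ℤ × ℤ → Set ℂ := fun j i =>
    if w ∈ BadAt κ s1 θ Cb Hc Cw ε1 Ch R η j i then
      closedBall (grid (gj θ Ch j) i) (gj θ Ch j) else ∅
  have hdiam : ∀ j i, ediam (t j i) ≤ ENNReal.ofReal (2 * gj θ Ch j) := by
    intro j i
    simp only [t]
    split_ifs
    · refine Metric.ediam_le_of_forall_dist_le fun x hx y hy => ?_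
      have := dist_triangle_right x y (grid (gj θ Ch j) i)
      rw [mem_closedBall] at hx hy
      linarith
    · simp
  have key := gauge_le_liminf hκ hκ8 (A := A) (C := ENNReal.ofReal (C1 / Hc)) hδ μ
    (ι := fun _ => ℤ × ℤ) t
    (fun j i => (hdiam j i).trans (ENNReal.ofReal_le_ofReal ((hgθ j).trans (by
      nlinarith [hp0 j])))) (by
      filter_upwards [hnum, hpow.eventually (ge_mem_nhds hη)] with j hj hjη x hx
      obtain ⟨⟨⟨t1, ht1, rfl⟩, hxR⟩, hxη⟩ := hx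
      obtain ⟨i, hi⟩ := exists_grid (hg0 j) (γ t1)
      set z := grid (gj θ Ch j) i with hz
      by_cases hb : w ∈ BadAt κ s1 θ Cb Hc Cw ε1 Ch R η j i
      · refine Or.inl ⟨i, ?_⟩
        simp only [t, if_pos hb]
        rw [mem_closedBall, dist_eq_norm]
        exact hi.le
      right
      have him : η / 2 ≤ z.im := by
        have h1 : |(γ t1 - z).im| ≤ ‖γ t1 - z‖ := Complex.abs_im_le_norm _
        have h2 : (γ t1 - z).im ≤ |(γ t1 - z).im| := le_abs_self _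
        have h3 : η ≤ (γ t1).im := hxη
        rw [Complex.sub_im] at h1 h2
        have := hgθ j
        linarith
      have hzR : ‖z‖ ≤ R + 1 := by
        have h1 : ‖z‖ ≤ ‖γ t1‖ + ‖γ t1 - z‖ := by
          calc ‖z‖ = ‖γ t1 - (γ t1 - z)‖ := by congr 1; ring
            _ ≤ _ := norm_sub_le _ _
        rw [mem_closedBall, dist_zero_right] at hxR
        have := hgθ j
        have := hp1 j
        have := hg0 j
        linarith
      have hzH : z ∈ H := by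
        show 0 < z.im
        linarith
      have hnb : w ∉ Bad κ s1 (ej θ Cw ε1 j) Cb (Hc * mj Cw j ^ (1 - dd κ / 2)) θ id z
          (θ ^ j) j := fun h => hb ⟨him, hzR, h⟩
      obtain ⟨s, hs0, hsd, hsm⟩ := hH w γ hγ hw0 z hzH t1 (gj θ Ch j) ht1 hi
      have hfirst : ∃ s, 0 ≤ s ∧ z ∈ dom w s ∧ ups id z * mm w s z ≤ θ ^ j * θ ^ j / 2 := by
        refine ⟨s, hs0, hsd, ?_⟩
        rw [ups_id]
        refine hsm.trans (le_of_eq ?_)
        unfold gj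
        field_simp
      have hex : ∃ k < j, ENNReal.ofReal (Hc * mj Cw j ^ (1 - dd κ / 2) * (θ ^ j * θ ^ k) ^ dd κ) <
          mass κ s1 (ej θ Cw ε1 j) id w (Ioi 0) (ball z (Cb * (θ ^ j * θ ^ k))) := by
        by_contra hcon
        push Not at hcon
        exact hnb ⟨hfirst, hcon⟩
      obtain ⟨k, hk, hlt⟩ := hex
      have hρ : 0 < θ ^ j * θ ^ k := mul_pos (hp0 j) (hp0 k)
      have hjk : θ ^ j ≤ θ ^ k := pow_le_pow_of_le_one hθ0.le hθ1.le hk.le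
      have hgρ : gj θ Ch j ≤ Cb * (θ ^ j * θ ^ k) := by
        have h1 := h95_gj_le hθ0 hCh j
        have h2 : θ ^ j * θ ^ j ≤ θ ^ j * θ ^ k := mul_le_mul_of_nonneg_left hjk (hp0 j).le
        have h3 : θ ^ j * θ ^ k ≤ Cb * (θ ^ j * θ ^ k) := le_mul_of_one_le_left hρ.le hCb
        have := hg0 j
        linarith
      refine ⟨2 * (Cb * (θ ^ j * θ ^ k)), by positivity, ?_, ?_⟩
      · have h1 : θ ^ j * θ ^ k ≤ θ ^ j := mul_le_of_le_one_right (hp0 j).le (hp1 k)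
        have h2 : Cb * (θ ^ j * θ ^ k) ≤ Cb * θ ^ j := mul_le_mul_of_nonneg_left h1 (by linarith)
        linarith
      · have hsub : ball z (Cb * (θ ^ j * θ ^ k)) ⊆
            closedBall (γ t1) (2 * (Cb * (θ ^ j * θ ^ k))) := by
          intro y hy
          rw [mem_ball] at hy
          rw [mem_closedBall]
          have h1 := dist_triangle_right y (γ t1) z
          rw [dist_eq_norm (γ t1) z] at h1
          linarith
        rw [hμ j _ measurableSet_ball] at hlt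
        calc ENNReal.ofReal (gaugeReal κ (2 * (Cb * (θ ^ j * θ ^ k))))
            ≤ ENNReal.ofReal (C1 / Hc *
              (Hc * mj Cw j ^ (1 - dd κ / 2) * (θ ^ j * θ ^ k) ^ dd κ)) := by
              refine ENNReal.ofReal_le_ofReal ((hj k hk).trans (le_of_eq ?_))
              field_simp
          _ = ENNReal.ofReal (C1 / Hc) *
              ENNReal.ofReal (Hc * mj Cw j ^ (1 - dd κ / 2) * (θ ^ j * θ ^ k) ^ dd κ) :=
              ENNReal.ofReal_mul (by positivity)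
          _ ≤ _ := mul_le_mul' le_rfl (hlt.le.trans (measure_mono hsub)))
  refine key.trans (liminf_le_liminf ?_)
  filter_upwards [hδ.eventually (ge_mem_nhds (show (0 : ℝ) < 1 by norm_num))] with j hj
  unfold Vj
  refine add_le_add (mul_le_mul' le_rfl ?_) (ENNReal.tsum_le_tsum fun i => ?_)
  · rw [hμ j _ measurableSet_ball]
    refine measure_mono ?_
    have hδ0 : 0 ≤ 2 * Cb * θ ^ j := by have := hp0 j; positivity
    calc cthickening (2 * Cb * θ ^ j) A ⊆ cthickening (2 * Cb * θ ^ j) (closedBall (0 : ℂ) R) :=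
          cthickening_subset_of_subset _ (inter_subset_left.trans inter_subset_right)
      _ = closedBall 0 (2 * Cb * θ ^ j + R) := cthickening_closedBall hδ0 hR 0
      _ ⊆ ball 0 (R + 2) := closedBall_subset_ball (by linarith)
  · by_cases hb : w ∈ BadAt κ s1 θ Cb Hc Cw ε1 Ch R η j i
    · rw [indicator_of_mem hb, gaugeExt_ediam]
      refine ENNReal.ofReal_le_ofReal (gaugeReal_mono hκ hκ8 diam_nonneg ?_)
      exact ENNReal.toReal_le_of_le_ofReal (by have := hg0 j; positivity) (hdiam j i)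
    · rw [indicator_of_notMem hb, gaugeExt_ediam]
      simp only [t, if_neg hb, diam_empty, gaugeReal_zero hκ, ENNReal.ofReal_zero, le_refl]

/-- `mean_mass`, `lintegral_tsum`, `BadP` (for `θ^j ≤ η/2`), `grid_count`, `num_bad`. -/
theorem mean_Vj {κ : ℝ} (hκ : 0 < κ) (hκ8 : κ < 8) {P : Measure Path} (hP : IsDrv κ P)
    {s1 θ Cb Hc Cw ε1 C Ch : ℝ} (hs1 : 0 < s1) (hθ0 : 0 < θ) (hθ : θ ≤ 1 / 8) (hCw : 0 < Cw)
    (hε1 : 0 < ε1) (hC : 0 < C) (hCh : 1 ≤ Ch) (hB : BadP κ P s1 θ Cb Hc Cw ε1 C) (C2 : ℝ) {R : ℝ}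
    (hR : 0 ≤ R) : ∃ K : ℝ≥0∞, K < ⊤ ∧ ∀ η : ℝ, 0 < η → ∀ᶠ j : ℕ in atTop,
      ∫⁻ w, Vj κ s1 θ Cb Hc Cw ε1 Ch C2 R η j w ∂P ≤ K := by
  classical
  obtain ⟨K0, hK0, hK⟩ := mean_mass hκ hκ8 hP hs1 (R + 2)
  have hθ1 : θ < 1 := by linarith
  refine ⟨64 * ENNReal.ofReal C2 * K0 + 1, ?_, fun η hη => ?_⟩
  · exact ENNReal.add_lt_top.2 ⟨ENNReal.mul_lt_top
      (ENNReal.mul_lt_top (by norm_num) ENNReal.ofReal_lt_top) hK0, ENNReal.one_lt_top⟩
  have e1 := (num_bad (C := C) hκ hκ8 hθ0 hθ1 hCw hCh (by linarith : 0 ≤ R + 1)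
    (half_pos hη)).eventually (ge_mem_nhds one_pos)
  have e2 := (tendsto_pow_atTop_nhds_zero_of_lt_one hθ0.le hθ1).eventually
    (ge_mem_nhds (half_pos hη))
  filter_upwards [e1, e2] with j h1 h2
  have hm : 0 < mj Cw j := one_pos.trans_le (one_le_mj Cw j)
  have hε : 0 < ej θ Cw ε1 j := by unfold ej; positivity
  have hg : 0 < gj θ Ch j := by unfold gj; positivity
  have hd : 0 ≤ 2 - dd κ := by unfold dd; linarith
  obtain ⟨b, hb⟩ : ∃ b, b = C * Real.exp (Cw * mj Cw j) * (θ ^ j * θ ^ j / (η / 2)) ^ (2 - dd κ) *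
    Real.exp (-(j * Real.exp (-(Cw * mj Cw j)) / 2)) := ⟨_, rfl⟩
  have hbad : ∀ i : ℤ × ℤ, P (BadAt κ s1 θ Cb Hc Cw ε1 Ch R η j i) ≤
      ENNReal.ofReal b * (if ‖grid (gj θ Ch j) i‖ ≤ R + 1 then (1 : ℝ≥0∞) else 0) := by
    intro i
    by_cases hi : η / 2 ≤ (grid (gj θ Ch j) i).im ∧ ‖grid (gj θ Ch j) i‖ ≤ R + 1
    · rw [if_pos hi.2, mul_one]
      refine (measure_mono fun w hw => hw.2.2).trans ((hB _ (one_le_mj Cw j) j _
        (lt_of_lt_of_le (half_pos hη) hi.1) _ (pow_pos hθ0 j) (h2.trans hi.1) _ hε le_rfl).trans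
        (ENNReal.ofReal_le_ofReal ?_))
      rw [hb]
      have h3 : (θ ^ j * θ ^ j / (grid (gj θ Ch j) i).im) ^ (2 - dd κ) ≤
          (θ ^ j * θ ^ j / (η / 2)) ^ (2 - dd κ) :=
        Real.rpow_le_rpow (div_nonneg (by positivity) ((half_pos hη).le.trans hi.1))
          (div_le_div_of_nonneg_left (by positivity) (half_pos hη) hi.1) hd
      gcongr
    · have : BadAt κ s1 θ Cb Hc Cw ε1 Ch R η j i = ∅ :=
        eq_empty_of_forall_notMem fun w hw => hi ⟨hw.1, hw.2.1⟩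
      rw [this, measure_empty]
      exact zero_le
  unfold Vj
  rw [lintegral_add_left ((measurable_mass univ_id κ s1 _ measurableSet_ball _).const_mul _),
    lintegral_const_mul _ (measurable_mass univ_id κ s1 _ measurableSet_ball _),
    lintegral_tsum fun i => (measurable_const.indicator
      (measurableSet_BadAt κ s1 θ Cb Hc Cw ε1 Ch R η j i)).aemeasurable]
  refine add_le_add (mul_le_mul_right (hK _ hε) _) ?_
  simp only [lintegral_indicator_const (measurableSet_BadAt κ s1 θ Cb Hc Cw ε1 Ch R η j _)]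
  refine (ENNReal.tsum_le_tsum fun i => mul_le_mul_right (hbad i) _).trans ?_
  rw [ENNReal.tsum_mul_left, ENNReal.tsum_mul_left]
  refine (mul_le_mul_right (mul_le_mul_right (grid_count hg (by linarith)) _) _).trans ?_
  have hb0 : 0 ≤ b := by rw [hb]; positivity
  rw [← ENNReal.ofReal_mul hb0, ← ENNReal.ofReal_mul (gaugeReal_nonneg hκ (by positivity)),
    ENNReal.ofReal_le_one]
  rw [← hb] at h1
  unfold gj
  linarith

/-- `gauge_real_line`, continuity from below (`Monotone.measure_iUnion`). -/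
theorem gauge_le_of_strips {κ : ℝ} (hκ : 0 < κ) (hκ8 : κ < 8) {A : Set ℂ}
    (hA : ∀ z ∈ A, 0 ≤ z.im) {v : ℕ → ℝ≥0∞}
    (h : ∀ k : ℕ, gaugeMeasure κ (A ∩ {z | 1 / ((k : ℝ) + 1) ≤ z.im}) ≤ v k) :
    gaugeMeasure κ A ≤ liminf v atTop := by
  have hmono : Monotone fun k : ℕ => A ∩ {z : ℂ | 1 / ((k : ℝ) + 1) ≤ z.im} := by
    intro k k' hk z hz
    have h1 : 1 / ((k' : ℝ) + 1) ≤ 1 / ((k : ℝ) + 1) :=
      one_div_le_one_div_of_le (by positivity) (by exact_mod_cast Nat.succ_le_succ hk)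
    exact ⟨hz.1, h1.trans hz.2⟩
  have hsub : A ⊆ {z : ℂ | z.im = 0} ∪ ⋃ k : ℕ, A ∩ {z : ℂ | 1 / ((k : ℝ) + 1) ≤ z.im} := by
    intro z hz
    rcases (hA z hz).eq_or_lt with h0 | h0
    · exact Or.inl h0.symm
    · obtain ⟨k, hk⟩ := exists_nat_one_div_lt h0
      exact Or.inr (mem_iUnion.2 ⟨k, hz, hk.le⟩)
  refine (measure_mono hsub).trans ((measure_union_le _ _).trans ?_)
  rw [gauge_real_line hκ hκ8, zero_add, hmono.measure_iUnion]
  refine iSup_le fun k => le_liminf_of_le (by isBoundedDefault) ?_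
  filter_upwards [eventually_ge_atTop k] with k' hk'
  exact (measure_mono (hmono hk')).trans (h k')

end Crest.Agent.R162.U
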