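import Crest.Agent.R162.Worm
import Crest.Agent.R162.O3
import Crest.Agent.R162.L9
import Crest.Agent.R162.RT
import Crest.Agent.R162.P4
import Crest.Agent.R162.U5

set_option autoImplicit false
open MeasureTheory ProbabilityTheory Set Filter Topology Metric
open scoped ENNReal NNReal ComplexConjugate

namespace Crest.Agent.R162

open Crest.ProbabilityR.Loewner in
/-- Upper bound (block U). -/
theorem upper_bound {κ : ℝ} (hκ : 0 < κ) (hκ8 : κ < 8) {P : Measure Path} (hP : IsDrv κ P) (R : ℝ) :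
    ∃ V : Path → ℝ≥0∞, Measurable V ∧ ∫⁻ w, V w ∂P < ⊤ ∧
      ∀ (w : Path) (γ : ℝ → ℂ), w 0 = 0 → IsChordalTrace w γ →
        gaugeMeasure κ (γ '' Ici 0 ∩ closedBall 0 R) ≤ V w := by
  obtain ⟨s1, θ, Cb, Hc, Cw, ε1, C, hs1, hθ0, hθ, hCb, hHc, hCw, hε1, hC, hB⟩ :=
    U.bad_prob hκ hκ8 hP
  obtain ⟨Ch, hCh, hH⟩ := trace_hit
  obtain ⟨C2, hcov⟩ := U.cover (s1 := s1) (ε1 := ε1) hκ hκ8 hθ0 hθ hCb hHc hCw hCh hH
  obtain ⟨K, hK, hmean⟩ := U.mean_Vj hκ hκ8 hP hs1 hθ0 hθ hCw hε1 hC hCh hB C2 (abs_nonneg R)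
  have hm : ∀ k : ℕ, Measurable (fun w => liminf (fun j => U.Vj κ s1 θ Cb Hc Cw ε1 Ch C2 |R|
      (1 / ((k : ℝ) + 1)) j w) atTop) := fun k =>
    Measurable.liminf fun j => U.measurable_Vj κ s1 θ Cb Hc Cw ε1 Ch C2 |R| _ j
  refine ⟨fun w => liminf (fun k : ℕ => liminf (fun j => U.Vj κ s1 θ Cb Hc Cw ε1 Ch C2 |R|
      (1 / ((k : ℝ) + 1)) j w) atTop) atTop, Measurable.liminf hm, ?_, ?_⟩
  · refine lt_of_le_of_lt ((lintegral_liminf_le hm).trans ?_) hK
    refine liminf_le_of_frequently_le' (Frequently.of_forall fun k => ?_)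
    refine (lintegral_liminf_le fun j =>
      U.measurable_Vj κ s1 θ Cb Hc Cw ε1 Ch C2 |R| _ j).trans ?_
    exact liminf_le_of_frequently_le' (hmean _ (by positivity)).frequently
  · intro w γ h0 hγ
    refine (measure_mono (inter_subset_inter_right _
      (closedBall_subset_closedBall (le_abs_self R)))).trans ?_
    refine U.gauge_le_of_strips hκ hκ8 ?_ fun k =>
      hcov |R| _ (abs_nonneg R) (by positivity) w γ h0 hγ
    rintro z ⟨⟨t, ht, rfl⟩, -⟩
    exact hγ.mem_closure t ht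

end Crest.Agent.R162
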