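import Crest.Agent.R162.WDefs

set_option autoImplicit false
open MeasureTheory ProbabilityTheory Set Filter Topology Metric
open scoped ENNReal NNReal ComplexConjugate

namespace Crest.Agent.R162

/-- abscissa of the snake in units of `e` -/
private def h50x (L J k : ℕ) : ℕ :=
  if k / (L + J) % 2 = 0 then min (k % (L + J)) L else L - min (k % (L + J)) L

/-- height of the snake in units of `e` -/
private def h50y (L J k : ℕ) : ℕ := 4 + k / (L + J) * J + (k % (L + J) - L)

private theorem h50_step {L J : ℕ} (hJ : 1 ≤ J) (k : ℕ) :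
    |(h50x L J (k + 1) : ℤ) - h50x L J k| + |(h50y L J (k + 1) : ℤ) - h50y L J k| ≤ 1 := by
  have hP : 0 < L + J := by omega
  have hb : k % (L + J) < L + J := Nat.mod_lt _ hP
  have hk := Nat.div_add_mod k (L + J)
  have h : ((k + 1) / (L + J) = k / (L + J) ∧ (k + 1) % (L + J) = k % (L + J) + 1) ∨
      ((k + 1) / (L + J) = k / (L + J) + 1 ∧ (k + 1) % (L + J) = 0 ∧ k % (L + J) + 1 = L + J) := by
    by_cases h : k % (L + J) + 1 < L + J
    · exact Or.inl ((Nat.div_mod_unique hP).2 ⟨by omega, h⟩)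
    · have := (Nat.div_mod_unique (a := k + 1) (d := k / (L + J) + 1) (c := 0) hP).2
        ⟨by rw [Nat.mul_add, Nat.mul_one]; omega, hP⟩
      exact Or.inr ⟨this.1, this.2, by omega⟩
  unfold h50x h50y
  rcases h with ⟨h1, h2⟩ | ⟨h1, h2, h3⟩
  · rw [h1, h2]
    generalize k / (L + J) * J = m
    split_ifs <;> simp only [Int.abs_eq_natAbs] <;> omega
  · rw [h1, h2, Nat.add_mul, Nat.one_mul]
    generalize k / (L + J) * J = m
    split_ifs <;> simp only [Int.abs_eq_natAbs] <;> omega

private theorem h50_sep {L J : ℕ} (hJ : 1 ≤ J) {k l : ℕ} (hkl : k ≤ l) :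
    min ((l : ℤ) - k) J ≤ |(h50x L J l : ℤ) - h50x L J k| + |(h50y L J l : ℤ) - h50y L J k| := by
  have hP : 0 < L + J := by omega
  have hb : k % (L + J) < L + J := Nat.mod_lt _ hP
  have hb' : l % (L + J) < L + J := Nat.mod_lt _ hP
  have hk := Nat.div_add_mod k (L + J)
  have hl := Nat.div_add_mod l (L + J)
  obtain ⟨c, hc⟩ := Nat.exists_eq_add_of_le (Nat.div_le_div_right (c := L + J) hkl)
  unfold h50x h50y
  rw [hc] at hl ⊢
  rw [Nat.mul_add] at hl
  rw [Nat.add_mul]
  generalize k / (L + J) * J = m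
  generalize (L + J) * (k / (L + J)) = m' at hk hl
  generalize k / (L + J) = a
  generalize k % (L + J) = b at *
  generalize l % (L + J) = b' at *
  rcases c with _ | _ | c
  · simp only [Nat.mul_zero, Nat.zero_mul, Nat.add_zero] at hl ⊢
    split_ifs <;> simp only [Int.abs_eq_natAbs] <;> omega
  · simp only [Nat.zero_add, Nat.mul_one, Nat.one_mul] at hl ⊢
    split_ifs <;> simp only [Int.abs_eq_natAbs] <;> omega
  · rw [Nat.add_mul, Nat.add_mul, Nat.one_mul]
    generalize c * J = m''
    simp only [Int.abs_eq_natAbs]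
    omega

/-- `L = ⌈1/e⌉₊` (so `1 ≤ e L ≤ 2`, `J ≤ L`), `k = a (L + J) + b` with `b < L + J`. In units of `e`:
height `4 + a J + (b - L)` (truncated subtraction), abscissa `min b L` for `a` even and `L - min b L`
for `a` odd. The `ℓ¹` distance of `q k` and `q l` is at least `min (l - k) J` (cases: same `a`,
consecutive `a`, otherwise). -/
theorem exists_snake {e : ℝ} (he : 0 < e) {J : ℕ} (hJ : 1 ≤ J) (heJ : e * J ≤ 1) :
    ∃ q : ℕ → ℂ, Snake q e J := by
  set L : ℕ := ⌈1 / e⌉₊ with hL
  have hJ' : (1 : ℝ) ≤ J := by exact_mod_cast hJ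
  have he1 : e ≤ 1 := by nlinarith
  have hL1 : 1 ≤ e * L := by
    have := (div_le_iff₀ he).1 (Nat.le_ceil (1 / e))
    linarith
  have hL2 : e * L ≤ 2 := by
    have h1 : (L : ℝ) < 1 / e + 1 := Nat.ceil_lt_add_one (by positivity)
    have h2 := mul_lt_mul_of_pos_left h1 he
    rw [mul_add, mul_one_div_cancel he.ne'] at h2
    linarith
  have hP : 0 < L + J := by omega
  let q : ℕ → ℂ := fun k => ⟨e * h50x L J k, e * h50y L J k⟩
  have hre : ∀ k l, |(q l - q k).re| = e * |(h50x L J l : ℝ) - h50x L J k| := by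
    intro k l
    simp only [q, Complex.sub_re]
    rw [← mul_sub, abs_mul, abs_of_pos he]
  have him : ∀ k l, |(q l - q k).im| = e * |(h50y L J l : ℝ) - h50y L J k| := by
    intro k l
    simp only [q, Complex.sub_im]
    rw [← mul_sub, abs_mul, abs_of_pos he]
  have hdiv : ∀ k : ℕ, ((L : ℝ) + J) * (k / (L + J) : ℕ) ≤ k ∧
      (k : ℝ) ≤ ((L : ℝ) + J) * ((k / (L + J) : ℕ) + 1) := by
    intro k
    have h1 := Nat.div_add_mod k (L + J)
    have h2 : k % (L + J) < L + J := Nat.mod_lt _ hP
    have h3 : (L + J) * (k / (L + J)) ≤ k := by omega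
    have h4 : k ≤ (L + J) * (k / (L + J) + 1) := by rw [Nat.mul_add]; omega
    exact ⟨by exact_mod_cast h3, by exact_mod_cast h4⟩
  have hy : ∀ k : ℕ, 4 + ((k / (L + J) : ℕ) : ℝ) * J ≤ h50y L J k ∧
      (h50y L J k : ℝ) ≤ 4 + ((k / (L + J) : ℕ) : ℝ) * J + J := by
    intro k
    have h2 : k % (L + J) < L + J := Nat.mod_lt _ hP
    have h3 : 4 + k / (L + J) * J ≤ h50y L J k := by unfold h50y; omega
    have h4 : h50y L J k ≤ 4 + k / (L + J) * J + J := by unfold h50y; omega
    exact ⟨by exact_mod_cast h3, by exact_mod_cast h4⟩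
  refine ⟨q, he, ?_, fun k => ?_, fun k l hkl => ?_, fun k => ?_, fun k => ?_, fun k => ?_,
    fun k => ?_⟩
  · apply Complex.ext <;> simp [q, h50x, h50y, mul_comm]
  · refine (Complex.norm_le_abs_re_add_abs_im _).trans ?_
    have h : |(h50x L J (k + 1) : ℝ) - h50x L J k| + |(h50y L J (k + 1) : ℝ) - h50y L J k| ≤ 1 := by
      exact_mod_cast h50_step (L := L) hJ k
    rw [hre, him, ← mul_add]
    exact mul_le_of_le_one_right he.le h
  · have h : min ((l : ℝ) - k) J ≤
        |(h50x L J l : ℝ) - h50x L J k| + |(h50y L J l : ℝ) - h50y L J k| := by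
      exact_mod_cast h50_sep (L := L) hJ hkl
    have h1 := Complex.abs_re_le_norm (q l - q k)
    have h2 := Complex.abs_im_le_norm (q l - q k)
    rw [hre] at h1
    rw [him] at h2
    have h3 := mul_le_mul_of_nonneg_left h he.le
    linarith
  · have h1 : h50x L J k ≤ L := by unfold h50x; split_ifs <;> omega
    have h2 : (h50x L J k : ℝ) ≤ L := by exact_mod_cast h1
    change |e * h50x L J k| ≤ 2
    rw [abs_of_nonneg (by positivity)]
    exact (mul_le_mul_of_nonneg_left h2 he.le).trans hL2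
  · change 4 * e ≤ e * h50y L J k
    have h1 := (hy k).1
    have h2 : (0 : ℝ) ≤ ((k / (L + J) : ℕ) : ℝ) * J := by positivity
    nlinarith
  · change _ ≤ e * h50y L J k
    have h1 := mul_le_mul_of_nonneg_left (hy k).1 he.le
    have h2 := mul_le_mul_of_nonneg_left (hdiv k).2 he.le
    have h0 : (0 : ℝ) ≤ ((k / (L + J) : ℕ) : ℝ) := by positivity
    generalize ((k / (L + J) : ℕ) : ℝ) = a at *
    have h3 : e * k ≤ 4 * (a + 1) := by
      refine h2.trans ?_
      rw [← mul_assoc]
      exact mul_le_mul_of_nonneg_right (by linarith) (by linarith)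
    have h4 := mul_le_mul_of_nonneg_left h3 (by positivity : 0 ≤ e * J)
    nlinarith
  · change e * h50y L J k ≤ _
    have h1 := mul_le_mul_of_nonneg_left (hy k).2 he.le
    have h2 := mul_le_mul_of_nonneg_left (hdiv k).1 he.le
    have h0 : (0 : ℝ) ≤ ((k / (L + J) : ℕ) : ℝ) := by positivity
    generalize ((k / (L + J) : ℕ) : ℝ) = a at *
    have h3 : a ≤ e * k := by
      refine le_trans ?_ h2
      rw [← mul_assoc]
      refine le_mul_of_one_le_left h0 ?_
      have : 0 ≤ e * J := by positivity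
      linarith
    have h4 := mul_le_mul_of_nonneg_left h3 (by positivity : 0 ≤ e * J)
    nlinarith

end Crest.Agent.R162
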