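import Crest.Agent.R162.WDefs
import Crest.Agent.R162.L3
import Crest.Agent.R162.L4
import Crest.Agent.R162.L5
import Crest.Agent.R162.L8
import Crest.Agent.R162.K1
import Crest.Agent.R162.P1

set_option autoImplicit false
open MeasureTheory ProbabilityTheory Set Filter Topology Metric
open scoped ENNReal NNReal ComplexConjugate

namespace Crest.Agent.R162

theorem W4_jump {w : Path} {x t δ h : ℝ} (ht : 0 ≤ t) (hh : 0 < h) (h8 : 8 * t ≤ h ^ 2)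
    (h3 : 3 * t ≤ δ * h) (hx : |w t - w 0 - x| ≤ δ) {z : ℂ} (hz : h ≤ z.im) :
    z ∈ dom w t ∧ ‖Zf w t z - (z - x)‖ ≤ 2 * δ ∧ 1 / 3 ≤ mm w t z := by
  have hz0 : 0 < z.im := hh.trans_le hz
  have hδ : 0 ≤ δ := (abs_nonneg _).trans hx
  have h8' : 8 * t ≤ z.im ^ 2 := h8.trans (pow_le_pow_left₀ hh.le hz 2)
  obtain ⟨h1, -, h2, h4⟩ := alive_low w (show z ∈ H from hz0) ht h8'
  refine ⟨h1, ?_, ?_⟩
  · have h5 : 3 * t / z.im ≤ δ := by
      rw [div_le_iff₀ hz0]; nlinarith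
    have h6 : Zf w t z - (z - x) =
        (Zf w t z - (z - ((w t - w 0 : ℝ) : ℂ))) - ((w t - w 0 - x : ℝ) : ℂ) := by
      push_cast; ring
    rw [h6]
    refine (norm_sub_le _ _).trans ?_
    rw [Complex.norm_real, Real.norm_eq_abs]
    linarith
  · refine le_trans ?_ h4
    have h7 : 8 * t / z.im ^ 2 ≤ 1 := by
      rw [div_le_one (by positivity)]; exact h8'
    have h9 : Real.exp (-1) ≤ Real.exp (-(8 * t / z.im ^ 2)) := Real.exp_le_exp.2 (by linarith)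
    linarith [Real.exp_neg_one_gt_d9]

theorem W4_im_le (z : ℂ) : z.im ≤ ‖z‖ := (le_abs_self _).trans (Complex.abs_im_le_norm z)

theorem W4_im_sub {a b : ℂ} {e : ℝ} (h : ‖a - b‖ ≤ e) : b.im - e ≤ a.im := by
  have h1 := (Complex.abs_im_le_norm (a - b)).trans h
  rw [Complex.sub_im, abs_le] at h1
  linarith [h1.1]


/-- The Loewner part of one step, guide point `x + i`. Three phases: a jump to `x` in time `η²`
(`alive_low`: points of height `≥ h' = min h (1/Q1)` are translated by `-x` up to `2 δ`), a slit during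
`(1 - s²)/4` (`slit_on`, `slit_off` for `shift (η²) w`), a small free phase (`alive_far`); glue with
`mem_dom_add`, `Zf_add`, `mm_add`, `mm_anti`, `mm_le_one`. Constants: `s ≤ 1/(4 Q1)`, `2 s² ≤ μ1`,
`32 Q1² s² < μ2`; `δ1` from `slit_on s`; `c = min δ1 (1/(4 Q1)) (1/(Q1 + 2))`; `c', δ2` from
`slit_off c`; `η3` with `2 A η3 + 4 η3 √T ≤ min (c'/2) (1/10)`; `c0 = c'/(2 (1/c + 4))` (and `≤ 1`);
`R = 3/c0 + 20`; `δ ≤ min δ1 δ2 (1/(4 Q1)) (1/10) / 2`; `8 η² ≤ h'²`, `3 η²/h' ≤ δ`.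
`next`: after the jump the point has height `≥ 1/(2 Q1)`, norm `≤ Q1 + 2` (`im_le_Qh`,
`norm_sub_le_Qh`); if it were within `c` of `r i`, `r ∈ [0,1]`, then `r ≥ 1/(4 Q1) ≥ s` and `slit_on`
with `y = r` gives `mm ≤ 32 Q1² s² < μ2`; so `slit_off` applies. `far`: `alive_far` for the whole
step. `margin`: `alive_low`, then `alive_far` for `shift (η²) w` (oscillation `≤ 1/2`, time `≤ 0.3`). -/
theorem step_det {μ1 μ2 Q1 T A : ℝ} (hμ1 : 0 < μ1) (hμ2 : 0 < μ2) (hQ1 : 4 ≤ Q1) (hT : 0 < T)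
    (hA : 0 < A) : ∃ c0 R s η3 δ : ℝ, 0 < c0 ∧ c0 ≤ 1 ∧ 1 ≤ R ∧ 0 < s ∧ s ≤ 1 / 2 ∧ 0 < η3 ∧ 0 < δ ∧
      ∀ h : ℝ, 0 < h → ∃ η : ℝ, 0 < η ∧ ∀ (x : ℝ) (w : Path), |x| ≤ 1 / c0 →
      (∀ r ∈ Icc 0 (η ^ 2 + (1 - s ^ 2) / 4), |w r - w 0 - x * min (r / η ^ 2) 1| ≤ δ) →
      ((x : ℂ) + Complex.I ∈ dom w (η ^ 2 + (1 - s ^ 2) / 4) ∧
        ‖Zf w (η ^ 2 + (1 - s ^ 2) / 4) (x + Complex.I) - s * Complex.I‖ ≤ s / 10 ∧
        s ^ 2 / 6 ≤ mm w (η ^ 2 + (1 - s ^ 2) / 4) (x + Complex.I)) ∧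
      (osc (shift (η ^ 2 + (1 - s ^ 2) / 4) w) (η3 ^ 2 * T) ≤ A * η3 →
        StepOK R h μ1 μ2 Q1 c0 (x + Complex.I) w (η ^ 2 + (1 - s ^ 2) / 4 + η3 ^ 2 * T)) := by
  have hQ0 : 0 < Q1 := by linarith
  have hq4 : 0 < 1 / (4 * Q1) := by positivity
  have hq16 : 1 / (4 * Q1) ≤ 1 / 16 := one_div_le_one_div_of_le (by norm_num) (by linarith)
  have hq1 : 1 / Q1 = 4 * (1 / (4 * Q1)) := by field_simp
  obtain ⟨s, hs0, hsQ, hsμ1, hsμ2⟩ : ∃ s : ℝ, 0 < s ∧ s ≤ 1 / (4 * Q1) ∧ 2 * s ^ 2 ≤ μ1 ∧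
      32 * Q1 ^ 2 * s ^ 2 < μ2 := by
    have hp : 0 < μ2 / (64 * Q1 ^ 2) := by positivity
    obtain ⟨s, h0, h1, h2, h3⟩ : ∃ s : ℝ, 0 < s ∧ s ≤ 1 / (4 * Q1) ∧ s ≤ μ1 / 2 ∧
        s ≤ μ2 / (64 * Q1 ^ 2) :=
      ⟨min (1 / (4 * Q1)) (min (μ1 / 2) (μ2 / (64 * Q1 ^ 2))),
        lt_min hq4 (lt_min (by positivity) hp), min_le_left _ _,
        (min_le_right _ _).trans (min_le_left _ _), (min_le_right _ _).trans (min_le_right _ _)⟩
    have h4 : s ^ 2 ≤ s := by nlinarith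
    rw [le_div_iff₀ (by positivity)] at h3
    refine ⟨s, h0, h1, by linarith, ?_⟩
    have h5 : 32 * Q1 ^ 2 * s ^ 2 ≤ 32 * Q1 ^ 2 * s := by gcongr
    linarith
  have hs2 : s ≤ 1 / 2 := by linarith
  obtain ⟨δ1, hδ1, hon⟩ := slit_on hs0 hs2
  obtain ⟨c, hc, hc1, hc2, hc3⟩ : ∃ c : ℝ, 0 < c ∧ c ≤ δ1 ∧ c ≤ 1 / (4 * Q1) ∧ c ≤ 1 / (Q1 + 2) :=
    ⟨min δ1 (min (1 / (4 * Q1)) (1 / (Q1 + 2))), lt_min hδ1 (lt_min hq4 (by positivity)),
      min_le_left _ _, (min_le_right _ _).trans (min_le_left _ _),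
      (min_le_right _ _).trans (min_le_right _ _)⟩
  have hc4 : Q1 + 2 ≤ 1 / c := by
    rw [le_div_iff₀ hc]; rw [le_div_iff₀ (by positivity)] at hc3; linarith
  obtain ⟨c', hc', δ2, hδ2, hoff⟩ := slit_off hc
  have hsT : 0 < Real.sqrt T := Real.sqrt_pos.2 hT
  obtain ⟨η3, hη3, hη3a, hη3b⟩ : ∃ η3 : ℝ, 0 < η3 ∧ 2 * (A * η3) + 4 * (η3 * Real.sqrt T) ≤ c' / 2 ∧
      2 * (A * η3) + 4 * (η3 * Real.sqrt T) ≤ 1 / 10 := by
    have hk : 0 < min (c' / 2) (1 / 10) := lt_min (by positivity) (by norm_num)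
    have he : 2 * (A * (min (c' / 2) (1 / 10) / (2 * A + 4 * Real.sqrt T))) +
        4 * (min (c' / 2) (1 / 10) / (2 * A + 4 * Real.sqrt T) * Real.sqrt T) =
        min (c' / 2) (1 / 10) := by
      field_simp
    exact ⟨min (c' / 2) (1 / 10) / (2 * A + 4 * Real.sqrt T), by positivity,
      he.le.trans (min_le_left _ _), he.le.trans (min_le_right _ _)⟩
  have hAη : 0 < A * η3 := by positivity
  have hηT : 0 < η3 * Real.sqrt T := by positivity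
  have hsq3 : Real.sqrt (η3 ^ 2 * T) = η3 * Real.sqrt T := by
    rw [Real.sqrt_mul (by positivity), Real.sqrt_sq hη3.le]
  have ht30 : 0 ≤ η3 ^ 2 * T := by positivity
  have ht31 : η3 ^ 2 * T ≤ 1 / 100 := by
    have h1 : η3 ^ 2 * T = (η3 * Real.sqrt T) ^ 2 := by
      rw [mul_pow, Real.sq_sqrt hT.le]
    rw [h1]; nlinarith
  obtain ⟨c0, hc0, hc01, hc0a⟩ : ∃ c0 : ℝ, 0 < c0 ∧ c0 ≤ 1 ∧ c0 ≤ c' / 2 / (1 / c + 4) :=
    ⟨min 1 (c' / 2 / (1 / c + 4)), lt_min one_pos (by positivity), min_le_left _ _,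
      min_le_right _ _⟩
  have hic0 : 0 < 1 / c0 := by positivity
  obtain ⟨δ, hδ, hδa, hδb, hδc, hδd⟩ : ∃ δ : ℝ, 0 < δ ∧ 2 * δ ≤ δ1 ∧ 2 * δ ≤ δ2 ∧
      2 * δ ≤ 1 / (4 * Q1) ∧ 2 * δ ≤ 1 / 10 := by
    have hk : 0 < min (min δ1 δ2) (1 / (4 * Q1)) := lt_min (lt_min hδ1 hδ2) hq4
    have h1 := min_le_left (min δ1 δ2) (1 / (4 * Q1))
    have h2 := min_le_right (min δ1 δ2) (1 / (4 * Q1))
    have h3 := min_le_left δ1 δ2
    have h4 := min_le_right δ1 δ2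
    exact ⟨min (min δ1 δ2) (1 / (4 * Q1)) / 2, by positivity, by linarith, by linarith,
      by linarith, by linarith⟩
  refine ⟨c0, 3 * (1 / c0) + 20, s, η3, δ, hc0, hc01, by linarith, hs0, hs2, hη3, hδ, ?_⟩
  intro h hh
  obtain ⟨h', hh', hh1, hh2⟩ : ∃ h' : ℝ, 0 < h' ∧ h' ≤ h ∧ h' ≤ 1 / Q1 :=
    ⟨min h (1 / Q1), lt_min hh (by positivity), min_le_left _ _, min_le_right _ _⟩
  obtain ⟨η, hη, hη8, hη3'⟩ : ∃ η : ℝ, 0 < η ∧ 8 * η ^ 2 ≤ h' ^ 2 ∧ 3 * η ^ 2 ≤ δ * h' := by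
    have hk : 0 < min (h' ^ 2 / 8) (δ * h' / 3) := lt_min (by positivity) (by positivity)
    refine ⟨Real.sqrt (min (h' ^ 2 / 8) (δ * h' / 3)), Real.sqrt_pos.2 hk, ?_, ?_⟩
    · rw [Real.sq_sqrt hk.le]; linarith [min_le_left (h' ^ 2 / 8) (δ * h' / 3)]
    · rw [Real.sq_sqrt hk.le]; linarith [min_le_right (h' ^ 2 / 8) (δ * h' / 3)]
  refine ⟨η, hη, ?_⟩
  intro x w hx htube
  generalize ht3 : η3 ^ 2 * T = t3 at *
  have ht1 : 0 < η ^ 2 := by positivity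
  generalize η ^ 2 = t1 at *
  have hh4 : h' ≤ 1 / 4 := by linarith
  have ht1' : t1 ≤ 1 / 100 := by nlinarith
  have hL0 : 0 ≤ (1 - s ^ 2) / 4 := by nlinarith
  have hL1 : (1 - s ^ 2) / 4 ≤ 1 / 4 := by nlinarith
  have hLe : ((1 : ℝ) ^ 2 - s ^ 2) / 4 = (1 - s ^ 2) / 4 := by ring
  have hLr : ∀ r : ℝ, s ≤ r → r ≤ 1 → 0 ≤ (r ^ 2 - s ^ 2) / 4 ∧
      (r ^ 2 - s ^ 2) / 4 ≤ (1 - s ^ 2) / 4 := fun r h1 h2 => ⟨by nlinarith, by nlinarith⟩
  generalize (1 - s ^ 2) / 4 = L at *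
  -- the driver
  have hlate : ∀ r ∈ Icc 0 L, |w (t1 + r) - w 0 - x| ≤ δ := by
    intro r hr
    have h1 := htube (t1 + r) ⟨by linarith [hr.1], by linarith [hr.2]⟩
    have h2 : min ((t1 + r) / t1) 1 = 1 :=
      min_eq_right (by rw [le_div_iff₀ ht1]; linarith [hr.1])
    rwa [h2, mul_one] at h1
  have hx1 : |w t1 - w 0 - x| ≤ δ := by simpa using hlate 0 ⟨le_rfl, hL0⟩
  have hw1 : ∀ r ∈ Icc 0 L, |shift t1 w r - shift t1 w 0| ≤ 2 * δ := by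
    intro r hr
    show |w (t1 + r) - w (t1 + 0)| ≤ 2 * δ
    have h1 := abs_le.1 (hlate r hr)
    have h2 := abs_le.1 (hlate 0 ⟨le_rfl, hL0⟩)
    rw [abs_le]; constructor <;> linarith [h1.1, h1.2, h2.1, h2.2]
  have hjump : ∀ z : ℂ, h' ≤ z.im →
      z ∈ dom w t1 ∧ ‖Zf w t1 z - (z - x)‖ ≤ 2 * δ ∧ 1 / 3 ≤ mm w t1 z :=
    fun z hz => W4_jump ht1.le hh' hη8 hη3' hx1 hz
  have him : ((x : ℂ) + Complex.I).im = 1 := by simp
  have hre : ((x : ℂ) + Complex.I).re = x := by simp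
  -- the guide point
  obtain ⟨g1, g2, g3⟩ := hjump (x + Complex.I) (by rw [him]; linarith)
  have g2' : ‖Zf w t1 (x + Complex.I) - ((1 : ℝ) : ℂ) * Complex.I‖ ≤ δ1 := by
    have : (x : ℂ) + Complex.I - x = ((1 : ℝ) : ℂ) * Complex.I := by push_cast; ring
    rw [this] at g2; linarith
  obtain ⟨g4, g5, g6, g7⟩ := hon (shift t1 w) _ 1 (by linarith) le_rfl g2'
    (by rw [hLe]; exact fun r hr => (hw1 r hr).trans hδa)
  rw [hLe] at g4 g5 g6 g7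
  have gmm := mm_add w ht1.le hL0 (x + Complex.I)
  have g8 := mm_le_one w ht1.le (x + Complex.I)
  have hs20 : 0 < s ^ 2 := by positivity
  refine ⟨⟨(mem_dom_add w ht1.le hL0 _).2 ⟨g1, g4⟩, by rw [Zf_add w ht1.le hL0]; exact g5, ?_⟩, ?_⟩
  · rw [gmm]
    have e1 : s ^ 2 / (2 * 1 ^ 2) = s ^ 2 / 2 := by ring
    rw [e1] at g6
    calc s ^ 2 / 6 = 1 / 3 * (s ^ 2 / 2) := by ring
      _ ≤ _ := mul_le_mul g3 g6 (by positivity) (by linarith)
  intro hosc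
  have hw2 : ∀ r ∈ Icc 0 t3, |shift (t1 + L) w r - shift (t1 + L) w 0| ≤ A * η3 :=
    fun r hr => (le_osc _ hr).trans hosc
  have hw12 : ∀ r ∈ Icc 0 (L + t3), |shift t1 w r - shift t1 w 0| ≤ 1 / 2 := by
    intro r hr
    rcases le_total r L with h1 | h1
    · linarith [hw1 r ⟨hr.1, h1⟩]
    · have h2 : |w (t1 + L + (r - L)) - w (t1 + L + 0)| ≤ A * η3 :=
        hw2 (r - L) ⟨by linarith, by linarith [hr.2]⟩
      have h3 : |w (t1 + L) - w (t1 + 0)| ≤ 2 * δ := hw1 L ⟨hL0, le_rfl⟩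
      have e1 : t1 + L + (r - L) = t1 + r := by ring
      rw [e1, add_zero] at h2
      show |w (t1 + r) - w (t1 + 0)| ≤ 1 / 2
      rw [abs_le] at h2 h3 ⊢
      constructor <;> linarith [h2.1, h2.2, h3.1, h3.2]
  have hxa := abs_le.1 hx
  refine ⟨?_, ?_, ?_, ?_⟩
  · -- far
    intro z hz hR
    rw [him, hre, mul_one] at hR
    have hM : ∀ r ∈ Icc 0 (t1 + L + t3), |w r - w 0| ≤ 1 / c0 + 1 := by
      intro r hr
      rcases le_total r t1 with h1 | h1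
      · have h2 := htube r ⟨hr.1, by linarith⟩
        have h3 : 0 ≤ min (r / t1) 1 := le_min (div_nonneg hr.1 ht1.le) zero_le_one
        have h4 : min (r / t1) 1 ≤ 1 := min_le_right _ _
        have h5 : |x * min (r / t1) 1| ≤ 1 / c0 := by
          rw [abs_mul, abs_of_nonneg h3]
          exact (mul_le_of_le_one_right (abs_nonneg x) h4).trans hx
        rw [abs_le] at h2 h5 ⊢
        constructor <;> linarith [h2.1, h2.2, h5.1, h5.2]
      · have h2 : |w (t1 + (r - t1)) - w (t1 + 0)| ≤ 1 / 2 :=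
          hw12 (r - t1) ⟨by linarith, by linarith [hr.2]⟩
        have e1 : t1 + (r - t1) = r := by ring
        rw [e1, add_zero] at h2
        have h3 := hx1
        rw [abs_le] at h2 h3 ⊢
        constructor <;> linarith [h2.1, h2.2, h3.1, h3.2, hxa.1, hxa.2]
    have hsq : Real.sqrt (t1 + L + t3) ≤ 1 := Real.sqrt_le_one.2 (by linarith)
    have hn : ‖z - (x : ℂ)‖ ≤ ‖z‖ + 1 / c0 := by
      refine (norm_sub_le _ _).trans ?_
      rw [Complex.norm_real, Real.norm_eq_abs]; linarith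
    exact (alive_far w hz (by linarith) hM (by linarith)).1
  · -- margin
    intro z hz h1 h2
    rw [him, mul_one] at h1
    rw [him, hre, mul_one] at h2
    obtain ⟨j1, j2, -⟩ := hjump z (hh1.trans h1)
    have hn : ‖z - (x : ℂ)‖ ≤ ‖Zf w t1 z‖ + 2 * δ := by
      have := norm_sub_norm_le (z - (x : ℂ)) (Zf w t1 z)
      rw [norm_sub_rev] at j2
      linarith
    have hsq : Real.sqrt (L + t3) ≤ 6 / 10 := by
      rw [Real.sqrt_le_left (by norm_num)]; linarith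
    rw [add_assoc, mem_dom_add w ht1.le (by linarith)]
    exact ⟨j1, (alive_far (shift t1 w) (Zf_mem j1) (by linarith) hw12 (by linarith)).1⟩
  · -- guide
    refine (mm_anti w (s := t1 + L) (by linarith) (by linarith) _).trans ?_
    rw [gmm]
    have e1 : 2 * s ^ 2 / 1 ^ 2 = 2 * s ^ 2 := by ring
    rw [e1] at g7
    exact ((mul_le_of_le_one_left (mm_nonneg _ _ _) g8).trans g7).trans hsμ1
  · -- next
    intro z hz hQ hμ
    have hζ : (x : ℂ) + Complex.I ∈ H := by show 0 < ((x : ℂ) + Complex.I).im; rw [him]; norm_num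
    have hz0 : 0 < z.im := hz
    have n1 := im_le_Qh hζ hz
    have n2 := norm_sub_le_Qh hζ hz
    rw [him] at n1 n2
    have n3 : 1 / Q1 ≤ z.im := by
      rw [div_le_iff₀ hQ0]
      exact n1.trans ((mul_le_mul_of_nonneg_right hQ hz0.le).trans (mul_comm _ _).le)
    have n4 : ‖z - (x : ℂ)‖ ≤ Q1 + 1 := by
      have e1 : z - (x : ℂ) = Complex.I - (x + Complex.I - z) := by ring
      rw [e1]
      refine (norm_sub_le _ _).trans ?_
      rw [Complex.norm_I]; linarith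
    obtain ⟨j1, j2, -⟩ := hjump z (hh2.trans n3)
    have n5 : 3 * (1 / (4 * Q1)) ≤ (Zf w t1 z).im := by
      have h1 := W4_im_sub j2
      rw [Complex.sub_im, Complex.ofReal_im] at h1
      linarith
    have n6 : ‖Zf w t1 z‖ ≤ 1 / c := by
      have := norm_sub_norm_le (Zf w t1 z) (z - (x : ℂ))
      linarith
    have n7 : ∀ r ∈ Icc (0 : ℝ) 1, c ≤ ‖Zf w t1 z - r * Complex.I‖ := by
      intro r hr
      by_contra hlt
      have h1 : ‖(r : ℂ) * Complex.I - Zf w t1 z‖ ≤ c := by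
        rw [norm_sub_rev]; exact (not_le.1 hlt).le
      have h2 := W4_im_sub h1
      have e1 : ((r : ℂ) * Complex.I).im = r := by simp
      rw [e1] at h2
      have h3 : 1 / (4 * Q1) ≤ r := by linarith
      have h4 : s ≤ r := hsQ.trans h3
      obtain ⟨h5, h6⟩ := hLr r h4 hr.2
      obtain ⟨-, -, -, h7⟩ := hon (shift t1 w) (Zf w t1 z) r h4 hr.2
        ((not_le.1 hlt).le.trans hc1) (fun u hu => (hw1 u ⟨hu.1, hu.2.trans h6⟩).trans hδa)
      have h8 : mm w (t1 + L + t3) z ≤ mm w (t1 + (r ^ 2 - s ^ 2) / 4) z :=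
        mm_anti w (by linarith) (by linarith) z
      rw [mm_add w ht1.le h5] at h8
      have h9 := (h8.trans (mul_le_of_le_one_left (mm_nonneg _ _ _) (mm_le_one w ht1.le z))).trans h7
      have hr0 : 0 < r := hq4.trans_le h3
      have h10 : 2 * s ^ 2 / r ^ 2 ≤ 32 * Q1 ^ 2 * s ^ 2 := by
        rw [div_le_iff₀ (by positivity)]
        rw [div_le_iff₀ (by positivity)] at h3
        have h11 : 1 ≤ (r * (4 * Q1)) ^ 2 := one_le_pow₀ h3
        calc 2 * s ^ 2 = 2 * s ^ 2 * 1 := by ring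
          _ ≤ 2 * s ^ 2 * (r * (4 * Q1)) ^ 2 := by gcongr
          _ = _ := by ring
      linarith
    obtain ⟨k1, k2, k3⟩ := hoff (shift t1 w) (Zf w t1 z) L (by linarith) n6 n7 hL0 hL1
      (fun u hu => (hw1 u hu).trans hδb)
    rw [← Zf_add w ht1.le hL0] at k2 k3
    have k4 : z ∈ dom w (t1 + L) := (mem_dom_add w ht1.le hL0 _).2 ⟨j1, k1⟩
    have k5 := W4_im_le (Zf w (t1 + L) z)
    obtain ⟨l1, l2, -, -⟩ := alive_far (shift (t1 + L) w) (Zf_mem k4) ht30 hw2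
      (by rw [hsq3]; linarith)
    rw [hsq3, ← Zf_add w (by linarith) ht30] at l2
    have l3 : z ∈ dom w (t1 + L + t3) := (mem_dom_add w (by linarith) ht30 _).2 ⟨k4, l1⟩
    have l4 := W4_im_sub l2
    have l5 := norm_sub_norm_le (Zf w (t1 + L + t3) z) (Zf w (t1 + L) z)
    have l6 : 0 < (Zf w (t1 + L + t3) z).im := Zf_mem l3
    have l7 := W4_im_le (Zf w (t1 + L + t3) z)
    refine hc0a.trans ?_
    unfold Sn
    exact div_le_div₀ l6.le (by linarith) (by linarith) (by linarith)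

end Crest.Agent.R162
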