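import Crest.Agent.R162.Defs

set_option autoImplicit false
open MeasureTheory ProbabilityTheory Set Filter Topology Metric
open scoped ENNReal NNReal ComplexConjugate

namespace Crest.Agent.R162

/-- The snake: a boustrophedon lattice path of mesh `e`, rows of length about `1`, spaced `J e`. -/
structure Snake (q : ℕ → ℂ) (e : ℝ) (J : ℕ) : Prop where
  e_pos : 0 < e
  zero : q 0 = ((4 * e : ℝ) : ℂ) * Complex.I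
  step : ∀ k, ‖q (k + 1) - q k‖ ≤ e
  sep : ∀ k l : ℕ, k ≤ l → e * min ((l : ℝ) - k) J / 2 ≤ ‖q l - q k‖
  re_le : ∀ k, |(q k).re| ≤ 2
  im_ge : ∀ k, 4 * e ≤ (q k).im
  low : ∀ k : ℕ, e ^ 2 * J * k / 4 - e * J ≤ (q k).im
  up : ∀ k : ℕ, (q k).im ≤ e * (4 + J) + e ^ 2 * J * k

/-- Invariant of the steering: the domain `φ '' H` still contains the snake from `q k` on. -/
structure Inv (q : ℕ → ℂ) (e : ℝ) (Λ : ℕ) (c0 : ℝ) (φ : ℂ → ℂ) (k : ℕ) (ζ : ℂ) : Prop where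
  univ : Univ φ
  bdd : BddOn φ
  maps : MapsTo φ H H
  mem : ζ ∈ H
  eq : φ ζ = q k
  sn : c0 ≤ Sn ζ
  balls : ∀ l : ℕ, k ≤ l → ball (q l) (e * min 4 (2 + ((l : ℝ) - k) / Λ)) ⊆ φ '' H
  top : {z : ℂ | 1 / 2 < z.im} ⊆ φ '' H
  near : ¬ ball (q k) (8 * e) ⊆ φ '' H

/-- What one step of the steering does to the half-plane, `ζ` the guide point. -/
structure StepOK (R h μ1 μ2 Q1 c0 : ℝ) (ζ : ℂ) (w : Path) (t : ℝ) : Prop where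
  far : ∀ z ∈ H, R * ζ.im ≤ ‖z - (ζ.re : ℂ)‖ → z ∈ dom w t
  margin : ∀ z ∈ H, h * ζ.im ≤ z.im → 4 * ζ.im ≤ ‖z - (ζ.re : ℂ)‖ → z ∈ dom w t
  guide : mm w t ζ ≤ μ1
  next : ∀ z ∈ H, Qh ζ z ≤ Q1 → μ2 ≤ mm w t z → c0 ≤ Sn (Zf w t z)

/-- One step has probability at least `p` and makes mass. -/
def StepP (κ s1 : ℝ) (P : Measure Path) (R h μ1 μ2 Q1 c0 Q3 μ3 ε2 p : ℝ) (g : ℂ → ℂ) (ζ : ℂ) : Prop :=
  ∀ ε : ℝ, 0 < ε → ∀ B : Set ℂ, MeasurableSet B → ∃ (t : ℝ) (E : Set Path), 0 ≤ t ∧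
    MeasurableSet E ∧ ENNReal.ofReal p ≤ P E ∧ ∀ w ∈ E, StepOK R h μ1 μ2 Q1 c0 ζ w t ∧
      (ε ≤ ε2 * ups g ζ → (∀ ξ ∈ H, Qh ζ ξ ≤ Q3 → g ξ ∈ B) →
        ENNReal.ofReal (μ3 * ups g ζ ^ dd κ) ≤ mass κ s1 ε g w (Ioc 0 t) B)

/-- The target event. -/
def Tgt (κ s1 ε : ℝ) (g : ℂ → ℂ) (B : Set ℂ) (ζ : ℂ) (u σ : ℝ) (M M0 : ℝ≥0∞) : Set Path :=
  {w | ∃ t, 0 ≤ t ∧ ζ ∈ dom w t ∧ 1 / 8 < u * mm w t ζ ∧ σ < Sn (Zf w t ζ) ∧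
    M < M0 + mass κ s1 ε g w (Ioc 0 t) B}

end Crest.Agent.R162
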