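import Crest.Agent.R162.Distort

/-!
Area formula for univalent maps, its polar forms, the length–area principle and Wolff's lemma.
-/

open Set Filter Metric Function Complex MeasureTheory
open scoped Topology ENNReal

namespace Crest.Agent.R162

variable {f : ℂ → ℂ} {U S : Set ℂ}

/-- Area formula for a univalent map. -/
theorem area_formula (hU : IsOpen U) (hf : DifferentiableOn ℂ f U) (hinj : InjOn f U)
    (hS : MeasurableSet S) (hSU : S ⊆ U) :
    ∫⁻ z in S, ENNReal.ofReal (‖deriv f z‖ ^ 2) = volume (f '' S) := by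
  have h := lintegral_abs_det_fderiv_eq_addHaar_image (volume : Measure ℂ) hS
    (f := f) (f' := fun z => (ContinuousLinearMap.toSpanSingleton ℂ (deriv f z)).restrictScalars ℝ)
    (fun z hz => ((hf.differentiableAt (hU.mem_nhds (hSU hz))).hasDerivAt.hasFDerivAt.restrictScalars
      ℝ).hasFDerivWithinAt) (hinj.mono hSU)
  rw [← h]
  refine lintegral_congr fun z => ?_
  congr 1
  simp [ContinuousLinearMap.det, LinearMap.det_restrictScalars, Algebra.norm_complex_eq,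
    Complex.normSq_eq_norm_sq]

/-- Polar coordinates about `a` for a lower integral over the plane. -/
theorem lintegral_polar (a : ℂ) (G : ℂ → ℝ≥0∞) :
    ∫⁻ z, G z = ∫⁻ p in Ioi (0 : ℝ) ×ˢ Ioo (-Real.pi) Real.pi,
      ENNReal.ofReal p.1 * G (circleMap a p.1 p.2) := by
  rw [← lintegral_add_left_eq_self G a, ← Complex.lintegral_comp_polarCoord_symm]
  refine lintegral_congr fun p => ?_
  simp [circleMap, exp_mul_I]

theorem measurable_circleMap_prod (a : ℂ) : Measurable fun p : ℝ × ℝ => circleMap a p.1 p.2 := by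
  unfold circleMap
  fun_prop

theorem lintegral_polar_circles (a : ℂ) {G : ℂ → ℝ≥0∞} (hG : Measurable G) :
    ∫⁻ z, G z = ∫⁻ ρ in Ioi (0 : ℝ), ENNReal.ofReal ρ *
      ∫⁻ θ in Ioo (-Real.pi) Real.pi, G (circleMap a ρ θ) := by
  have hm : Measurable fun p : ℝ × ℝ => ENNReal.ofReal p.1 * G (circleMap a p.1 p.2) :=
    (measurable_fst.ennreal_ofReal).mul (hG.comp (measurable_circleMap_prod a))
  rw [lintegral_polar a G, Measure.volume_eq_prod, ← Measure.prod_restrict,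
    lintegral_prod _ hm.aemeasurable]
  refine lintegral_congr fun ρ => ?_
  rw [lintegral_const_mul' _ _ ENNReal.ofReal_ne_top]

theorem lintegral_polar_rays (a : ℂ) {G : ℂ → ℝ≥0∞} (hG : Measurable G) :
    ∫⁻ z, G z = ∫⁻ θ in Ioo (-Real.pi) Real.pi,
      ∫⁻ ρ in Ioi (0 : ℝ), ENNReal.ofReal ρ * G (circleMap a ρ θ) := by
  have hm : Measurable fun p : ℝ × ℝ => ENNReal.ofReal p.1 * G (circleMap a p.1 p.2) :=
    (measurable_fst.ennreal_ofReal).mul (hG.comp (measurable_circleMap_prod a))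
  rw [lintegral_polar a G, Measure.volume_eq_prod, ← Measure.prod_restrict,
    lintegral_prod_symm _ hm.aemeasurable]

/-- The squared derivative cut off to `S`. -/
noncomputable def en (f : ℂ → ℂ) (S : Set ℂ) : ℂ → ℝ≥0∞ :=
  S.indicator fun z => ENNReal.ofReal (‖deriv f z‖ ^ 2)

theorem measurable_en (f : ℂ → ℂ) (hS : MeasurableSet S) : Measurable (en f S) :=
  (((measurable_deriv f).norm.pow_const 2).ennreal_ofReal).indicator hS

theorem lintegral_en (hU : IsOpen U) (hf : DifferentiableOn ℂ f U) (hinj : InjOn f U)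
    (hS : MeasurableSet S) (hSU : S ⊆ U) : ∫⁻ z, en f S z = volume (f '' S) := by
  rw [en, lintegral_indicator hS, area_formula hU hf hinj hS hSU]

/-- The increment along a real-parameter path is at most the lower integral of the speed. -/
theorem enorm_sub_le_lintegral {φ φ' : ℝ → ℂ} {a b : ℝ} (hab : a ≤ b)
    (hd : ∀ s ∈ Icc a b, HasDerivAt φ (φ' s) s) (hc : ContinuousOn φ' (Icc a b)) :
    ENNReal.ofReal ‖φ b - φ a‖ ≤ ∫⁻ s in Ioo a b, ENNReal.ofReal ‖φ' s‖ := by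
  have h1 : ∫ s in a..b, φ' s = φ b - φ a :=
    intervalIntegral.integral_eq_sub_of_hasDerivAt (by rwa [uIcc_of_le hab])
      (by apply ContinuousOn.intervalIntegrable; rwa [uIcc_of_le hab])
  rw [← h1, intervalIntegral.integral_of_le hab, integral_Ioc_eq_integral_Ioo, ofReal_norm_eq_enorm]
  refine (enorm_integral_le_lintegral_enorm _).trans (le_of_eq ?_)
  simp [ofReal_norm_eq_enorm]

/-- Cauchy–Schwarz in the form used by the length–area principle. -/
theorem lintegral_le_sqrt {μ : Measure ℝ} {g w : ℝ → ℝ} {W c : ℝ} (hW : 0 < W) (hc : 0 < c)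
    (hw : ∀ᵐ s ∂μ, 0 < w s) (hwm : Measurable w)
    (h1 : ∫⁻ s, ENNReal.ofReal (w s)⁻¹ ∂μ ≤ ENNReal.ofReal W)
    (h2 : ∫⁻ s, ENNReal.ofReal (w s * g s ^ 2) ∂μ ≤ ENNReal.ofReal c) :
    ∫⁻ s, ENNReal.ofReal (g s) ∂μ ≤ ENNReal.ofReal (Real.sqrt (W * c)) := by
  set l := Real.sqrt (c / W) with hl
  have hl0 : 0 < l := Real.sqrt_pos.2 (by positivity)
  have hl2 : l ^ 2 = c / W := Real.sq_sqrt (by positivity)
  have h3 : ∀ᵐ s ∂μ, ENNReal.ofReal (g s) ≤ ENNReal.ofReal (l / 2) * ENNReal.ofReal (w s)⁻¹ +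
      ENNReal.ofReal (1 / (2 * l)) * ENNReal.ofReal (w s * g s ^ 2) := by
    filter_upwards [hw] with s hs
    rw [← ENNReal.ofReal_mul (by positivity), ← ENNReal.ofReal_mul (by positivity),
      ← ENNReal.ofReal_add (by positivity) (by positivity)]
    refine ENNReal.ofReal_le_ofReal ?_
    have : l / 2 * (w s)⁻¹ + 1 / (2 * l) * (w s * g s ^ 2) - g s =
        (l - w s * g s) ^ 2 / (2 * l * w s) := by
      field_simp
      ring
    have h4 : 0 ≤ (l - w s * g s) ^ 2 / (2 * l * w s) := by positivity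
    linarith
  refine (lintegral_mono_ae h3).trans ?_
  rw [lintegral_add_left (by fun_prop), lintegral_const_mul' _ _ ENNReal.ofReal_ne_top,
    lintegral_const_mul' _ _ ENNReal.ofReal_ne_top]
  refine (add_le_add (mul_le_mul_right h1 _) (mul_le_mul_right h2 _)).trans ?_
  rw [← ENNReal.ofReal_mul (by positivity), ← ENNReal.ofReal_mul (by positivity),
    ← ENNReal.ofReal_add (by positivity) (by positivity)]
  refine ENNReal.ofReal_le_ofReal (le_of_eq ?_)
  have h5 : Real.sqrt (W * c) = l * W := by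
    rw [Real.sqrt_eq_iff_mul_self_eq (by positivity) (by positivity)]
    have : l * W * (l * W) = l ^ 2 * W ^ 2 := by ring
    rw [this, hl2]; field_simp
  have h6 : c = l ^ 2 * W := by rw [hl2]; field_simp
  rw [h5, h6]
  field_simp
  ring

/-- An arc of a circle inside `U` with energy at most `c` has image of size at most
`√(angle * c)`. -/
theorem arc_le (hU : IsOpen U) (hf : DifferentiableOn ℂ f U) {a : ℂ} {ρ θ₁ θ₂ c : ℝ} (hρ : 0 < ρ)
    (hc : 0 < c) (h12 : θ₁ ≤ θ₂) (harc : ∀ θ ∈ Icc θ₁ θ₂, circleMap a ρ θ ∈ U)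
    (hE : ∫⁻ θ in Ioo θ₁ θ₂, ENNReal.ofReal (ρ ^ 2 * ‖deriv f (circleMap a ρ θ)‖ ^ 2) ≤
      ENNReal.ofReal c) :
    ‖f (circleMap a ρ θ₂) - f (circleMap a ρ θ₁)‖ ≤ Real.sqrt ((θ₂ - θ₁) * c) := by
  rcases h12.eq_or_lt with h | h
  · subst h; simp
  have h1 := enorm_sub_le_lintegral (φ := fun θ => f (circleMap a ρ θ))
    (φ' := fun θ => deriv f (circleMap a ρ θ) * (circleMap 0 ρ θ * I)) h12
    (fun θ hθ => (hf.differentiableAt (hU.mem_nhds (harc θ hθ))).hasDerivAt.comp θ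
      (hasDerivAt_circleMap a ρ θ))
    (ContinuousOn.mul ((hf.deriv hU).continuousOn.comp (continuous_circleMap a ρ).continuousOn harc)
      ((continuous_circleMap 0 ρ).mul continuous_const).continuousOn)
  have h2 := lintegral_le_sqrt (μ := volume.restrict (Ioo θ₁ θ₂))
    (g := fun θ => ‖deriv f (circleMap a ρ θ) * (circleMap 0 ρ θ * I)‖) (w := fun _ => 1)
    (W := θ₂ - θ₁) (c := c) (by linarith) hc (by simp) measurable_const (by simp)
    (by
      refine le_trans (le_of_eq (lintegral_congr fun θ => ?_)) hE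
      simp [mul_pow, mul_comm])
  exact (ENNReal.ofReal_le_ofReal_iff (Real.sqrt_nonneg _)).1 (h1.trans h2)

theorem lintegral_inv_Ioo {r₁ r₂ : ℝ} (h1 : 0 < r₁) (h12 : r₁ ≤ r₂) :
    ∫⁻ ρ in Ioo r₁ r₂, ENNReal.ofReal ρ⁻¹ = ENNReal.ofReal (Real.log (r₂ / r₁)) := by
  have hc : ContinuousOn (fun ρ : ℝ => ρ⁻¹) (Icc r₁ r₂) :=
    continuousOn_inv₀.mono fun x hx => (h1.trans_le hx.1).ne'
  rw [← ofReal_integral_eq_lintegral_ofReal (hc.integrableOn_Icc.mono_set Ioo_subset_Icc_self)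
    ((ae_restrict_mem measurableSet_Ioo).mono fun x hx => inv_nonneg.2 (h1.trans hx.1).le),
    ← integral_Ioc_eq_integral_Ioo, ← intervalIntegral.integral_of_le h12,
    integral_inv_of_pos h1 (h1.trans_le h12)]

/-- A segment of a ray inside `U` with energy at most `c` has image of size at most
`√(log (r₂ / r₁) * c)`. -/
theorem ray_le (hU : IsOpen U) (hf : DifferentiableOn ℂ f U) {a : ℂ} {θ r₁ r₂ c : ℝ} (h1 : 0 < r₁)
    (hc : 0 < c) (h12 : r₁ ≤ r₂) (hray : ∀ ρ ∈ Icc r₁ r₂, circleMap a ρ θ ∈ U)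
    (hE : ∫⁻ ρ in Ioo r₁ r₂, ENNReal.ofReal (ρ * ‖deriv f (circleMap a ρ θ)‖ ^ 2) ≤
      ENNReal.ofReal c) :
    ‖f (circleMap a r₂ θ) - f (circleMap a r₁ θ)‖ ≤ Real.sqrt (Real.log (r₂ / r₁) * c) := by
  rcases h12.eq_or_lt with h | h
  · subst h; simp
  have hd : ∀ ρ : ℝ, HasDerivAt (fun ρ : ℝ => circleMap a ρ θ) (exp (θ * I)) ρ := fun ρ => by
    simpa [circleMap] using ((hasDerivAt_id ρ).ofReal_comp.mul_const (exp (θ * I))).const_add a
  have h0 := enorm_sub_le_lintegral (φ := fun ρ => f (circleMap a ρ θ))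
    (φ' := fun ρ => deriv f (circleMap a ρ θ) * exp (θ * I)) h12
    (fun ρ hρ => (hf.differentiableAt (hU.mem_nhds (hray ρ hρ))).hasDerivAt.comp ρ (hd ρ))
    (ContinuousOn.mul ((hf.deriv hU).continuousOn.comp
      (fun ρ _ => (hd ρ).continuousAt.continuousWithinAt) hray) continuousOn_const)
  have h2 := lintegral_le_sqrt (μ := volume.restrict (Ioo r₁ r₂))
    (g := fun ρ => ‖deriv f (circleMap a ρ θ) * exp (θ * I)‖) (w := fun ρ => ρ)
    (W := Real.log (r₂ / r₁)) (c := c) (Real.log_pos ((one_lt_div h1).2 h)) hc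
    ((ae_restrict_mem measurableSet_Ioo).mono fun x hx => h1.trans hx.1) measurable_id
    (lintegral_inv_Ioo h1 h12).le
    (by
      refine le_trans (le_of_eq (lintegral_congr fun θ => ?_)) hE
      simp [norm_exp_ofReal_mul_I])
  exact (ENNReal.ofReal_le_ofReal_iff (Real.sqrt_nonneg _)).1 (h0.trans h2)

/-- Length–area: a circle of small energy in an annulus. -/
theorem exists_circle (hU : IsOpen U) (hf : DifferentiableOn ℂ f U) (hinj : InjOn f U)
    (hS : MeasurableSet S) (hSU : S ⊆ U) (a : ℂ) {r₁ r₂ c : ℝ} (h1 : 0 < r₁) (h12 : r₁ < r₂)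
    (hc : 0 ≤ c) (hA : volume (f '' S) < ENNReal.ofReal (c * Real.log (r₂ / r₁))) :
    ∃ ρ ∈ Ioo r₁ r₂, ∫⁻ θ in Ioo (-Real.pi) Real.pi,
      ENNReal.ofReal (ρ ^ 2) * en f S (circleMap a ρ θ) ≤ ENNReal.ofReal c := by
  by_contra h
  push Not at h
  refine absurd hA (not_lt.2 ?_)
  rw [← lintegral_en hU hf hinj hS hSU, lintegral_polar_circles a (measurable_en f hS),
    ENNReal.ofReal_mul hc, ← lintegral_inv_Ioo h1 h12.le,
    ← lintegral_const_mul' _ _ ENNReal.ofReal_ne_top]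
  refine le_trans ?_ (lintegral_mono_set (s := Ioo r₁ r₂) fun x hx => h1.trans hx.1)
  refine setLIntegral_mono' measurableSet_Ioo fun ρ hρ => ?_
  have hρ0 : 0 < ρ := h1.trans hρ.1
  have h2 := (h ρ hρ).le
  rw [lintegral_const_mul' _ _ ENNReal.ofReal_ne_top] at h2
  refine (mul_le_mul_left h2 _).trans (le_of_eq ?_)
  rw [mul_right_comm, ← ENNReal.ofReal_mul (by positivity)]
  congr 2
  field_simp

/-- Length–area in the half-plane: a half circle about the real point `x` with small image. -/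
theorem exists_halfcircle (hf : DifferentiableOn ℂ f {z : ℂ | 0 < z.im})
    (hinj : InjOn f {z : ℂ | 0 < z.im}) (x : ℝ) {r₁ r₂ c : ℝ} (h1 : 0 < r₁) (h12 : r₁ < r₂)
    (hc : 0 < c)
    (hA : volume (f '' {z : ℂ | 0 < z.im ∧ r₁ < ‖z - x‖ ∧ ‖z - x‖ < r₂}) <
      ENNReal.ofReal (c * Real.log (r₂ / r₁))) :
    ∃ ρ ∈ Ioo r₁ r₂, ∀ z z' : ℂ, 0 < z.im → 0 < z'.im → ‖z - x‖ = ρ → ‖z' - x‖ = ρ →
      ‖f z' - f z‖ ≤ Real.sqrt (Real.pi * c) := by
  set S : Set ℂ := {z : ℂ | 0 < z.im ∧ r₁ < ‖z - x‖ ∧ ‖z - x‖ < r₂} with hSdef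
  have hS : MeasurableSet S := by
    refine IsOpen.measurableSet ?_
    have hcn : Continuous fun z : ℂ => ‖z - x‖ := by fun_prop
    exact isOpen_Hs.inter ((isOpen_lt continuous_const hcn).inter (isOpen_lt hcn continuous_const))
  obtain ⟨ρ, hρ, hE⟩ := exists_circle isOpen_Hs hf hinj hS (fun z hz => hz.1) x h1 h12 hc.le hA
  have hρ0 : 0 < ρ := h1.trans hρ.1
  refine ⟨ρ, hρ, ?_⟩
  have hmem : ∀ θ ∈ Ioo 0 Real.pi, 0 < (circleMap (x : ℂ) ρ θ).im := by
    intro θ hθ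
    have := Real.sin_pos_of_pos_of_lt_pi hθ.1 hθ.2
    simp [circleMap, exp_mul_I, cos_ofReal_re, sin_ofReal_re, cos_ofReal_im, sin_ofReal_im]
    positivity
  have key : ∀ θ₁ ∈ Ioo 0 Real.pi, ∀ θ₂ ∈ Ioo 0 Real.pi, θ₁ ≤ θ₂ →
      ‖f (circleMap x ρ θ₂) - f (circleMap x ρ θ₁)‖ ≤ Real.sqrt (Real.pi * c) := by
    intro θ₁ h₁ θ₂ h₂ h12'
    have hsub : Icc θ₁ θ₂ ⊆ Ioo 0 Real.pi := fun θ hθ => ⟨h₁.1.trans_le hθ.1, hθ.2.trans_lt h₂.2⟩
    refine (arc_le isOpen_Hs hf hρ0 hc h12' (fun θ hθ => hmem θ (hsub hθ)) ?_).trans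
      (Real.sqrt_le_sqrt (mul_le_mul_of_nonneg_right (by linarith [h₁.1, h₂.2]) hc.le))
    refine le_trans ?_ hE
    refine le_trans ?_ (lintegral_mono_set (s := Ioo θ₁ θ₂) fun θ hθ =>
      ⟨by linarith [h₁.1, hθ.1, Real.pi_pos], hθ.2.trans h₂.2⟩)
    refine setLIntegral_mono' measurableSet_Ioo fun θ hθ => le_of_eq ?_
    have hn : ‖circleMap (x : ℂ) ρ θ - x‖ = ρ := by
      rw [circleMap_sub_center, norm_circleMap_zero, abs_of_pos hρ0]
    have : circleMap (x : ℂ) ρ θ ∈ S :=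
      ⟨hmem θ (hsub (Ioo_subset_Icc_self hθ)), by rw [hn]; exact hρ.1, by rw [hn]; exact hρ.2⟩
    rw [en, indicator_of_mem this, ← ENNReal.ofReal_mul (by positivity)]
  have hrep : ∀ z : ℂ, 0 < z.im → ‖z - x‖ = ρ → ∃ θ ∈ Ioo 0 Real.pi, circleMap x ρ θ = z := by
    intro z hz hn
    have him : 0 < (z - x).im := by simpa using hz
    refine ⟨arg (z - x), ⟨?_, ?_⟩, ?_⟩
    · rcases (arg_nonneg_iff.2 him.le).lt_or_eq with h | h
      · exact h
      · have := (arg_eq_zero_iff.1 h.symm).2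
        linarith
    · exact arg_lt_pi_iff.2 (Or.inr him.ne')
    · rw [circleMap, ← hn, norm_mul_exp_arg_mul_I]; ring
  intro z z' hz hz' hn hn'
  obtain ⟨θ, hθ, rfl⟩ := hrep z hz hn
  obtain ⟨θ', hθ', rfl⟩ := hrep z' hz' hn'
  rcases le_total θ θ' with h | h
  · exact key θ hθ θ' hθ' h
  · rw [norm_sub_rev]; exact key θ' hθ' θ hθ h

/-- (K3) Wolff's lemma: a curve in the half-plane accumulating at the real point `x` has image
accumulating at the vertical limit of `f` at `x`. The curve is any preconnected set. -/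
theorem wolff_set (hf : DifferentiableOn ℂ f {z : ℂ | 0 < z.im})
    (hinj : InjOn f {z : ℂ | 0 < z.im}) (x : ℝ) {r : ℝ} (hr : 0 < r)
    (hA : volume (f '' {z : ℂ | 0 < z.im ∧ ‖z - x‖ < r}) < ⊤) {p : ℂ}
    (hp : Tendsto (fun y : ℝ => f (x + y * I)) (𝓝[>] 0) (𝓝 p)) {C : Set ℂ}
    (hC : IsPreconnected C) (hCH : C ⊆ {z : ℂ | 0 < z.im}) (hx : (x : ℂ) ∈ closure C) :
    p ∈ closure (f '' C) := by
  obtain ⟨z₀, hz₀⟩ : C.Nonempty := closure_nonempty_iff.1 ⟨_, hx⟩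
  have hz₀x : 0 < ‖z₀ - x‖ := by
    refine norm_pos_iff.2 fun h => ?_
    have h1 := congrArg Complex.im h
    have h2 : 0 < z₀.im := hCH hz₀
    simp at h1
    linarith
  rw [Metric.mem_closure_iff]
  intro ε hε
  obtain ⟨δ, hδ, hδp⟩ : ∃ δ > 0, ∀ y : ℝ, 0 < y → y < δ → ‖f (x + y * I) - p‖ < ε / 2 := by
    have := (Metric.tendsto_nhdsWithin_nhds.1 hp) (ε / 2) (by positivity)
    obtain ⟨δ, hδ, h⟩ := this
    exact ⟨δ, hδ, fun y hy hyδ => by
      simpa [dist_eq_norm] using h (x := y) hy (by simpa [abs_of_pos hy] using hyδ)⟩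
  set r₂ := min (min δ r) ‖z₀ - x‖ with hr₂
  have hr₂0 : 0 < r₂ := by positivity
  set c := (ε / 4) ^ 2 / Real.pi with hc
  have hc0 : 0 < c := by have := Real.pi_pos; positivity
  set A := (volume (f '' {z : ℂ | 0 < z.im ∧ ‖z - x‖ < r})).toReal with hAdef
  have hA0 : 0 ≤ A := ENNReal.toReal_nonneg
  set r₁ := r₂ / Real.exp ((A + 1) / c) with hr₁
  have hr₁0 : 0 < r₁ := by positivity
  have hexp : 1 < Real.exp ((A + 1) / c) := Real.one_lt_exp_iff.2 (by positivity)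
  have h12 : r₁ < r₂ := div_lt_self hr₂0 hexp
  have hlog : c * Real.log (r₂ / r₁) = A + 1 := by
    rw [hr₁, div_div_cancel₀ hr₂0.ne', Real.log_exp]; field_simp
  obtain ⟨ρ, hρ, hcirc⟩ := exists_halfcircle hf hinj x hr₁0 h12 hc0 (by
    rw [hlog]
    refine lt_of_le_of_lt (measure_mono (image_mono
      (t := {z : ℂ | 0 < z.im ∧ ‖z - x‖ < r}) fun z hz =>
      ⟨hz.1, hz.2.2.trans_le ((min_le_left _ _).trans (min_le_right _ _))⟩)) ?_
    rw [← ENNReal.ofReal_toReal hA.ne]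
    exact (ENNReal.ofReal_lt_ofReal_iff (by positivity)).2 (by linarith))
  have hρ0 : 0 < ρ := hr₁0.trans hρ.1
  obtain ⟨z₁, hz₁, hz₁x⟩ := Metric.mem_closure_iff.1 hx ρ hρ0
  rw [dist_comm, dist_eq_norm] at hz₁x
  have hivt := hC.intermediate_value hz₁ hz₀ (f := fun z => ‖z - x‖) (by fun_prop)
  obtain ⟨z, hz, hzρ⟩ := hivt (show ρ ∈ Icc _ _ from
    ⟨hz₁x.le, (hρ.2.trans_le (min_le_right _ _)).le⟩)
  refine ⟨f z, ⟨z, hz, rfl⟩, ?_⟩
  have h1 := hcirc (x + ρ * I) z (by simpa using hρ0) (hCH hz) (by simp [abs_of_pos hρ0]) hzρ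
  have h2 := hδp ρ hρ0 (hρ.2.trans_le ((min_le_left _ _).trans (min_le_left _ _)))
  have h3 : Real.sqrt (Real.pi * c) = ε / 4 := by
    rw [hc, mul_div_cancel₀ _ Real.pi_ne_zero, Real.sqrt_sq (by positivity)]
  rw [h3] at h1
  rw [dist_comm, dist_eq_norm]
  calc ‖f z - p‖ = ‖(f z - f (x + ρ * I)) + (f (x + ρ * I) - p)‖ := by ring_nf
    _ ≤ _ := norm_add_le _ _
    _ < ε := by linarith

/-- (K3) Wolff's lemma for a bounded map and a curve `c : [0,1) → ℍ` with `liminf ‖c‖ = 0`. -/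
theorem wolff (hf : DifferentiableOn ℂ f {z : ℂ | 0 < z.im})
    (hinj : InjOn f {z : ℂ | 0 < z.im})
    (hb : Bornology.IsBounded (f '' ({z : ℂ | 0 < z.im} ∩ ball 0 1))) {p : ℂ}
    (hp : Tendsto (fun y : ℝ => f (y * I)) (𝓝[>] 0) (𝓝 p)) {c : ℝ → ℂ}
    (hc : ContinuousOn c (Ico 0 1)) (hcH : ∀ s ∈ Ico (0 : ℝ) 1, 0 < (c s).im)
    (h0 : ∀ ε > 0, ∃ s ∈ Ico (0 : ℝ) 1, ‖c s‖ < ε) : p ∈ closure (f '' (c '' Ico 0 1)) := by
  refine wolff_set hf hinj 0 one_pos ?_ (by simpa using hp) (isPreconnected_Ico.image c hc)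
    (by rintro _ ⟨s, hs, rfl⟩; exact hcH s hs) ?_
  · refine lt_of_le_of_lt (measure_mono (image_mono fun z hz => ?_)) hb.measure_lt_top
    exact ⟨hz.1, by simpa using hz.2⟩
  · rw [Metric.mem_closure_iff]
    intro ε hε
    obtain ⟨s, hs, h⟩ := h0 ε hε
    exact ⟨c s, ⟨s, hs, rfl⟩, by simpa using h⟩

end Crest.Agent.R162
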